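import Vale.Agent.P161.Edge.Statements
import Mathlib.Analysis.Complex.ExponentialBounds

/-!
Deterministic bounds: the effective coupling, the observation matrix, a weighted Schur test, and
the spatial decay of the linearised response while the coupling stays subcritical.
-/

namespace Vale.Agent.P161.Edge

open Finset Real
open scoped NNReal Classical

noncomputable section

/-! ### The effective coupling -/

lemma tanh_ge_half {x : ℝ} (h0 : 0 ≤ x) (h1 : x ≤ 1) : x / 2 ≤ tanh x := by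
  rw [tanh_eq_sinh_div_cosh, le_div_iff₀ (cosh_pos x)]
  have hs : x ≤ sinh x := self_le_sinh_iff.2 h0
  have hc : cosh x ≤ 2 := by
    rw [cosh_eq]
    have h2 : exp x ≤ exp 1 := exp_le_exp.2 h1
    have h3 : exp (-x) ≤ 1 := exp_le_one_iff.2 (by linarith)
    have := exp_one_lt_d9
    linarith
  nlinarith [mul_le_mul_of_nonneg_left hc (by linarith : (0:ℝ) ≤ x / 2)]

lemma tanh_le_self' {x : ℝ} (h0 : 0 ≤ x) : tanh x ≤ x := by
  rw [tanh_eq_sinh_div_cosh, div_le_iff₀ (cosh_pos x)]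
  rcases h0.eq_or_lt with rfl | h
  · simp
  · have hmono : StrictMonoOn (fun y => y * cosh y - sinh y) (Set.Ici 0) := by
      refine strictMonoOn_of_deriv_pos (convex_Ici 0) (by fun_prop) fun y hy => ?_
      rw [interior_Ici] at hy
      have hd : HasDerivAt (fun y => y * cosh y - sinh y) (y * sinh y) y := by
        have := ((hasDerivAt_id y).mul (hasDerivAt_cosh y)).sub (hasDerivAt_sinh y)
        simp only [id_eq, one_mul] at this
        convert! this using 1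
        ring
      rw [hd.deriv]
      exact mul_pos hy (sinh_pos_iff.2 hy)
    have := hmono Set.self_mem_Ici (le_of_lt h : (0:ℝ) ≤ x) h
    simp at this
    linarith

variable {θ η t : ℝ}

lemma thetaAt_le (h0 : 0 ≤ θ) (h1 : θ < 1) (ht : 0 ≤ η * t) (hle : tanh (η * t) ≤ θ) :
    0 ≤ thetaAt θ η t ∧ thetaAt θ η t ≤ θ - tanh (η * t) * (1 - θ ^ 2) := by
  have hτ : 0 ≤ tanh (η * t) := by
    rw [tanh_eq_sinh_div_cosh]
    exact div_nonneg (sinh_nonneg_iff.2 ht) (cosh_pos _).le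
  set τ := tanh (η * t)
  have hden : 0 < 1 - θ * τ := by nlinarith
  unfold thetaAt
  refine ⟨div_nonneg (by linarith) hden.le, ?_⟩
  rw [div_le_iff₀ hden]
  have : 0 ≤ τ * τ * θ * (1 - θ ^ 2) := by
    have : 0 ≤ 1 - θ ^ 2 := by nlinarith
    positivity
  nlinarith

lemma tcl_mem {P : Prm} (hN : (P.N₁ : ℝ) * P.h = 1) (j : ℕ) :
    0 ≤ tcl P.h P.N₁ j ∧ tcl P.h P.N₁ j ≤ 1 := by
  refine ⟨mul_nonneg (Nat.cast_nonneg _) P.h.coe_nonneg, ?_⟩
  unfold tcl
  rw [← hN]
  exact mul_le_mul_of_nonneg_right (by exact_mod_cast min_le_right j P.N₁) P.h.coe_nonneg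

lemma le_tcl {P : Prm} (hN : (P.N₁ : ℝ) * P.h = 1) {j : ℕ} {δ : ℝ} (h : δ ≤ (j : ℝ) * P.h)
    (hδ : δ ≤ 1) : δ ≤ tcl P.h P.N₁ j := by
  unfold tcl
  rcases le_total j P.N₁ with h' | h'
  · rw [min_eq_left h']; exact h
  · rw [min_eq_right h']; linarith

/-- The spectral parameter `√b θ_j`. -/
lemma sqrt_mul_thetaJ_le {P : Prm} {d : ℕ} (hd3 : 3 ≤ d) (hθ0 : 0 ≤ P.θ)
    (hθ : Real.sqrt ((d : ℝ) - 1) * P.θ ≤ 1) (hN : (P.N₁ : ℝ) * P.h = 1) (hη : 0 ≤ P.η)
    (hη1 : P.η ≤ P.θ) (j : ℕ) :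
    0 ≤ thetaJ P j ∧ thetaJ P j ≤ P.θ ∧
      Real.sqrt ((d : ℝ) - 1) * thetaJ P j ≤
        Real.sqrt ((d : ℝ) - 1) * P.θ - P.η * tcl P.h P.N₁ j / 4 := by
  set s := Real.sqrt ((d : ℝ) - 1)
  have hb : (2 : ℝ) ≤ (d : ℝ) - 1 := by
    have : (3 : ℝ) ≤ d := by exact_mod_cast hd3
    linarith
  have hs2 : s ^ 2 = (d : ℝ) - 1 := Real.sq_sqrt (by linarith)
  have hs1 : 1 ≤ s := by nlinarith [Real.sqrt_nonneg ((d : ℝ) - 1)]
  obtain ⟨t0, t1⟩ := tcl_mem hN j
  have hθ1 : P.θ < 1 := by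
    by_contra hc
    have : s * 1 ≤ s * P.θ := by gcongr; linarith
    nlinarith
  have hx : 0 ≤ P.η * tcl P.h P.N₁ j := mul_nonneg hη t0
  have hx1 : P.η * tcl P.h P.N₁ j ≤ 1 := by nlinarith
  have hle : tanh (P.η * tcl P.h P.N₁ j) ≤ P.θ :=
    (tanh_le_self' hx).trans (by nlinarith)
  obtain ⟨a, b⟩ := thetaAt_le hθ0 hθ1 hx hle
  have hτ := tanh_ge_half hx hx1
  have hq : 1 / 2 ≤ 1 - P.θ ^ 2 := by
    have : (s * P.θ) ^ 2 ≤ 1 := by nlinarith [mul_nonneg (Real.sqrt_nonneg ((d:ℝ) - 1)) hθ0]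
    nlinarith [sq_nonneg P.θ]
  refine ⟨a, ?_, ?_⟩
  · unfold thetaJ
    nlinarith
  · unfold thetaJ
    have h4 : P.η * tcl P.h P.N₁ j / 4 ≤ tanh (P.η * tcl P.h P.N₁ j) * (1 - P.θ ^ 2) := by
      calc _ = (P.η * tcl P.h P.N₁ j / 2) * (1 / 2) := by ring
        _ ≤ _ := mul_le_mul hτ hq (by norm_num) (by linarith)
    nlinarith

/-! ### Schur tests -/

variable {V : Type*} {G : SimpleGraph V} {d : ℕ}

/-- The square of the weighted norm. -/
def wnorm (G : SimpleGraph V) (D : Finset V) (o : V) (ρ : ℝ) (r : V → ℝ) : ℝ :=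
  Real.sqrt (∑ x ∈ D, (ρ ^ G.dist o x * r x) ^ 2)

lemma wnorm_add_le (D : Finset V) (o : V) (ρ : ℝ) (r r' : V → ℝ) :
    wnorm G D o ρ (fun x => r x + r' x) ≤ wnorm G D o ρ r + wnorm G D o ρ r' := by
  unfold wnorm
  set a := fun x => ρ ^ G.dist o x * r x
  set b := fun x => ρ ^ G.dist o x * r' x
  have ha := Finset.sum_nonneg (fun x (_ : x ∈ D) => sq_nonneg (a x))
  have hb := Finset.sum_nonneg (fun x (_ : x ∈ D) => sq_nonneg (b x))
  rw [Real.sqrt_le_iff]
  refine ⟨by positivity, ?_⟩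
  have hcs := Real.sum_mul_le_sqrt_mul_sqrt D a b
  rw [add_sq, Real.sq_sqrt ha, Real.sq_sqrt hb]
  have : ∀ x ∈ D, (ρ ^ G.dist o x * (r x + r' x)) ^ 2 = a x ^ 2 + 2 * (a x * b x) + b x ^ 2 :=
    fun x _ => by simp only [a, b]; ring
  rw [Finset.sum_congr rfl this, Finset.sum_add_distrib, Finset.sum_add_distrib, ← Finset.mul_sum]
  nlinarith

lemma wnorm_smul (D : Finset V) (o : V) (ρ c : ℝ) (hc : 0 ≤ c) (r : V → ℝ) :
    wnorm G D o ρ (fun x => c * r x) = c * wnorm G D o ρ r := by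
  unfold wnorm
  have : ∀ x ∈ D, (ρ ^ G.dist o x * (c * r x)) ^ 2 = c ^ 2 * (ρ ^ G.dist o x * r x) ^ 2 :=
    fun x _ => by ring
  rw [Finset.sum_congr rfl this, ← Finset.mul_sum, Real.sqrt_mul (sq_nonneg c), Real.sqrt_sq hc]

/-- The Schur test with a test function. -/
lemma schur (D : Finset V) (K : V → V → ℝ) (φ r : V → ℝ) {L : ℝ} (hL : 0 ≤ L)
    (hK : ∀ x ∈ D, ∀ z ∈ D, 0 ≤ K x z) (hφ : ∀ x ∈ D, 0 < φ x)
    (h1 : ∀ x ∈ D, ∑ z ∈ D, K x z * φ z ≤ L * φ x)
    (h2 : ∀ z ∈ D, ∑ x ∈ D, K x z * φ x ≤ L * φ z) :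
    ∑ x ∈ D, (∑ z ∈ D, K x z * r z) ^ 2 ≤ L ^ 2 * ∑ z ∈ D, r z ^ 2 := by
  calc ∑ x ∈ D, (∑ z ∈ D, K x z * r z) ^ 2
      ≤ ∑ x ∈ D, (L * φ x) * ∑ z ∈ D, K x z * r z ^ 2 / φ z := by
        refine Finset.sum_le_sum fun x hx => ?_
        refine le_trans ?_ (mul_le_mul_of_nonneg_right (h1 x hx) (Finset.sum_nonneg fun z hz =>
          div_nonneg (mul_nonneg (hK x hx z hz) (sq_nonneg _)) (hφ z hz).le))
        refine Finset.sum_sq_le_sum_mul_sum_of_sq_le_mul _
          (fun z hz => mul_nonneg (hK x hx z hz) (hφ z hz).le)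
          (fun z hz => div_nonneg (mul_nonneg (hK x hx z hz) (sq_nonneg _)) (hφ z hz).le)
          fun z hz => le_of_eq ?_
        have := (hφ z hz).ne'
        field_simp
    _ = L * ∑ z ∈ D, (∑ x ∈ D, K x z * φ x) * (r z ^ 2 / φ z) := by
        simp only [Finset.mul_sum, Finset.sum_mul]
        rw [Finset.sum_comm]
        exact Finset.sum_congr rfl fun z _ => Finset.sum_congr rfl fun x _ => by ring
    _ ≤ L * ∑ z ∈ D, (L * φ z) * (r z ^ 2 / φ z) := by
        refine mul_le_mul_of_nonneg_left (Finset.sum_le_sum fun z hz => ?_) hL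
        exact mul_le_mul_of_nonneg_right (h2 z hz) (div_nonneg (sq_nonneg _) (hφ z hz).le)
    _ = L ^ 2 * ∑ z ∈ D, r z ^ 2 := by
        rw [Finset.mul_sum, Finset.mul_sum]
        refine Finset.sum_congr rfl fun z hz => ?_
        have := (hφ z hz).ne'
        field_simp

/-- A kernel dominated by `ϑ ^ dist` is bounded in the weighted norm. -/
lemma wnorm_kernel (hG : G.IsTree) (hd : Regular G d) (hd3 : 3 ≤ d) (D : Finset V) (o : V)
    {ϑ ρ : ℝ} (hϑ : 0 ≤ ϑ) (hρ : 1 ≤ ρ) (hg : Real.sqrt ((d : ℝ) - 1) * (ϑ * ρ) < 1)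
    (K : V → V → ℝ) (hK : ∀ x ∈ D, ∀ z ∈ D, |K x z| ≤ ϑ ^ G.dist x z) (r : V → ℝ) :
    wnorm G D o ρ (fun x => ∑ z ∈ D, K x z * r z) ≤
      d / (1 - Real.sqrt ((d : ℝ) - 1) * (ϑ * ρ)) ^ 2 * wnorm G D o ρ r := by
  set s := Real.sqrt ((d : ℝ) - 1) with hs
  have hb : (2 : ℝ) ≤ (d : ℝ) - 1 := by
    have : (3 : ℝ) ≤ d := by exact_mod_cast hd3
    linarith
  have hs0 : 0 < s := Real.sqrt_pos.2 (by linarith)
  have hs2 : s * s = (d : ℝ) - 1 := Real.mul_self_sqrt (by linarith)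
  set L := (d : ℝ) / (1 - s * (ϑ * ρ)) ^ 2
  have hL : 0 ≤ L := by positivity
  have hρ0 : 0 < ρ := by linarith
  have hker : ∀ x : V, ∑ z ∈ D, (ϑ * ρ) ^ G.dist x z * s⁻¹ ^ G.dist z o ≤ L * s⁻¹ ^ G.dist x o := by
    intro x
    have h1 : ϑ * ρ < s⁻¹ := by
      rw [inv_eq_one_div, lt_div_iff₀ hs0]; linarith [mul_comm s (ϑ * ρ)]
    have h2 : ((d : ℝ) - 1) * (ϑ * ρ * s⁻¹) < 1 := by
      rw [← hs2]; field_simp; linarith [mul_comm s (ϑ * ρ)]
    refine (kernel_supersolution hG hd hd3 (mul_nonneg hϑ hρ0.le) h1 h2 D x o).trans_eq ?_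
    congr 1
    have e1 : ((d : ℝ) - 1) * (ϑ * ρ * s⁻¹) = s * (ϑ * ρ) := by rw [← hs2]; field_simp
    have e2 : s⁻¹ / (s⁻¹ - ϑ * ρ) = 1 / (1 - s * (ϑ * ρ)) := by
      have : (1 - s * (ϑ * ρ)) ≠ 0 := by linarith
      have : s⁻¹ - ϑ * ρ ≠ 0 := by linarith
      field_simp
    rw [e1, e2]
    simp only [L]
    rw [div_mul_div_comm, mul_one, sq]
  have hpt : ∀ x ∈ D, |ρ ^ G.dist o x * ∑ z ∈ D, K x z * r z| ≤
      ∑ z ∈ D, (ϑ * ρ) ^ G.dist x z * |ρ ^ G.dist o z * r z| := by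
    intro x hx
    rw [Finset.mul_sum]
    refine (Finset.abs_sum_le_sum_abs _ _).trans (Finset.sum_le_sum fun z hz => ?_)
    rw [abs_mul, abs_mul, abs_mul, abs_of_nonneg (pow_nonneg hρ0.le _),
      abs_of_nonneg (pow_nonneg hρ0.le _), mul_pow]
    have h3 : ρ ^ G.dist o x ≤ ρ ^ G.dist x z * ρ ^ G.dist o z := by
      rw [← pow_add]
      refine pow_le_pow_right₀ hρ ?_
      have := hG.connected.dist_triangle (u := o) (v := z) (w := x)
      rw [SimpleGraph.dist_comm (u := z) (v := x)] at this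
      omega
    calc ρ ^ G.dist o x * (|K x z| * |r z|)
        ≤ (ρ ^ G.dist x z * ρ ^ G.dist o z) * (ϑ ^ G.dist x z * |r z|) :=
          mul_le_mul h3 (mul_le_mul_of_nonneg_right (hK x hx z hz) (abs_nonneg _))
            (by positivity) (by positivity)
      _ = _ := by ring
  unfold wnorm
  rw [← Real.sqrt_sq hL, ← Real.sqrt_mul (sq_nonneg L)]
  refine Real.sqrt_le_sqrt ?_
  refine (Finset.sum_le_sum fun x hx => ?_).trans ((schur D
    (fun x z => (ϑ * ρ) ^ G.dist x z) (fun z => s⁻¹ ^ G.dist z o)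
    (fun z => |ρ ^ G.dist o z * r z|) hL (fun _ _ _ _ => by positivity)
    (fun _ _ => by positivity) (fun x _ => hker x) fun z _ => ?_).trans_eq (by simp only [sq_abs]))
  · rw [← sq_abs]
    exact pow_le_pow_left₀ (abs_nonneg _) (hpt x hx) 2
  · simpa [SimpleGraph.dist_comm] using hker z

/-! ### The observation matrix -/

lemma mult_nonneg (i : V × V) (v : V) : 0 ≤ mult i v := by
  unfold mult; split_ifs <;> norm_num

lemma sum_mult {D : Finset V} {i : V × V} (h1 : i.1 ∈ D) (h2 : i.2 ∈ D) (r : V → ℝ) :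
    ∑ u ∈ D, mult i u * r u = r i.1 + r i.2 := by
  unfold mult
  simp only [add_mul, ite_mul, one_mul, zero_mul, Finset.sum_add_distrib]
  simp [h1, h2]

lemma mem_obsIx {D : Finset V} {i : V × V} :
    i ∈ obsIx G D ↔ (i.1 ∈ D ∧ i.2 ∈ D) ∧ (i.1 = i.2 ∨ G.Adj i.1 i.2) := by
  simp [obsIx]

/-- The entries of the observation matrix. -/
def qker (G : SimpleGraph V) (P : Prm) (D : Finset V) (j : ℕ) (v u : V) : ℝ :=
  ∑ i ∈ obsIx G D, coef P.η P.N₁ j i ^ 2 * mult i v * mult i u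

variable {P : Prm} {D : Finset V}

lemma qker_nonneg (j : ℕ) (v u : V) : 0 ≤ qker G P D j v u :=
  Finset.sum_nonneg fun i _ => mul_nonneg (mul_nonneg (sq_nonneg _) (mult_nonneg _ _))
    (mult_nonneg _ _)

lemma qker_comm (j : ℕ) (v u : V) : qker G P D j v u = qker G P D j u v :=
  Finset.sum_congr rfl fun i _ => by ring

lemma qop_eq (j : ℕ) (r : V → ℝ) (v : V) :
    qop G P D j r v = ∑ u ∈ D, qker G P D j v u * r u := by
  unfold qop qker
  simp only [Finset.sum_mul]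
  rw [Finset.sum_comm]
  refine Finset.sum_congr rfl fun i hi => ?_
  rw [mem_obsIx] at hi
  rw [← sum_mult hi.1.1 hi.1.2 r, Finset.mul_sum]
  exact Finset.sum_congr rfl fun u _ => by ring

lemma dist_le_one_of_qker_ne_zero {j : ℕ} {v u : V} (h : qker G P D j v u ≠ 0) :
    G.dist v u ≤ 1 := by
  obtain ⟨i, hi, hne⟩ := Finset.exists_ne_zero_of_sum_ne_zero h
  rw [mem_obsIx] at hi
  have hv : mult i v ≠ 0 := fun e => hne (by rw [e]; ring)
  have hu : mult i u ≠ 0 := fun e => hne (by rw [e]; ring)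
  have hv' : v = i.1 ∨ v = i.2 := by
    by_contra hc; push Not at hc
    exact hv (by simp [mult, hc.1.symm, hc.2.symm])
  have hu' : u = i.1 ∨ u = i.2 := by
    by_contra hc; push Not at hc
    exact hu (by simp [mult, hc.1.symm, hc.2.symm])
  have h12 : G.dist i.1 i.2 ≤ 1 := by
    rcases hi.2 with h | h
    · simp [h]
    · rw [SimpleGraph.dist_eq_one_iff_adj.2 h]
  rcases hv' with rfl | rfl <;> rcases hu' with rfl | rfl <;>
    simp [SimpleGraph.dist_comm] at h12 ⊢ <;> omega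

/-- The bound on the observation matrix. -/
def kap (d : ℕ) (η : ℝ) : ℝ := 1 + 2 * d * η

lemma sum_qker_le (hd : Regular G d) (hd3 : 3 ≤ d) (hη : 0 ≤ P.η) (j : ℕ) (v : V) :
    ∑ u ∈ D, qker G P D j v u ≤ kap d P.η := by
  have e : ∑ u ∈ D, qker G P D j v u
      = ∑ i ∈ obsIx G D, 2 * (coef P.η P.N₁ j i ^ 2 * mult i v) := by
    unfold qker
    rw [Finset.sum_comm]
    refine Finset.sum_congr rfl fun i hi => ?_
    rw [mem_obsIx] at hi
    have := sum_mult hi.1.1 hi.1.2 (fun _ => (1:ℝ))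
    simp only [mul_one] at this
    rw [← Finset.mul_sum, this]; ring
  rw [e]
  set nb := (hd.finite_nbr hd3 v).toFinset with hnb
  have hcard : nb.card = d := by
    rw [hnb, ← Set.ncard_eq_toFinset_card _ (hd.finite_nbr hd3 v)]; exact hd v
  set T := insert (v, v) (nb.image (fun u => (v, u)) ∪ nb.image fun u => (u, v))
  have hsupp : ∀ i ∈ obsIx G D, i ∉ T → 2 * (coef P.η P.N₁ j i ^ 2 * mult i v) = 0 := by
    intro i hi hT
    rw [mem_obsIx] at hi
    have : mult i v = 0 := by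
      unfold mult
      rw [if_neg, if_neg, add_zero]
      · intro h
        refine hT ?_
        rcases hi.2 with e | e
        · exact Finset.mem_insert.2 (Or.inl (Prod.ext (e.trans h) h))
        · refine Finset.mem_insert_of_mem (Finset.mem_union_right _ ?_)
          refine Finset.mem_image.2 ⟨i.1, ?_, Prod.ext rfl h.symm⟩
          rw [h] at e; simpa [hnb] using e.symm
      · intro h
        refine hT ?_
        rcases hi.2 with e | e
        · exact Finset.mem_insert.2 (Or.inl (Prod.ext h (e ▸ h)))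
        · refine Finset.mem_insert_of_mem (Finset.mem_union_left _ ?_)
          refine Finset.mem_image.2 ⟨i.2, ?_, Prod.ext h.symm rfl⟩
          rw [h] at e; simpa [hnb] using e
    rw [this]; ring
  have hnn : ∀ i : V × V, 0 ≤ 2 * (coef P.η P.N₁ j i ^ 2 * mult i v) := fun i =>
    mul_nonneg two_pos.le (mul_nonneg (sq_nonneg _) (mult_nonneg _ _))
  calc ∑ i ∈ obsIx G D, 2 * (coef P.η P.N₁ j i ^ 2 * mult i v)
      = ∑ i ∈ (obsIx G D).filter (· ∈ T), 2 * (coef P.η P.N₁ j i ^ 2 * mult i v) :=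
        (Finset.sum_filter_of_ne fun i hi hne => by
          by_contra hc; exact hne (hsupp i hi hc)).symm
    _ ≤ ∑ i ∈ T, 2 * (coef P.η P.N₁ j i ^ 2 * mult i v) :=
        Finset.sum_le_sum_of_subset_of_nonneg (fun i hi => (Finset.mem_filter.1 hi).2)
          fun i _ _ => hnn i
    _ ≤ 1 + ∑ i ∈ nb.image (fun u => (v, u)) ∪ nb.image (fun u => (u, v)), P.η := by
        rw [Finset.sum_insert (by simp [hnb])]
        refine add_le_add (le_of_eq (by simp [coef, mult]; norm_num)) (Finset.sum_le_sum ?_)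
        intro i hi
        simp only [Finset.mem_union, Finset.mem_image, hnb, Set.Finite.mem_toFinset,
          SimpleGraph.mem_neighborSet] at hi
        have hne : i.1 ≠ i.2 := by
          rcases hi with ⟨u, hu, rfl⟩ | ⟨u, hu, rfl⟩
          · exact hu.ne
          · exact hu.ne'
        have hm : mult i v = 1 := by
          rcases hi with ⟨u, hu, rfl⟩ | ⟨u, hu, rfl⟩
          · simp [mult, hu.ne']
          · simp [mult, hu.ne']
        rw [hm, coef, if_neg hne]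
        split_ifs
        · rw [Real.sq_sqrt (by linarith)]; linarith
        · simp; exact hη
    _ ≤ 1 + 2 * d * P.η := by
        rw [Finset.sum_const, nsmul_eq_mul]
        have : ((nb.image (fun u => (v, u)) ∪ nb.image fun u => (u, v)).card : ℝ) ≤ 2 * d := by
          have h := (Finset.card_union_le _ _).trans
            (add_le_add (Finset.card_image_le (s := nb) (f := fun u => (v, u)))
              (Finset.card_image_le (s := nb) (f := fun u => (u, v))))
          rw [hcard, ← two_mul] at h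
          exact_mod_cast h
        nlinarith

lemma wnorm_qop (hG : G.IsTree) (hd : Regular G d) (hd3 : 3 ≤ d) (hη : 0 ≤ P.η) (o : V) {ρ : ℝ}
    (hρ : 1 ≤ ρ) (j : ℕ) (r : V → ℝ) :
    wnorm G D o ρ (qop G P D j r) ≤ kap d P.η * ρ * wnorm G D o ρ r := by
  have hρ0 : 0 < ρ := by linarith
  have hκ : 0 ≤ kap d P.η := by unfold kap; positivity
  have hpt : ∀ v ∈ D, |ρ ^ G.dist o v * qop G P D j r v| ≤
      ∑ u ∈ D, (qker G P D j v u * ρ) * |ρ ^ G.dist o u * r u| := by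
    intro v _
    rw [qop_eq, Finset.mul_sum]
    refine (Finset.abs_sum_le_sum_abs _ _).trans (Finset.sum_le_sum fun u _ => ?_)
    rw [abs_mul, abs_mul, abs_mul, abs_of_nonneg (qker_nonneg j v u),
      abs_of_nonneg (pow_nonneg hρ0.le _), abs_of_nonneg (pow_nonneg hρ0.le _)]
    by_cases h0 : qker G P D j v u = 0
    · simp [h0]
    · have : ρ ^ G.dist o v ≤ ρ * ρ ^ G.dist o u := by
        rw [← pow_succ']
        refine pow_le_pow_right₀ hρ ?_
        have := hG.connected.dist_triangle (u := o) (v := u) (w := v)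
        have := dist_le_one_of_qker_ne_zero h0
        rw [SimpleGraph.dist_comm] at this
        omega
      calc ρ ^ G.dist o v * (qker G P D j v u * |r u|)
          ≤ (ρ * ρ ^ G.dist o u) * (qker G P D j v u * |r u|) :=
            mul_le_mul_of_nonneg_right this (mul_nonneg (qker_nonneg j v u) (abs_nonneg _))
        _ = _ := by ring
  unfold wnorm
  rw [← Real.sqrt_sq (mul_nonneg hκ hρ0.le), ← Real.sqrt_mul (sq_nonneg _)]
  refine Real.sqrt_le_sqrt ?_
  refine (Finset.sum_le_sum fun x hx => ?_).trans ((schur D (fun v u => qker G P D j v u * ρ)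
    (fun _ => 1) (fun u => |ρ ^ G.dist o u * r u|) (mul_nonneg hκ hρ0.le)
    (fun v _ u _ => mul_nonneg (qker_nonneg j v u) hρ0.le) (fun _ _ => one_pos)
    (fun v _ => ?_) fun u _ => ?_).trans_eq (by simp only [sq_abs]))
  · rw [← sq_abs]
    exact pow_le_pow_left₀ (abs_nonneg _) (hpt x hx) 2
  · simp only [mul_one]
    rw [← Finset.sum_mul]
    exact mul_le_mul_of_nonneg_right (sum_qker_le hd hd3 hη j v) hρ0.le
  · simp only [mul_one]
    rw [← Finset.sum_mul]
    refine mul_le_mul_of_nonneg_right ?_ hρ0.le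
    rw [Finset.sum_congr rfl fun v _ => qker_comm j v u]
    exact sum_qker_le hd hd3 hη j u

/-! ### The response as a function of its source -/

lemma pcov_comm (Y : ℕ → V × V → ℝ) (j : ℕ) (v w : V) :
    pcov G P D Y j v w = pcov G P D Y j w v := by
  unfold pcov cv mean
  simp only [mul_comm]

lemma abs_pcov_le (hG : G.IsTree) (hD : Closed G D) {j : ℕ} (hθ : Par (thetaJ P j))
    (Y : ℕ → V × V → ℝ) {v w : V} (hv : v ∈ D) (hw : w ∈ D) :
    |pcov G P D Y j v w| ≤ thetaJ P j ^ G.dist v w := by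
  refine (cov_bound hG hθ D hD (Fld.tanh _) hv hw).trans ?_
  refine mul_le_of_le_one_right (pow_nonneg hθ.1 _) ?_
  nlinarith [sq_nonneg (mean G (thetaJ P j) D (tilt G P D Y j) w)]

/-- Pairing the response with a vector commutes with transposing one step. -/
lemma pair_step (Y : ℕ → V × V → ℝ) (j₀ j : ℕ) (hj : j₀ < j) (z : V) (r : V → ℝ) :
    ∑ x ∈ D, r x * wvec G P D Y j₀ z (j + 1) x
      = ∑ y ∈ D, (r y + P.h * ∑ x ∈ D, pcov G P D Y j y x * qop G P D j r x) *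
          wvec G P D Y j₀ z j y := by
  set w := wvec G P D Y j₀ z j
  have e : ∀ x ∈ D, r x * wvec G P D Y j₀ z (j + 1) x = r x * w x +
      P.h * (r x * qop G P D j (fun a => ∑ y ∈ D, pcov G P D Y j a y * w y) x) := by
    intro x _
    rw [wvec, if_neg (by omega : j ≠ j₀)]
    simp only [w]
    ring
  rw [Finset.sum_congr rfl e, Finset.sum_add_distrib]
  simp only [add_mul, Finset.sum_add_distrib]
  congr 1
  simp only [qop_eq, Finset.mul_sum, Finset.sum_mul]
  calc ∑ x ∈ D, ∑ u ∈ D, ∑ y ∈ D,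
        (P.h : ℝ) * (r x * (qker G P D j x u * (pcov G P D Y j u y * w y)))
      = ∑ y ∈ D, ∑ u ∈ D, ∑ x ∈ D,
        (P.h : ℝ) * (r x * (qker G P D j x u * (pcov G P D Y j u y * w y))) := by
          rw [Finset.sum_comm]
          rw [Finset.sum_congr rfl fun u _ => Finset.sum_comm]
          rw [Finset.sum_comm]
    _ = _ := Finset.sum_congr rfl fun y _ => Finset.sum_congr rfl fun u _ =>
        Finset.sum_congr rfl fun x _ => by
          rw [qker_comm j u x, pcov_comm Y j y u]; ring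

/-- Growth of the weighted norm of the transposed response. -/
lemma wnorm_pair (hG : G.IsTree) (hd : Regular G d) (hd3 : 3 ≤ d) (hD : Closed G D)
    (hη : 0 ≤ P.η) (o : V) {ϑ ρ : ℝ} (hϑ1 : ϑ < 1) (hρ : 1 ≤ ρ)
    (hg : Real.sqrt ((d : ℝ) - 1) * (ϑ * ρ) < 1) (Y : ℕ → V × V → ℝ) (j₀ : ℕ) :
    ∀ j, j₀ < j → (∀ k, j₀ < k → k < j → 0 ≤ thetaJ P k ∧ thetaJ P k ≤ ϑ) → ∀ r : V → ℝ,
      wnorm G D o ρ (fun z => ∑ x ∈ D, r x * wvec G P D Y j₀ z j x) ≤
        (1 + P.h * (d / (1 - Real.sqrt ((d : ℝ) - 1) * (ϑ * ρ)) ^ 2 * (kap d P.η * ρ))) ^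
          (j - (j₀ + 1)) * wnorm G D o ρ r := by
  intro j hj
  induction j, hj using Nat.le_induction with
  | base =>
    intro _ r
    have e : ∀ z ∈ D, ∑ x ∈ D, r x * wvec G P D Y j₀ z (j₀ + 1) x = r z := by
      intro z hz
      simp [wvec, Pi.single_apply, hz]
    refine le_of_eq ?_
    simp only [Nat.succ_eq_add_one, Nat.sub_self, pow_zero, one_mul]
    unfold wnorm
    exact congrArg _ (Finset.sum_congr rfl fun z hz => by simp only [Nat.succ_eq_add_one, e z hz])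
  | succ j hj ih =>
    intro hθk r
    obtain ⟨h0, h1⟩ := hθk j hj (Nat.lt_succ_self j)
    have hp : Par (thetaJ P j) := ⟨h0, lt_of_le_of_lt h1 hϑ1⟩
    set C := (d : ℝ) / (1 - Real.sqrt ((d : ℝ) - 1) * (ϑ * ρ)) ^ 2
    set r' := fun y => r y + P.h * ∑ x ∈ D, pcov G P D Y j y x * qop G P D j r x
    have hfun : wnorm G D o ρ (fun z => ∑ x ∈ D, r x * wvec G P D Y j₀ z (j + 1) x)
        = wnorm G D o ρ (fun z => ∑ x ∈ D, r' x * wvec G P D Y j₀ z j x) := by
      congr 1; funext z; exact pair_step Y j₀ j hj z r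
    rw [hfun]
    have hr' : wnorm G D o ρ r' ≤ (1 + P.h * (C * (kap d P.η * ρ))) * wnorm G D o ρ r := by
      refine (wnorm_add_le D o ρ _ _).trans ?_
      rw [wnorm_smul D o ρ _ P.h.coe_nonneg, add_mul, one_mul, mul_assoc]
      refine add_le_add_right (mul_le_mul_of_nonneg_left ?_ P.h.coe_nonneg) _
      refine (wnorm_kernel hG hd hd3 D o (le_trans h0 h1) hρ hg _
        (fun x hx z hz => ((abs_pcov_le hG hD hp Y hx hz).trans
          (pow_le_pow_left₀ h0 h1 _))) _).trans ?_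
      rw [mul_assoc]
      exact mul_le_mul_of_nonneg_left (wnorm_qop hG hd hd3 hη o hρ j r) (by positivity)
    refine (ih (fun k hk hk' => hθk k hk (by omega)) r').trans ?_
    have hb : 0 ≤ 1 + (P.h : ℝ) * (C * (kap d P.η * ρ)) := by
      have : 0 ≤ kap d P.η := by unfold kap; positivity
      have : 0 ≤ ρ := by linarith
      positivity
    have e : j + 1 - (j₀ + 1) = (j - (j₀ + 1)) + 1 := by
      have : j₀ + 1 ≤ j := hj
      omega
    rw [e, pow_succ, mul_assoc]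
    exact mul_le_mul_of_nonneg_left hr' (pow_nonneg hb _)

/-- The weighted norm of the root response. -/
lemma wnorm_resp (hG : G.IsTree) (hd : Regular G d) (hd3 : 3 ≤ d) (hD : Closed G D)
    (hη : 0 ≤ P.η) {o : V} (ho : o ∈ D) {ϑ ρ : ℝ} (hϑ1 : ϑ < 1) (hρ : 1 ≤ ρ)
    (hg : Real.sqrt ((d : ℝ) - 1) * (ϑ * ρ) < 1) (Y : ℕ → V × V → ℝ) {j₀ j : ℕ} (hj : j₀ < j)
    (hθk : ∀ k, j₀ < k → k ≤ j → 0 ≤ thetaJ P k ∧ thetaJ P k ≤ ϑ) :
    wnorm G D o ρ (fun z => resp G P D Y j₀ j o z) ≤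
      (1 + P.h * (d / (1 - Real.sqrt ((d : ℝ) - 1) * (ϑ * ρ)) ^ 2 * (kap d P.η * ρ))) ^
        (j - (j₀ + 1)) * (d / (1 - Real.sqrt ((d : ℝ) - 1) * (ϑ * ρ)) ^ 2) := by
  obtain ⟨h0, h1⟩ := hθk j hj le_rfl
  refine (wnorm_pair hG hd hd3 hD hη o hϑ1 hρ hg Y j₀ j hj
    (fun k a b => hθk k a b.le) fun x => pcov G P D Y j o x).trans ?_
  refine mul_le_mul_of_nonneg_left ?_ (pow_nonneg ?_ _)
  · have e : wnorm G D o ρ (fun x => pcov G P D Y j o x)
        = wnorm G D o ρ (fun x => ∑ z ∈ D, pcov G P D Y j x z * (if z = o then 1 else 0)) := by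
      congr 1; funext x; simp [ho, pcov_comm]
    rw [e]
    refine (wnorm_kernel hG hd hd3 D o (le_trans h0 h1) hρ hg _
      (fun x hx z hz => ((abs_pcov_le hG hD ⟨h0, lt_of_le_of_lt h1 hϑ1⟩ Y hx hz).trans
        (pow_le_pow_left₀ h0 h1 _))) _).trans (le_of_eq ?_)
    have : wnorm G D o ρ (fun z => if z = o then (1:ℝ) else 0) = 1 := by
      unfold wnorm
      rw [Finset.sum_eq_single o (fun z _ hz => by simp [hz]) fun h => absurd ho h]
      simp
    rw [this, mul_one]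
  · have : 0 ≤ kap d P.η := by unfold kap; positivity
    have : 0 ≤ ρ := by linarith
    positivity

end

end Vale.Agent.P161.Edge
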