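import Vale.Agent.P161.Edge.Basic
import Vale.Agent.P161.Edge.Kernel

/-!
From the general model to the tree posterior: expectations, covariances, third cumulants, and the
one-step decomposition of expectations.
-/

namespace Vale.Agent.P161.Edge

open MeasureTheory ProbabilityTheory Finset Function
open scoped NNReal Classical

noncomputable section

variable {ι Ω : Type*} [Fintype ι] [Fintype Ω]

lemma ev_add (ψ φ χ : Ω → ℝ) : Gen.ev ψ (fun S => φ S + χ S) = Gen.ev ψ φ + Gen.ev ψ χ := by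
  simp only [Gen.ev, ← Finset.sum_add_distrib, mul_add]

lemma ev_sum {κ : Type*} (s : Finset κ) (ψ : Ω → ℝ) (φ : κ → Ω → ℝ) :
    Gen.ev ψ (fun S => ∑ a ∈ s, φ a S) = ∑ a ∈ s, Gen.ev ψ (φ a) := by
  simp only [Gen.ev, Finset.mul_sum]
  rw [Finset.sum_comm]

lemma ev_const_mul (ψ : Ω → ℝ) (c : ℝ) (φ : Ω → ℝ) :
    Gen.ev ψ (fun S => c * φ S) = c * Gen.ev ψ φ := by
  simp only [Gen.ev, Finset.mul_sum]
  exact Finset.sum_congr rfl fun S _ => by ring

lemma gpost_nonneg (ψ : Ω → ℝ) (S : Ω) : 0 ≤ Gen.post ψ S :=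
  div_nonneg (Real.exp_pos _).le (Finset.sum_nonneg fun _ _ => (Real.exp_pos _).le)

lemma abs_ev_le [Nonempty Ω] (ψ : Ω → ℝ) {φ : Ω → ℝ} {B : ℝ} (h : ∀ S, |φ S| ≤ B) :
    |Gen.ev ψ φ| ≤ B := by
  have h1 : ∑ S, Gen.post ψ S = 1 := by
    unfold Gen.post
    rw [← Finset.sum_div, div_self]
    exact (Finset.sum_pos (fun S _ => Real.exp_pos _) Finset.univ_nonempty).ne'
  calc |Gen.ev ψ φ| ≤ ∑ S, |Gen.post ψ S * φ S| := Finset.abs_sum_le_sum_abs _ _
    _ ≤ ∑ S, Gen.post ψ S * B := Finset.sum_le_sum fun S _ => by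
        rw [abs_mul, abs_of_nonneg (gpost_nonneg ψ S)]
        exact mul_le_mul_of_nonneg_left (h S) (gpost_nonneg ψ S)
    _ = B := by rw [← Finset.sum_mul, h1, one_mul]

lemma abs_cov_le [Nonempty Ω] (ψ : Ω → ℝ) {φ χ : Ω → ℝ} {A B : ℝ} (hA : ∀ S, |φ S| ≤ A)
    (hB : ∀ S, |χ S| ≤ B) : |Gen.cov ψ φ χ| ≤ 2 * (A * B) := by
  have h1 : ∀ S, |φ S * χ S| ≤ A * B := fun S => by
    rw [abs_mul]
    exact mul_le_mul (hA S) (hB S) (abs_nonneg _) ((abs_nonneg _).trans (hA S))
  have h2 : |Gen.ev ψ φ * Gen.ev ψ χ| ≤ A * B := by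
    rw [abs_mul]
    exact mul_le_mul (abs_ev_le ψ hA) (abs_ev_le ψ hB) (abs_nonneg _)
      ((abs_nonneg _).trans (abs_ev_le ψ hA))
  exact (abs_sub _ _).trans (by linarith [abs_ev_le ψ h1])

lemma cov_sum_right {κ : Type*} (s : Finset κ) (ψ φ : Ω → ℝ) (a : κ → ℝ) (χ : κ → Ω → ℝ) :
    Gen.cov ψ φ (fun S => ∑ y ∈ s, a y * χ y S) = ∑ y ∈ s, a y * Gen.cov ψ φ (χ y) := by
  unfold Gen.cov
  simp only [Finset.mul_sum]
  rw [ev_sum, ev_sum, Finset.mul_sum, ← Finset.sum_sub_distrib]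
  refine Finset.sum_congr rfl fun y _ => ?_
  rw [show (fun S => φ S * (a y * χ y S)) = fun S => a y * (φ S * χ y S) by funext S; ring,
    ev_const_mul, ev_const_mul]
  ring

lemma cov_comm (ψ φ χ : Ω → ℝ) : Gen.cov ψ φ χ = Gen.cov ψ χ φ := by
  unfold Gen.cov
  simp only [mul_comm]

variable {V : Type} {G : SimpleGraph V} {P : Prm} {D : Finset V} {d : ℕ}

instance : Nonempty (Cfg D) := ⟨⟨∅, Finset.empty_mem_powerset D⟩⟩

/-- The spin of `v` as a function on configurations. -/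
def spinF (D : Finset V) (v : V) (S : Cfg D) : ℝ := spin S.1 v

/-- A weighted sum of spins. -/
def lin (D : Finset V) (w : V → ℝ) (S : Cfg D) : ℝ := ∑ y ∈ D, w y * spin S.1 y

lemma feat_eq_lin (j : ℕ) (i : obsIx G D) :
    feat G P.η P.N₁ D j i = lin D (fun b => coef P.η P.N₁ j i.1 * mult i.1 b) := by
  funext S
  have hi := mem_obsIx.1 i.2
  unfold feat lin
  rw [← sum_mult hi.1.1 hi.1.2 (spin S.1), Finset.mul_sum]
  exact Finset.sum_congr rfl fun b _ => by ring

lemma fieldH_congr {Y Y' : ℕ → V × V → ℝ} {j : ℕ}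
    (h : ∀ k < j, ∀ i ∈ obsIx G D, Y k i = Y' k i) : fieldH G P D Y j = fieldH G P D Y' j := by
  funext v
  unfold fieldH
  exact Finset.sum_congr rfl fun k hk => Finset.sum_congr rfl fun i hi => by
    rw [h k (Finset.mem_range.1 hk) i hi]

lemma pcov_congr {Y Y' : ℕ → V × V → ℝ} {j : ℕ}
    (h : ∀ k < j, ∀ i ∈ obsIx G D, Y k i = Y' k i) : pcov G P D Y j = pcov G P D Y' j := by
  funext v w
  unfold pcov tilt
  rw [fieldH_congr h]

lemma wvec_congr {Y Y' : ℕ → V × V → ℝ} (j₀ : ℕ) (z : V) : ∀ {j : ℕ},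
    (∀ k, k + 1 < j → ∀ i ∈ obsIx G D, Y k i = Y' k i) →
      wvec G P D Y j₀ z j = wvec G P D Y' j₀ z j := by
  intro j
  induction j with
  | zero => intro _; rfl
  | succ j ih =>
    intro h
    simp only [wvec]
    split_ifs
    · rfl
    · rw [ih fun k hk => h k (by omega), pcov_congr fun k hk => h k (by omega)]

/-- The hypothesis that the observation model is the tree model. -/
def Bridge (G : SimpleGraph V) (P : Prm) (D : Finset V) : Prop :=
  ∀ (y : ℕ → obsIx G D → ℝ) (j : ℕ) (f : (V → ℝ) → ℝ),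
    Gen.ev (Gen.llk (feat G P.η P.N₁ D) P.h (lpw G P.θ D) j y) (fun S => f (spin S.1)) =
      avg G (thetaJ P j) D (tilt G P D (tot G D y) j) f

/-- The posterior log weights. -/
abbrev lk (G : SimpleGraph V) (P : Prm) (D : Finset V) (j : ℕ) (y : ℕ → obsIx G D → ℝ) :
    Cfg D → ℝ :=
  Gen.llk (feat G P.η P.N₁ D) P.h (lpw G P.θ D) j y

lemma bridge_of_model (hM : ModelStmt) (hG : G.IsTree) (hd3 : 3 ≤ d) (hd : Regular G d)
    (hθ0 : 0 ≤ P.θ) (hθ1 : P.θ < 1) (hh : P.h ≠ 0) (hη : 0 ≤ P.η)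
    (hτ : Real.tanh (P.η * (P.N₁ * P.h)) ≤ P.θ) (hD : Closed G D) : Bridge G P D := by
  intro y j f
  rw [(hM V G d P hG hd3 hd hθ0 hθ1 hh hη hτ).1 D y j (fun S => f (spin S)) hD,
    avg_filter]

variable (hB : Bridge G P D) (y : ℕ → obsIx G D → ℝ) (j : ℕ)
include hB

lemma cov_spin (x z : V) :
    Gen.cov (lk G P D j y) (spinF D x) (spinF D z) = pcov G P D (tot G D y) j x z := by
  unfold Gen.cov pcov cv mean spinF
  rw [← hB y j fun s => s x * s z, ← hB y j fun s => s x, ← hB y j fun s => s z]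

lemma cov_spin_lin (x : V) (w : V → ℝ) :
    Gen.cov (lk G P D j y) (spinF D x) (lin D w) =
      ∑ z ∈ D, pcov G P D (tot G D y) j x z * w z := by
  have := cov_sum_right D (lk G P D j y) (spinF D x) w (fun z => spinF D z)
  rw [show lin D w = fun S => ∑ z ∈ D, w z * spinF D z S from rfl, this]
  exact Finset.sum_congr rfl fun z _ => by rw [cov_spin hB, mul_comm]

lemma cov_lin_lin (u w : V → ℝ) :
    Gen.cov (lk G P D j y) (lin D u) (lin D w) =
      ∑ x ∈ D, u x * ∑ z ∈ D, pcov G P D (tot G D y) j x z * w z := by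
  rw [cov_comm, show lin D u = fun S => ∑ x ∈ D, u x * spinF D x S from rfl,
    cov_sum_right D (lk G P D j y) (lin D w) u (fun x => spinF D x)]
  exact Finset.sum_congr rfl fun x _ => by rw [cov_comm, cov_spin_lin hB]

lemma propStep_lin (hj : 0 ≤ P.η) (w : V → ℝ) :
    Gen.propStep (feat G P.η P.N₁ D) P.h j (lk G P D j y) (lin D w) =
      lin D (fun v => w v + P.h * qop G P D j
        (fun x => ∑ z ∈ D, pcov G P D (tot G D y) j x z * w z) v) := by
  funext S
  set k := fun x => ∑ z ∈ D, pcov G P D (tot G D y) j x z * w z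
  have hc : ∀ i : obsIx G D, Gen.cov (lk G P D j y) (feat G P.η P.N₁ D j i) (lin D w)
      = coef P.η P.N₁ j i.1 * (k i.1.1 + k i.1.2) := fun i => by
    have hi := mem_obsIx.1 i.2
    rw [feat_eq_lin, cov_lin_lin hB, ← sum_mult hi.1.1 hi.1.2 k, Finset.mul_sum]
    exact Finset.sum_congr rfl fun x _ => by simp only [k]; ring
  unfold Gen.propStep
  simp only [hc]
  rw [← Finset.attach_eq_univ]
  have e : ∀ i : obsIx G D, coef P.η P.N₁ j i.1 * (k i.1.1 + k i.1.2) *
      feat G P.η P.N₁ D j i S =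
      ∑ b ∈ D, coef P.η P.N₁ j i.1 ^ 2 * mult i.1 b * (k i.1.1 + k i.1.2) * spin S.1 b := by
    intro i
    have hi := mem_obsIx.1 i.2
    unfold feat
    rw [← sum_mult hi.1.1 hi.1.2 (spin S.1)]
    simp only [Finset.mul_sum]
    exact Finset.sum_congr rfl fun b _ => by ring
  simp only [e]
  rw [Finset.sum_comm]
  unfold lin
  simp only [add_mul, Finset.sum_add_distrib, Finset.mul_sum]
  congr 1
  refine Finset.sum_congr rfl fun b _ => ?_
  rw [Finset.sum_attach (obsIx G D) fun i => (P.h : ℝ) *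
    (coef P.η P.N₁ j i ^ 2 * mult i b * (k i.1 + k i.2) * spin S.1 b)]
  unfold qop
  rw [Finset.mul_sum, Finset.sum_mul]
  exact Finset.sum_congr rfl fun i _ => by simp only [k]; ring

lemma cum3_feat (x : V) (w : V → ℝ) (i : obsIx G D) :
    Gen.cum3 (lk G P D j y) (spinF D x) (lin D w) (feat G P.η P.N₁ D j i) =
      coef P.η P.N₁ j i.1 * ∑ b ∈ D, mult i.1 b *
        ∑ z ∈ D, k3 G (thetaJ P j) D (tilt G P D (tot G D y) j) x b z * w z := by
  set ψ := lk G P D j y
  set θt := thetaJ P j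
  set g := tilt G P D (tot G D y) j
  have hev : ∀ a : V → ℝ, Gen.ev ψ (lin D a) = ∑ z ∈ D, a z * mean G θt D g z := by
    intro a
    rw [show lin D a = fun S => ∑ z ∈ D, a z * spinF D z S from rfl, ev_sum]
    exact Finset.sum_congr rfl fun z _ => by rw [ev_const_mul]; congr 1; exact hB y j fun s => s z
  have hk : ∀ b z, k3 G θt D g x b z = Gen.ev ψ (fun S =>
      (spinF D x S - mean G θt D g x) * (spinF D b S - mean G θt D g b) *
        (spinF D z S - mean G θt D g z)) := fun b z =>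
    (hB y j fun s => (s x - mean G θt D g x) * (s b - mean G θt D g b) *
      (s z - mean G θt D g z)).symm
  have hx : Gen.ev ψ (spinF D x) = mean G θt D g x := hB y j fun s => s x
  unfold Gen.cum3
  rw [hx, feat_eq_lin, hev, hev]
  simp only [hk, Finset.mul_sum]
  rw [show (fun S => (spinF D x S - mean G θt D g x) * (lin D w S - ∑ z ∈ D, w z * mean G θt D g z) *
      (lin D (fun b => coef P.η P.N₁ j i.1 * mult i.1 b) S -
        ∑ b ∈ D, coef P.η P.N₁ j i.1 * mult i.1 b * mean G θt D g b)) = fun S =>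
      ∑ b ∈ D, ∑ z ∈ D, (coef P.η P.N₁ j i.1 * mult i.1 b * w z) *
        ((spinF D x S - mean G θt D g x) * (spinF D b S - mean G θt D g b) *
          (spinF D z S - mean G θt D g z)) by
    funext S
    have e1 : ∀ a : V → ℝ, lin D a S - ∑ z ∈ D, a z * mean G θt D g z
        = ∑ z ∈ D, a z * (spinF D z S - mean G θt D g z) := fun a => by
      simp only [lin, spinF, ← Finset.sum_sub_distrib, mul_sub]
    rw [e1 w, e1, Finset.mul_sum]
    refine Finset.sum_congr rfl fun b _ => ?_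
    rw [Finset.mul_sum, Finset.sum_mul]
    exact Finset.sum_congr rfl fun z _ => by ring]
  rw [ev_sum]
  refine Finset.sum_congr rfl fun b _ => ?_
  rw [ev_sum]
  refine Finset.sum_congr rfl fun z _ => ?_
  rw [ev_const_mul]
  ring

end

end Vale.Agent.P161.Edge
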