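import Vale.Agent.P161.Ising

/-!
Quantities of a tree Ising posterior: regression coefficients, their squared sums over the whole
set and over branches, and the third cumulant of three spins.
-/

namespace Vale.Agent.P161.Edge

open Finset
open scoped Classical

noncomputable section

variable {V : Type*} (G : SimpleGraph V)

/-- `c` lies on the geodesic between `x` and `z`. -/
def Btw (x c z : V) : Prop := G.dist x c + G.dist c z = G.dist x z

/-- The vertices of `D` on the side of `w` seen from its neighbour `p`. -/
def branch (D : Finset V) (w p : V) : Finset V := D.filter fun x => Btw G p w x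

variable (θ : ℝ) (D : Finset V) (g : V → ℝ)

/-- The regression coefficient of `σ_x` on `σ_c`. -/
def reg (c x : V) : ℝ := cv G θ D g c x / (1 - mean G θ D g c ^ 2)

/-- The sum of squared regression coefficients from `c`. -/
def sqS (c : V) : ℝ := ∑ x ∈ D, reg G θ D g c x ^ 2

/-- The sum of squared regression coefficients from `w` into its branch seen from `p`. -/
def sqD (w p : V) : ℝ := ∑ x ∈ branch G D w p, reg G θ D g w x ^ 2

/-- The cavity mean of `w` seen from `p`. -/
def cav (w p : V) : ℝ := mean G θ (branch G D w p) g w

/-- The third cumulant of three spins. -/
def k3 (x y z : V) : ℝ :=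
  avg G θ D g fun s =>
    (s x - mean G θ D g x) * (s y - mean G θ D g y) * (s z - mean G θ D g z)

end

end Vale.Agent.P161.Edge
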