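import Vale.Agent.P161.Edge.Defs
import Vale.Agent.P161.Edge.TreeDefs
import Vale.Agent.P161.Noise

/-!
The statements connecting the modules of the proof at the critical coupling.
-/

namespace Vale.Agent.P161.Edge

open MeasureTheory ProbabilityTheory Finset Function
open scoped NNReal Classical

noncomputable section

/-! ### The general model -/

/-- Boundedness and measurability of a functional of state and observations. -/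
def GenAdm {ι Ω : Type*} (N : ℕ) (B : ℝ) (Φ : Ω → (ℕ → ι → ℝ) → ℝ) : Prop :=
  (∀ S, Measurable fun z : Gen.Noi N ι => Φ S (Gen.ext z)) ∧ ∀ S y, |Φ S y| ≤ B

/-- `G1`: change of variables, tower, one-step decomposition, closeness to i.i.d. noise. -/
def GenLawStmt : Prop :=
  ∀ (ι Ω : Type) [Fintype ι] [Fintype Ω] [Nonempty Ω] (f : ℕ → ι → Ω → ℝ) (h : ℝ≥0)
    (ψ₀ : Ω → ℝ), h ≠ 0 →
    (∀ (N : ℕ) (B : ℝ) (φ : Ω → ℝ) (Φ : (ℕ → ι → ℝ) → ℝ), GenAdm N B (fun _ : Ω => Φ) →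
      Gen.Epl f h ψ₀ N (fun S y => φ S * Φ y) =
        Gen.Epl f h ψ₀ N (fun _ y => Gen.ev (Gen.llk f h ψ₀ N y) φ * Φ y)) ∧
    (∀ (N : ℕ) (B : ℝ) (Φ : (ℕ → ι → ℝ) → ℝ), GenAdm (N + 1) B (fun _ : Ω => Φ) →
      Gen.Epl f h ψ₀ (N + 1) (fun _ y => Φ y) =
        Gen.Epl f h ψ₀ N (fun _ y => ∑ S, Gen.post (Gen.llk f h ψ₀ N y) S *
          ∫ ξ : ι → ℝ, Φ (update y N fun i => h * f N i S + ξ i) ∂(Measure.pi fun _ => gl h)))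

/-- `G1`: innovations are close in law to i.i.d. noise when the mesh is fine. -/
def GenCloseStmt : Prop :=
  ∀ (C : ℕ) (F T δ : ℝ), 0 < δ → ∃ h₀ : ℝ, 0 < h₀ ∧
    ∀ (ι Ω : Type) [Fintype ι] [Fintype Ω] [Nonempty Ω] (f : ℕ → ι → Ω → ℝ) (h : ℝ≥0)
      (ψ₀ : Ω → ℝ), Fintype.card ι ≤ C → (∀ j i S, |f j i S| ≤ F) → h ≠ 0 → (h : ℝ) ≤ h₀ →
      ∀ (N : ℕ), (N : ℝ) * h ≤ T → ∀ (B : ℝ) (Φ : (ℕ → ι → ℝ) → ℝ),
        GenAdm N B (fun _ : Ω => Φ) →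
        |Gen.Epl f h ψ₀ N (fun _ y => Φ (fun j i => if j < N then Gen.inn f h ψ₀ y j i else 0))
          - ∫ z, Φ (Gen.ext z) ∂(Gen.nl (ι := ι) h N)| ≤ B * δ

/-- `G2`: one step of the square of a covariance and of an even power of a mean. -/
def GenStepStmt : Prop :=
  ∀ (C : ℕ) (F A : ℝ) (p : ℕ), ∃ K : ℝ,
    ∀ (ι Ω : Type) [Fintype ι] [Fintype Ω] [Nonempty Ω] (f : ℕ → ι → Ω → ℝ) (h : ℝ≥0) (j : ℕ)
      (ψ φ W : Ω → ℝ), Fintype.card ι ≤ C → (∀ i S, |f j i S| ≤ F) → (∀ S, |φ S| ≤ 1) →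
      (∀ S, |W S| ≤ A) → h ≠ 0 → (h : ℝ) ≤ 1 →
      Gen.stepE f h j ψ (fun ψ' => Gen.cov ψ' φ (Gen.propStep f h j ψ W) ^ 2) ≤
          Gen.cov ψ φ W ^ 2 + h * ∑ i, Gen.cum3 ψ φ W (f j i) ^ 2 + K * h * Real.sqrt h ∧
      (1 ≤ p → Gen.stepE f h j ψ (fun ψ' => Gen.ev ψ' φ ^ (2 * p)) ≤
          Gen.ev ψ φ ^ (2 * p) + h * (p * (2 * p - 1)) * Gen.ev ψ φ ^ (2 * (p - 1)) *
            ∑ i, Gen.cov ψ φ (f j i) ^ 2 + K * h * Real.sqrt h)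

/-- `G3`: first order expansion of the scheme in the noise of one observation. -/
def GenFirstStmt : Prop :=
  ∀ (C : ℕ) (F T : ℝ), ∃ K : ℝ,
    ∀ (ι Ω : Type) [Fintype ι] [Fintype Ω] [Nonempty Ω] (f : ℕ → ι → Ω → ℝ) (h : ℝ≥0)
      (ψ₀ : Ω → ℝ), Fintype.card ι ≤ C → (∀ j i S, |f j i S| ≤ F) → (h : ℝ) ≤ 1 →
      ∀ (j₀ : ℕ) (i₀ : ι) (z : ℕ → ι → ℝ) (x : ℝ) (j : ℕ) (i : ι), (j : ℝ) * h ≤ T →
        (j₀ : ℝ) * h ≤ T →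
        let z' := fun k l => if k = j₀ ∧ l = i₀ then z k l + x else z k l
        let st := Gen.state f h ψ₀ z
        let st' := Gen.state f h ψ₀ z'
        let W := Gen.prop f h st j₀ i₀
        |Gen.ypath f h ψ₀ z' j i - Gen.ypath f h ψ₀ z j i
            - ((if j = j₀ ∧ i = i₀ then x else 0) + x * h * Gen.cov (st j) (f j i) (W j))|
          ≤ K * h * x ^ 2 ∧
        |Gen.cov (st' j) (f j i) (Gen.prop f h st' j₀ i₀ j) - Gen.cov (st j) (f j i) (W j)|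
          ≤ K * |x|

/-! ### Gaussian smoothing -/

/-- The average of `F (a z + b z')` over independent noise `z'`. -/
def smooth {κ : Type*} [Fintype κ] (h : ℝ≥0) (F : (κ → ℝ) → ℝ) (a b : κ → ℝ) (z : κ → ℝ) : ℝ :=
  ∫ z', F (fun i => a i * z i + b i * z' i) ∂(Measure.pi fun _ => gl h)

/-- `G4`: rotation Efron–Stein inequality and the Lipschitz bound of the smoothed functional. -/
def GaussStmt : Prop :=
  ∀ (κ : Type) [Fintype κ] (h : ℝ≥0) (F : (κ → ℝ) → ℝ) (B : ℝ), h ≠ 0 → Measurable F →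
    (∀ z, |F z| ≤ B) →
    (∀ c s : κ → ℝ, (∀ i, c i ^ 2 + s i ^ 2 = 1) →
      ∫ z, (F z - smooth h F (fun i => c i ^ 2 - s i ^ 2) (fun i => 2 * c i * s i) z) ^ 2
          ∂(Measure.pi fun _ => gl h) ≤
        2 * ∑ i, ∫ z, ∫ u, ∫ w, ∫ w',
          (F (update z i (c i * u + s i * w')) - F (update z i (c i * u + s i * w))) ^ 2
            ∂(gl h) ∂(gl h) ∂(gl h) ∂(Measure.pi fun _ => gl h)) ∧
    (∀ a b z v : κ → ℝ, (∀ i, v i ≠ 0 → b i ≠ 0) →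
      |smooth h F a b (fun i => z i + v i) - smooth h F a b z| ≤
        B * Real.sqrt (Real.exp (∑ i, (a i * v i / b i) ^ 2 / h) - 1))

/-! ### The tree posterior -/

/-- `T`: deterministic identities and bounds of a tree posterior. -/
def TreeStmt : Prop :=
  ∀ (V : Type) (G : SimpleGraph V) (d : ℕ) (θ : ℝ) (D : Finset V) (g : V → ℝ),
    G.IsTree → 3 ≤ d → Regular G d → Par θ → Closed G D → Fld g →
    (∀ v ∈ D, 0 < 1 - mean G θ D g v ^ 2) ∧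
    (∀ v ∈ D, ∀ w ∈ D, 0 ≤ cv G θ D g v w ∧ 0 ≤ reg G θ D g v w ∧
      cv G θ D g v w ≤ θ ^ G.dist v w ∧ reg G θ D g v w ≤ θ ^ G.dist v w) ∧
    (∀ c ∈ D, ∀ v ∈ D, ∀ x ∈ D, Btw G c v x →
      reg G θ D g c x = reg G θ D g c v * reg G θ D g v x) ∧
    (∀ p ∈ D, ∀ w ∈ D, G.Adj p w →
      |cav G θ D g w p| < 1 ∧
      reg G θ D g p w =
        θ * (1 - cav G θ D g w p ^ 2) / (1 - θ ^ 2 * cav G θ D g w p ^ 2) ∧
      sqD G θ D g w p = 1 + ∑ z ∈ D.filter (fun z => G.Adj w z ∧ z ≠ p),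
        reg G θ D g w z ^ 2 * sqD G θ D g z w) ∧
    (∀ c ∈ D, sqS G θ D g c = 1 + ∑ w ∈ D.filter (G.Adj c),
      reg G θ D g c w ^ 2 * sqD G θ D g w c) ∧
    -- the bound on the derivative of the covariance
    (∀ (w : V → ℝ) (Kc : ℝ), (∀ v, 0 ≤ w v) →
      (∀ A : Finset V, ∀ v u : V, ∑ y ∈ A, (θ ^ 2) ^ G.dist v y *
          ((Real.sqrt ((d : ℝ) - 1))⁻¹) ^ G.dist y u ≤
            Kc * ((Real.sqrt ((d : ℝ) - 1))⁻¹) ^ G.dist v u) →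
      ∑ x ∈ D, ∑ z ∈ D, (∑ y ∈ D, k3 G θ D g x z y * w y) ^ 2 ≤
        8 * Kc * ∑ c ∈ D, mean G θ D g c ^ 2 * sqS G θ D g c ^ 2 *
          (∑ y ∈ D, cv G θ D g c y * w y) ^ 2) ∧
    -- the bilinear bound on a ball
    (∀ (o : V) (R : ℕ) (L : ℝ) (y r : V → ℝ), o ∈ D → (∀ v, 0 ≤ y v) → (∀ v, 0 ≤ r v) →
      (∀ c ∈ D, G.dist o c ≤ R → sqS G θ D g c ≤ L) →
      ∑ x ∈ D.filter (fun v => G.dist o v ≤ R), ∑ z ∈ D.filter (fun v => G.dist o v ≤ R),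
          cv G θ D g x z * y x * r z ≤
        4 * L ^ 2 * Real.sqrt (∑ x ∈ D, y x ^ 2) * Real.sqrt (∑ z ∈ D, r z ^ 2))

/-! ### The planted model on the tree -/

variable {V : Type}

/-- A functional depending only on the observations of pairs in `A` except those in `skip`,
before step `N`. -/
def ObsDep (G : SimpleGraph V) (A : Finset V) (skip : Finset (V × V)) (N : ℕ)
    (Φ : Finset V → (ℕ → V × V → ℝ) → ℝ) : Prop :=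
  ∀ S S' Y Y', (∀ v ∈ A, spin S v = spin S' v) →
    (∀ j < N, ∀ i ∈ obsIx G A, i ∉ skip → Y j i = Y' j i) → Φ S Y = Φ S' Y'

/-- Boundedness and measurability on a domain. -/
def Adm (G : SimpleGraph V) (D : Finset V) (N : ℕ) (B : ℝ)
    (Φ : Finset V → (ℕ → V × V → ℝ) → ℝ) : Prop :=
  (∀ S, Measurable fun z : Gen.Noi N (obsIx G D) => Φ S (tot G D (Gen.ext z))) ∧
    ∀ S Y, |Φ S Y| ≤ B

/-- Flipping all spins in `D`. -/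
def flipS (D S : Finset V) : Finset V := D \ S

/-- `M`: bridge to the tree posterior, marginals, splitting, symmetry, gain. -/
def ModelStmt : Prop :=
  ∀ (V : Type) (G : SimpleGraph V) (d : ℕ) (P : Prm),
    G.IsTree → 3 ≤ d → Regular G d → 0 ≤ P.θ → P.θ < 1 → P.h ≠ 0 → 0 ≤ P.η →
    Real.tanh (P.η * (P.N₁ * P.h)) ≤ P.θ →
    -- the posterior is the tree posterior
    (∀ (D : Finset V) (y : ℕ → obsIx G D → ℝ) (j : ℕ) (φ : Finset V → ℝ), Closed G D →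
      Gen.ev (Gen.llk (feat G P.η P.N₁ D) P.h (lpw G P.θ D) j y) (fun S => φ S.1) =
        avg G (thetaJ P j) D (tilt G P D (tot G D y) j)
          (fun s => φ (D.filter fun v => s v = 1))) ∧
    -- marginals
    (∀ (A D : Finset V) (N M : ℕ) (B : ℝ) (Φ : Finset V → (ℕ → V × V → ℝ) → ℝ),
      Closed G A → A.Nonempty → Closed G D → A ⊆ D → N ≤ M → Adm G A N B Φ →
      ObsDep G A ∅ N Φ → E G P D M Φ = E G P A N Φ) ∧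
    -- flip symmetry
    (∀ (D : Finset V) (N : ℕ) (B : ℝ) (Φ : Finset V → (ℕ → V × V → ℝ) → ℝ), Closed G D →
      Adm G D N B Φ →
      E G P D N (fun S Y => Φ (flipS D S) (fun j i => -Y j i)) = E G P D N Φ) ∧
    -- splitting at a vertex
    (∀ (A₁ A₂ D : Finset V) (c : V) (N : ℕ) (B : ℝ)
      (Φ₁ Φ₂ : Finset V → (ℕ → V × V → ℝ) → ℝ),
      Closed G A₁ → Closed G A₂ → Closed G D → A₁ ∩ A₂ = {c} → A₁ ∪ A₂ = D →
      Adm G A₁ N B Φ₁ → Adm G A₂ N B Φ₂ → ObsDep G A₁ {(c, c)} N Φ₁ → ObsDep G A₂ ∅ N Φ₂ →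
      E G P D N (fun S Y => Φ₁ S Y * Φ₂ S Y) =
        E G P A₁ N Φ₁ * E G P A₂ N Φ₂ +
          E G P A₁ N (fun S Y => spin S c * Φ₁ S Y) *
            E G P A₂ N (fun S Y => spin S c * Φ₂ S Y)) ∧
    -- observations outside a ball change the posterior little
    (∀ (A D : Finset V) (o : V) (r R N j : ℕ) (φ : (V → ℝ) → ℝ) (x : ℝ),
      Closed G A → Closed G D → A ⊆ D → j ≤ N → r ≤ R →
      (∀ v, G.dist o v ≤ R → v ∈ A) →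
      (∀ s s' : V → ℝ, (∀ v, G.dist o v ≤ r → s v = s' v) → φ s = φ s') → (∀ s, |φ s| ≤ 1) →
      0 ≤ x → thetaJ P j ^ 2 ≤ x → ((d : ℝ) - 1) * x < 1 →
      E G P D N (fun _ Y =>
        (avg G (thetaJ P j) D (tilt G P D Y j) φ - avg G (thetaJ P j) A (tilt G P A Y j) φ) ^ 2) ≤
          (64 * d ^ (r + 3)) * ((((d : ℝ) - 1) * x) ^ (R - r) / (1 - ((d : ℝ) - 1) * x)))

/-! ### Probability estimates and amplification -/

/-- The squared sum of regression coefficients at `c` after `j` steps. -/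
def sqSJ (G : SimpleGraph V) (P : Prm) (D : Finset V) (Y : ℕ → V × V → ℝ) (j : ℕ) (c : V) : ℝ :=
  sqS G (thetaJ P j) D (tilt G P D Y j) c

/-- Standing assumptions on the parameters. -/
def PrmOK (d : ℕ) (η : ℝ) (P : Prm) : Prop :=
  P.η = η ∧ (P.N₁ : ℝ) * P.h = 1 ∧ (Real.sqrt ((d : ℝ) - 1))⁻¹ / 2 ≤ P.θ ∧
    P.θ < (Real.sqrt ((d : ℝ) - 1))⁻¹

/-- `P`: mean and tail of the squared sums, moments of the root mean. -/
def ProbStmt : Prop :=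
  ∀ d : ℕ, 3 ≤ d → ∃ η₀ : ℝ, 0 < η₀ ∧ ∀ η : ℝ, 0 < η → η ≤ η₀ →
    ∃ K c t₀ : ℝ, 0 < K ∧ 0 < c ∧ 0 < t₀ ∧ t₀ ≤ 1 ∧
    ∀ (V : Type) (G : SimpleGraph V) (hG : G.IsTree) (hd : Regular G d) (hd3 : 3 ≤ d) (o : V)
      (R : ℕ) (P : Prm), PrmOK d η P →
    ∀ (D : Finset V), D = ballF hG hd hd3 o R →
    ∀ (j : ℕ), 0 < j → (j : ℝ) * P.h ≤ t₀ → ∀ v ∈ D,
      E G P D j (fun _ Y => sqSJ G P D Y j v) ≤ K / Real.sqrt (j * P.h) ∧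
      (∀ k : ℕ, E G P D j (fun _ Y =>
          if K * (k + 1 / Real.sqrt (j * P.h)) < sqSJ G P D Y j v then 1 else 0) ≤
        K * Real.exp (-c * ((d : ℝ) - 1) ^ k * (j * P.h)))

/-- `P`: moments of the mean. -/
def MomentStmt : Prop :=
  ∀ d : ℕ, 3 ≤ d → ∃ η₀ : ℝ, 0 < η₀ ∧ ∀ η : ℝ, 0 < η → η ≤ η₀ →
    ∀ ε₀ : ℝ, 0 < ε₀ → ∃ c t₀ : ℝ, 0 < c ∧ 0 < t₀ ∧ t₀ ≤ 1 ∧
    ∀ (V : Type) (G : SimpleGraph V) (hG : G.IsTree) (hd : Regular G d) (hd3 : 3 ≤ d) (o : V)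
      (R : ℕ) (θ : ℝ), (Real.sqrt ((d : ℝ) - 1))⁻¹ / 2 ≤ θ →
      θ < (Real.sqrt ((d : ℝ) - 1))⁻¹ →
    ∃ k₀ : ℕ, ∀ k ≥ k₀, ∀ j : ℕ, 0 < j → (j : ℝ) * hlev k ≤ t₀ →
      E G ⟨θ, η, hlev k, 2 ^ k⟩ (ballF hG hd hd3 o R) j (fun _ Y =>
          if ε₀ < pmean G ⟨θ, η, hlev k, 2 ^ k⟩ (ballF hG hd hd3 o R) Y j o ^ 2 then 1 else 0) ≤
        Real.exp (-c / Real.sqrt (j * hlev k))

/-- `Q`: the averaged response of the root to noise at time `s` is integrable at `0`, uniformly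
below the critical coupling. -/
def EnergyStmt : Prop :=
  ∀ d : ℕ, 3 ≤ d → ∃ η₀ : ℝ, 0 < η₀ ∧ ∀ η : ℝ, 0 < η → η ≤ η₀ →
    ∀ T : ℕ, ∃ K : ℝ,
    ∀ (V : Type) (G : SimpleGraph V) (hG : G.IsTree) (hd : Regular G d) (hd3 : 3 ≤ d) (o : V)
      (θ : ℝ), (Real.sqrt ((d : ℝ) - 1))⁻¹ / 2 ≤ θ → θ < (Real.sqrt ((d : ℝ) - 1))⁻¹ →
    ∀ ε : ℝ, 0 < ε → ∃ R₀ : ℕ, ∀ R ≥ R₀, ∃ k₀ : ℕ, ∀ k ≥ k₀,
    ∀ (j₀ j : ℕ), j₀ < j → j ≤ T * 2 ^ k →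
      E G ⟨θ, η, hlev k, 2 ^ k⟩ (ballF hG hd hd3 o R) j (fun _ Y =>
          ∑ z ∈ ballF hG hd hd3 o R,
            resp G ⟨θ, η, hlev k, 2 ^ k⟩ (ballF hG hd hd3 o R) Y j₀ j o z ^ 2) ≤
        (K + ε) * (((j₀ : ℝ) + 1) * hlev k) ^ (-(3 : ℝ) / 4)

/-- `Q`: spatial decay of the response away from time `0`. -/
def DecayStmt : Prop :=
  ∀ d : ℕ, 3 ≤ d → ∃ η₀ : ℝ, 0 < η₀ ∧ ∀ η : ℝ, 0 < η → η ≤ η₀ →
    ∀ (T : ℕ) (δ : ℝ), 0 < δ → ∃ K c : ℝ, 0 < c ∧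
    ∀ (V : Type) (G : SimpleGraph V) (hG : G.IsTree) (hd : Regular G d) (hd3 : 3 ≤ d) (o : V)
      (θ : ℝ), (Real.sqrt ((d : ℝ) - 1))⁻¹ / 2 ≤ θ → θ ≤ (Real.sqrt ((d : ℝ) - 1))⁻¹ →
    ∀ (D : Finset V) (k r : ℕ) (j₀ j : ℕ) (Y : ℕ → V × V → ℝ), Closed G D → o ∈ D →
      δ ≤ ((j₀ : ℝ) + 1) * hlev k → j₀ < j → j ≤ T * 2 ^ k →
      ∑ z ∈ D.filter (fun z => r ≤ G.dist o z),
          resp G ⟨θ, η, hlev k, 2 ^ k⟩ D Y j₀ j o z ^ 2 ≤ K * Real.exp (-c * r)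

/-- `Q`: at a fixed subcritical coupling, sums over the column at the root agree with sums over
the row at the root up to an error vanishing with the radius. -/
def SymStmt : Prop :=
  ∀ d : ℕ, 3 ≤ d → ∃ η₀ : ℝ, 0 < η₀ ∧ ∀ η : ℝ, 0 < η → η ≤ η₀ →
    ∀ (V : Type) (G : SimpleGraph V) (hG : G.IsTree) (hd : Regular G d) (hd3 : 3 ≤ d) (o : V)
      (T : ℕ) (θ : ℝ), (Real.sqrt ((d : ℝ) - 1))⁻¹ / 2 ≤ θ →
      θ < (Real.sqrt ((d : ℝ) - 1))⁻¹ →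
    ∀ ε : ℝ, 0 < ε → ∃ R₀ : ℕ, ∀ R ≥ R₀, ∀ (k j₀ i : ℕ), j₀ < i → i ≤ T * 2 ^ k →
      let P : Prm := ⟨θ, η, hlev k, 2 ^ k⟩
      let D := ballF hG hd hd3 o R
      |E G P D i (fun _ Y => ∑ c ∈ D, resp G P D Y j₀ i c o ^ 2) -
          E G P D i (fun _ Y => ∑ c ∈ D, resp G P D Y j₀ i o c ^ 2)| ≤ ε ∧
      ∀ L : ℝ, 0 ≤ L →
        |E G P D i (fun _ Y => ∑ c ∈ D,
            max (pmean G P D Y i c ^ 2 * sqSJ G P D Y i c ^ 2 - L) 0 * resp G P D Y j₀ i c o ^ 2) -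
          E G P D i (fun _ Y =>
            max (pmean G P D Y i o ^ 2 * sqSJ G P D Y i o ^ 2 - L) 0 *
              ∑ c ∈ D, resp G P D Y j₀ i o c ^ 2)| ≤ ε

end

end Vale.Agent.P161.Edge
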