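import Vale.Agent.P161.Innovation
import Vale.Agent.P161.Edge.Statements

/-!
The laws of the general planted model: change of variables to Gaussian noise, the tower
property, the decomposition of the last step, and the closeness of the innovations to noise.
-/

namespace Vale.Agent.P161.Gen

open MeasureTheory ProbabilityTheory Finset Function
open scoped NNReal ENNReal

noncomputable section

variable {ι Ω : Type*} [Fintype ι] [Fintype Ω]

lemma post_pos [Nonempty Ω] (ψ : Ω → ℝ) (S : Ω) : 0 < post ψ S :=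
  div_pos (Real.exp_pos _) (Finset.sum_pos (fun _ _ => Real.exp_pos _) Finset.univ_nonempty)

lemma post_nonneg [Nonempty Ω] (ψ : Ω → ℝ) (S : Ω) : 0 ≤ post ψ S := (post_pos ψ S).le

lemma sum_post [Nonempty Ω] (ψ : Ω → ℝ) : ∑ S, post ψ S = 1 := by
  unfold post
  rw [← Finset.sum_div,
    div_self (Finset.sum_pos (fun _ _ => Real.exp_pos _) Finset.univ_nonempty).ne']

lemma abs_ev_le [Nonempty Ω] (ψ : Ω → ℝ) {φ : Ω → ℝ} {B : ℝ} (hφ : ∀ S, |φ S| ≤ B) :
    |ev ψ φ| ≤ B := by
  refine (Finset.abs_sum_le_sum_abs _ _).trans ?_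
  calc ∑ S, |post ψ S * φ S| ≤ ∑ S, post ψ S * B :=
        Finset.sum_le_sum fun S _ => by
          rw [abs_mul, abs_of_nonneg (post_nonneg ψ S)]
          exact mul_le_mul_of_nonneg_left (hφ S) (post_nonneg ψ S)
    _ = B := by rw [← Finset.sum_mul, sum_post, one_mul]

lemma ev_const [Nonempty Ω] (ψ : Ω → ℝ) (c : ℝ) : ev ψ (fun _ => c) = c := by
  rw [ev, ← Finset.sum_mul, sum_post, one_mul]

/-! ### Measurability -/

section meas

variable {α : Type*} [MeasurableSpace α]

lemma measurable_post {ψ : α → Ω → ℝ} (hψ : ∀ S, Measurable fun a => ψ a S) (S : Ω) :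
    Measurable fun a => post (ψ a) S :=
  (hψ S).exp.div (Finset.measurable_sum _ fun T _ => (hψ T).exp)

lemma measurable_ev {ψ : α → Ω → ℝ} (hψ : ∀ S, Measurable fun a => ψ a S) {φ : α → Ω → ℝ}
    (hφ : ∀ S, Measurable fun a => φ a S) : Measurable fun a => ev (ψ a) (φ a) :=
  Finset.measurable_sum _ fun S _ => (measurable_post hψ S).mul (hφ S)

lemma measurable_cov {ψ : α → Ω → ℝ} (hψ : ∀ S, Measurable fun a => ψ a S) {φ χ : α → Ω → ℝ}
    (hφ : ∀ S, Measurable fun a => φ a S) (hχ : ∀ S, Measurable fun a => χ a S) :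
    Measurable fun a => cov (ψ a) (φ a) (χ a) :=
  (measurable_ev hψ fun S => (hφ S).mul (hχ S)).sub
    ((measurable_ev hψ hφ).mul (measurable_ev hψ hχ))

variable (f : ℕ → ι → Ω → ℝ) (h : ℝ≥0) (ψ₀ : Ω → ℝ)

omit [Fintype Ω] in
lemma measurable_inc {y : α → ι → ℝ} (hy : ∀ i, Measurable fun a => y a i) (j : ℕ) (S : Ω) :
    Measurable fun a => inc f h j (y a) S :=
  Finset.measurable_sum _ fun i _ => ((hy i).const_mul _).sub_const _

omit [Fintype Ω] in
lemma measurable_llk {y : α → ℕ → ι → ℝ} (hy : ∀ j i, Measurable fun a => y a j i) (j : ℕ)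
    (S : Ω) : Measurable fun a => llk f h ψ₀ j (y a) S :=
  (Finset.measurable_sum _ fun k _ => measurable_inc f h (hy k) k S).const_add _

lemma measurable_state {z : α → ℕ → ι → ℝ} (hz : ∀ j i, Measurable fun a => z a j i) :
    ∀ (j : ℕ) (S : Ω), Measurable fun a => state f h ψ₀ (z a) j S := by
  intro j
  induction j with
  | zero => exact fun S => measurable_const
  | succ j ih =>
    exact fun S => (ih S).add (measurable_inc f h (fun i => (hz j i).add
      (measurable_const.mul (measurable_ev (φ := fun _ => f j i) ih fun _ => measurable_const))) j S)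

lemma measurable_ypath {z : α → ℕ → ι → ℝ} (hz : ∀ j i, Measurable fun a => z a j i) (j : ℕ)
    (i : ι) : Measurable fun a => ypath f h ψ₀ (z a) j i :=
  (hz j i).add (measurable_const.mul
    (measurable_ev (φ := fun _ => f j i) (measurable_state f h ψ₀ hz j) fun _ => measurable_const))

lemma measurable_inn {y : α → ℕ → ι → ℝ} (hy : ∀ j i, Measurable fun a => y a j i) (j : ℕ)
    (i : ι) : Measurable fun a => inn f h ψ₀ (y a) j i :=
  (hy j i).sub (measurable_const.mul
    (measurable_ev (φ := fun _ => f j i) (fun S => measurable_llk f h ψ₀ hy j S) fun _ => measurable_const))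

lemma measurable_propStep {ψ W : α → Ω → ℝ} (hψ : ∀ S, Measurable fun a => ψ a S)
    (hW : ∀ S, Measurable fun a => W a S) (j : ℕ) (S : Ω) :
    Measurable fun a => propStep f h j (ψ a) (W a) S :=
  (hW S).add (measurable_const.mul (Finset.measurable_sum _ fun i _ =>
    (measurable_cov (φ := fun _ => f j i) hψ (fun _ => measurable_const) hW).mul_const _))

lemma measurable_prop {st : α → ℕ → Ω → ℝ} (hst : ∀ j S, Measurable fun a => st a j S)
    (j₀ : ℕ) (i : ι) : ∀ (j : ℕ) (S : Ω), Measurable fun a => prop f h (st a) j₀ i j S := by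
  intro j
  induction j with
  | zero => exact fun S => measurable_const
  | succ j ih =>
    intro S
    simp only [prop]
    split_ifs
    · exact measurable_const
    · exact measurable_propStep f h (hst j) ih j S

omit [Fintype ι] in
lemma measurable_ext {N : ℕ} (j : ℕ) (i : ι) : Measurable fun z : Noi N ι => ext z j i := by
  unfold ext
  split_ifs
  · fun_prop
  · fun_prop

omit [Fintype Ω] in
lemma measurable_plant {N : ℕ} (S : Ω) (j : ℕ) (i : ι) :
    Measurable fun ξ : Noi N ι => plant f h S ξ j i := by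
  unfold plant
  split_ifs
  · fun_prop
  · fun_prop

end meas

variable (f : ℕ → ι → Ω → ℝ) (h : ℝ≥0) (ψ₀ : Ω → ℝ)

/-! ### Dependence on the past -/

instance (N : ℕ) : IsProbabilityMeasure (nl (ι := ι) h N) := by unfold nl; infer_instance

omit [Fintype ι] [Fintype Ω] in
lemma ext_of_le {N : ℕ} (z : Noi N ι) {j : ℕ} (hj : N ≤ j) : ext z j = 0 :=
  funext fun i => by simp [ext, not_lt.2 hj]

omit [Fintype ι] [Fintype Ω] in
lemma ext_of_lt {N : ℕ} (z : Noi N ι) {j : ℕ} (hj : j < N) :
    ext z j = fun i => z (⟨j, hj⟩, i) :=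
  funext fun i => by simp [ext, hj]

omit [Fintype Ω] in
lemma llk_congr {j : ℕ} {y y' : ℕ → ι → ℝ} (hy : ∀ k < j, y k = y' k) :
    llk f h ψ₀ j y = llk f h ψ₀ j y' :=
  funext fun S => by
    unfold llk
    rw [Finset.sum_congr rfl fun k hk => by rw [hy k (Finset.mem_range.1 hk)]]

lemma state_congr {z z' : ℕ → ι → ℝ} :
    ∀ {j : ℕ}, (∀ k < j, z k = z' k) → state f h ψ₀ z j = state f h ψ₀ z' j := by
  intro j
  induction j with
  | zero => exact fun _ => rfl
  | succ j ih =>
    intro hz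
    simp only [state]
    rw [ih fun k hk => hz k (by omega), hz j (by omega)]

/-- The scheme driven by the innovations retraces the observations. -/
lemma state_inn (y : ℕ → ι → ℝ) : ∀ j, state f h ψ₀ (inn f h ψ₀ y) j = llk f h ψ₀ j y := by
  intro j
  induction j with
  | zero => funext S; simp [state, llk]
  | succ j ih =>
    funext S
    have e : (fun i => inn f h ψ₀ y j i + h * ev (llk f h ψ₀ j y) (f j i)) = y j := by
      funext i; simp [inn]
    simp only [state]
    rw [ih, e]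
    simp only [llk, Finset.sum_range_succ]
    ring

/-! ### Splitting off the last step -/

/-- Append one step. -/
def snoc {N : ℕ} (p : Noi N ι × (ι → ℝ)) : Noi (N + 1) ι := fun q =>
  if hq : (q.1 : ℕ) < N then p.1 (⟨q.1, hq⟩, q.2) else p.2 q.2

omit [Fintype ι] in
lemma measurable_snoc {N : ℕ} : Measurable (snoc (ι := ι) (N := N)) :=
  measurable_pi_lambda _ fun q => by
    unfold snoc
    split_ifs <;> fun_prop

lemma snoc_preserving (N : ℕ) :
    MeasurePreserving (snoc (ι := ι) (N := N))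
      ((nl (ι := ι) h N).prod (Measure.pi fun _ : ι => gl h)) (nl h (N + 1)) := by
  refine ⟨measurable_snoc, (Measure.pi_eq fun s hs => ?_).symm⟩
  rw [Measure.map_apply measurable_snoc (MeasurableSet.univ_pi hs)]
  have : snoc (ι := ι) (N := N) ⁻¹' Set.univ.pi s
      = (Set.univ.pi fun q : Fin N × ι => s (q.1.castSucc, q.2))
        ×ˢ (Set.univ.pi fun i => s (Fin.last N, i)) := by
    ext p
    simp only [Set.mem_preimage, Set.mem_univ_pi, Set.mem_prod]
    constructor
    · intro hp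
      exact ⟨fun q => by simpa [snoc] using hp (q.1.castSucc, q.2),
        fun i => by simpa [snoc] using hp (Fin.last N, i)⟩
    · rintro ⟨h1, h2⟩ ⟨k, i⟩
      induction k using Fin.lastCases with
      | last => simpa [snoc] using h2 i
      | cast k => simpa [snoc] using h1 (k, i)
  rw [this, Measure.prod_prod, nl, Measure.pi_pi, Measure.pi_pi, Fintype.prod_prod_type,
    Fintype.prod_prod_type, Fin.prod_univ_castSucc]

omit [Fintype ι] in
lemma ext_snoc {N : ℕ} (p : Noi N ι × (ι → ℝ)) : ext (snoc p) = update (ext p.1) N p.2 := by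
  funext j i
  rcases lt_trichotomy j N with hj | hj | hj
  · rw [update_of_ne hj.ne]
    simp [ext, snoc, hj, show j < N + 1 by omega]
  · subst hj
    rw [update_self]
    simp [ext, snoc]
  · rw [update_of_ne hj.ne']
    simp [ext, show ¬ j < N by omega, show ¬ j < N + 1 by omega]

omit [Fintype ι] [Fintype Ω] in
lemma plant_eq {N : ℕ} (S : Ω) (ξ : Noi N ι) :
    plant f h S ξ = ext fun q => h * f q.1 q.2 S + ξ q := by
  funext j i
  unfold plant ext
  split_ifs <;> rfl

omit [Fintype ι] [Fintype Ω] in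
lemma plant_snoc {N : ℕ} (S : Ω) (p : Noi N ι × (ι → ℝ)) :
    plant f h S (snoc p) = update (plant f h S p.1) N fun i => h * f N i S + p.2 i := by
  funext j i
  rcases lt_trichotomy j N with hj | hj | hj
  · rw [update_of_ne hj.ne]
    simp [plant, snoc, hj, show j < N + 1 by omega]
  · subst hj
    rw [update_self]
    simp [plant, snoc]
  · rw [update_of_ne hj.ne']
    simp [plant, show ¬ j < N by omega, show ¬ j < N + 1 by omega]

/-! ### Change of variables -/

lemma integral_shift {κ : Type*} [Fintype κ] {h : ℝ≥0} (hh : h ≠ 0) (a : κ → ℝ)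
    {F : (κ → ℝ) → ℝ} (hF : Measurable F) :
    ∫ z, F (fun i => z i + h * a i) ∂(Measure.pi fun _ : κ => gl h)
      = ∫ z, tiltProd (h : ℝ) a z * F z ∂(Measure.pi fun _ : κ => gl h) := by
  rw [← integral_map (φ := fun (z : κ → ℝ) i => z i + h * a i)
      (measurable_pi_lambda _ fun i => (measurable_pi_apply i).add_const _).aemeasurable
      hF.aestronglyMeasurable,
    pi_gl_map_add hh, integral_withDensity_eq_integral_toReal_smul
      (by unfold tiltProd tiltExp; fun_prop) (ae_of_all _ fun _ => ENNReal.ofReal_lt_top)]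
  refine integral_congr_ae (ae_of_all _ fun z => ?_)
  simp [ENNReal.toReal_ofReal (tiltProd_pos _ a z).le]

/-- The density of the observations with respect to the noise. -/
def dens (N : ℕ) (z : Noi N ι) : ℝ :=
  (∑ T, Real.exp (llk f h ψ₀ N (ext z) T)) / ∑ T, Real.exp (ψ₀ T)

lemma post_mul_tilt [Nonempty Ω] {N : ℕ} (z : Noi N ι) (S : Ω) :
    post ψ₀ S * tiltProd (h : ℝ) (fun q : Fin N × ι => f q.1 q.2 S) z
      = dens f h ψ₀ N z * post (llk f h ψ₀ N (ext z)) S := by
  have e : tiltProd (h : ℝ) (fun q : Fin N × ι => f q.1 q.2 S) z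
      = Real.exp (∑ k ∈ range N, inc f h k (ext z k) S) := by
    unfold tiltProd tiltExp
    rw [← Real.exp_sum, Fintype.sum_prod_type,
      ← Fin.sum_univ_eq_sum_range (fun k => inc f h k (ext z k) S) N]
    congr 1
    refine Finset.sum_congr rfl fun k _ => Finset.sum_congr rfl fun i _ => ?_
    simp [ext]
  have h1 : (∑ T, Real.exp (llk f h ψ₀ N (ext z) T)) ≠ 0 :=
    (Finset.sum_pos (fun _ _ => Real.exp_pos _) Finset.univ_nonempty).ne'
  rw [e, dens, post, post, div_mul_div_comm, mul_comm (∑ T, Real.exp (ψ₀ T)),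
    mul_div_mul_left _ _ h1, div_mul_eq_mul_div, ← Real.exp_add]
  rfl

theorem Epl_eq_integral [Nonempty Ω] (hh : h ≠ 0) (N : ℕ) {Φ : Ω → (ℕ → ι → ℝ) → ℝ}
    (hm : ∀ S, Measurable fun z : Noi N ι => Φ S (ext z)) {B : ℝ}
    (hb : ∀ S (z : Noi N ι), |Φ S (ext z)| ≤ B) :
    Epl f h ψ₀ N Φ
      = ∫ z, dens f h ψ₀ N z * ev (llk f h ψ₀ N (ext z)) (fun S => Φ S (ext z))
          ∂(nl (ι := ι) h N) := by
  unfold Epl
  have e : ∀ S, ∫ ξ, Φ S (plant f h S ξ) ∂(nl (ι := ι) h N)
      = ∫ z, tiltProd (h : ℝ) (fun q : Fin N × ι => f q.1 q.2 S) z * Φ S (ext z)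
          ∂(nl (ι := ι) h N) := fun S => by
    have := integral_shift hh (fun q : Fin N × ι => f q.1 q.2 S) (hm S)
    rw [nl, ← this]
    refine integral_congr_ae (ae_of_all _ fun ξ => ?_)
    simp only [plant_eq]
    congr 2
    funext q
    ring
  simp only [e, ← integral_const_mul]
  unfold nl
  rw [← integral_finsetSum _ fun S _ => ((integrable_tiltProd h _).mul_bdd (c := B)
    (hm S).aestronglyMeasurable (ae_of_all _ fun z => hb S z)).const_mul _]
  refine integral_congr_ae (ae_of_all _ fun z => ?_)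
  simp only [ev, Finset.mul_sum]
  exact Finset.sum_congr rfl fun S _ => by rw [← mul_assoc, post_mul_tilt, mul_assoc]

/-- The posterior is the conditional law of the state. -/
theorem Epl_tower [Nonempty Ω] (hh : h ≠ 0) (N : ℕ) {Φ : Ω → (ℕ → ι → ℝ) → ℝ}
    (hm : ∀ S, Measurable fun z : Noi N ι => Φ S (ext z)) {B : ℝ}
    (hb : ∀ S (z : Noi N ι), |Φ S (ext z)| ≤ B) :
    Epl f h ψ₀ N Φ = Epl f h ψ₀ N (fun _ y => ev (llk f h ψ₀ N y) fun S => Φ S y) := by
  rw [Epl_eq_integral f h ψ₀ hh N hm hb,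
    Epl_eq_integral f h ψ₀ hh N (Φ := fun _ y => ev (llk f h ψ₀ N y) fun S => Φ S y)
      (fun _ => measurable_ev (measurable_llk f h ψ₀ measurable_ext N) hm)
      (fun _ z => abs_ev_le _ fun S => hb S z)]
  simp only [ev_const]

/-- Decomposition of the last step, with the state visible. -/
theorem Epl_succ [Nonempty Ω] (N : ℕ) {Φ : Ω → (ℕ → ι → ℝ) → ℝ}
    (hm : ∀ S, Measurable fun z : Noi (N + 1) ι => Φ S (ext z)) {B : ℝ}
    (hb : ∀ S (z : Noi (N + 1) ι), |Φ S (ext z)| ≤ B) :
    Epl f h ψ₀ (N + 1) Φ = Epl f h ψ₀ N (fun S y =>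
      ∫ ξ : ι → ℝ, Φ S (update y N fun i => h * f N i S + ξ i) ∂(Measure.pi fun _ => gl h)) := by
  unfold Epl
  refine Finset.sum_congr rfl fun S _ => ?_
  congr 1
  have mp : Measurable fun ξ : Noi (N + 1) ι => Φ S (plant f h S ξ) := by
    simp only [plant_eq]
    exact (hm S).comp (measurable_pi_lambda _ fun q => (measurable_pi_apply q).const_add _)
  have bp : ∀ ξ : Noi (N + 1) ι, |Φ S (plant f h S ξ)| ≤ B := fun ξ => by
    rw [plant_eq]; exact hb S _
  rw [← (snoc_preserving h N).map_eq,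
    integral_map measurable_snoc.aemeasurable mp.aestronglyMeasurable,
    integral_prod (fun p => Φ S (plant f h S (snoc p)))
      (integrable_of_bdd (mp.comp measurable_snoc) fun p => bp _)]
  simp only [plant_snoc]

/-- Decomposition of the last step. -/
theorem Epl_step [Nonempty Ω] (hh : h ≠ 0) (N : ℕ) {Φ : (ℕ → ι → ℝ) → ℝ}
    (hm : Measurable fun z : Noi (N + 1) ι => Φ (ext z)) {B : ℝ}
    (hb : ∀ z : Noi (N + 1) ι, |Φ (ext z)| ≤ B) :
    Epl f h ψ₀ (N + 1) (fun _ y => Φ y) =
      Epl f h ψ₀ N (fun _ y => ∑ S, post (llk f h ψ₀ N y) S *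
        ∫ ξ : ι → ℝ, Φ (update y N fun i => h * f N i S + ξ i) ∂(Measure.pi fun _ => gl h)) := by
  rw [Epl_succ f h ψ₀ N (Φ := fun _ => Φ) (fun _ => hm) (fun _ => hb)]
  have e : ∀ S (p : Noi N ι × (ι → ℝ)),
      Φ (update (ext p.1) N fun i => h * f N i S + p.2 i)
        = Φ (ext (snoc (p.1, fun i => h * f N i S + p.2 i))) := fun S p => by rw [ext_snoc]
  refine Epl_tower f h ψ₀ hh N (Φ := fun S y =>
    ∫ ξ : ι → ℝ, Φ (update y N fun i => h * f N i S + ξ i) ∂(Measure.pi fun _ => gl h))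
    (fun S => ?_) (B := B) fun S z => ?_
  · refine (StronglyMeasurable.integral_prod_right'
      (f := fun p : Noi N ι × (ι → ℝ) => Φ (update (ext p.1) N fun i => h * f N i S + p.2 i))
      ?_).measurable
    simp only [e]
    exact (hm.comp (measurable_snoc.comp (measurable_fst.prodMk
      (measurable_pi_lambda _ fun i =>
        ((measurable_pi_apply i).comp measurable_snd).const_add _)))).stronglyMeasurable
  · have := norm_integral_le_of_norm_le_const (μ := Measure.pi fun _ : ι => gl h)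
      (ae_of_all _ fun ξ : ι → ℝ => show ‖Φ (update (ext z) N fun i => h * f N i S + ξ i)‖ ≤ B by
        rw [e S (z, ξ)]; exact hb _)
    simpa using this

/-! ### The innovations -/

/-- The innovations before step `N`, as noise. -/
def innN (N : ℕ) (y : ℕ → ι → ℝ) : Noi N ι := fun q => inn f h ψ₀ y q.1 q.2

lemma measurable_innN (N : ℕ) {α : Type*} [MeasurableSpace α] {y : α → ℕ → ι → ℝ}
    (hy : ∀ j i, Measurable fun a => y a j i) : Measurable fun a => innN f h ψ₀ N (y a) :=
  measurable_pi_lambda _ fun q => measurable_inn f h ψ₀ hy q.1 q.2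

lemma innN_update (N : ℕ) (y : ℕ → ι → ℝ) (v : ι → ℝ) :
    innN f h ψ₀ (N + 1) (update y N v)
      = snoc (innN f h ψ₀ N y, fun i => v i - h * ev (llk f h ψ₀ N y) (f N i)) := by
  funext q
  obtain ⟨k, i⟩ := q
  unfold innN snoc inn
  dsimp only
  rcases lt_or_eq_of_le (Nat.le_of_lt_succ k.2) with hk | hk
  · rw [dif_pos hk, update_of_ne hk.ne]
    rw [llk_congr f h ψ₀ (y := update y N v) (y' := y) fun l hl => update_of_ne (by omega) _ _]
  · rw [dif_neg (by omega), hk, update_self]
    rw [llk_congr f h ψ₀ (y := update y N v) (y' := y) fun l hl => update_of_ne (by omega) _ _]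

lemma state_innN (N : ℕ) (y : ℕ → ι → ℝ) :
    state f h ψ₀ (ext (innN f h ψ₀ N y)) N = llk f h ψ₀ N y := by
  rw [state_congr f h ψ₀ (z := ext (innN f h ψ₀ N y)) (z' := inn f h ψ₀ y) fun k hk => ?_,
    state_inn]
  rw [ext_of_lt _ hk]
  rfl

/-- The one-step likelihood ratio of the innovations. -/
def qs (j : ℕ) (ψ : Ω → ℝ) (x : ι → ℝ) : ℝ :=
  ∑ S, post ψ S * tiltProd (h : ℝ) (fun i => f j i S - ev ψ (f j i)) x

/-- The likelihood ratio of the innovations. -/
def lik (N : ℕ) (z : Noi N ι) : ℝ :=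
  ∏ j ∈ range N, qs f h j (state f h ψ₀ (ext z) j) (ext z j)

lemma measurable_qs {α : Type*} [MeasurableSpace α] (j : ℕ) {ψ : α → Ω → ℝ}
    (hψ : ∀ S, Measurable fun a => ψ a S) {x : α → ι → ℝ} (hx : ∀ i, Measurable fun a => x a i) :
    Measurable fun a => qs f h j (ψ a) (x a) := by
  refine Finset.measurable_sum _ fun S _ => (measurable_post hψ S).mul ?_
  unfold tiltProd tiltExp
  refine Finset.measurable_prod _ fun i _ => ?_
  have h1 : Measurable fun a => f j i S - ev (ψ a) (f j i) :=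
    measurable_const.sub (measurable_ev (φ := fun _ => f j i) hψ fun _ => measurable_const)
  exact ((h1.mul (hx i)).sub ((measurable_const.mul (h1.pow_const 2)).div_const 2)).exp

lemma measurable_lik (N : ℕ) : Measurable (lik f h ψ₀ N : Noi N ι → ℝ) :=
  Finset.measurable_prod _ fun j _ => measurable_qs f h j
    (measurable_state f h ψ₀ measurable_ext j) (measurable_ext j)

lemma qs_nonneg [Nonempty Ω] (j : ℕ) (ψ : Ω → ℝ) (x : ι → ℝ) : 0 ≤ qs f h j ψ x :=
  Finset.sum_nonneg fun S _ => mul_nonneg (post_nonneg ψ S) (tiltProd_pos _ _ _).le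

lemma lik_nonneg [Nonempty Ω] (N : ℕ) (z : Noi N ι) : 0 ≤ lik f h ψ₀ N z :=
  Finset.prod_nonneg fun _ _ => qs_nonneg _ _ _ _ _

lemma lik_snoc (N : ℕ) (p : Noi N ι × (ι → ℝ)) :
    lik f h ψ₀ (N + 1) (snoc p)
      = lik f h ψ₀ N p.1 * qs f h N (state f h ψ₀ (ext p.1) N) p.2 := by
  have e : ∀ {j : ℕ}, j ≤ N → state f h ψ₀ (ext (snoc p)) j = state f h ψ₀ (ext p.1) j :=
    fun {j} hj => state_congr f h ψ₀ fun k hk => by rw [ext_snoc, update_of_ne (by omega)]
  unfold lik
  rw [Finset.prod_range_succ, e le_rfl, ext_snoc, update_self]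
  congr 1
  refine Finset.prod_congr rfl fun j hj => ?_
  rw [← ext_snoc, e (Finset.mem_range.1 hj).le, ext_snoc,
    update_of_ne (Finset.mem_range.1 hj).ne]

/-- The `χ²` rate of one step. -/
def rate (F : ℝ) (ι : Type*) [Fintype ι] : ℝ := (h : ℝ) * (4 * F ^ 2 * Fintype.card ι)

lemma lintegral_qs_sq [Nonempty Ω] (hh : h ≠ 0) {F : ℝ} (hF : ∀ j i S, |f j i S| ≤ F)
    (hsmall : rate h F ι ≤ 1) (j : ℕ) (ψ : Ω → ℝ) :
    ∫⁻ x, ENNReal.ofReal (qs f h j ψ x ^ 2) ∂(Measure.pi fun _ : ι => gl h)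
      ≤ ENNReal.ofReal (1 + rate h F ι ^ 2) := by
  set a : Ω → ι → ℝ := fun S i => f j i S - ev ψ (f j i) with ha
  set p := post ψ with hp
  have hp0 : ∀ S, 0 ≤ p S := post_nonneg ψ
  have hexp : ∀ x, ENNReal.ofReal (qs f h j ψ x ^ 2)
      = ∑ S, ∑ S', ENNReal.ofReal (p S * p S') *
          ENNReal.ofReal (tiltProd h (a S) x * tiltProd h (a S') x) := by
    intro x
    unfold qs
    rw [sq, Finset.sum_mul_sum, ENNReal.ofReal_sum_of_nonneg fun S _ =>
      Finset.sum_nonneg fun S' _ => mul_nonneg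
        (mul_nonneg (hp0 S) (tiltProd_pos _ _ _).le) (mul_nonneg (hp0 S') (tiltProd_pos _ _ _).le)]
    refine Finset.sum_congr rfl fun S _ => ?_
    rw [ENNReal.ofReal_sum_of_nonneg fun S' _ => mul_nonneg
        (mul_nonneg (hp0 S) (tiltProd_pos _ _ _).le) (mul_nonneg (hp0 S') (tiltProd_pos _ _ _).le)]
    refine Finset.sum_congr rfl fun S' _ => ?_
    rw [← ENNReal.ofReal_mul (mul_nonneg (hp0 S) (hp0 S'))]
    congr 1
    simp only [ha, hp]
    ring
  simp_rw [hexp]
  have mt : ∀ b b' : ι → ℝ, Measurable fun z =>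
      ENNReal.ofReal (tiltProd (h:ℝ) b z * tiltProd (h:ℝ) b' z) := fun b b' => by
    unfold tiltProd tiltExp; fun_prop
  rw [lintegral_finsetSum _ fun S _ => Finset.measurable_sum _ fun S' _ =>
    (mt (a S) (a S')).const_mul _]
  simp_rw [lintegral_finsetSum _ fun S' _ => (mt (a _) (a S')).const_mul _,
    lintegral_const_mul _ (mt (a _) (a _)), lintegral_tiltProd_mul hh,
    ← ENNReal.ofReal_mul (mul_nonneg (hp0 _) (hp0 _))]
  simp_rw [← ENNReal.ofReal_sum_of_nonneg (fun S' _ =>
    mul_nonneg (mul_nonneg (hp0 _) (hp0 S')) (Real.exp_pos _).le)]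
  rw [← ENNReal.ofReal_sum_of_nonneg (fun S _ => Finset.sum_nonneg fun S' _ =>
    mul_nonneg (mul_nonneg (hp0 S) (hp0 S')) (Real.exp_pos _).le)]
  refine ENNReal.ofReal_le_ofReal ?_
  have hab : ∀ S S', |(h : ℝ) * ∑ i, a S i * a S' i| ≤ rate h F ι := by
    intro S S'
    rw [abs_mul, abs_of_nonneg h.coe_nonneg]
    refine mul_le_mul_of_nonneg_left ?_ h.coe_nonneg
    refine (Finset.abs_sum_le_sum_abs _ _).trans ?_
    refine (Finset.sum_le_sum (g := fun _ => 4 * F ^ 2) fun i _ => ?_).trans_eq (by simp; ring)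
    have hb : ∀ S, |a S i| ≤ 2 * F := fun S =>
      (abs_sub _ _).trans (by linarith [hF j i S, abs_ev_le ψ (hF j i)])
    rw [abs_mul]
    nlinarith [hb S, hb S', abs_nonneg (a S i), abs_nonneg (a S' i)]
  calc ∑ S, ∑ S', p S * p S' * Real.exp (h * ∑ i, a S i * a S' i)
      ≤ ∑ S, ∑ S', (p S * p S' * (1 + rate h F ι ^ 2)
          + (h:ℝ) * ∑ i, (p S * a S i) * (p S' * a S' i)) := by
        refine Finset.sum_le_sum fun S _ => Finset.sum_le_sum fun S' _ => ?_
        have he := exp_le_quadratic ((hab S S').trans hsmall)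
        have hsq : ((h:ℝ) * ∑ i, a S i * a S' i) ^ 2 ≤ rate h F ι ^ 2 := by
          rw [← sq_abs]
          exact pow_le_pow_left₀ (abs_nonneg _) (hab S S') 2
        have hs : ∑ i, (p S * a S i) * (p S' * a S' i) = p S * p S' * ∑ i, a S i * a S' i := by
          rw [Finset.mul_sum]; exact Finset.sum_congr rfl fun i _ => by ring
        rw [hs]
        calc p S * p S' * Real.exp (h * ∑ i, a S i * a S' i)
            ≤ p S * p S' * (1 + (h:ℝ) * (∑ i, a S i * a S' i) + rate h F ι ^ 2) :=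
              mul_le_mul_of_nonneg_left (by linarith) (mul_nonneg (hp0 S) (hp0 S'))
          _ = _ := by ring
    _ = _ := by
        have h1 : ∑ S, p S = 1 := sum_post ψ
        have h2 : ∀ i, ∑ S, p S * a S i = 0 := fun i => by
          simp only [ha, mul_sub, Finset.sum_sub_distrib]
          rw [← Finset.sum_mul, h1, one_mul]
          exact sub_self _
        simp only [Finset.sum_add_distrib, ← Finset.sum_mul, ← Finset.mul_sum, h1, mul_one,
          one_mul]
        have h3 : ∑ S, ∑ S', ∑ i, p S * a S i * (p S' * a S' i) = 0 := by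
          refine (Finset.sum_congr rfl fun S _ => Finset.sum_comm).trans ?_
          refine Finset.sum_eq_zero fun S _ => Finset.sum_eq_zero fun i _ => ?_
          rw [← Finset.mul_sum, h2 i, mul_zero]
        rw [h3]
        ring

theorem lintegral_lik_sq [Nonempty Ω] (hh : h ≠ 0) {F : ℝ} (hF : ∀ j i S, |f j i S| ≤ F)
    (hsmall : rate h F ι ≤ 1) : ∀ N : ℕ,
      ∫⁻ z, ENNReal.ofReal (lik f h ψ₀ N z ^ 2) ∂(nl (ι := ι) h N)
        ≤ ENNReal.ofReal ((1 + rate h F ι ^ 2) ^ N) := by
  intro N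
  induction N with
  | zero => simp [lik]
  | succ N ih =>
    have m1 : Measurable fun z : Noi (N + 1) ι => ENNReal.ofReal (lik f h ψ₀ (N + 1) z ^ 2) :=
      ((measurable_lik f h ψ₀ (N + 1)).pow_const 2).ennreal_ofReal
    rw [← (snoc_preserving h N).map_eq, lintegral_map m1 measurable_snoc,
      lintegral_prod (fun p => ENNReal.ofReal (lik f h ψ₀ (N + 1) (snoc p) ^ 2))
        (m1.comp measurable_snoc).aemeasurable]
    simp only [lik_snoc, mul_pow, ENNReal.ofReal_mul (sq_nonneg (lik f h ψ₀ N _))]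
    calc ∫⁻ z, ∫⁻ x, ENNReal.ofReal (lik f h ψ₀ N z ^ 2)
            * ENNReal.ofReal (qs f h N (state f h ψ₀ (ext z) N) x ^ 2)
            ∂(Measure.pi fun _ : ι => gl h) ∂(nl (ι := ι) h N)
        ≤ ∫⁻ z, ENNReal.ofReal (lik f h ψ₀ N z ^ 2) * ENNReal.ofReal (1 + rate h F ι ^ 2)
            ∂(nl (ι := ι) h N) := by
          refine lintegral_mono fun z => ?_
          rw [lintegral_const_mul' _ _ ENNReal.ofReal_ne_top]
          exact mul_le_mul' le_rfl (lintegral_qs_sq f h hh hF hsmall N _)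
      _ ≤ _ := by
          rw [lintegral_mul_const' _ _ ENNReal.ofReal_ne_top, pow_succ (1 + rate h F ι ^ 2),
            ENNReal.ofReal_mul (by positivity)]
          exact mul_le_mul' ih le_rfl

lemma integrable_lik_sq [Nonempty Ω] (hh : h ≠ 0) {F : ℝ} (hF : ∀ j i S, |f j i S| ≤ F)
    (hsmall : rate h F ι ≤ 1) (N : ℕ) :
    Integrable (fun z => lik f h ψ₀ N z ^ 2) (nl (ι := ι) h N) :=
  ⟨((measurable_lik f h ψ₀ N).pow_const 2).aestronglyMeasurable, by
    rw [hasFiniteIntegral_iff_ofReal (ae_of_all _ fun z => sq_nonneg _)]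
    exact lt_of_le_of_lt (lintegral_lik_sq f h ψ₀ hh hF hsmall N) ENNReal.ofReal_lt_top⟩

lemma integrable_lik [Nonempty Ω] (hh : h ≠ 0) {F : ℝ} (hF : ∀ j i S, |f j i S| ≤ F)
    (hsmall : rate h F ι ≤ 1) (N : ℕ) :
    Integrable (fun z => lik f h ψ₀ N z) (nl (ι := ι) h N) := by
  refine ((integrable_lik_sq f h ψ₀ hh hF hsmall N).add (integrable_const (1:ℝ))).mono'
    (measurable_lik f h ψ₀ N).aestronglyMeasurable (ae_of_all _ fun z => ?_)
  rw [Real.norm_eq_abs, abs_of_nonneg (lik_nonneg f h ψ₀ N z)]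
  simp only [Pi.add_apply]
  nlinarith [sq_nonneg (lik f h ψ₀ N z - 1), lik_nonneg f h ψ₀ N z]

/-- The law of the innovations. -/
theorem Epl_innN [Nonempty Ω] (hh : h ≠ 0) {F : ℝ} (hF : ∀ j i S, |f j i S| ≤ F)
    (hsmall : rate h F ι ≤ 1) :
    ∀ (N : ℕ) (G : Noi N ι → ℝ) (B : ℝ), Measurable G → (∀ z, |G z| ≤ B) →
      Epl f h ψ₀ N (fun _ y => G (innN f h ψ₀ N y))
        = ∫ z, lik f h ψ₀ N z * G z ∂(nl (ι := ι) h N) := by
  intro N
  induction N with
  | zero =>
    intro G B _ _
    have : ∀ z z' : Noi 0 ι, z = z' := fun z z' => funext fun q => q.1.elim0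
    have e : ∀ z : Noi 0 ι, G z = G 0 := fun z => congrArg G (this z 0)
    simp only [Epl, lik, Finset.range_zero, Finset.prod_empty, one_mul, e]
    simp [← Finset.sum_mul, sum_post]
  | succ N ih =>
    intro G B mG bG
    set ρ := Measure.pi fun _ : ι => gl h
    set Ψ : Noi N ι → ℝ := fun z => ∑ S, post (state f h ψ₀ (ext z) N) S *
      ∫ ξ, G (snoc (z, fun i => ξ i + h * (f N i S - ev (state f h ψ₀ (ext z) N) (f N i)))) ∂ρ
      with hΨ
    have mst := measurable_state f h ψ₀ (α := Noi N ι) measurable_ext N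
    have mjoint : ∀ S, Measurable fun p : Noi N ι × (ι → ℝ) =>
        G (snoc (p.1, fun i => p.2 i + h * (f N i S - ev (state f h ψ₀ (ext p.1) N) (f N i)))) := by
      intro S
      refine mG.comp (measurable_snoc.comp (measurable_fst.prodMk
        (measurable_pi_lambda _ fun i => ?_)))
      exact ((measurable_pi_apply i).comp measurable_snd).add (measurable_const.mul
        (measurable_const.sub ((measurable_ev (φ := fun _ => f N i) mst fun _ => measurable_const).comp measurable_fst)))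
    have mΨ : Measurable Ψ := Finset.measurable_sum _ fun S _ =>
      (measurable_post mst S).mul (mjoint S).stronglyMeasurable.integral_prod_right'.measurable
    have bΨ : ∀ z, |Ψ z| ≤ B := fun z => abs_ev_le _ fun S => by
      simpa using norm_integral_le_of_norm_le_const (μ := ρ)
        (ae_of_all _ fun ξ : ι → ℝ => show ‖G (snoc (z, fun i =>
          ξ i + h * (f N i S - ev (state f h ψ₀ (ext z) N) (f N i))))‖ ≤ B from bG _)
    have e1 : Epl f h ψ₀ (N + 1) (fun _ y => G (innN f h ψ₀ (N + 1) y))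
        = Epl f h ψ₀ N (fun _ y => Ψ (innN f h ψ₀ N y)) := by
      rw [Epl_step f h ψ₀ hh N (Φ := fun y => G (innN f h ψ₀ (N + 1) y))
        (mG.comp (measurable_innN f h ψ₀ (N + 1) measurable_ext)) (B := B) fun z => bG _]
      congr 1
      funext _ y
      simp only [hΨ, state_innN]
      refine Finset.sum_congr rfl fun S _ => ?_
      congr 1
      refine integral_congr_ae (ae_of_all _ fun ξ => ?_)
      simp only [innN_update]
      congr 3
      funext i
      ring
    rw [e1, ih Ψ B mΨ bΨ, ← (snoc_preserving h N).map_eq,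
      integral_map (f := fun z => lik f h ψ₀ (N + 1) z * G z) measurable_snoc.aemeasurable
        ((measurable_lik f h ψ₀ (N + 1)).mul mG).aestronglyMeasurable]
    have iP : Integrable (fun p => lik f h ψ₀ (N + 1) (snoc p) * G (snoc p))
        ((nl (ι := ι) h N).prod ρ) := by
      have i0 : Integrable (fun z => lik f h ψ₀ (N + 1) z * G z) (nl (ι := ι) h (N + 1)) :=
        (integrable_lik f h ψ₀ hh hF hsmall (N + 1)).mul_bdd (c := B) mG.aestronglyMeasurable
          (ae_of_all _ bG)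
      exact ((snoc_preserving h N).integrable_comp
        ((measurable_lik f h ψ₀ (N + 1)).mul mG).aestronglyMeasurable).2 i0
    rw [integral_prod _ iP]
    refine integral_congr_ae (ae_of_all _ fun z => ?_)
    simp only [lik_snoc, mul_assoc, integral_const_mul]
    congr 1
    simp only [qs, Finset.sum_mul, hΨ, mul_assoc]
    have mz : Measurable fun x : ι → ℝ => G (snoc (z, x)) :=
      mG.comp (measurable_snoc.comp measurable_prodMk_left)
    have iz : ∀ a : ι → ℝ, Integrable (fun x => tiltProd (h : ℝ) a x * G (snoc (z, x))) ρ :=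
      fun a => (integrable_tiltProd h a).mul_bdd (c := B) mz.aestronglyMeasurable
        (ae_of_all _ fun x => bG _)
    rw [integral_finsetSum _ fun S _ => (iz _).const_mul _]
    simp only [integral_const_mul]
    refine Finset.sum_congr rfl fun S _ => ?_
    congr 1
    exact integral_shift hh (fun i => f N i S - ev (state f h ψ₀ (ext z) N) (f N i))
      (mG.comp (measurable_snoc.comp measurable_prodMk_left))

/-- The innovations are close in law to Gaussian noise. -/
theorem Epl_innN_close [Nonempty Ω] (hh : h ≠ 0) {F : ℝ} (hF : ∀ j i S, |f j i S| ≤ F)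
    (hsmall : rate h F ι ≤ 1) (N : ℕ) {G : Noi N ι → ℝ} {B : ℝ} (mG : Measurable G)
    (bG : ∀ z, |G z| ≤ B) {ε : ℝ} (hε : 0 < ε) :
    |Epl f h ψ₀ N (fun _ y => G (innN f h ψ₀ N y)) - ∫ z, G z ∂(nl (ι := ι) h N)|
      ≤ B * (((1 + rate h F ι ^ 2) ^ N - 1) / (2 * ε) + ε / 2) := by
  rw [Epl_innN f h ψ₀ hh hF hsmall N G B mG bG]
  have hB : 0 ≤ B := (abs_nonneg _).trans (bG 0)
  set L := lik f h ψ₀ N with hL
  have i1 : Integrable L (nl (ι := ι) h N) := integrable_lik f h ψ₀ hh hF hsmall N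
  have i2 : Integrable (fun z => L z ^ 2) (nl (ι := ι) h N) :=
    integrable_lik_sq f h ψ₀ hh hF hsmall N
  have h1 : ∫ z, L z ∂(nl (ι := ι) h N) = 1 := by
    have := Epl_innN f h ψ₀ hh hF hsmall N (fun _ => 1) 1 measurable_const fun _ => by simp
    simpa [Epl, ← Finset.sum_mul, sum_post] using this.symm
  have h2 : ∫ z, L z ^ 2 ∂(nl (ι := ι) h N) ≤ (1 + rate h F ι ^ 2) ^ N := by
    rw [integral_eq_lintegral_of_nonneg_ae (ae_of_all _ fun z => sq_nonneg _)
      i2.aestronglyMeasurable]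
    exact ENNReal.toReal_le_of_le_ofReal (by positivity) (lintegral_lik_sq f h ψ₀ hh hF hsmall N)
  have iG : Integrable G (nl (ι := ι) h N) := integrable_of_bdd mG bG
  have iLG : Integrable (fun z => L z * G z) (nl (ι := ι) h N) :=
    i1.mul_bdd (c := B) mG.aestronglyMeasurable (ae_of_all _ bG)
  have iA : Integrable (fun z => L z ^ 2 - 2 * L z) (nl (ι := ι) h N) := i2.sub (i1.const_mul 2)
  have iB : Integrable (fun z => L z ^ 2 - 2 * L z + 1) (nl (ι := ι) h N) :=
    iA.add (integrable_const _)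
  rw [← integral_sub iLG iG]
  refine abs_integral_le_integral_abs.trans ?_
  calc ∫ z, |L z * G z - G z| ∂(nl (ι := ι) h N)
      ≤ ∫ z, B * ((L z ^ 2 - 2 * L z + 1) / (2 * ε) + ε / 2) ∂(nl (ι := ι) h N) := by
        refine integral_mono (iLG.sub iG).abs
          (((iB.div_const _).add (integrable_const _)).const_mul B) fun z => ?_
        simp only
        rw [show L z * G z - G z = G z * (L z - 1) by ring, abs_mul]
        refine mul_le_mul (bG z) ?_ (abs_nonneg _) hB
        rw [show L z ^ 2 - 2 * L z + 1 = |L z - 1| ^ 2 by rw [sq_abs]; ring,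
          div_add' _ _ _ (by positivity), le_div_iff₀ (by positivity)]
        nlinarith [sq_nonneg (|L z - 1| - ε)]
    _ ≤ _ := by
        rw [integral_const_mul, integral_add (iB.div_const _) (integrable_const _), integral_div,
          integral_add iA (integrable_const _), integral_sub i2 (i1.const_mul 2),
          integral_const_mul, h1]
        simp only [integral_const, probReal_univ, smul_eq_mul, one_mul]
        refine mul_le_mul_of_nonneg_left (add_le_add_left ?_ _) hB
        exact div_le_div_of_nonneg_right (by linarith) (by positivity)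

end

end Vale.Agent.P161.Gen

namespace Vale.Agent.P161.Edge

open MeasureTheory ProbabilityTheory Finset Function
open scoped NNReal

noncomputable section

theorem genLawStmt : GenLawStmt := by
  intro ι Ω _ _ _ f h ψ₀ hh
  refine ⟨fun N B φ Φ hA => ?_, fun N B Φ hA => ?_⟩
  · obtain ⟨S₀⟩ := ‹Nonempty Ω›
    rw [Gen.Epl_tower f h ψ₀ hh N (Φ := fun S y => φ S * Φ y)
      (fun S => (hA.1 S₀).const_mul _) (B := (∑ S, |φ S|) * B) fun S z => by
        rw [abs_mul]
        exact mul_le_mul (Finset.single_le_sum (fun S _ => abs_nonneg (φ S)) (Finset.mem_univ S))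
          (hA.2 S₀ _) (abs_nonneg _) (Finset.sum_nonneg fun S _ => abs_nonneg _)]
    simp only [Gen.ev, Finset.sum_mul, mul_assoc]
  · obtain ⟨S₀⟩ := ‹Nonempty Ω›
    exact Gen.Epl_step f h ψ₀ hh N (hA.1 S₀) fun z => hA.2 S₀ _

theorem genCloseStmt : GenCloseStmt := by
  intro C F T δ hδ
  set K := 4 * F ^ 2 * (C : ℝ) with hK
  have hK0 : 0 ≤ K := by positivity
  have hT : (0 : ℝ) < |T| * K ^ 2 + K + 1 := by positivity
  refine ⟨min 1 (δ ^ 2 / 4) / (|T| * K ^ 2 + K + 1), by positivity, ?_⟩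
  intro ι Ω _ _ _ f h ψ₀ hC hF hh hle N hNT B Φ hA
  obtain ⟨S₀⟩ := ‹Nonempty Ω›
  rw [le_div_iff₀ hT] at hle
  have h0 : (0 : ℝ) ≤ h := h.coe_nonneg
  have hm1 : min (1:ℝ) (δ ^ 2 / 4) ≤ 1 := min_le_left _ _
  have hm2 : min (1:ℝ) (δ ^ 2 / 4) ≤ δ ^ 2 / 4 := min_le_right _ _
  have hT0 := abs_nonneg T
  have hr : Gen.rate h F ι ≤ h * K := by
    unfold Gen.rate
    rw [hK]
    gcongr
  have hr0 : 0 ≤ Gen.rate h F ι := by unfold Gen.rate; positivity
  have hsmall : Gen.rate h F ι ≤ 1 := by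
    nlinarith [mul_nonneg (mul_nonneg h0 hT0) (sq_nonneg K)]
  set x := Gen.rate h F ι ^ 2 with hx
  have hx0 : 0 ≤ x := sq_nonneg _
  have hy : (N : ℝ) * x ≤ min 1 (δ ^ 2 / 4) := by
    calc (N : ℝ) * x ≤ N * (h * K) ^ 2 := by
          refine mul_le_mul_of_nonneg_left ?_ N.cast_nonneg
          exact pow_le_pow_left₀ hr0 hr 2
      _ = (N * h) * (h * K ^ 2) := by ring
      _ ≤ |T| * (h * K ^ 2) :=
          mul_le_mul_of_nonneg_right (hNT.trans (le_abs_self T)) (by positivity)
      _ ≤ _ := by nlinarith [mul_nonneg h0 hK0]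
  have hchi : (1 + x) ^ N - 1 ≤ δ ^ 2 / 2 := by
    have h1 : (1 + x) ^ N ≤ Real.exp (N * x) := by
      rw [Real.exp_nat_mul]
      exact pow_le_pow_left₀ (by positivity) (by linarith [Real.add_one_le_exp x]) _
    have hy0 : 0 ≤ (N : ℝ) * x := by positivity
    have h2 := Real.abs_exp_sub_one_le (x := (N : ℝ) * x) (by rw [abs_of_nonneg hy0]; linarith)
    rw [abs_of_nonneg hy0] at h2
    linarith [(abs_le.1 h2).2]
  set G : Gen.Noi N ι → ℝ := fun z => Φ (Gen.ext z) with hG
  have e : ∀ y, Φ (fun j i => if j < N then Gen.inn f h ψ₀ y j i else 0)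
      = G (Gen.innN f h ψ₀ N y) := fun y => by
    simp only [hG]
    congr 1
  have bG : ∀ z, |G z| ≤ B := fun z => hA.2 S₀ _
  have hB : 0 ≤ B := (abs_nonneg _).trans (bG 0)
  simp only [e]
  refine (Gen.Epl_innN_close f h ψ₀ hh hF hsmall N (hA.1 S₀) bG (ε := δ) hδ).trans ?_
  refine mul_le_mul_of_nonneg_left ?_ hB
  have h3 : ((1 + x) ^ N - 1) / (2 * δ) ≤ δ ^ 2 / 2 / (2 * δ) :=
    div_le_div_of_nonneg_right hchi (by positivity)
  have h4 : δ ^ 2 / 2 / (2 * δ) = δ / 4 := by field_simp; ring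
  linarith

end

end Vale.Agent.P161.Edge
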