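import Vale.Agent.P161.Edge.ModelBasic
import Vale.Agent.P161.Cumulant

/-!
Linearity of the planted expectation, the tower property, measurability of posterior quantities,
and the bound on the effect of observations outside a ball.
-/

namespace Vale.Agent.P161.Edge.Mdl

open MeasureTheory ProbabilityTheory Finset Function
open scoped NNReal Classical

noncomputable section

variable {V : Type} {G : SimpleGraph V}

/-! ### Elementary properties of the expectation -/

lemma E_congr (P : Prm) {D : Finset V} {N : ℕ} {Φ Ψ : Finset V → (ℕ → V × V → ℝ) → ℝ}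
    (h : ∀ S ⊆ D, ∀ Y, Φ S Y = Ψ S Y) : E G P D N Φ = E G P D N Ψ := by
  unfold E Gen.Epl
  refine Finset.sum_congr rfl fun S _ => ?_
  simp only [h S.1 (Finset.mem_powerset.1 S.2)]

lemma E_add (P : Prm) {D : Finset V} {N : ℕ} {B B' : ℝ}
    {Φ Ψ : Finset V → (ℕ → V × V → ℝ) → ℝ} (hΦ : Adm G D N B Φ) (hΨ : Adm G D N B' Ψ) :
    E G P D N (fun S Y => Φ S Y + Ψ S Y) = E G P D N Φ + E G P D N Ψ := by
  unfold E Gen.Epl
  rw [← Finset.sum_add_distrib]
  refine Finset.sum_congr rfl fun S _ => ?_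
  rw [integral_add (integrable_plant hΦ P S S.1) (integrable_plant hΨ P S S.1)]
  ring

lemma E_sub (P : Prm) {D : Finset V} {N : ℕ} {B B' : ℝ}
    {Φ Ψ : Finset V → (ℕ → V × V → ℝ) → ℝ} (hΦ : Adm G D N B Φ) (hΨ : Adm G D N B' Ψ) :
    E G P D N (fun S Y => Φ S Y - Ψ S Y) = E G P D N Φ - E G P D N Ψ := by
  unfold E Gen.Epl
  rw [← Finset.sum_sub_distrib]
  refine Finset.sum_congr rfl fun S _ => ?_
  rw [integral_sub (integrable_plant hΦ P S S.1) (integrable_plant hΨ P S S.1)]
  ring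

lemma E_const_mul (P : Prm) {D : Finset V} {N : ℕ} (c : ℝ)
    (Φ : Finset V → (ℕ → V × V → ℝ) → ℝ) :
    E G P D N (fun S Y => c * Φ S Y) = c * E G P D N Φ := by
  unfold E Gen.Epl
  rw [Finset.mul_sum]
  refine Finset.sum_congr rfl fun S _ => ?_
  rw [integral_const_mul]
  ring

lemma E_const (P : Prm) (D : Finset V) (N : ℕ) (c : ℝ) : E G P D N (fun _ _ => c) = c := by
  have hP : IsProbabilityMeasure (Gen.nl (ι := obsIx G D) P.h N) := by
    unfold Gen.nl; infer_instance
  have hne : Nonempty (Cfg D) := ⟨⟨∅, by simp⟩⟩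
  have hpos : 0 < ∑ S : Cfg D, Real.exp (lpw G P.θ D S) :=
    Finset.sum_pos (fun S _ => Real.exp_pos _) Finset.univ_nonempty
  unfold E Gen.Epl Gen.post
  simp only [integral_const, probReal_univ, smul_eq_mul, one_mul, ← Finset.sum_mul,
    ← Finset.sum_div, div_self hpos.ne']

lemma E_mono (P : Prm) {D : Finset V} {N : ℕ} {B B' : ℝ}
    {Φ Ψ : Finset V → (ℕ → V × V → ℝ) → ℝ} (hΦ : Adm G D N B Φ) (hΨ : Adm G D N B' Ψ)
    (h : ∀ S ⊆ D, ∀ Y, Φ S Y ≤ Ψ S Y) : E G P D N Φ ≤ E G P D N Ψ := by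
  unfold E Gen.Epl
  refine Finset.sum_le_sum fun S _ => mul_le_mul_of_nonneg_left ?_ ?_
  · exact integral_mono (integrable_plant hΦ P S S.1) (integrable_plant hΨ P S S.1)
      fun ξ => h S.1 (Finset.mem_powerset.1 S.2) _
  · exact div_nonneg (Real.exp_pos _).le (Finset.sum_nonneg fun T _ => (Real.exp_pos _).le)

/-! ### Measurability -/

lemma measurable_tot_ext (D : Finset V) (N k : ℕ) (i : V × V) :
    Measurable fun z : Gen.Noi N (obsIx G D) => tot G D (Gen.ext z) k i := by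
  unfold tot Gen.ext
  split_ifs
  · exact measurable_pi_apply _
  · exact measurable_const
  · exact measurable_const

lemma measurable_fieldH {α : Type*} [MeasurableSpace α] (P : Prm) (D : Finset V)
    {Y : α → ℕ → V × V → ℝ} (hY : ∀ k i, Measurable fun a => Y a k i) (j : ℕ) (v : V) :
    Measurable fun a => fieldH G P D (Y a) j v := by
  unfold fieldH
  exact Finset.measurable_sum _ fun k _ => Finset.measurable_sum _ fun i _ =>
    (hY k i).const_mul _

lemma measurable_avg_tilt {α : Type*} [MeasurableSpace α] (P : Prm) (D : Finset V)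
    {Y : α → ℕ → V × V → ℝ} (hY : ∀ k i, Measurable fun a => Y a k i) (j : ℕ) (θ : ℝ)
    (φ : (V → ℝ) → ℝ) :
    Measurable fun a => avg G θ D (tilt G P D (Y a) j) φ := by
  have hS : ∀ ψ : (V → ℝ) → ℝ, Measurable fun a => Sm G θ D (tilt G P D (Y a) j) ψ := by
    intro ψ
    unfold Sm tilt
    refine Finset.measurable_sum _ fun S _ => (Measurable.const_mul ?_ _).mul_const _
    exact Finset.measurable_prod _ fun v _ =>
      ((continuous_tanh'.measurable.comp (measurable_fieldH P D hY j v)).mul_const _).const_add _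
  unfold avg
  exact (hS φ).div (hS fun _ => 1)

lemma measurable_pmean {α : Type*} [MeasurableSpace α] (P : Prm) (D : Finset V)
    {Y : α → ℕ → V × V → ℝ} (hY : ∀ k i, Measurable fun a => Y a k i) (j : ℕ) (v : V) :
    Measurable fun a => pmean G P D (Y a) j v := by
  unfold pmean mf
  by_cases hv : v ∈ D
  · simp only [hv, if_true]
    exact measurable_avg_tilt P D hY j _ _
  · simp only [hv, if_false]
    exact measurable_const

lemma measurable_pcov {α : Type*} [MeasurableSpace α] (P : Prm) (D : Finset V)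
    {Y : α → ℕ → V × V → ℝ} (hY : ∀ k i, Measurable fun a => Y a k i) (j : ℕ) (v w : V) :
    Measurable fun a => pcov G P D (Y a) j v w := by
  unfold pcov cv mean
  exact (measurable_avg_tilt P D hY j _ _).sub
    ((measurable_avg_tilt P D hY j _ _).mul (measurable_avg_tilt P D hY j _ _))

/-! ### Dependence and the tower property -/

/-- The posterior expectation of `φ` on `A`. -/
def xA (G : SimpleGraph V) (P : Prm) (A : Finset V) (j : ℕ) (φ : (V → ℝ) → ℝ)
    (Y : ℕ → V × V → ℝ) : ℝ :=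
  avg G (thetaJ P j) A (tilt G P A Y j) φ

lemma fieldH_congr (P : Prm) {A : Finset V} {j : ℕ} {Y Y' : ℕ → V × V → ℝ}
    (h : ∀ k < j, ∀ i ∈ obsIx G A, Y k i = Y' k i) (v : V) :
    fieldH G P A Y j v = fieldH G P A Y' j v :=
  Finset.sum_congr rfl fun k hk => Finset.sum_congr rfl fun i hi => by
    rw [h k (Finset.mem_range.1 hk) i hi]

lemma tilt_congr (P : Prm) {A : Finset V} {j : ℕ} {Y Y' : ℕ → V × V → ℝ}
    (h : ∀ k < j, ∀ i ∈ obsIx G A, Y k i = Y' k i) : tilt G P A Y j = tilt G P A Y' j := by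
  funext v
  unfold tilt
  rw [fieldH_congr P h v]

lemma abs_xA_le {P : Prm} {j : ℕ} (hθ : Par (thetaJ P j)) (A : Finset V) {φ : (V → ℝ) → ℝ}
    {B : ℝ} (hφ : ∀ s, |φ s| ≤ B) (Y : ℕ → V × V → ℝ) : |xA G P A j φ Y| ≤ B :=
  abs_avg_le hθ A (Fld.tanh _) fun _ => hφ _

lemma depOn_of_ball {A : Finset V} {o : V} {r : ℕ} {φ : (V → ℝ) → ℝ}
    (hball : ∀ v, G.dist o v ≤ r → v ∈ A)
    (hφ : ∀ s s' : V → ℝ, (∀ v, G.dist o v ≤ r → s v = s' v) → φ s = φ s') : DepOn φ A :=
  fun s t hst => hφ s t fun v hv => hst v (hball v hv)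

/-- Tower property: the posterior expectation is the conditional expectation. -/
theorem E_tower (hL : GenLawStmt) (P : Prm) (h0 : 0 ≤ P.θ) (h1 : P.θ < 1) (hh : P.h ≠ 0)
    (hη : 0 ≤ P.η) (A : Finset V) (j : ℕ) {B : ℝ} (φ : (V → ℝ) → ℝ)
    (Ψ : (ℕ → V × V → ℝ) → ℝ) (hΨ : Adm G A j B (fun _ Y => Ψ Y)) :
    E G P A j (fun S Y => φ (spin S) * Ψ Y) = E G P A j (fun _ Y => xA G P A j φ Y * Ψ Y) := by
  have hne : Nonempty (Cfg A) := ⟨⟨∅, by simp⟩⟩
  have := (hL (obsIx G A) (Cfg A) (feat G P.η P.N₁ A) P.h (lpw G P.θ A) hh).1 j B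
    (fun S => φ (spin S.1)) (fun y => Ψ (tot G A y))
    ⟨fun _ => hΨ.1 ∅, fun _ y => hΨ.2 ∅ _⟩
  refine this.trans ?_
  unfold E
  refine congrArg _ (funext fun S => funext fun y => ?_)
  rw [ev_llk P h0 h1 hη A y j (fun T => φ (spin T))]
  congr 1
  unfold xA avg
  rw [Sm_congr (fun _ _ => rfl) (f := fun s => φ (spin (toSet A s))) (f' := φ)
    (fun T hT => by rw [toSet_spin (Finset.mem_powerset.1 hT)])]

lemma msq_step (hL : GenLawStmt) (hG : G.IsTree) (P : Prm) (h0 : 0 ≤ P.θ) (h1 : P.θ < 1)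
    (hh : P.h ≠ 0) (hη : 0 ≤ P.η) (ht : Real.tanh (P.η * (P.N₁ * P.h)) ≤ P.θ) {A D : Finset V}
    (hA : Closed G A) (hAne : A.Nonempty) (hD : Closed G D) (hsub : A ⊆ D) (j : ℕ)
    {φ : (V → ℝ) → ℝ} (hdep : DepOn φ A) (hφ : ∀ s, |φ s| ≤ 1) :
    E G P D j (fun _ Y => (xA G P D j φ Y - xA G P A j φ Y) ^ 2) =
      E G P D j (fun _ Y => xA G P D j φ Y ^ 2) - E G P A j (fun _ Y => xA G P A j φ Y ^ 2) := by
  have hθ := par_thetaJ h1 hη ht j
  have mX : ∀ (B B' : Finset V),
      Measurable fun z : Gen.Noi j (obsIx G B) => xA G P B' j φ (tot G B (Gen.ext z)) :=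
    fun B B' => measurable_avg_tilt P B' (measurable_tot_ext B j) j _ φ
  have bX : ∀ B Y, |xA G P B j φ Y| ≤ 1 := fun B Y => abs_xA_le hθ B hφ Y
  have bmul : ∀ a b : ℝ, |a| ≤ 1 → |b| ≤ 1 → |a * b| ≤ 1 := fun a b ha hb => by
    rw [abs_mul]
    exact mul_le_one₀ ha (abs_nonneg b) hb
  have aDD : Adm G D j 1 (fun _ Y => xA G P D j φ Y ^ 2) :=
    ⟨fun _ => (mX D D).pow_const 2, fun _ Y => by simp only [sq]; exact bmul _ _ (bX D Y) (bX D Y)⟩
  have aAA : ∀ B, Adm G B j 1 (fun _ Y => xA G P A j φ Y ^ 2) := fun B =>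
    ⟨fun _ => (mX B A).pow_const 2, fun _ Y => by simp only [sq]; exact bmul _ _ (bX A Y) (bX A Y)⟩
  have aDA : Adm G D j 1 (fun _ Y => xA G P D j φ Y * xA G P A j φ Y) :=
    ⟨fun _ => (mX D D).mul (mX D A), fun _ Y => bmul _ _ (bX D Y) (bX A Y)⟩
  have aA : ∀ B, Adm G B j 1 (fun _ Y => xA G P A j φ Y) := fun B =>
    ⟨fun _ => mX B A, fun _ Y => bX A Y⟩
  have aφA : Adm G A j 1 (fun S Y => φ (spin S) * xA G P A j φ Y) :=
    ⟨fun S => (mX A A).const_mul _, fun S Y => bmul _ _ (hφ _) (bX A Y)⟩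
  have dX : ∀ Y Y' : ℕ → V × V → ℝ, (∀ k < j, ∀ i ∈ obsIx G A, Y k i = Y' k i) →
      xA G P A j φ Y = xA G P A j φ Y' := fun Y Y' e => by
    unfold xA; rw [tilt_congr P e]
  have m2 : E G P D j (fun _ Y => xA G P A j φ Y ^ 2) = E G P A j (fun _ Y => xA G P A j φ Y ^ 2) :=
    E_marginal hG P h0 h1 hA hAne hD hsub le_rfl (aAA A) fun S S' Y Y' _ e => by
      simp only [dX Y Y' fun k hk i hi => e k hk i hi (Finset.notMem_empty _)]
  have cross : E G P D j (fun _ Y => xA G P D j φ Y * xA G P A j φ Y) =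
      E G P A j (fun _ Y => xA G P A j φ Y ^ 2) := by
    rw [← E_tower hL P h0 h1 hh hη D j φ _ (aA D),
      E_marginal hG P h0 h1 hA hAne hD hsub le_rfl aφA fun S S' Y Y' hs e => by
        simp only [dX Y Y' fun k hk i hi => e k hk i hi (Finset.notMem_empty _),
          hdep (spin S) (spin S') hs],
      E_tower hL P h0 h1 hh hη A j φ _ (aA A)]
    exact E_congr P fun S _ Y => (sq _).symm
  have a1 : Adm G D j 2 (fun _ Y => (-2) * (xA G P D j φ Y * xA G P A j φ Y)) :=
    ⟨fun _ => ((mX D D).mul (mX D A)).const_mul _, fun _ Y => by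
      rw [abs_mul, abs_neg, abs_two]
      linarith [bmul _ _ (bX D Y) (bX A Y)]⟩
  have a2 : Adm G D j 3 (fun _ Y => xA G P D j φ Y ^ 2 +
      (-2) * (xA G P D j φ Y * xA G P A j φ Y)) :=
    ⟨fun S => (aDD.1 S).add (a1.1 S), fun S Y =>
      (abs_add_le _ _).trans (by linarith [aDD.2 S Y, a1.2 S Y])⟩
  rw [E_congr P (Ψ := fun _ Y => (xA G P D j φ Y ^ 2 +
    (-2) * (xA G P D j φ Y * xA G P A j φ Y)) + xA G P A j φ Y ^ 2) fun S _ Y => by ring,
    E_add P a2 (aAA D), E_add P aDD a1, E_const_mul, cross, m2]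
  ring

/-! ### The influence bound -/

lemma closed_filter_ball (hG : G.IsTree) {D : Finset V} (hD : Closed G D) (o : V) (r : ℕ) :
    Closed G (D.filter fun v => G.dist o v ≤ r) := by
  intro v hv x hx hxv
  rw [Finset.mem_filter] at hv hx
  obtain ⟨p, hp, hxp, hdp⟩ := hD v hv.1 x hx.1 hxv
  refine ⟨p, Finset.mem_filter.2 ⟨hp, ?_⟩, hxp, hdp⟩
  rcases hG.dist_eq_dist_add_one_of_adj o hxp with h | h
  · omega
  · have h3 : 1 ≤ G.dist x v := hG.connected.pos_dist_of_ne hxv
    have := dist_add_of_split hG (G.dist x v) rfl hxp hdp h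
    omega

lemma abs_avg_le_avg {θ : ℝ} (hθ : Par θ) (D : Finset V) {g : V → ℝ} (hg : Fld g)
    {f k : (V → ℝ) → ℝ} (h : ∀ S, |f (spin S)| ≤ k (spin S)) :
    |avg G θ D g f| ≤ avg G θ D g k := by
  unfold avg
  rw [abs_div, abs_of_pos (Sm_one_pos (G := G) hθ D hg)]
  refine div_le_div_of_nonneg_right ?_ (Sm_one_pos (G := G) hθ D hg).le
  unfold Sm
  refine (Finset.abs_sum_le_sum_abs _ _).trans (Finset.sum_le_sum fun S _ => ?_)
  have := mul_pos (wt_pos (G := G) hθ D S) (tilt_pos hg D S)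
  rw [abs_mul, abs_of_pos this]
  exact mul_le_mul_of_nonneg_left (h S) this.le

lemma avg_update_le_mean {θ : ℝ} (hθ : Par θ) {D : Finset V} {w : V} (hw : w ∈ D) {g : V → ℝ}
    (hg : Fld g) {a b : ℝ} (ha : |a| < 1) (hb : |b| < 1) {φ : (V → ℝ) → ℝ}
    (hφ : ∀ s, |φ s| ≤ 1) :
    |avg G θ D (update g w a) φ - avg G θ D (update g w b) φ| ≤
      |mean G θ D (update g w a) w - mean G θ D (update g w b) w| := by
  set g₀ := update g w 0 with hg₀
  have h0 : Fld g₀ := hg.update w (by simp)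
  set m := mean G θ D g₀ w with hm
  have hm1 : |m| ≤ 1 := abs_mean_le hθ _ h0 w
  have d1 : 0 < 1 + a * m := one_add_mul_pos ha hm1
  have d2 : 0 < 1 + b * m := one_add_mul_pos hb hm1
  have hdiff : ∀ f, avg G θ D (update g w a) f - avg G θ D (update g w b) f =
      (a - b) * (avg G θ D g₀ (fun s => f s * s w) - avg G θ D g₀ f * m) /
        ((1 + a * m) * (1 + b * m)) := fun f => by
    rw [avg_update hθ hw hg a f, avg_update hθ hw hg b f, ← hg₀, ← hm,
      div_sub_div _ _ d1.ne' d2.ne']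
    congr 1
    ring
  have hm2 := one_sub_sq_mean_nonneg (G := G) hθ D h0 w
  rw [← hm] at hm2
  have hcov : |avg G θ D g₀ (fun s => φ s * s w) - avg G θ D g₀ φ * m| ≤ 1 - m ^ 2 := by
    have e1 : avg G θ D g₀ (fun s => φ s * s w) - avg G θ D g₀ φ * m =
        avg G θ D g₀ (fun s => φ s * s w + (-m) * φ s) := by
      rw [avg_add, avg_smul]; ring
    have e2 : avg G θ D g₀ (fun s => 1 + (-m) * s w) = 1 - m ^ 2 := by
      rw [avg_add, avg_one hθ _ h0, avg_smul, hm]
      unfold mean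
      ring
    rw [e1, ← e2]
    refine abs_avg_le_avg hθ D h0 fun S => ?_
    have hs := spin_sq S w
    have hpos : 0 ≤ 1 + (-m) * spin S w := by
      have h := abs_le.1 hm1
      rcases mul_self_eq_one_iff.1 hs with e | e <;> rw [e] <;> linarith [h.1, h.2]
    rw [show φ (spin S) * spin S w + (-m) * φ (spin S)
        = φ (spin S) * spin S w * (1 + (-m) * spin S w) by
      linear_combination (m * φ (spin S)) * hs, abs_mul, abs_of_nonneg hpos, abs_mul, abs_spin,
      mul_one]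
    exact mul_le_of_le_one_left hpos (hφ _)
  have hsq : avg G θ D g₀ (fun s => s w * s w) = 1 := by
    rw [avg_congr_fun D g₀ (f' := fun _ => (1 : ℝ)) fun S => spin_sq S w, avg_one hθ _ h0]
  unfold mean
  rw [hdiff φ, hdiff (fun s => s w), hsq, abs_div, abs_div]
  refine div_le_div_of_nonneg_right ?_ (abs_nonneg _)
  rw [abs_mul, abs_mul]
  refine mul_le_mul_of_nonneg_left ?_ (abs_nonneg _)
  rw [show avg G θ D g₀ (fun s => s w) = m from rfl, ← sq, abs_of_nonneg hm2]
  exact hcov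

lemma avg_peel {θ : ℝ} (hθ : Par θ) {D : Finset V} {x p : V} (hx : x ∈ D) (hp : p ∈ D.erase x)
    (hxp : G.Adj x p) (hu : ∀ z ∈ D, G.Adj x z → z = p) {g : V → ℝ} (hg : Fld g)
    {f : (V → ℝ) → ℝ} (hf : DepOn f (D.erase x)) :
    avg G θ D g f =
      avg G θ (D.erase x) (update g p ((g p + θ * g x) / (1 + θ * g x * g p))) f := by
  have ht : |θ * g x| < 1 := hθ.mul_abs_lt (hg x).le
  unfold avg
  rw [Sm_peel_dep hx hp hxp hu g hf, Sm_peel_dep hx hp hxp hu g (fun _ _ _ => rfl),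
    Sm_absorb hp hg ht, Sm_absorb hp hg ht, ← mul_assoc, ← mul_assoc,
    mul_div_mul_left _ _ (mul_pos two_pos (one_add_mul_pos ht (hg p).le)).ne']

/-- A tilt outside a ball moves expectations inside it little. -/
theorem avg_update_bound (hG : G.IsTree) {θ : ℝ} (hθ : Par θ) {o : V} {r : ℕ}
    {φ : (V → ℝ) → ℝ}
    (hdep : ∀ s s' : V → ℝ, (∀ v, G.dist o v ≤ r → s v = s' v) → φ s = φ s')
    (hφ : ∀ s, |φ s| ≤ 1) :
    ∀ (D : Finset V), Closed G D → (∀ v, G.dist o v ≤ r → v ∈ D) → ∀ {g : V → ℝ}, Fld g →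
      ∀ {w : V}, w ∈ D → ∀ {a b : ℝ}, |a| < 1 → |b| < 1 →
        |avg G θ D (update g w a) φ - avg G θ D (update g w b) φ| ≤
          θ ^ (G.dist o w - r) *
            |mean G θ D (update g w a) w - mean G θ D (update g w b) w| := by
  intro D
  induction D using Finset.strongInduction with
  | H D ih =>
    intro hD hball g hg w hw a b ha hb
    by_cases hwr : G.dist o w ≤ r
    · rw [show G.dist o w - r = 0 by omega, pow_zero, one_mul]
      exact avg_update_le_mean hθ hw hg ha hb hφ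
    obtain ⟨x, hx, hxA, p, hp, hxp, hu, hD'⟩ := exists_leaf hG hD (closed_filter_ball hG hD o r)
      ⟨o, Finset.mem_filter.2 ⟨hball o (by simp), by simp⟩⟩ (Finset.filter_subset _ _)
      (fun h => hwr (by rw [← h] at hw; exact (Finset.mem_filter.1 hw).2))
    have hss : D.erase x ⊂ D := Finset.erase_ssubset hx
    have hball' : ∀ v, G.dist o v ≤ r → v ∈ D.erase x := fun v hv =>
      Finset.mem_erase.2 ⟨fun e => hxA (e ▸ Finset.mem_filter.2 ⟨hball v hv, hv⟩), hball v hv⟩
    have hdep' : DepOn φ (D.erase x) := depOn_of_ball hball' hdep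
    have hpx : p ≠ x := (Finset.mem_erase.1 hp).1
    by_cases hxw : x = w
    · subst hxw
      set T := fun c : ℝ => (g p + θ * c) / (1 + θ * c * g p) with hT
      have hTlt : ∀ c, |c| < 1 → |T c| < 1 := fun c hc =>
        absorb_abs_lt (hθ.mul_abs_lt hc.le) (hg p)
      have key : ∀ c, |c| < 1 → ∀ f, DepOn f (D.erase x) →
          avg G θ D (update g x c) f = avg G θ (D.erase x) (update g p (T c)) f := by
        intro c hc f hf
        rw [avg_peel hθ hx hp hxp hu (hg.update x hc) hf, update_self, update_of_ne hpx]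
        unfold avg
        rw [Sm_congr (g' := update g p (T c)) (f := f) (f' := f) (fun v hv => ?_) fun _ _ => rfl,
          Sm_congr (g' := update g p (T c)) (f := fun _ => (1 : ℝ)) (f' := fun _ => (1 : ℝ))
            (fun v hv => ?_) fun _ _ => rfl]
        all_goals
          by_cases hvp : v = p
          · subst hvp; simp [hT]
          · rw [update_of_ne hvp, update_of_ne hvp, update_of_ne (Finset.mem_erase.1 hv).1]
      have IH := ih _ hss hD' hball' hg hp (hTlt a ha) (hTlt b hb)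
      rw [key a ha φ hdep', key b hb φ hdep']
      refine IH.trans ?_
      have e : ∀ c, |c| < 1 →
          mean G θ (D.erase x) (update g p (T c)) p = mean G θ D (update g x c) p :=
        fun c hc => (key c hc _ (depOn_eval hp)).symm
      rw [e a ha, e b hb]
      have hstep := mean_update_bound hG hθ hD hg (Finset.mem_of_mem_erase hp) hx ha hb
      rw [SimpleGraph.dist_eq_one_iff_adj.2 hxp.symm, pow_one] at hstep
      refine (mul_le_mul_of_nonneg_left hstep (pow_nonneg hθ.1 _)).trans ?_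
      rw [← mul_assoc, ← pow_succ]
      refine mul_le_mul_of_nonneg_right (pow_le_pow_of_le_one hθ.1 hθ.2.le ?_) (abs_nonneg _)
      have h1 : G.dist o x ≤ G.dist o p + G.dist p x := hG.connected.dist_triangle
      rw [SimpleGraph.dist_eq_one_iff_adj.2 hxp.symm] at h1
      omega
    · have hw' : w ∈ D.erase x := Finset.mem_erase.2 ⟨Ne.symm hxw, hw⟩
      by_cases hpw : p = w
      · subst hpw
        set T := fun c : ℝ => (c + θ * g x) / (1 + θ * g x * c) with hT
        have hTlt : ∀ c, |c| < 1 → |T c| < 1 := fun c hc =>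
          absorb_abs_lt (hθ.mul_abs_lt (hg x).le) hc
        have key : ∀ c, |c| < 1 → ∀ f, DepOn f (D.erase x) →
            avg G θ D (update g p c) f = avg G θ (D.erase x) (update g p (T c)) f := by
          intro c hc f hf
          rw [avg_peel hθ hx hp hxp hu (hg.update p hc) hf, update_self, update_of_ne (Ne.symm hpx),
            update_idem]
        have IH := ih _ hss hD' hball' hg hw' (hTlt a ha) (hTlt b hb)
        rw [key a ha φ hdep', key b hb φ hdep']
        unfold mean at IH ⊢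
        rw [key a ha _ (depOn_eval hw'), key b hb _ (depOn_eval hw')]
        exact IH
      · set g' := update g p ((g p + θ * g x) / (1 + θ * g x * g p)) with hg'
        have hgf : Fld g' := hg.update p (absorb_abs_lt (hθ.mul_abs_lt (hg x).le) (hg p))
        have key : ∀ c, |c| < 1 → ∀ f, DepOn f (D.erase x) →
            avg G θ D (update g w c) f = avg G θ (D.erase x) (update g' w c) f := by
          intro c hc f hf
          rw [avg_peel hθ hx hp hxp hu (hg.update w hc) hf, update_of_ne hxw, update_of_ne hpw,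
            hg', update_comm hpw]
        have IH := ih _ hss hD' hball' hgf hw' ha hb
        rw [key a ha φ hdep', key b hb φ hdep']
        unfold mean at IH ⊢
        rw [key a ha _ (depOn_eval hw'), key b hb _ (depOn_eval hw')]
        exact IH

lemma avg_update_bound' (hG : G.IsTree) {θ : ℝ} (hθ : Par θ) {o : V} {r : ℕ}
    {φ : (V → ℝ) → ℝ}
    (hdep : ∀ s s' : V → ℝ, (∀ v, G.dist o v ≤ r → s v = s' v) → φ s = φ s')
    (hφ : ∀ s, |φ s| ≤ 1) {D : Finset V} (hD : Closed G D)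
    (hball : ∀ v, G.dist o v ≤ r → v ∈ D) {g : V → ℝ} (hg : Fld g) {w : V} (hw : w ∈ D)
    {a b : ℝ} (ha : |a| < 1) (hb : |b| < 1) :
    |avg G θ D (update g w a) φ - avg G θ D (update g w b) φ| ≤
      2 * θ ^ (G.dist o w - r) := by
  refine (avg_update_bound hG hθ hdep hφ D hD hball hg hw ha hb).trans ?_
  rw [mul_comm (2 : ℝ)]
  refine mul_le_mul_of_nonneg_left ?_ (pow_nonneg hθ.1 _)
  have h1 := abs_le.1 (abs_mean_le (G := G) hθ D (hg.update w ha) w)
  have h2 := abs_le.1 (abs_mean_le (G := G) hθ D (hg.update w hb) w)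
  exact abs_le.2 ⟨by linarith [h1.1, h2.2], by linarith [h1.2, h2.1]⟩

/-! ### The gain -/

lemma fieldH_erase (P : Prm) {D : Finset V} {x p : V} (hu : ∀ z ∈ D, G.Adj x z → z = p)
    (Y : ℕ → V × V → ℝ) (j : ℕ) {v : V} (hvx : v ≠ x) (hvp : v ≠ p) :
    fieldH G P (D.erase x) Y j v = fieldH G P D Y j v := by
  unfold fieldH
  refine Finset.sum_congr rfl fun k _ => ?_
  refine Finset.sum_subset (obsIx_mono (Finset.erase_subset _ _)) fun i hi hni => ?_
  obtain ⟨i1, i2, hi3⟩ := mem_obsIx.1 hi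
  have hor : i.1 = x ∨ i.2 = x := by
    by_contra hh
    push Not at hh
    exact hni (mem_obsIx.2
      ⟨Finset.mem_erase.2 ⟨hh.1, i1⟩, Finset.mem_erase.2 ⟨hh.2, i2⟩, hi3⟩)
  suffices mult i v = 0 by rw [this]; ring
  rcases hi3 with e | e
  · rcases hor with h | h
    · exact mult_eq_zero (by rw [h]; exact hvx.symm) (by rw [← e, h]; exact hvx.symm)
    · exact mult_eq_zero (by rw [e, h]; exact hvx.symm) (by rw [h]; exact hvx.symm)
  · rcases hor with h | h
    · have : i.2 = p := hu _ i2 (h ▸ e)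
      exact mult_eq_zero (by rw [h]; exact hvx.symm) (by rw [this]; exact hvp.symm)
    · have : i.1 = p := hu _ i1 (h ▸ e.symm)
      exact mult_eq_zero (by rw [this]; exact hvp.symm) (by rw [h]; exact hvx.symm)

lemma xA_erase_bound (hG : G.IsTree) (P : Prm) {j : ℕ} (hθ : Par (thetaJ P j)) {D : Finset V}
    (hD : Closed G D) {x p : V} (hx : x ∈ D) (hp : p ∈ D.erase x) (hxp : G.Adj x p)
    (hu : ∀ z ∈ D, G.Adj x z → z = p) (hD' : Closed G (D.erase x)) {o : V} {r : ℕ}
    (hball : ∀ v, G.dist o v ≤ r → v ∈ D.erase x) {φ : (V → ℝ) → ℝ}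
    (hdep : ∀ s s' : V → ℝ, (∀ v, G.dist o v ≤ r → s v = s' v) → φ s = φ s')
    (hφ : ∀ s, |φ s| ≤ 1) (Y : ℕ → V × V → ℝ) :
    |xA G P D j φ Y - xA G P (D.erase x) j φ Y| ≤ 4 * thetaJ P j ^ (G.dist o x - (r + 1)) := by
  set θ := thetaJ P j with hθdef
  set g := tilt G P D Y j with hg
  set g' := tilt G P (D.erase x) Y j with hg'
  have hgf : Fld g := Fld.tanh _
  have hgf' : Fld g' := Fld.tanh _
  set g₀ := update g x 0 with hg₀
  have hg₀f : Fld g₀ := hgf.update x (by simp)
  set g₁ := update g₀ p (g' p) with hg₁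
  have hpx : p ≠ x := (Finset.mem_erase.1 hp).1
  have hdep' : DepOn φ (D.erase x) := depOn_of_ball hball hdep
  have e : xA G P (D.erase x) j φ Y = avg G θ D g₁ φ := by
    rw [avg_consistent hG hD' ⟨p, hp⟩ hD (Finset.erase_subset _ _) (g := g₁)
      (fun v hv hvn => ?_) hdep']
    · unfold xA avg
      have hh : ∀ v ∈ D.erase x, g' v = g₁ v := fun v hv => by
        by_cases hvp : v = p
        · subst hvp; simp [hg₁]
        · rw [hg₁, update_of_ne hvp, hg₀, update_of_ne (Finset.mem_erase.1 hv).1, hg, hg']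
          unfold tilt
          rw [fieldH_erase P hu Y j (Finset.mem_erase.1 hv).1 hvp]
      rw [Sm_congr hh (f := φ) (f' := φ) fun _ _ => rfl,
        Sm_congr hh (f := fun _ => (1 : ℝ)) (f' := fun _ => (1 : ℝ)) fun _ _ => rfl]
    · have : v = x := by
        by_contra hh
        exact hvn (Finset.mem_erase.2 ⟨hh, hv⟩)
      subst this
      rw [hg₁, update_of_ne (Ne.symm hpx), hg₀, update_self]
  have hball' : ∀ v, G.dist o v ≤ r → v ∈ D := fun v hv => Finset.mem_of_mem_erase (hball v hv)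
  have b1 := avg_update_bound' hG hθ hdep hφ hD hball' hgf hx (a := g x) (b := 0) (hgf x) (by simp)
  rw [update_eq_self, ← hg₀] at b1
  have b2 := avg_update_bound' hG hθ hdep hφ hD hball' hg₀f (Finset.mem_of_mem_erase hp)
    (a := g₀ p) (b := g' p) (hg₀f p) (hgf' p)
  rw [update_eq_self, ← hg₁] at b2
  rw [e, show xA G P D j φ Y = avg G θ D g φ from rfl]
  refine (abs_sub_le _ (avg G θ D g₀ φ) _).trans ((add_le_add b1 b2).trans ?_)
  have hd : G.dist o x ≤ G.dist o p + G.dist p x := hG.connected.dist_triangle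
  rw [SimpleGraph.dist_eq_one_iff_adj.2 hxp.symm] at hd
  have p1 : θ ^ (G.dist o x - r) ≤ θ ^ (G.dist o x - (r + 1)) :=
    pow_le_pow_of_le_one hθ.1 hθ.2.le (by omega)
  have p2 : θ ^ (G.dist o p - r) ≤ θ ^ (G.dist o x - (r + 1)) :=
    pow_le_pow_of_le_one hθ.1 hθ.2.le (by omega)
  linarith

lemma sum_shift_dist {d : ℕ} (hG : G.IsTree) (hd : Regular G d) (hd3 : 3 ≤ d) (o : V)
    (A : Finset V) {x : ℝ} (hx : 0 ≤ x) (hx1 : ((d : ℝ) - 1) * x < 1) (k R : ℕ) (hk : k ≤ R)
    (hA : ∀ u ∈ A, R ≤ G.dist o u) :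
    ∑ u ∈ A, x ^ (G.dist o u - k) ≤
      2 * d * ((d : ℝ) - 1) ^ k * ((((d : ℝ) - 1) * x) ^ (R - k) / (1 - ((d : ℝ) - 1) * x)) := by
  have hd1 : (2 : ℝ) ≤ (d : ℝ) - 1 := by
    have : (3 : ℝ) ≤ d := by exact_mod_cast hd3
    linarith
  have hnn : 0 ≤ (d : ℝ) * ((d : ℝ) - 1) ^ k := by positivity
  rcases hx.eq_or_lt with h | h
  · rw [← h]
    simp only [mul_zero, sub_zero, div_one]
    rcases hk.eq_or_lt with e | e
    · subst e
      simp only [Nat.sub_self, pow_zero, mul_one]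
      calc ∑ u ∈ A, (0 : ℝ) ^ (G.dist o u - k)
          = ((A.filter fun u => G.dist o u = k).card : ℝ) := by
            rw [Finset.card_filter, Nat.cast_sum]
            refine Finset.sum_congr rfl fun u hu => ?_
            have := hA u hu
            split_ifs with hh
            · simp [hh]
            · rw [zero_pow (by omega)]; simp
        _ ≤ _ := by
            set x' : ℝ := 1 / (2 * ((d : ℝ) - 1)) with hx'
            have hy : ((d : ℝ) - 1) * x' = 1 / 2 := by
              rw [hx']; field_simp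
            have := sum_pow_dist_le hG hd hd3 o (A.filter fun u => G.dist o u = k) (x := x')
              (by positivity) (by rw [hy]; norm_num) k
              (fun u hu => (Finset.mem_filter.1 hu).2.ge)
            rw [Finset.sum_congr rfl (g := fun _ => x' ^ k)
              (fun u hu => by rw [(Finset.mem_filter.1 hu).2]), Finset.sum_const, nsmul_eq_mul,
              hy] at this
            have hx'k : 0 < x' ^ k := by positivity
            have e1 : (1 / 2 : ℝ) ^ k = ((d : ℝ) - 1) ^ k * x' ^ k := by rw [← mul_pow, hy]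
            rw [e1] at this
            refine le_of_mul_le_mul_right ?_ hx'k
            refine this.trans_eq ?_
            ring
    · have h1 : ∀ u ∈ A, (0 : ℝ) ^ (G.dist o u - k) = 0 := fun u hu =>
        zero_pow (by have := hA u hu; omega)
      rw [Finset.sum_congr rfl h1, Finset.sum_const_zero, zero_pow (by omega), mul_zero]
  · have hsum := sum_pow_dist_le hG hd hd3 o A hx hx1 R hA
    have e : ∀ u ∈ A, x ^ (G.dist o u - k) = x ^ G.dist o u / x ^ k := fun u hu => by
      rw [eq_div_iff (pow_pos h k).ne', ← pow_add, Nat.sub_add_cancel (hk.trans (hA u hu))]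
    rw [Finset.sum_congr rfl e, ← Finset.sum_div, div_le_iff₀ (pow_pos h k)]
    refine hsum.trans ?_
    have hy0 : 0 ≤ (((d : ℝ) - 1) * x) ^ R / (1 - ((d : ℝ) - 1) * x) :=
      div_nonneg (pow_nonneg (by positivity) _) (by linarith)
    calc (d : ℝ) * (((d : ℝ) - 1) * x) ^ R / (1 - ((d : ℝ) - 1) * x)
        ≤ 2 * d * ((((d : ℝ) - 1) * x) ^ R / (1 - ((d : ℝ) - 1) * x)) := by
          rw [mul_div_assoc]
          nlinarith [mul_nonneg (Nat.cast_nonneg (α := ℝ) d) hy0]
      _ = _ := by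
          conv_lhs => rw [show R = k + (R - k) by omega]
          rw [pow_add, mul_pow (((d : ℝ) - 1)) x k]
          ring

/-- Observations outside a ball change the posterior little. -/
theorem gain (hL : GenLawStmt) (hG : G.IsTree) {d : ℕ} (hd3 : 3 ≤ d) (hd : Regular G d) (P : Prm)
    (h0 : 0 ≤ P.θ) (h1 : P.θ < 1) (hh : P.h ≠ 0) (hη : 0 ≤ P.η)
    (ht : Real.tanh (P.η * (P.N₁ * P.h)) ≤ P.θ) {A D : Finset V} {o : V} {r R N j : ℕ}
    {φ : (V → ℝ) → ℝ} {x : ℝ} (hA : Closed G A) (hD : Closed G D) (hsub : A ⊆ D) (hjN : j ≤ N)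
    (hrR : r ≤ R) (hball : ∀ v, G.dist o v ≤ R → v ∈ A)
    (hdep : ∀ s s' : V → ℝ, (∀ v, G.dist o v ≤ r → s v = s' v) → φ s = φ s')
    (hφ : ∀ s, |φ s| ≤ 1) (hx : 0 ≤ x) (hxθ : thetaJ P j ^ 2 ≤ x)
    (hx1 : ((d : ℝ) - 1) * x < 1) :
    E G P D N (fun _ Y =>
        (avg G (thetaJ P j) D (tilt G P D Y j) φ - avg G (thetaJ P j) A (tilt G P A Y j) φ) ^ 2) ≤
      (64 * d ^ (r + 3)) * ((((d : ℝ) - 1) * x) ^ (R - r) / (1 - ((d : ℝ) - 1) * x)) := by
  have hθ := par_thetaJ h1 hη ht j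
  have hrball : ∀ v, G.dist o v ≤ r → v ∈ A := fun v hv => hball v (hv.trans hrR)
  have hAne : A.Nonempty := ⟨o, hball o (by simp)⟩
  have hadm : ∀ (D' A' : Finset V), Adm G D' j 4
      (fun _ Y => (xA G P D' j φ Y - xA G P A' j φ Y) ^ 2) := fun D' A' => by
    refine ⟨fun _ => ((measurable_avg_tilt P D' (measurable_tot_ext D' j) j _ φ).sub
      (measurable_avg_tilt P A' (measurable_tot_ext D' j) j _ φ)).pow_const 2, fun _ Y => ?_⟩
    have hb1 : |xA G P D' j φ Y| ≤ 1 := abs_xA_le hθ D' hφ Y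
    have hb2 : |xA G P A' j φ Y| ≤ 1 := abs_xA_le hθ A' hφ Y
    have h2 : |xA G P D' j φ Y - xA G P A' j φ Y| ≤ 2 :=
      (abs_sub _ _).trans (by linarith)
    simp only [abs_pow]
    nlinarith [abs_nonneg (xA G P D' j φ Y - xA G P A' j φ Y)]
  have key : ∀ D', Closed G D' → A ⊆ D' →
      E G P D' j (fun _ Y => xA G P D' j φ Y ^ 2) - E G P A j (fun _ Y => xA G P A j φ Y ^ 2) ≤
        16 * ∑ u ∈ D' \ A, x ^ (G.dist o u - (r + 1)) := by
    intro D'
    induction D' using Finset.strongInduction with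
    | H D' ih =>
      intro hD' hsub'
      by_cases hAD : A = D'
      · subst hAD; simp
      obtain ⟨z, hz, hzA, p, hp, hzp, hu, hDz⟩ := exists_leaf hG hD' hA hAne hsub' hAD
      have hsubz : A ⊆ D'.erase z := fun y hy =>
        Finset.mem_erase.2 ⟨fun e => hzA (e ▸ hy), hsub' hy⟩
      have hballz : ∀ v, G.dist o v ≤ r → v ∈ D'.erase z := fun v hv => hsubz (hrball v hv)
      have hstep : E G P D' j (fun _ Y => xA G P D' j φ Y ^ 2) -
          E G P (D'.erase z) j (fun _ Y => xA G P (D'.erase z) j φ Y ^ 2) ≤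
            16 * x ^ (G.dist o z - (r + 1)) := by
        rw [← msq_step hL hG P h0 h1 hh hη ht hDz ⟨p, hp⟩ hD' (Finset.erase_subset _ _) j
          (depOn_of_ball hballz hdep) hφ,
          ← E_const (G := G) P D' j (16 * x ^ (G.dist o z - (r + 1)))]
        refine E_mono P (hadm _ _) (B' := 16 * x ^ (G.dist o z - (r + 1)))
          ⟨fun _ => measurable_const, fun _ _ => by rw [abs_of_nonneg (by positivity)]⟩
          fun S _ Y => ?_
        have hb := xA_erase_bound hG P hθ hD' hz hp hzp hu hDz hballz hdep hφ Y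
        rw [← sq_abs]
        calc _ ≤ (4 * thetaJ P j ^ (G.dist o z - (r + 1))) ^ 2 :=
              pow_le_pow_left₀ (abs_nonneg _) hb 2
          _ = 16 * (thetaJ P j ^ 2) ^ (G.dist o z - (r + 1)) := by ring
          _ ≤ _ := mul_le_mul_of_nonneg_left (pow_le_pow_left₀ (sq_nonneg _) hxθ _) (by norm_num)
      have hsplit : D' \ A = insert z (D'.erase z \ A) := by
        ext w
        simp only [Finset.mem_sdiff, Finset.mem_insert, Finset.mem_erase]
        by_cases hw : w = z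
        · subst hw; simp [hz, hzA]
        · simp [hw]
      rw [hsplit, Finset.sum_insert (by simp), mul_add]
      linarith [ih _ (Finset.erase_ssubset hz) hDz hsubz]
  have hmarg : E G P D N (fun _ Y => (xA G P D j φ Y - xA G P A j φ Y) ^ 2) =
      E G P D j (fun _ Y => (xA G P D j φ Y - xA G P A j φ Y) ^ 2) := by
    refine E_marginal hG P h0 h1 hD (hAne.mono hsub) hD subset_rfl hjN (hadm D A)
      fun S S' Y Y' _ e => ?_
    unfold xA
    rw [tilt_congr P (Y := Y) (Y' := Y') fun k hk i hi => e k hk i hi (Finset.notMem_empty _),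
      tilt_congr P (A := A) (Y := Y) (Y' := Y') fun k hk i hi =>
        e k hk i (obsIx_mono hsub hi) (Finset.notMem_empty _)]
  change E G P D N (fun _ Y => (xA G P D j φ Y - xA G P A j φ Y) ^ 2) ≤ _
  rw [hmarg, msq_step hL hG P h0 h1 hh hη ht hA hAne hD hsub j (depOn_of_ball hrball hdep) hφ]
  refine (key D hD hsub).trans ?_
  have hs := sum_shift_dist hG hd hd3 o (D \ A) hx hx1 (r + 1) (R + 1) (by omega) fun u hu => by
    by_contra hc
    exact (Finset.mem_sdiff.1 hu).2 (hball u (by omega))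
  rw [show R + 1 - (r + 1) = R - r by omega] at hs
  refine (mul_le_mul_of_nonneg_left hs (by norm_num)).trans ?_
  have hd3' : (3 : ℝ) ≤ d := by exact_mod_cast hd3
  rw [← mul_assoc]
  refine mul_le_mul_of_nonneg_right ?_
    (div_nonneg (pow_nonneg (mul_nonneg (by linarith) hx) _) (by linarith))
  calc 16 * (2 * (d : ℝ) * ((d : ℝ) - 1) ^ (r + 1)) ≤ 64 * ((d : ℝ) * (d : ℝ) ^ (r + 1)) := by
        have h2 : ((d : ℝ) - 1) ^ (r + 1) ≤ (d : ℝ) ^ (r + 1) :=
          pow_le_pow_left₀ (by linarith) (by linarith) _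
        nlinarith [mul_le_mul_of_nonneg_left h2 (by linarith : (0 : ℝ) ≤ d),
          mul_nonneg (by linarith : (0 : ℝ) ≤ d) (pow_nonneg (by linarith : (0 : ℝ) ≤ d) (r + 1))]
    _ ≤ 64 * (d : ℝ) ^ (r + 3) := by
        refine mul_le_mul_of_nonneg_left ?_ (by norm_num)
        rw [← pow_succ']
        exact pow_le_pow_right₀ (by linarith) (by omega)

end

end Vale.Agent.P161.Edge.Mdl
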