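import Vale.Agent.P161.Edge.ModelSplit
import Vale.Agent.P161.Edge.ModelGain
import Vale.Agent.P161.Edge.GenLaw

/-!
The properties of the planted observation model on a tree.
-/

namespace Vale.Agent.P161.Edge

/-- Bridge to the tree posterior, marginals, symmetry, splitting and gain. -/
theorem modelStmt : ModelStmt := by
  intro V G d P hG hd3 hd h0 h1 hh hη ht
  refine ⟨fun D y j φ _ => Mdl.ev_llk P h0 h1 hη D y j φ, ?_, ?_, ?_, ?_⟩
  · intro A D N M B Φ hA hAne hD hsub hNM hΦ hdep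
    exact Mdl.E_marginal hG P h0 h1 hA hAne hD hsub hNM hΦ hdep
  · intro D N B Φ _ _
    exact Mdl.E_flip P h0 h1 D N Φ
  · intro A₁ A₂ D c N B Φ₁ Φ₂ hA₁ hA₂ _ hcap hcup hΦ₁ hΦ₂ hd₁ hd₂
    exact Mdl.E_split hG P h0 h1 hA₁ hA₂ hcap hcup hΦ₁ hΦ₂ hd₁ hd₂
  · intro A D o r R N j φ x hA hD hsub hjN hrR hball hdep hφ hx hxθ hx1
    exact Mdl.gain genLawStmt hG hd3 hd P h0 h1 hh hη ht hA hD hsub hjN hrR hball hdep hφ hx
      hxθ hx1

end Vale.Agent.P161.Edge
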