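import Vale.Agent.P161.Edge.Statements

/-!
Basic facts shared by the modules: measurability of the posterior quantities in the observations,
linearity and monotonicity of expectations, and the posterior expectation of a function of spins.
-/

namespace Vale.Agent.P161.Edge

open MeasureTheory ProbabilityTheory Finset
open scoped NNReal Classical

noncomputable section

variable {V : Type} {G : SimpleGraph V}

/-! ### Measurability -/

lemma measurable_tanh : Measurable Real.tanh := continuous_tanh'.measurable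

lemma measurable_avg_comp (θ : ℝ) (D : Finset V) {α : Type*} [MeasurableSpace α] {g : α → V → ℝ}
    (hg : ∀ v, Measurable fun a => g a v) (f : (V → ℝ) → ℝ) :
    Measurable fun a => avg G θ D (g a) f := by
  unfold avg Sm
  fun_prop

lemma measurable_avg_comp' (θ : ℝ) (D : Finset V) {α : Type*} [MeasurableSpace α]
    {g : α → V → ℝ} (hg : ∀ v, Measurable fun a => g a v) {f : α → (V → ℝ) → ℝ}
    (hf : ∀ s, Measurable fun a => f a s) :
    Measurable fun a => avg G θ D (g a) (f a) := by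
  unfold avg Sm
  fun_prop

variable (P : Prm) (D : Finset V) {α : Type*} [MeasurableSpace α] {Y : α → ℕ → V × V → ℝ}

lemma measurable_fieldH (hY : ∀ j i, Measurable fun a => Y a j i) (j : ℕ) (v : V) :
    Measurable fun a => fieldH G P D (Y a) j v := by
  unfold fieldH
  fun_prop

lemma measurable_tilt (hY : ∀ j i, Measurable fun a => Y a j i) (j : ℕ) (v : V) :
    Measurable fun a => tilt G P D (Y a) j v :=
  measurable_tanh.comp (measurable_fieldH P D hY j v)

lemma measurable_mean_tilt (hY : ∀ j i, Measurable fun a => Y a j i) (j : ℕ) (v : V) :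
    Measurable fun a => mean G (thetaJ P j) D (tilt G P D (Y a) j) v :=
  measurable_avg_comp _ _ (measurable_tilt P D hY j) _

lemma measurable_pmean (hY : ∀ j i, Measurable fun a => Y a j i) (j : ℕ) (v : V) :
    Measurable fun a => pmean G P D (Y a) j v := by
  unfold pmean mf
  by_cases hv : v ∈ D
  · simp only [hv, if_true]
    exact measurable_mean_tilt P D hY j v
  · simp only [hv, if_false]
    exact measurable_const

lemma measurable_pcov (hY : ∀ j i, Measurable fun a => Y a j i) (j : ℕ) (v w : V) :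
    Measurable fun a => pcov G P D (Y a) j v w := by
  unfold pcov cv
  exact (measurable_avg_comp _ _ (measurable_tilt P D hY j) _).sub
    ((measurable_mean_tilt P D hY j v).mul (measurable_mean_tilt P D hY j w))

lemma measurable_wvec (hY : ∀ j i, Measurable fun a => Y a j i) (j₀ : ℕ) (z : V) :
    ∀ (j : ℕ) (v : V), Measurable fun a => wvec G P D (Y a) j₀ z j v := by
  intro j
  induction j with
  | zero => intro v; exact measurable_const
  | succ j ih =>
    intro v
    simp only [wvec]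
    split_ifs
    · exact measurable_const
    · refine (ih v).add (measurable_const.mul ?_)
      unfold qop
      refine Finset.measurable_sum _ fun i _ => measurable_const.mul (Measurable.add ?_ ?_) <;>
        exact Finset.measurable_sum _ fun y _ => (measurable_pcov P D hY j _ y).mul (ih y)

lemma measurable_resp (hY : ∀ j i, Measurable fun a => Y a j i) (j₀ j : ℕ) (o z : V) :
    Measurable fun a => resp G P D (Y a) j₀ j o z :=
  Finset.measurable_sum _ fun x _ =>
    (measurable_pcov P D hY j o x).mul (measurable_wvec P D hY j₀ z j x)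

lemma measurable_sqSJ (hY : ∀ j i, Measurable fun a => Y a j i) (j : ℕ) (c : V) :
    Measurable fun a => sqSJ G P D (Y a) j c := by
  unfold sqSJ sqS reg
  refine Finset.measurable_sum _ fun x _ => ?_
  refine Measurable.pow_const (Measurable.div (measurable_pcov P D hY j c x) ?_) 2
  exact measurable_const.sub ((measurable_mean_tilt P D hY j c).pow_const 2)

omit Y in
lemma measurable_tot_ext {N : ℕ} (j : ℕ) (i : V × V) :
    Measurable fun z : Gen.Noi N (obsIx G D) => tot G D (Gen.ext z) j i := by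
  unfold tot Gen.ext
  split_ifs <;> fun_prop

/-! ### Expectations -/

/-- Measurability of a functional in the observations. -/
def MeasY (Φ : Finset V → (ℕ → V × V → ℝ) → ℝ) : Prop :=
  ∀ S, ∀ (β : Type) [MeasurableSpace β] (Y : β → ℕ → V × V → ℝ),
    (∀ j i, Measurable fun a => Y a j i) → Measurable fun a => Φ S (Y a)

variable {P D}

omit Y in
lemma adm_of {N : ℕ} {B : ℝ} {Φ : Finset V → (ℕ → V × V → ℝ) → ℝ} (hm : MeasY Φ)
    (hb : ∀ S Y, |Φ S Y| ≤ B) : Adm G D N B Φ :=
  ⟨fun S => hm S _ _ (measurable_tot_ext D), hb⟩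

omit Y in
lemma measurable_tot_plant {N : ℕ} (S : Cfg D) (j : ℕ) (i : V × V) :
    Measurable fun ξ : Gen.Noi N (obsIx G D) =>
      tot G D (Gen.plant (feat G P.η P.N₁ D) P.h S ξ) j i := by
  unfold tot Gen.plant
  split_ifs <;> fun_prop

omit Y in
lemma integrable_plant {N : ℕ} {B : ℝ} {Φ : Finset V → (ℕ → V × V → ℝ) → ℝ} (hm : MeasY Φ)
    (hb : ∀ S Y, |Φ S Y| ≤ B) (S : Cfg D) :
    Integrable (fun ξ => Φ S.1 (tot G D (Gen.plant (feat G P.η P.N₁ D) P.h S ξ)))
      (Gen.nl (ι := obsIx G D) P.h N) := by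
  haveI : IsProbabilityMeasure (Gen.nl (ι := obsIx G D) P.h N) := by
    unfold Gen.nl; infer_instance
  exact integrable_of_bdd (hm S.1 _ _ (measurable_tot_plant S)) fun ξ => hb _ _

omit Y in
lemma post_nonneg (ψ : Cfg D → ℝ) (S : Cfg D) : 0 ≤ Gen.post ψ S :=
  div_nonneg (Real.exp_pos _).le (Finset.sum_nonneg fun _ _ => (Real.exp_pos _).le)

omit Y in
lemma sum_post_cfg (ψ : Cfg D → ℝ) : ∑ S, Gen.post ψ S = 1 := by
  unfold Gen.post
  rw [← Finset.sum_div, div_self]
  exact (Finset.sum_pos (fun S _ => Real.exp_pos _)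
    ⟨⟨∅, Finset.empty_mem_powerset D⟩, Finset.mem_univ _⟩).ne'

omit Y in
lemma E_const (N : ℕ) (c : ℝ) : E G P D N (fun _ _ => c) = c := by
  haveI : IsProbabilityMeasure (Gen.nl (ι := obsIx G D) P.h N) := by
    unfold Gen.nl; infer_instance
  simp only [E, Gen.Epl, integral_const, probReal_univ, one_smul, ← Finset.sum_mul, sum_post_cfg,
    one_mul]

omit Y in
lemma E_const_mul (N : ℕ) (c : ℝ) (Φ : Finset V → (ℕ → V × V → ℝ) → ℝ) :
    E G P D N (fun S Y => c * Φ S Y) = c * E G P D N Φ := by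
  simp only [E, Gen.Epl, integral_const_mul, Finset.mul_sum]
  exact Finset.sum_congr rfl fun S _ => by ring

omit Y in
lemma E_add {N : ℕ} {B B' : ℝ} {Φ Ψ : Finset V → (ℕ → V × V → ℝ) → ℝ} (hΦ : MeasY Φ)
    (hΨ : MeasY Ψ) (hB : ∀ S Y, |Φ S Y| ≤ B) (hB' : ∀ S Y, |Ψ S Y| ≤ B') :
    E G P D N (fun S Y => Φ S Y + Ψ S Y) = E G P D N Φ + E G P D N Ψ := by
  simp only [E, Gen.Epl, ← Finset.sum_add_distrib]
  exact Finset.sum_congr rfl fun S _ => by
    rw [integral_add (integrable_plant hΦ hB S) (integrable_plant hΨ hB' S), mul_add]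

omit Y in
lemma E_mono {N : ℕ} {B B' : ℝ} {Φ Ψ : Finset V → (ℕ → V × V → ℝ) → ℝ} (hΦ : MeasY Φ)
    (hΨ : MeasY Ψ) (hB : ∀ S Y, |Φ S Y| ≤ B) (hB' : ∀ S Y, |Ψ S Y| ≤ B')
    (hle : ∀ S ∈ D.powerset, ∀ Y, Φ S Y ≤ Ψ S Y) : E G P D N Φ ≤ E G P D N Ψ :=
  Finset.sum_le_sum fun S _ => mul_le_mul_of_nonneg_left
    (integral_mono (integrable_plant hΦ hB S) (integrable_plant hΨ hB' S) fun _ => hle _ S.2 _)
    (post_nonneg _ _)

omit Y in
lemma E_congr {N : ℕ} {Φ Ψ : Finset V → (ℕ → V × V → ℝ) → ℝ}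
    (h : ∀ S ∈ D.powerset, ∀ Y, Φ S Y = Ψ S Y) : E G P D N Φ = E G P D N Ψ :=
  Finset.sum_congr rfl fun S _ => by simp only [h _ S.2]

omit Y in
lemma E_nonneg {N : ℕ} {Φ : Finset V → (ℕ → V × V → ℝ) → ℝ}
    (h : ∀ S ∈ D.powerset, ∀ Y, 0 ≤ Φ S Y) : 0 ≤ E G P D N Φ :=
  Finset.sum_nonneg fun S _ => mul_nonneg (post_nonneg _ _) (integral_nonneg fun _ => h _ S.2 _)

omit Y in
lemma E_sum {κ : Type*} {N : ℕ} (s : Finset κ) {B : κ → ℝ}
    {Φ : κ → Finset V → (ℕ → V × V → ℝ) → ℝ} (hΦ : ∀ a ∈ s, MeasY (Φ a))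
    (hB : ∀ a ∈ s, ∀ S Y, |Φ a S Y| ≤ B a) :
    E G P D N (fun S Y => ∑ a ∈ s, Φ a S Y) = ∑ a ∈ s, E G P D N (Φ a) := by
  simp only [E, Gen.Epl]
  rw [Finset.sum_comm]
  exact Finset.sum_congr rfl fun S _ => by
    rw [integral_finsetSum _ fun a ha => integrable_plant (hΦ a ha) (hB a ha) S, Finset.mul_sum]

/-! ### Spins of filtered sets -/

omit Y in
lemma filter_spin {S : Finset V} (hS : S ⊆ D) : (D.filter fun v => spin S v = 1) = S := by
  ext v
  rw [Finset.mem_filter]
  constructor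
  · rintro ⟨-, h⟩
    by_contra hv
    rw [spin_notMem hv] at h
    norm_num at h
  · intro hv
    exact ⟨hS hv, by simp [spin, hv]⟩

omit Y in
lemma avg_filter (θ : ℝ) (g : V → ℝ) (f : (V → ℝ) → ℝ) :
    avg G θ D g (fun s => f (spin (D.filter fun v => s v = 1))) = avg G θ D g f := by
  unfold avg Sm
  congr 1
  refine Finset.sum_congr rfl fun S hS => ?_
  simp only
  rw [filter_spin (Finset.mem_powerset.1 hS)]

end

end Vale.Agent.P161.Edge
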