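import Vale.Agent.P161.Edge.ProbTree
import Vale.Agent.P161.Edge.Basic
import Vale.Agent.P161.Edge.Kernel

/-!
Observations of branches: locality of the posterior quantities, and moments of linear statistics.
-/

namespace Vale.Agent.P161.Edge

open MeasureTheory ProbabilityTheory Finset Function
open scoped NNReal Classical

noncomputable section

variable {V : Type} {G : SimpleGraph V}

/-- The coefficient of the pair observations at step `k`. -/
def ce (P : Prm) (k : ℕ) : ℝ := if k < P.N₁ then Real.sqrt (P.η / 2) else 0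

/-- The squared sum into a branch as a function of the observations. -/
def dD (G : SimpleGraph V) (P : Prm) (D : Finset V) (j : ℕ) (Y : ℕ → V × V → ℝ) (w p : V) : ℝ :=
  sqD G (thetaJ P j) D (tilt G P D Y j) w p

/-- The regression coefficient across an edge as a function of the observations. -/
def rD (G : SimpleGraph V) (P : Prm) (D : Finset V) (j : ℕ) (Y : ℕ → V × V → ℝ) (z w : V) : ℝ :=
  rq (thetaJ P j) (cav G (thetaJ P j) D (tilt G P D Y j) z w)

lemma fieldH_eq (P : Prm) {D : Finset V} {x : V} (hx : x ∈ D) (Y : ℕ → V × V → ℝ) (j : ℕ) :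
    fieldH G P D Y j x = ∑ k ∈ range j,
      (Y k (x, x) + ce P k * ∑ z ∈ D.filter (G.Adj x), (Y k (x, z) + Y k (z, x))) := by
  refine Finset.sum_congr rfl fun k _ => ?_
  have hxx : (x, x) ∈ obsIx G D := by simp [obsIx, hx]
  have c0 : coef P.η P.N₁ k ((x, x) : V × V) = 1 / 2 := by simp [coef]
  have c1 : ∀ z, G.Adj x z → coef P.η P.N₁ k ((x, z) : V × V) = ce P k ∧
      coef P.η P.N₁ k ((z, x) : V × V) = ce P k := fun z hz => by
    simp [coef, ce, hz.ne, hz.ne.symm]
  have hni : x ∉ D.filter (G.Adj x) := by simp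
  have f1 : (obsIx G D).filter (fun i => i.1 = x) =
      (insert x (D.filter (G.Adj x))).image fun z => (x, z) := by
    ext ⟨a, b⟩
    simp only [obsIx, Finset.mem_filter, Finset.mem_product, Finset.mem_image, Finset.mem_insert,
      Prod.mk.injEq]
    constructor
    · rintro ⟨⟨⟨_, hb⟩, h⟩, rfl⟩
      refine ⟨b, ?_, rfl, rfl⟩
      rcases h with h | h
      · exact Or.inl h.symm
      · exact Or.inr ⟨hb, h⟩
    · rintro ⟨z, hz, rfl, rfl⟩
      rcases hz with rfl | ⟨hz, ha⟩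
      · simp [hx]
      · simp [hx, hz, ha]
  have f2 : (obsIx G D).filter (fun i => i.2 = x) =
      (insert x (D.filter (G.Adj x))).image fun z => (z, x) := by
    ext ⟨a, b⟩
    simp only [obsIx, Finset.mem_filter, Finset.mem_product, Finset.mem_image, Finset.mem_insert,
      Prod.mk.injEq]
    constructor
    · rintro ⟨⟨⟨ha, _⟩, h⟩, rfl⟩
      refine ⟨a, ?_, rfl, rfl⟩
      rcases h with h | h
      · exact Or.inl h
      · exact Or.inr ⟨ha, h.symm⟩
    · rintro ⟨z, hz, rfl, rfl⟩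
      rcases hz with rfl | ⟨hz, ha⟩
      · simp [hx]
      · simp [hx, hz, ha.symm]
  calc ∑ i ∈ obsIx G D, coef P.η P.N₁ k i * mult i x * Y k i
      = ∑ i ∈ (obsIx G D).filter (fun i => i.1 = x), coef P.η P.N₁ k i * Y k i +
          ∑ i ∈ (obsIx G D).filter (fun i => i.2 = x), coef P.η P.N₁ k i * Y k i := by
        rw [Finset.sum_filter, Finset.sum_filter, ← Finset.sum_add_distrib]
        refine Finset.sum_congr rfl fun i _ => ?_
        unfold mult
        split_ifs <;> ring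
    _ = _ := by
        have e1 : ∑ z ∈ D.filter (G.Adj x), coef P.η P.N₁ k (x, z) * Y k (x, z) =
            ce P k * ∑ z ∈ D.filter (G.Adj x), Y k (x, z) := by
          rw [Finset.mul_sum]
          exact Finset.sum_congr rfl fun z hz => by rw [(c1 z (Finset.mem_filter.1 hz).2).1]
        have e2 : ∑ z ∈ D.filter (G.Adj x), coef P.η P.N₁ k (z, x) * Y k (z, x) =
            ce P k * ∑ z ∈ D.filter (G.Adj x), Y k (z, x) := by
          rw [Finset.mul_sum]
          exact Finset.sum_congr rfl fun z hz => by rw [(c1 z (Finset.mem_filter.1 hz).2).2]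
        rw [f1, f2, Finset.sum_image (by simp), Finset.sum_image (by simp),
          Finset.sum_insert hni, Finset.sum_insert hni, c0, e1, e2, Finset.sum_add_distrib]
        ring

lemma fieldH_dep (P : Prm) {D : Finset V} {x c : V} (hx : x ∈ D) (hxc : x ≠ c)
    {Y Y' : ℕ → V × V → ℝ} {j : ℕ}
    (h : ∀ k < j, ∀ i ∈ obsIx G D, i ≠ (c, c) → Y k i = Y' k i) :
    fieldH G P D Y j x = fieldH G P D Y' j x := by
  rw [fieldH_eq P hx, fieldH_eq P hx]
  refine Finset.sum_congr rfl fun k hk => ?_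
  have hk' := Finset.mem_range.1 hk
  rw [h k hk' (x, x) (by simp [obsIx, hx]) (by simp [hxc])]
  congr 2
  refine Finset.sum_congr rfl fun z hz => ?_
  obtain ⟨hzD, hxz⟩ := Finset.mem_filter.1 hz
  rw [h k hk' (x, z) (by simp [obsIx, hx, hzD, hxz]) (by simp [hxc]),
    h k hk' (z, x) (by simp [obsIx, hx, hzD, hxz.symm]) (by simp [hxc])]

lemma fieldH_dep' (P : Prm) {D : Finset V} {Y Y' : ℕ → V × V → ℝ} {j : ℕ}
    (h : ∀ k < j, ∀ i ∈ obsIx G D, Y k i = Y' k i) :
    tilt G P D Y j = tilt G P D Y' j := by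
  funext x
  unfold tilt fieldH
  congr 1
  refine Finset.sum_congr rfl fun k hk => Finset.sum_congr rfl fun i hi => ?_
  rw [h k (Finset.mem_range.1 hk) i hi]

lemma fieldH_subset (P : Prm) {A D : Finset V} {x : V} (hA : A ⊆ D) (hx : x ∈ A)
    (hn : ∀ y ∈ D, G.Adj x y → y ∈ A) (Y : ℕ → V × V → ℝ) (j : ℕ) :
    fieldH G P D Y j x = fieldH G P A Y j x := by
  have e : D.filter (G.Adj x) = A.filter (G.Adj x) := by
    ext y
    simp only [Finset.mem_filter]
    exact ⟨fun h => ⟨hn y h.1 h.2, h.2⟩, fun h => ⟨hA h.1, h.2⟩⟩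
  rw [fieldH_eq P (hA hx), fieldH_eq P hx, e]

lemma fieldH_neg (P : Prm) (D : Finset V) (Y : ℕ → V × V → ℝ) (j : ℕ) :
    tilt G P D (fun k i => -Y k i) j = fun x => -tilt G P D Y j x := by
  funext x
  simp only [tilt, fieldH, mul_neg, Finset.sum_neg_distrib, Real.tanh_neg]

lemma Fld.tilt (P : Prm) (D : Finset V) (Y : ℕ → V × V → ℝ) (j : ℕ) :
    Fld (Vale.Agent.P161.Edge.tilt G P D Y j) := Fld.tanh _

/-- Standing facts about one step of the model. -/
structure Ctx (G : SimpleGraph V) (d : ℕ) (P : Prm) (j : ℕ) : Prop where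
  tree : G.IsTree
  three : 3 ≤ d
  reg : Regular G d
  treeStmt : TreeStmt
  par : Par (thetaJ P j)
  par₀ : Par P.θ
  step : j ≤ P.N₁

variable {d j : ℕ} {P : Prm}

lemma Ctx.facts (C : Ctx G d P j) {D : Finset V} (hD : Closed G D) (Y : ℕ → V × V → ℝ) :
    TreeFacts G (thetaJ P j) D (Edge.tilt G P D Y j) :=
  C.treeStmt.facts C.tree C.three C.reg C.par hD (Fld.tilt P D Y j)

lemma Ctx.ce_eq (C : Ctx G d P j) {k : ℕ} (hk : k < j) : ce P k = Real.sqrt (P.η / 2) :=
  if_pos (lt_of_lt_of_le hk C.step)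

/-- Fields in a branch are computed inside any set containing it and the vertex behind it. -/
lemma Ctx.field_branch (C : Ctx G d P j) {A D : Finset V} {z w x : V} (hA : A ⊆ D)
    (hwz : G.Adj w z) (hw : w ∈ A) (hb : branch G D z w ⊆ A) (hx : x ∈ branch G D z w)
    (Y : ℕ → V × V → ℝ) : fieldH G P D Y j x = fieldH G P A Y j x := by
  refine fieldH_subset P hA (hb hx) (fun y hy hxy => ?_) Y j
  rcases branch_step C.tree hwz hx hy hxy with rfl | h
  · exact hw
  · exact hb h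

lemma Ctx.tilt_branch (C : Ctx G d P j) {A D : Finset V} {z w x : V} (hA : A ⊆ D)
    (hwz : G.Adj w z) (hw : w ∈ A) (hb : branch G D z w ⊆ A) (hx : x ∈ branch G D z w)
    (Y : ℕ → V × V → ℝ) : Edge.tilt G P D Y j x = Edge.tilt G P A Y j x := by
  unfold Edge.tilt
  rw [C.field_branch hA hwz hw hb hx]

lemma Ctx.dD_subset (C : Ctx G d P j) {A D : Finset V} {z w : V} (hA : A ⊆ D) (hAc : Closed G A)
    (hD : Closed G D) (hwz : G.Adj w z) (hw : w ∈ A) (hz : z ∈ A) (hb : branch G D z w ⊆ A)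
    (Y : ℕ → V × V → ℝ) : dD G P D j Y z w = dD G P A j Y z w :=
  sqD_congr C.treeStmt C.tree C.three C.reg C.par (branch G D z w) hD hAc (Fld.tilt P D Y j)
    (Fld.tilt P A Y j) (hA hw) hw (hA hz) hz hwz rfl (branch_eq_of_subset hA hb)
    fun x hx _ => C.tilt_branch hA hwz hw hb hx Y

lemma Ctx.rD_subset (C : Ctx G d P j) {A D : Finset V} {z w : V} (hA : A ⊆ D)
    (hwz : G.Adj w z) (hw : w ∈ A) (hb : branch G D z w ⊆ A)
    (Y : ℕ → V × V → ℝ) : rD G P D j Y z w = rD G P A j Y z w := by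
  unfold rD cav
  rw [branch_eq_of_subset hA hb, mean_congr fun x hx => C.tilt_branch hA hwz hw hb hx Y]

lemma Ctx.dD_dep (C : Ctx G d P j) {D : Finset V} {z w c : V} (hD : Closed G D)
    (hwz : G.Adj w z) (hw : w ∈ D) (hz : z ∈ D) (hc : c ∈ branch G D z w → c = z)
    {Y Y' : ℕ → V × V → ℝ} (h : ∀ k < j, ∀ i ∈ obsIx G D, i ≠ (c, c) → Y k i = Y' k i) :
    dD G P D j Y z w = dD G P D j Y' z w := by
  refine sqD_congr C.treeStmt C.tree C.three C.reg C.par (branch G D z w) hD hD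
    (Fld.tilt P D Y j) (Fld.tilt P D Y' j) hw hw hz hz hwz rfl rfl fun x hx hxz => ?_
  unfold Edge.tilt
  rw [fieldH_dep P (mem_branch.1 hx).1 (fun e : x = c => hxz (e.trans (hc (e ▸ hx)))) h]

lemma Ctx.rD_dep (C : Ctx G d P j) {D : Finset V} {z w c : V}
    (hwz : G.Adj w z) (hc : c ∉ branch G D z w)
    {Y Y' : ℕ → V × V → ℝ} (h : ∀ k < j, ∀ i ∈ obsIx G D, i ≠ (c, c) → Y k i = Y' k i) :
    rD G P D j Y z w = rD G P D j Y' z w := by
  have _ := C
  have _ := hwz
  unfold rD cav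
  rw [mean_congr (g' := Edge.tilt G P D Y' j) fun x hx => by
    unfold Edge.tilt
    rw [fieldH_dep P (mem_branch.1 hx).1 (fun e : x = c => hc (e ▸ hx)) h]]

lemma Ctx.dD_neg (C : Ctx G d P j) {D : Finset V} {z w : V} (hD : Closed G D)
    (hwz : G.Adj w z) (hw : w ∈ D) (hz : z ∈ D) (Y : ℕ → V × V → ℝ) :
    dD G P D j (fun k i => -Y k i) z w = dD G P D j Y z w := by
  unfold dD
  rw [fieldH_neg, sqD_neg C.treeStmt C.tree C.three C.reg C.par hD (Fld.tilt P D Y j) _ hw hz hwz rfl]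

lemma rD_neg {D : Finset V} {z w : V} (hwz : G.Adj w z) (hz : z ∈ D) (Y : ℕ → V × V → ℝ) :
    rD G P D j (fun k i => -Y k i) z w = rD G P D j Y z w := by
  unfold rD cav
  rw [fieldH_neg, mean_neg _ (self_mem_branch hz hwz)]
  simp [rq]

lemma Ctx.dD_bounds (C : Ctx G d P j) {D : Finset V} {z w : V} (hD : Closed G D) (hz : z ∈ D)
    (Y : ℕ → V × V → ℝ) : |dD G P D j Y z w| ≤ D.card := by
  rw [dD, abs_of_nonneg (sqD_nonneg _ _ _)]
  exact (C.facts hD Y).sum_le C.par hz (Finset.filter_subset _ _)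

lemma Ctx.rD_bounds (C : Ctx G d P j) {D : Finset V} (Y : ℕ → V × V → ℝ) (z w : V) :
    0 ≤ rD G P D j Y z w ∧ rD G P D j Y z w ≤ thetaJ P j :=
  have h := rq_bounds C.par.1 C.par.2
    (abs_mean_le (G := G) C.par (branch G D z w) (Fld.tilt P D Y j) z)
  ⟨h.1, h.2.1⟩

lemma Ctx.rD_sq_le (C : Ctx G d P j) {D : Finset V} (Y : ℕ → V × V → ℝ) (z w : V) :
    rD G P D j Y z w ^ 2 ≤ thetaJ P j ^ 2 :=
  pow_le_pow_left₀ (C.rD_bounds Y z w).1 (C.rD_bounds Y z w).2 2

lemma Ctx.dD_eq (C : Ctx G d P j) {D : Finset V} {p w : V} (hD : Closed G D) (hp : p ∈ D)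
    (hw : w ∈ D) (h : G.Adj p w) (Y : ℕ → V × V → ℝ) :
    dD G P D j Y w p = 1 + ∑ z ∈ ch G D w p, rD G P D j Y z w ^ 2 * dD G P D j Y z w :=
  (C.facts hD Y).sqD_eq p hp w hw h

lemma Ctx.sqSJ_eq (C : Ctx G d P j) {D : Finset V} {c : V} (hD : Closed G D) (hc : c ∈ D)
    (Y : ℕ → V × V → ℝ) :
    sqSJ G P D Y j c =
      1 + ∑ z ∈ D.filter (G.Adj c), rD G P D j Y z c ^ 2 * dD G P D j Y z c :=
  (C.facts hD Y).sqS_eq c hc

lemma measY_dD (P : Prm) (D : Finset V) (j : ℕ) (z w : V) :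
    MeasY (fun (_ : Finset V) Y => dD G P D j Y z w) := by
  intro _ β _ Y hY
  unfold dD sqD reg cv
  refine Finset.measurable_sum _ fun x _ => Measurable.pow_const (Measurable.div ?_ ?_) 2
  · exact (measurable_avg_comp _ _ (measurable_tilt P D hY j) _).sub
      ((measurable_mean_tilt P D hY j z).mul (measurable_mean_tilt P D hY j x))
  · exact measurable_const.sub ((measurable_mean_tilt P D hY j z).pow_const 2)

lemma measY_rD (P : Prm) (D : Finset V) (j : ℕ) (z w : V) :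
    MeasY (fun (_ : Finset V) Y => rD G P D j Y z w) := by
  intro _ β _ Y hY
  unfold rD rq cav
  have h : Measurable fun a => mean G (thetaJ P j) (branch G D z w) (Edge.tilt G P D (Y a) j) z :=
    measurable_avg_comp _ _ (measurable_tilt P D hY j) _
  fun_prop

lemma measY_pmean (P : Prm) (D : Finset V) (j : ℕ) (v : V) :
    MeasY (fun (_ : Finset V) Y => pmean G P D Y j v) := fun _ _ _ _ hY =>
  measurable_pmean P D hY j v

/-! ### Linear statistics -/

/-- A linear form in the observations. -/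
def linY (G : SimpleGraph V) (D : Finset V) (j : ℕ) (a : V × V → ℝ) (Y : ℕ → V × V → ℝ) : ℝ :=
  ∑ k ∈ range j, ∑ i ∈ obsIx G D, a i * Y k i

lemma measurable_linY (D : Finset V) (j : ℕ) (a : V × V → ℝ) {β : Type} [MeasurableSpace β]
    {Y : β → ℕ → V × V → ℝ} (hY : ∀ j i, Measurable fun b => Y b j i) :
    Measurable fun b => linY G D j a (Y b) := by
  unfold linY
  fun_prop

lemma gauss_lin {κ : Type*} [Fintype κ] (h : ℝ≥0) (a : κ → ℝ) :
    Integrable (fun ξ => ∑ p, a p * ξ p) (Measure.pi fun _ : κ => gl h) ∧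
      Integrable (fun ξ => (∑ p, a p * ξ p) ^ 2) (Measure.pi fun _ : κ => gl h) ∧
      ∫ ξ, (∑ p, a p * ξ p) ∂(Measure.pi fun _ : κ => gl h) = 0 ∧
      ∫ ξ, (∑ p, a p * ξ p) ^ 2 ∂(Measure.pi fun _ : κ => gl h) = h * ∑ p, a p ^ 2 := by
  set X : κ → ℝ → ℝ := fun p x => a p * x
  have hL : ∀ p, MemLp (X p) 2 (gl h) := fun p =>
    (memLp_id_gaussianReal' 2 (by simp)).const_mul (a p)
  have hLc : ∀ p, MemLp (fun ξ : κ → ℝ => X p (ξ p)) 2 (Measure.pi fun _ : κ => gl h) := fun p =>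
    (hL p).comp_measurePreserving (measurePreserving_eval (fun _ => gl h) p)
  have hT : MemLp (fun ξ : κ → ℝ => ∑ p, X p (ξ p)) 2 (Measure.pi fun _ : κ => gl h) :=
    memLp_finsetSum _ fun p _ => hLc p
  have hz : ∫ ξ, (∑ p, a p * ξ p) ∂(Measure.pi fun _ : κ => gl h) = 0 := by
    rw [integral_finsetSum _ fun p _ => (hLc p).integrable (by norm_num)]
    refine Finset.sum_eq_zero fun p _ => ?_
    simp only [X]
    rw [integral_const_mul, integral_comp_eval (μ := fun _ : κ => gl h) (f := fun x : ℝ => x)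
      aestronglyMeasurable_id, integral_id_gaussianReal, mul_zero]
  refine ⟨hT.integrable (by norm_num), hT.integrable_sq, hz, ?_⟩
  have hv := variance_sum_pi (μ := fun _ : κ => gl h) (X := X) hL
  rw [Finset.sum_fn] at hv
  change Var[fun ξ : κ → ℝ => ∑ p, X p (ξ p); Measure.pi fun _ : κ => gl h] = _ at hv
  rw [variance_eq_sub hT] at hv
  simp only [X] at hv
  simp only [Pi.pow_apply] at hv
  rw [hz, zero_pow two_ne_zero, sub_zero] at hv
  rw [hv, Finset.mul_sum]
  refine Finset.sum_congr rfl fun p _ => ?_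
  rw [variance_const_mul, show Var[fun x : ℝ => x; gl h] = h from variance_id_gaussianReal]
  ring

/-- The mean of a linear form given the state. -/
def linMean (G : SimpleGraph V) (P : Prm) (D : Finset V) (j : ℕ) (a : V × V → ℝ) (S : Cfg D) : ℝ :=
  P.h * ∑ k ∈ range j, ∑ i : obsIx G D, a i.1 * feat G P.η P.N₁ D k i S

lemma lin_moments (P : Prm) (D : Finset V) (j : ℕ) (a : V × V → ℝ) (S : Cfg D) :
    Integrable (fun ξ => linY G D j a (tot G D (Gen.plant (feat G P.η P.N₁ D) P.h S ξ)))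
        (Gen.nl (ι := obsIx G D) P.h j) ∧
      Integrable (fun ξ => linY G D j a (tot G D (Gen.plant (feat G P.η P.N₁ D) P.h S ξ)) ^ 2)
        (Gen.nl (ι := obsIx G D) P.h j) ∧
      ∫ ξ, linY G D j a (tot G D (Gen.plant (feat G P.η P.N₁ D) P.h S ξ))
          ∂(Gen.nl (ι := obsIx G D) P.h j) = linMean G P D j a S ∧
      ∫ ξ, linY G D j a (tot G D (Gen.plant (feat G P.η P.N₁ D) P.h S ξ)) ^ 2
          ∂(Gen.nl (ι := obsIx G D) P.h j) =
        linMean G P D j a S ^ 2 + j * P.h * ∑ i ∈ obsIx G D, a i ^ 2 := by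
  set ν := Gen.nl (ι := obsIx G D) P.h j with hν
  set L : Gen.Noi j (obsIx G D) → ℝ := fun ξ => ∑ p : Fin j × obsIx G D, a p.2.1 * ξ p with hLdef
  obtain ⟨g1, g2, g3, g4⟩ : Integrable L ν ∧ Integrable (fun ξ => L ξ ^ 2) ν ∧
      ∫ ξ, L ξ ∂ν = 0 ∧
      ∫ ξ, L ξ ^ 2 ∂ν = P.h * ∑ p : Fin j × obsIx G D, a p.2.1 ^ 2 :=
    gauss_lin P.h fun p : Fin j × obsIx G D => a p.2.1
  have e : ∀ ξ : Gen.Noi j (obsIx G D),
      linY G D j a (tot G D (Gen.plant (feat G P.η P.N₁ D) P.h S ξ)) =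
        linMean G P D j a S + ∑ p : Fin j × obsIx G D, a p.2.1 * ξ p := by
    intro ξ
    unfold linY linMean
    rw [Finset.sum_range, Finset.sum_range, Finset.mul_sum, Fintype.sum_prod_type,
      ← Finset.sum_add_distrib]
    refine Finset.sum_congr rfl fun k _ => ?_
    rw [← Finset.sum_coe_sort (obsIx G D), Finset.mul_sum, ← Finset.sum_add_distrib]
    refine Finset.sum_congr rfl fun i _ => ?_
    simp only [tot, Gen.plant, dif_pos i.2, dif_pos k.2]
    ring
  have : IsProbabilityMeasure ν := by rw [hν]; unfold Gen.nl; infer_instance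
  set m := linMean G P D j a S with hm
  set T := fun ξ : Gen.Noi j (obsIx G D) =>
    linY G D j a (tot G D (Gen.plant (feat G P.η P.N₁ D) P.h S ξ)) with hT
  have eT : T = fun ξ => m + L ξ := funext e
  have eT2 : (fun ξ => T ξ ^ 2) = fun ξ => (m ^ 2 + 2 * m * L ξ) + L ξ ^ 2 := funext fun ξ => by
    rw [eT]; ring
  have i1 : Integrable (fun _ : Gen.Noi j (obsIx G D) => m) ν := integrable_const m
  have i0 : Integrable (fun _ : Gen.Noi j (obsIx G D) => m ^ 2) ν := integrable_const _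
  have i2 : Integrable (fun ξ => 2 * m * L ξ) ν := g1.const_mul _
  have i3 : Integrable (fun ξ => m ^ 2 + 2 * m * L ξ) ν := i0.add i2
  refine ⟨?_, ?_, ?_, ?_⟩
  · change Integrable T ν
    rw [eT]
    exact i1.add g1
  · change Integrable (fun ξ => T ξ ^ 2) ν
    rw [eT2]
    exact i3.add g2
  · change ∫ ξ, T ξ ∂ν = m
    rw [eT, integral_add i1 g1, g3]
    simp
  · change ∫ ξ, T ξ ^ 2 ∂ν = _
    rw [eT2, integral_add i3 g2, integral_add i0 i2, integral_const_mul, g3, g4]
    simp [Fintype.sum_prod_type, Finset.sum_attach (obsIx G D) (fun i => a i ^ 2)]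
    ring

/-- The prior expectation of a function of the spins. -/
lemma sum_lpw (P : Prm) (hθ : Par P.θ) (D : Finset V) (φ : (V → ℝ) → ℝ) :
    ∑ S : Cfg D, Gen.post (lpw G P.θ D) S * φ (spin S.1) = avg G P.θ D (fun _ => 0) φ := by
  unfold Gen.post lpw avg Sm
  simp only [Real.exp_log (wt_pos hθ D _), zero_mul, add_zero, Finset.prod_const_one, mul_one]
  rw [Finset.sum_div, ← Finset.sum_coe_sort D.powerset, ← Finset.sum_coe_sort D.powerset]
  refine Finset.sum_congr rfl fun S _ => ?_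
  exact div_mul_eq_mul_div _ _ _

end

end Vale.Agent.P161.Edge
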