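import Vale.Agent.P161.Edge.PairNoise
import Vale.Agent.P161.Edge.Model
import Vale.Agent.P161.Edge.Bridge
import Vale.Agent.P161.Edge.ProbE

/-!
Innovations as functions of the observations, their behaviour under refinement of the mesh, and
the quadratic distance between the innovations of two schemes.
-/

namespace Vale.Agent.P161.Edge

open MeasureTheory ProbabilityTheory Finset Function
open scoped NNReal Classical

noncomputable section

variable {V : Type} {G : SimpleGraph V}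

/-- The parameters at dyadic level `k`. -/
abbrev prm (θ η : ℝ) (k : ℕ) : Prm := ⟨θ, η, hlev k, 2 ^ k⟩

/-- The innovations of the observations `Y` in the scheme on `D`. -/
def innY (G : SimpleGraph V) (P : Prm) (D : Finset V) (Y : ℕ → V × V → ℝ) (j : ℕ) (i : V × V) :
    ℝ :=
  Y j i - P.h * (coef P.η P.N₁ j i * (pmean G P D Y j i.1 + pmean G P D Y j i.2))

lemma bridge (P : Prm) (h0 : 0 ≤ P.θ) (h1 : P.θ < 1) (hη : 0 ≤ P.η) (D : Finset V) :
    Bridge G P D := fun y j f => by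
  rw [Mdl.ev_llk P h0 h1 hη D y j fun T => f (spin T)]
  exact avg_filter _ _ f

lemma pmean_congr (P : Prm) (D : Finset V) {Y Y' : ℕ → V × V → ℝ} {j : ℕ}
    (h : ∀ k < j, ∀ i ∈ obsIx G D, Y k i = Y' k i) (v : V) :
    pmean G P D Y j v = pmean G P D Y' j v := by
  unfold pmean
  rw [fieldH_congr h]

lemma pmean_eq_mean (P : Prm) {D : Finset V} {v : V} (hv : v ∈ D) (Y : ℕ → V × V → ℝ) (j : ℕ) :
    pmean G P D Y j v = mean G (thetaJ P j) D (tilt G P D Y j) v := by
  simp only [pmean, mf, hv, if_true]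
  rfl

lemma innY_eq (P : Prm) (h0 : 0 ≤ P.θ) (h1 : P.θ < 1) (hη : 0 ≤ P.η) (D : Finset V)
    (Y : ℕ → V × V → ℝ) (j : ℕ) (i : obsIx G D) :
    innY G P D Y j i.1 =
      Gen.inn (feat G P.η P.N₁ D) P.h (lpw G P.θ D) (res D Y) j i := by
  have hi := mem_obsIx.1 i.2
  unfold innY Gen.inn
  have e := bridge (G := G) P h0 h1 hη D (res D Y) j
    (fun s => coef P.η P.N₁ j i.1 * (s i.1.1 + s i.1.2))
  have ht : tilt G P D (tot G D (res D Y)) j = tilt G P D Y j := by
    refine Mdl.tilt_congr P fun k _ l hl => ?_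
    simp [tot, res, hl]
  rw [ht, avg_smul, avg_add] at e
  rw [show (feat G P.η P.N₁ D j i) =
    fun S : Cfg D => coef P.η P.N₁ j i.1 * (spin S.1 i.1.1 + spin S.1 i.1.2) from rfl]
  rw [e, pmean_eq_mean P hi.1.1 Y j, pmean_eq_mean P hi.1.2 Y j]
  simp [res, mean]

lemma measurable_innY (P : Prm) (D : Finset V) {α : Type*} [MeasurableSpace α]
    {Y : α → ℕ → V × V → ℝ} (hY : ∀ j i, Measurable fun a => Y a j i) (j : ℕ) (i : V × V) :
    Measurable fun a => innY G P D (Y a) j i := by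
  unfold innY
  exact (hY j i).sub (measurable_const.mul (measurable_const.mul
    ((measurable_pmean P D hY j i.1).add (measurable_pmean P D hY j i.2))))

/-! ### Refinement -/

lemma measurable_aggY {α β : Type*} [MeasurableSpace β] (M : ℕ) {Y : β → ℕ → α → ℝ}
    (hY : ∀ j i, Measurable fun a => Y a j i) (j : ℕ) (i : α) :
    Measurable fun a => aggY M (Y a) j i :=
  Finset.measurable_sum _ fun l _ => hY _ i

lemma sum_range_mul_add (f : ℕ → ℝ) (M : ℕ) :
    ∀ n, ∑ m ∈ range (n * M), f m = ∑ j ∈ range n, ∑ l ∈ range M, f (j * M + l) := by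
  intro n
  induction n with
  | zero => simp
  | succ n ih => rw [Nat.succ_mul, Finset.sum_range_add, ih, Finset.sum_range_succ]

variable {θ η : ℝ} {k k' : ℕ}

lemma block_lt (k k' : ℕ) (hk : k ≤ k') {j l : ℕ} (hl : l < 2 ^ (k' - k)) :
    (j * 2 ^ (k' - k) + l < 2 ^ k' ↔ j < 2 ^ k) := by
  set M := 2 ^ (k' - k) with hM
  have e : 2 ^ k' = 2 ^ k * M := by rw [hM, ← pow_add, Nat.add_sub_cancel' hk]
  rw [e]
  constructor
  · intro h
    by_contra hc
    push Not at hc
    have := Nat.mul_le_mul_right M hc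
    omega
  · intro h
    have := Nat.mul_le_mul_right M (Nat.succ_le_of_lt h)
    rw [Nat.succ_mul] at this
    omega

lemma coef_block (hk : k ≤ k') {j l : ℕ} (hl : l < 2 ^ (k' - k)) (i : V × V) :
    coef η (2 ^ k') (j * 2 ^ (k' - k) + l) i = coef η (2 ^ k) j i := by
  unfold coef
  simp only [block_lt k k' hk hl]

lemma thetaJ_block (hk : k ≤ k') (j : ℕ) :
    thetaJ (prm θ η k') (j * 2 ^ (k' - k)) = thetaJ (prm θ η k) j := by
  set M := 2 ^ (k' - k) with hM
  have e : 2 ^ k' = 2 ^ k * M := by rw [hM, ← pow_add, Nat.add_sub_cancel' hk]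
  unfold thetaJ tcl
  simp only
  rw [e, Nat.mul_min_mul_right, Nat.cast_mul, mul_assoc, hM, ← hlev_refine hk]

lemma fieldH_block (hk : k ≤ k') (D : Finset V) (Y : ℕ → V × V → ℝ) (j : ℕ) (v : V) :
    fieldH G (prm θ η k') D Y (j * 2 ^ (k' - k)) v =
      fieldH G (prm θ η k) D (aggY (2 ^ (k' - k)) Y) j v := by
  unfold fieldH aggY
  rw [sum_range_mul_add]
  refine Finset.sum_congr rfl fun m _ => ?_
  rw [Finset.sum_comm]
  refine Finset.sum_congr rfl fun i _ => ?_
  rw [Finset.mul_sum]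
  exact Finset.sum_congr rfl fun l hl => by rw [coef_block hk (Finset.mem_range.1 hl)]

lemma pmean_block (hk : k ≤ k') (D : Finset V) (Y : ℕ → V × V → ℝ) (j : ℕ) (v : V) :
    pmean G (prm θ η k') D Y (j * 2 ^ (k' - k)) v =
      pmean G (prm θ η k) D (aggY (2 ^ (k' - k)) Y) j v := by
  unfold pmean
  rw [thetaJ_block hk]
  congr 1
  funext u
  exact fieldH_block hk D Y j u

/-- The aggregated innovations against the coarse innovations of the aggregated observations. -/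
lemma innY_block (hk : k ≤ k') (D : Finset V) (Y : ℕ → V × V → ℝ) (j : ℕ) (i : V × V) :
    innY G (prm θ η k) D (aggY (2 ^ (k' - k)) Y) j i -
        aggY (2 ^ (k' - k)) (innY G (prm θ η k') D Y) j i =
      hlev k' * (coef η (2 ^ k) j i * ∑ l ∈ range (2 ^ (k' - k)),
        ((pmean G (prm θ η k') D Y (j * 2 ^ (k' - k) + l) i.1 -
            pmean G (prm θ η k') D Y (j * 2 ^ (k' - k)) i.1) +
          (pmean G (prm θ η k') D Y (j * 2 ^ (k' - k) + l) i.2 -
            pmean G (prm θ η k') D Y (j * 2 ^ (k' - k)) i.2))) := by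
  set M := 2 ^ (k' - k) with hM
  have e : aggY M (innY G (prm θ η k') D Y) j i = aggY M Y j i -
      hlev k' * (coef η (2 ^ k) j i * ∑ l ∈ range M,
        (pmean G (prm θ η k') D Y (j * M + l) i.1 + pmean G (prm θ η k') D Y (j * M + l) i.2)) := by
    unfold aggY innY
    rw [Finset.mul_sum, Finset.mul_sum, ← Finset.sum_sub_distrib]
    exact Finset.sum_congr rfl fun l hl => by
      simp only [prm]
      rw [coef_block hk (Finset.mem_range.1 hl)]
  rw [e]
  unfold innY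
  simp only
  rw [← pmean_block hk D Y j, ← pmean_block hk D Y j, ← hM]
  rw [show ((hlev k : ℝ≥0) : ℝ) = (M : ℝ) * hlev k' from hlev_refine hk]
  simp only [Finset.sum_add_distrib, Finset.sum_sub_distrib, Finset.sum_const, Finset.card_range,
    nsmul_eq_mul]
  ring

/-- The coarse noise of a block. -/
def aggN {ι : Type} {N N' : ℕ} (M : ℕ) (z : Gen.Noi N' ι) : Gen.Noi N ι := fun q =>
  ∑ l ∈ range M, Gen.ext z ((q.1 : ℕ) * M + l) q.2

lemma measurable_aggN {ι : Type} [Fintype ι] {N N' : ℕ} (M : ℕ) :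
    Measurable (aggN (ι := ι) (N := N) (N' := N') M) :=
  measurable_pi_lambda _ fun q => Finset.measurable_sum _ fun l _ => Gen.measurable_ext _ _

lemma aggN_preserving {ι : Type} [Fintype ι] (hk : k ≤ k') (N : ℕ) :
    MeasurePreserving (aggN (ι := ι) (N := N) (N' := N * 2 ^ (k' - k)) (2 ^ (k' - k)))
      (Gen.nl (ι := ι) (hlev k') (N * 2 ^ (k' - k))) (Gen.nl (ι := ι) (hlev k) N) := by
  refine ⟨measurable_aggN _, ?_⟩
  rw [← (noi_preserving (ι := ι) k' (N * 2 ^ (k' - k))).map_eq,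
    Measure.map_map (measurable_aggN _) (noi_preserving k' _).measurable,
    ← (noi_preserving (ι := ι) k N).map_eq]
  congr 1
  funext W q
  have hq : ((q.1 : ℕ) + 1) * 2 ^ (k' - k) ≤ N * 2 ^ (k' - k) :=
    Nat.mul_le_mul_right _ q.1.2
  rw [Nat.succ_mul] at hq
  simp only [Function.comp_apply, aggN, noise_refine hk]
  refine Finset.sum_congr rfl fun l hl => ?_
  have := Finset.mem_range.1 hl
  simp [Gen.ext, show (q.1 : ℕ) * 2 ^ (k' - k) + l < N * 2 ^ (k' - k) by omega]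

/-- Expectations of functionals of aggregated observations. -/
theorem E_agg (hk : k ≤ k') (D : Finset V) (N : ℕ) {Φ : Finset V → (ℕ → V × V → ℝ) → ℝ}
    (hΦ : MeasY Φ) :
    E G (prm θ η k') D (N * 2 ^ (k' - k)) (fun S Y => Φ S (aggY (2 ^ (k' - k)) Y)) =
      E G (prm θ η k) D N Φ := by
  unfold E Gen.Epl
  refine Finset.sum_congr rfl fun S _ => ?_
  congr 1
  simp only
  rw [← (aggN_preserving (ι := obsIx G D) hk N).map_eq,
    integral_map (measurable_aggN _).aemeasurable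
      (hΦ S.1 _ _ (measurable_tot_plant (P := prm θ η k) S)).aestronglyMeasurable]
  refine integral_congr_ae (ae_of_all _ fun ξ => ?_)
  simp only
  congr 1
  funext j i
  by_cases hi : i ∈ obsIx G D
  · by_cases hj : j < N
    · have hq : (j + 1) * 2 ^ (k' - k) ≤ N * 2 ^ (k' - k) := Nat.mul_le_mul_right _ hj
      rw [Nat.succ_mul] at hq
      simp only [aggY, tot, dif_pos hi, Gen.plant, dif_pos hj, aggN]
      rw [show ((hlev k : ℝ≥0) : ℝ) = ((2 ^ (k' - k) : ℕ) : ℝ) * hlev k' from hlev_refine hk]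
      have e : ∀ l ∈ range (2 ^ (k' - k)), (if h : j * 2 ^ (k' - k) + l < N * 2 ^ (k' - k) then
          (hlev k' : ℝ) * feat G η (2 ^ k') D (j * 2 ^ (k' - k) + l) ⟨i, hi⟩ S + ξ (⟨j * 2 ^ (k' - k) + l, h⟩, ⟨i, hi⟩)
            else 0) = (hlev k' : ℝ) * feat G η (2 ^ k) D j ⟨i, hi⟩ S +
              Gen.ext ξ (j * 2 ^ (k' - k) + l) ⟨i, hi⟩ := fun l hl => by
        have hl' := Finset.mem_range.1 hl
        simp only [Gen.ext, feat, dif_pos (show j * 2 ^ (k' - k) + l < N * 2 ^ (k' - k) by omega)]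
        rw [coef_block hk hl']
      rw [Finset.sum_congr rfl e, Finset.sum_add_distrib, Finset.sum_const, Finset.card_range,
        nsmul_eq_mul]
      ring
    · simp only [aggY, tot, dif_pos hi, Gen.plant, dif_neg hj]
      refine Finset.sum_eq_zero fun l _ => dif_neg ?_
      have := Nat.mul_le_mul_right (2 ^ (k' - k)) (not_lt.1 hj)
      omega
  · simp [aggY, tot, hi]

/-! ### Quadratic distances -/

/-- The squared distance of two innovation sequences on `B`, in units of the mesh. -/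
def qd (h : ℝ) (N : ℕ) (B : Finset (V × V)) (Z Z' : ℕ → V × V → ℝ) : ℝ :=
  ∑ j ∈ range N, ∑ i ∈ B, (Z j i - Z' j i) ^ 2 / h

lemma qd_nonneg {h : ℝ} (hh : 0 ≤ h) (N : ℕ) (B : Finset (V × V)) (Z Z' : ℕ → V × V → ℝ) :
    0 ≤ qd h N B Z Z' :=
  Finset.sum_nonneg fun j _ => Finset.sum_nonneg fun i _ => div_nonneg (sq_nonneg _) hh

lemma coef_sq_le (hη : 0 ≤ η) (hη2 : η ≤ 2) (N₁ j : ℕ) (i : V × V) : coef η N₁ j i ^ 2 ≤ 1 := by
  unfold coef
  split_ifs
  · norm_num
  · rw [Real.sq_sqrt (by positivity)]; linarith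
  · norm_num

/-- Differences made of block sums of errors at the endpoints. -/
lemma qd_le_of_block (hk : k ≤ k') (hη : 0 ≤ η) (hη2 : η ≤ 2) (N : ℕ) (B : Finset (V × V))
    {Z Z' : ℕ → V × V → ℝ} (e : ℕ → V → ℝ)
    (h : ∀ j < N, ∀ i ∈ B, Z j i - Z' j i = hlev k' * (coef η (2 ^ k) j i *
      ∑ l ∈ range (2 ^ (k' - k)), (e (j * 2 ^ (k' - k) + l) i.1 + e (j * 2 ^ (k' - k) + l) i.2))) :
    qd (hlev k) N B Z Z' ≤
      ∑ j ∈ range N, ∑ i ∈ B, ∑ l ∈ range (2 ^ (k' - k)), 2 * (hlev k' : ℝ) *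
        (e (j * 2 ^ (k' - k) + l) i.1 ^ 2 + e (j * 2 ^ (k' - k) + l) i.2 ^ 2) := by
  refine Finset.sum_le_sum fun j hj => Finset.sum_le_sum fun i hi => ?_
  set M := 2 ^ (k' - k) with hM
  rw [h j (Finset.mem_range.1 hj) i hi, show ((hlev k : ℝ≥0) : ℝ) = (M : ℝ) * hlev k' from
    hlev_refine hk, div_le_iff₀ (by have := hlev_pos k'; positivity)]
  set a := fun l => e (j * M + l) i.1 + e (j * M + l) i.2
  have h1 : (∑ l ∈ range M, a l) ^ 2 ≤ (M : ℝ) * ∑ l ∈ range M, a l ^ 2 := by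
    simpa using sq_sum_le_card_mul_sum_sq (s := range M) (f := a)
  have h2 : ∑ l ∈ range M, a l ^ 2 ≤
      ∑ l ∈ range M, 2 * (e (j * M + l) i.1 ^ 2 + e (j * M + l) i.2 ^ 2) :=
    Finset.sum_le_sum fun l _ => by
      simp only [a]; nlinarith [sq_nonneg (e (j * M + l) i.1 - e (j * M + l) i.2)]
  have hc := coef_sq_le hη hη2 (2 ^ k) j i
  calc ((hlev k' : ℝ) * (coef η (2 ^ k) j i * ∑ l ∈ range M, a l)) ^ 2
      = (hlev k' : ℝ) ^ 2 * (coef η (2 ^ k) j i ^ 2 * (∑ l ∈ range M, a l) ^ 2) := by ring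
    _ ≤ (hlev k' : ℝ) ^ 2 * (1 * ((M : ℝ) *
        ∑ l ∈ range M, 2 * (e (j * M + l) i.1 ^ 2 + e (j * M + l) i.2 ^ 2))) := by
      refine mul_le_mul_of_nonneg_left ?_ (sq_nonneg _)
      exact mul_le_mul hc (h1.trans (mul_le_mul_of_nonneg_left h2 (Nat.cast_nonneg _)))
        (sq_nonneg _) zero_le_one
    _ = _ := by
      simp only [Finset.mul_sum, Finset.sum_mul]
      exact Finset.sum_congr rfl fun l _ => by ring

/-! ### Second moments of the posterior means -/

lemma measY_pm (P : Prm) (D : Finset V) (j : ℕ) (v : V) :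
    MeasY fun _ Y => pmean G P D Y j v := fun _ _ _ _ hY => measurable_pmean P D hY j v

/-- The squared posterior mean, averaged. -/
def msqJ (G : SimpleGraph V) (P : Prm) (D : Finset V) (j : ℕ) (v : V) : ℝ :=
  E G P D j fun _ Y => pmean G P D Y j v ^ 2

/-- Time marginals. -/
lemma E_time (hG : G.IsTree) (P : Prm) (h0 : 0 ≤ P.θ) (h1 : P.θ < 1) {D : Finset V}
    (hD : Closed G D) (hne : D.Nonempty) {N M : ℕ} (hNM : N ≤ M) {B : ℝ}
    {Φ : Finset V → (ℕ → V × V → ℝ) → ℝ} (hm : MeasY Φ) (hb : ∀ S Y, |Φ S Y| ≤ B)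
    (hdep : ObsDep G D ∅ N Φ) : E G P D M Φ = E G P D N Φ :=
  Mdl.E_marginal hG P h0 h1 hD hne hD subset_rfl hNM (adm_of hm hb) hdep

lemma pmean_bound (P : Prm) (D : Finset V) {j : ℕ} (hθ : Par (thetaJ P j))
    (Y : ℕ → V × V → ℝ) (v : V) : |pmean G P D Y j v| ≤ 1 :=
  abs_mf_le hθ D _ v

section msq

variable (hG : G.IsTree) {D : Finset V} (hD : Closed G D) {P : Prm} (h0 : 0 ≤ P.θ)
  (h1 : P.θ < 1) (hh : P.h ≠ 0) (hη : 0 ≤ P.η) (ht : Real.tanh (P.η * (P.N₁ * P.h)) ≤ P.θ)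
include hG hD h0 h1 hh hη ht

/-- The posterior means form a martingale. -/
theorem E_pmean_sq_diff {v : V} (hv : v ∈ D) {a i N : ℕ} (hai : a ≤ i) (hiN : i ≤ N) :
    E G P D N (fun _ Y => (pmean G P D Y i v - pmean G P D Y a v) ^ 2) =
      msqJ G P D i v - msqJ G P D a v := by
  have hne : D.Nonempty := ⟨v, hv⟩
  have hP : ∀ j, Par (thetaJ P j) := Mdl.par_thetaJ h1 hη ht
  have hb : ∀ j Y, |pmean G P D Y j v| ≤ 1 := fun j Y => pmean_bound P D (hP j) Y v
  have bmul : ∀ x y : ℝ, |x| ≤ 1 → |y| ≤ 1 → |x * y| ≤ 1 := fun x y hx hy => by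
    rw [abs_mul]; exact mul_le_one₀ hx (abs_nonneg y) hy
  have dep : ∀ j n, j ≤ n → ∀ Y Y' : ℕ → V × V → ℝ,
      (∀ m < n, ∀ l ∈ obsIx G D, l ∉ (∅ : Finset (V × V)) → Y m l = Y' m l) →
      pmean G P D Y j v = pmean G P D Y' j v := fun j n hjn Y Y' h =>
    pmean_congr P D (fun m hm l hl => h m (lt_of_lt_of_le hm hjn) l hl (Finset.notMem_empty l)) v
  have ma : MeasY fun _ Y => pmean G P D Y a v := measY_pm P D a v
  have mi : MeasY fun _ Y => pmean G P D Y i v := measY_pm P D i v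
  have mσ : MeasY fun S Y => spin S v * pmean G P D Y a v :=
    fun S _ _ _ hY => (measurable_pmean P D hY a v).const_mul _
  have bσ : ∀ S Y, |spin S v * pmean G P D Y a v| ≤ 1 := fun S Y =>
    bmul _ _ (abs_spin S v).le (hb a Y)
  have maa : MeasY fun _ Y => pmean G P D Y a v ^ 2 :=
    fun _ _ _ _ hY => (measurable_pmean P D hY a v).pow_const 2
  have mii : MeasY fun _ Y => pmean G P D Y i v ^ 2 :=
    fun _ _ _ _ hY => (measurable_pmean P D hY i v).pow_const 2
  have mia : MeasY fun _ Y => pmean G P D Y i v * pmean G P D Y a v :=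
    fun _ _ _ _ hY => (measurable_pmean P D hY i v).mul (measurable_pmean P D hY a v)
  have baa : ∀ j (_ : Finset V) Y, |pmean G P D Y j v ^ 2| ≤ 1 := fun j _ Y => by
    rw [sq]; exact bmul _ _ (hb j Y) (hb j Y)
  have bia : ∀ (_ : Finset V) Y, |pmean G P D Y i v * pmean G P D Y a v| ≤ 1 := fun _ Y =>
    bmul _ _ (hb i Y) (hb a Y)
  have eii : E G P D N (fun _ Y => pmean G P D Y i v ^ 2) = msqJ G P D i v :=
    E_time hG P h0 h1 hD hne hiN mii (baa i) fun S S' Y Y' _ h => by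
      simp only [dep i i le_rfl Y Y' h]
  have eaa : E G P D N (fun _ Y => pmean G P D Y a v ^ 2) = msqJ G P D a v :=
    E_time hG P h0 h1 hD hne (hai.trans hiN) maa (baa a) fun S S' Y Y' _ h => by
      simp only [dep a a le_rfl Y Y' h]
  have tow : ∀ j, a ≤ j → E G P D j (fun S Y => spin S v * pmean G P D Y a v) =
      E G P D j (fun _ Y => pmean G P D Y j v * pmean G P D Y a v) := fun j _ => by
    rw [Mdl.E_tower genLawStmt P h0 h1 hh hη D j (fun s => s v) (fun Y => pmean G P D Y a v)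
      (adm_of ma fun _ Y => hb a Y)]
    refine E_congr fun S _ Y => ?_
    rw [pmean_eq_mean P hv Y j]
    rfl
  have eia : E G P D N (fun _ Y => pmean G P D Y i v * pmean G P D Y a v) = msqJ G P D a v := by
    rw [E_time hG P h0 h1 hD hne hiN mia bia fun S S' Y Y' _ h => by
      simp only [dep i i le_rfl Y Y' h, dep a i hai Y Y' h]]
    rw [← tow i hai, E_time hG P h0 h1 hD hne hai mσ bσ fun S S' Y Y' hs h => by
      simp only [dep a a le_rfl Y Y' h, hs v hv], tow a le_rfl]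
    exact E_congr fun S _ Y => (sq _).symm
  have m2 : MeasY fun _ Y => pmean G P D Y i v ^ 2 + (-2) * (pmean G P D Y i v * pmean G P D Y a v) :=
    fun S _ _ _ hY => (mii S _ _ hY).add ((mia S _ _ hY).const_mul _)
  have b2 : ∀ (S : Finset V) Y,
      |pmean G P D Y i v ^ 2 + (-2) * (pmean G P D Y i v * pmean G P D Y a v)| ≤ 3 := fun S Y => by
    refine (abs_add_le _ _).trans ?_
    rw [abs_mul (-2 : ℝ), abs_neg, abs_two]
    linarith [baa i S Y, bia S Y]
  rw [E_congr (Ψ := fun _ Y => (pmean G P D Y i v ^ 2 +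
      (-2) * (pmean G P D Y i v * pmean G P D Y a v)) + pmean G P D Y a v ^ 2)
      fun S _ Y => by ring,
    E_add m2 maa b2 (baa a),
    E_add mii (fun S _ _ _ hY => (mia S _ _ hY).const_mul _) (baa i) (B' := 2) fun S Y => by
      rw [abs_mul, abs_neg, abs_two]; linarith [bia S Y],
    E_const_mul, eii, eaa, eia]
  ring

lemma msqJ_mono {v : V} (hv : v ∈ D) {a i : ℕ} (hai : a ≤ i) :
    msqJ G P D a v ≤ msqJ G P D i v := by
  have := E_pmean_sq_diff hG hD h0 h1 hh hη ht hv hai le_rfl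
  have hn : 0 ≤ E G P D i (fun _ Y => (pmean G P D Y i v - pmean G P D Y a v) ^ 2) :=
    E_nonneg fun _ _ _ => sq_nonneg _
  linarith

omit hG hD h0 hh in
lemma msqJ_mem (v : V) (i : ℕ) : 0 ≤ msqJ G P D i v ∧ msqJ G P D i v ≤ 1 := by
  refine ⟨E_nonneg fun _ _ _ => sq_nonneg _, ?_⟩
  have hb : ∀ (_ : Finset V) Y, |pmean G P D Y i v ^ 2| ≤ 1 := fun _ Y => by
    rw [abs_pow]
    exact pow_le_one₀ (abs_nonneg _) (pmean_bound P D (Mdl.par_thetaJ h1 hη ht i) Y v)
  refine (E_mono (fun _ _ _ _ hY => (measurable_pmean P D hY i v).pow_const 2)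
    (fun _ _ _ _ _ => measurable_const) hb (B' := 1) (Ψ := fun _ _ => 1)
    (fun _ _ => by simp) fun S _ Y => (le_abs_self _).trans (hb S Y)).trans_eq (E_const _ _)

end msq

end

end Vale.Agent.P161.Edge
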