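import Vale.Agent.P161.Tree
import Mathlib.Data.List.GetD

/-!
Automorphisms of a regular tree: any pair of vertices can be carried to any pair at the same
distance. Vertices are coded by words listing child indices away from a root.
-/

namespace Vale.Agent.P161.Edge

open Finset
open scoped Classical

noncomputable section

variable {V : Type*} {G : SimpleGraph V} {d : ℕ} (hG : G.IsTree) (hd : Regular G d) (hd3 : 3 ≤ d)

/-- The neighbours of `p` further from `o`. -/
def children (o p : V) : Finset V :=
  (hd.finite_nbr hd3 p).toFinset.filter fun z => G.dist o z = G.dist o p + 1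

lemma mem_children {o p z : V} :
    z ∈ children hd hd3 o p ↔ G.Adj p z ∧ G.dist o z = G.dist o p + 1 := by
  simp [children]

include hG in
lemma card_children (o p : V) :
    (children hd hd3 o p).card = if p = o then d else d - 1 := by
  have hcard : (hd.finite_nbr hd3 p).toFinset.card = d := by
    rw [← Set.ncard_eq_toFinset_card _ (hd.finite_nbr hd3 p)]; exact hd p
  split_ifs with hp
  · subst hp
    rw [children, Finset.filter_true_of_mem, hcard]
    intro z hz
    rw [Set.Finite.mem_toFinset] at hz
    rw [SimpleGraph.dist_self, SimpleGraph.dist_eq_one_iff_adj.2 hz]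
  · obtain ⟨q, hq, hdq⟩ := exists_closer hG hp
    have : children hd hd3 o p = (hd.finite_nbr hd3 p).toFinset.erase q := by
      ext z
      rw [mem_children, Finset.mem_erase, Set.Finite.mem_toFinset]
      constructor
      · rintro ⟨hz, hdz⟩
        exact ⟨fun e => by subst e; omega, hz⟩
      · rintro ⟨hne, hz⟩
        refine ⟨hz, ?_⟩
        rcases hG.dist_eq_dist_add_one_of_adj o hz with h | h
        · exact absurd (closer_unique hG hz hq h hdq) hne
        · exact h
    rw [this, Finset.card_erase_of_mem (by simpa using hq), hcard]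

/-- The children of `p` listed, the one towards `c` first when there is one. -/
def childList (o c p : V) : List V :=
  if h : ∃ z ∈ children hd hd3 o p, G.dist c p = G.dist c z + 1 then
    h.choose :: ((children hd hd3 o p).erase h.choose).toList
  else (children hd hd3 o p).toList

lemma mem_childList {o c p z : V} :
    z ∈ childList hd hd3 o c p ↔ z ∈ children hd hd3 o p := by
  unfold childList
  split_ifs with h
  · rw [List.mem_cons, Finset.mem_toList, Finset.mem_erase]
    constructor
    · rintro (rfl | ⟨-, hz⟩)
      · exact h.choose_spec.1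
      · exact hz
    · intro hz
      by_cases e : z = h.choose
      · exact Or.inl e
      · exact Or.inr ⟨e, hz⟩
  · rw [Finset.mem_toList]

lemma nodup_childList (o c p : V) : (childList hd hd3 o c p).Nodup := by
  unfold childList
  split_ifs with h
  · refine List.nodup_cons.2 ⟨?_, Finset.nodup_toList _⟩
    simp
  · exact Finset.nodup_toList _

include hG in
lemma length_childList (o c p : V) :
    (childList hd hd3 o c p).length = if p = o then d else d - 1 := by
  rw [← card_children hG hd hd3 o p, ← List.toFinset_card_of_nodup (nodup_childList hd hd3 o c p)]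
  congr 1
  ext z
  simp [mem_childList]

/-- Words of child indices, most recent first. -/
def Valid (d : ℕ) : List ℕ → Prop
  | [] => True
  | i :: w => i < (if w = [] then d else d - 1) ∧ Valid d w

/-- The vertex with a given word. -/
def vert (o c : V) : List ℕ → V
  | [] => o
  | i :: w => (childList hd hd3 o c (vert o c w)).getD i o

include hG in
lemma vert_spec (o c : V) : ∀ w : List ℕ, Valid d w →
    G.dist o (vert hd hd3 o c w) = w.length ∧
    ∀ i, i < (if w = [] then d else d - 1) →
      vert hd hd3 o c (i :: w) ∈ children hd hd3 o (vert hd hd3 o c w) := by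
  intro w
  induction w with
  | nil =>
    intro _
    refine ⟨by simp [vert], fun i hi => ?_⟩
    have hlen := length_childList hG hd hd3 o c o
    simp only [if_true] at hlen hi
    rw [← mem_childList hd hd3 (c := c)]
    simp only [vert]
    rw [List.getD_eq_getElem _ _ (by omega)]
    exact List.getElem_mem _
  | cons a w ih =>
    intro hv
    obtain ⟨ha, hw⟩ := hv
    obtain ⟨hdist, hmem⟩ := ih hw
    have h1 : G.dist o (vert hd hd3 o c (a :: w)) = (a :: w).length := by
      rw [((mem_children hd hd3).1 (hmem a ha)).2, hdist, List.length_cons]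
    refine ⟨h1, fun i hi => ?_⟩
    have hne : vert hd hd3 o c (a :: w) ≠ o := fun e => by
      rw [e, SimpleGraph.dist_self, List.length_cons] at h1
      omega
    have hlen := length_childList hG hd hd3 o c (vert hd hd3 o c (a :: w))
    rw [if_neg hne] at hlen
    rw [if_neg (List.cons_ne_nil a w)] at hi
    rw [← mem_childList hd hd3 (c := c)]
    conv_rhs => rw [vert]
    rw [List.getD_eq_getElem _ _ (by omega)]
    exact List.getElem_mem _

include hG in
lemma vert_inj (o c : V) : ∀ w w' : List ℕ, Valid d w → Valid d w' →
    vert hd hd3 o c w = vert hd hd3 o c w' → w = w' := by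
  intro w
  induction w with
  | nil =>
    intro w' _ hw' e
    have := (vert_spec hG hd hd3 o c w' hw').1
    rw [← e] at this
    simp [vert] at this
    exact (List.eq_nil_of_length_eq_zero (by simpa using this.symm)).symm
  | cons i w ih =>
    intro w' hv hv' e
    cases w' with
    | nil =>
      have := (vert_spec hG hd hd3 o c _ hv).1
      rw [e] at this
      simp [vert] at this
    | cons i' w' =>
      obtain ⟨hi, hw⟩ := hv
      obtain ⟨hi', hw'⟩ := hv'
      obtain ⟨d1, m1⟩ := vert_spec hG hd hd3 o c w hw
      obtain ⟨d2, m2⟩ := vert_spec hG hd hd3 o c w' hw'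
      obtain ⟨a1, b1⟩ := (mem_children hd hd3).1 (m1 i hi)
      obtain ⟨a2, b2⟩ := (mem_children hd hd3).1 (m2 i' hi')
      rw [← e] at a2 b2
      have hp := closer_unique hG a1.symm a2.symm b1 b2
      have hww := ih w' hw hw' hp
      subst hww
      have hlen := length_childList hG hd hd3 o c (vert hd hd3 o c w)
      have hb : ∀ k, k < (if w = [] then d else d - 1) →
          k < (childList hd hd3 o c (vert hd hd3 o c w)).length := fun k hk => by
        rw [hlen]
        by_cases hwn : w = []
        · subst hwn; simpa [vert] using hk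
        · have hne : vert hd hd3 o c w ≠ o := fun e' => by
            rw [e', SimpleGraph.dist_self] at d1
            exact hwn (List.eq_nil_of_length_eq_zero d1.symm)
          rw [if_neg hne]; rw [if_neg hwn] at hk; exact hk
      simp only [vert] at e
      rw [List.getD_eq_getElem _ _ (hb i hi), List.getD_eq_getElem _ _ (hb i' hi'),
        (nodup_childList hd hd3 o c _).getElem_inj_iff] at e
      rw [e]

include hG in
lemma vert_surj (o c : V) : ∀ (n : ℕ) (x : V), G.dist o x = n →
    ∃ w, Valid d w ∧ vert hd hd3 o c w = x := by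
  intro n
  induction n with
  | zero =>
    intro x hx
    exact ⟨[], trivial, (hG.connected.dist_eq_zero_iff.1 hx)⟩
  | succ n ih =>
    intro x hx
    obtain ⟨p, hp, hdp⟩ := exists_closer hG (u := o) (x := x) (fun e => by simp [e] at hx)
    obtain ⟨w, hw, hwp⟩ := ih p (by omega)
    have hmem : x ∈ childList hd hd3 o c p := by
      rw [mem_childList, mem_children]; exact ⟨hp.symm, hdp⟩
    obtain ⟨i, hi, hix⟩ := List.getElem_of_mem hmem
    refine ⟨i :: w, ⟨?_, hw⟩, ?_⟩
    · rw [length_childList hG] at hi
      by_cases hwn : w = []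
      · subst hwn
        simp only [vert] at hwp
        rw [if_pos hwp.symm] at hi
        simpa using hi
      · have hne : p ≠ o := fun e' => by
          have := (vert_spec hG hd hd3 o c w hw).1
          rw [hwp, e', SimpleGraph.dist_self] at this
          exact hwn (List.eq_nil_of_length_eq_zero this.symm)
        rw [if_neg hne] at hi; rw [if_neg hwn]; exact hi
    · simp only [vert, hwp]
      rw [List.getD_eq_getElem _ _ hi, hix]

/-- The coding of vertices by valid words. -/
def wordEquiv (o c : V) : {w : List ℕ // Valid d w} ≃ V :=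
  Equiv.ofBijective (fun w => vert hd hd3 o c w.1)
    ⟨fun a b e => Subtype.ext (vert_inj hG hd hd3 o c a.1 b.1 a.2 b.2 e),
     fun x => let ⟨w, hw, e⟩ := vert_surj hG hd hd3 o c _ x rfl; ⟨⟨w, hw⟩, e⟩⟩

lemma adj_word (o c : V) (a b : {w : List ℕ // Valid d w}) :
    G.Adj (wordEquiv hG hd hd3 o c a) (wordEquiv hG hd hd3 o c b) ↔
      ∃ i, a.1 = i :: b.1 ∨ b.1 = i :: a.1 := by
  have key : ∀ a b : {w : List ℕ // Valid d w},
      (∃ i, a.1 = i :: b.1) ↔ G.Adj (vert hd hd3 o c a.1) (vert hd hd3 o c b.1) ∧
        G.dist o (vert hd hd3 o c a.1) = G.dist o (vert hd hd3 o c b.1) + 1 := by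
    intro a b
    constructor
    · rintro ⟨i, e⟩
      have hv := a.2
      rw [e] at hv
      obtain ⟨h1, h2⟩ := (mem_children hd hd3).1 ((vert_spec hG hd hd3 o c b.1 b.2).2 i hv.1)
      rw [e]
      exact ⟨h1.symm, h2⟩
    · rintro ⟨h1, h2⟩
      obtain ⟨w, hw⟩ := a
      cases w with
      | nil => simp [vert] at h2
      | cons i w =>
        obtain ⟨a1, b1⟩ := (mem_children hd hd3).1 ((vert_spec hG hd hd3 o c w hw.2).2 i hw.1)
        have hp := closer_unique hG a1.symm h1 b1 h2
        exact ⟨i, congrArg (List.cons i) (vert_inj hG hd hd3 o c w b.1 hw.2 b.2 hp)⟩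
  change G.Adj (vert hd hd3 o c a.1) (vert hd hd3 o c b.1) ↔ _
  constructor
  · intro h
    rcases hG.dist_eq_dist_add_one_of_adj o h with h' | h'
    · obtain ⟨i, hi⟩ := (key a b).2 ⟨h, h'⟩
      exact ⟨i, Or.inl hi⟩
    · obtain ⟨i, hi⟩ := (key b a).2 ⟨h.symm, h'⟩
      exact ⟨i, Or.inr hi⟩
  · rintro ⟨i, h | h⟩
    · exact ((key a b).1 ⟨i, h⟩).1
    · exact ((key b a).1 ⟨i, h⟩).1.symm

lemma valid_zeros : ∀ n : ℕ, 3 ≤ d → Valid d (List.replicate n 0)
  | 0, _ => trivial
  | n + 1, h => by
    rw [List.replicate_succ]
    exact ⟨by split_ifs <;> omega, valid_zeros n h⟩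

include hG in
lemma vert_zeros (o c : V) : ∀ k, k ≤ G.dist o c →
    G.dist c (vert hd hd3 o c (List.replicate k 0)) + k = G.dist o c := by
  intro k
  induction k with
  | zero => intro _; simp [vert, SimpleGraph.dist_comm]
  | succ k ih =>
    intro hk
    have hprev := ih (by omega)
    set p := vert hd hd3 o c (List.replicate k 0) with hp
    have hdp : G.dist o p = k := by
      have := (vert_spec hG hd hd3 o c _ (valid_zeros k hd3)).1
      simpa [← hp] using this
    have hpc : p ≠ c := fun e => by
      rw [e, SimpleGraph.dist_self] at hprev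
      omega
    obtain ⟨z, hz, hdz⟩ := exists_closer hG (u := c) hpc
    have hzc : z ∈ children hd hd3 o p := by
      rw [mem_children]
      refine ⟨hz, ?_⟩
      rcases hG.dist_eq_dist_add_one_of_adj o hz with h | h
      · have := hG.connected.dist_triangle (u := o) (v := z) (w := c)
        rw [SimpleGraph.dist_comm (u := z) (v := c)] at this
        omega
      · exact h
    have hex : ∃ z ∈ children hd hd3 o p, G.dist c p = G.dist c z + 1 := ⟨z, hzc, hdz⟩
    have hfirst : vert hd hd3 o c (List.replicate (k + 1) 0) = hex.choose := by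
      rw [List.replicate_succ]
      simp only [vert, ← hp, childList, dif_pos hex, List.getD_cons_zero]
    rw [hfirst]
    have := hex.choose_spec.2
    omega

include hG hd hd3 in
/-- Any pair of vertices can be carried to any other pair at the same distance. -/
theorem exists_iso_pair (o c o' c' : V) (h : G.dist o c = G.dist o' c') :
    ∃ g : G ≃g G, g o = o' ∧ g c = c' := by
  set e := wordEquiv hG hd hd3 o c
  set e' := wordEquiv hG hd hd3 o' c'
  have hadj : ∀ {x y : V}, G.Adj ((e.symm.trans e') x) ((e.symm.trans e') y) ↔ G.Adj x y := by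
    intro x y
    rw [Equiv.trans_apply, Equiv.trans_apply, adj_word hG hd hd3 o' c',
      ← adj_word hG hd hd3 o c, Equiv.apply_symm_apply, Equiv.apply_symm_apply]
  refine ⟨⟨e.symm.trans e', hadj⟩, ?_, ?_⟩
  · change e' (e.symm o) = o'
    rw [show e.symm o = ⟨[], trivial⟩ from e.symm_apply_eq.2 rfl]
    rfl
  · change e' (e.symm c) = c'
    set w : {w : List ℕ // Valid d w} := ⟨_, valid_zeros (G.dist o c) hd3⟩
    have h1 : e w = c := by
      have := vert_zeros hG hd hd3 o c _ le_rfl
      exact (hG.connected.dist_eq_zero_iff.1 (by omega :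
        G.dist c (vert hd hd3 o c (List.replicate (G.dist o c) 0)) = 0)).symm
    have h2 : e' w = c' := by
      have := vert_zeros hG hd hd3 o' c' _ h.le
      exact (hG.connected.dist_eq_zero_iff.1 (by omega :
        G.dist c' (vert hd hd3 o' c' (List.replicate (G.dist o c) 0)) = 0)).symm
    rw [show e.symm c = w from e.symm_apply_eq.2 h1.symm, h2]

end

end Vale.Agent.P161.Edge
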