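import Vale.Agent.P161.Defs
import Mathlib.Probability.Independence.InfinitePi
import Mathlib.Probability.Independence.Integration
import Mathlib.MeasureTheory.Measure.MeasuredSets
import Mathlib.MeasureTheory.Constructions.ProjectiveFamilyContent
import Mathlib.Analysis.SpecificLimits.Basic
import Mathlib.Tactic

/-!
The orthogonal decomposition of bounded functions of i.i.d. labels, in bilinear form.

For a finite set `S` of coordinates, `K S f h` is the expectation of `f` times `h` when `h` sees
independent fresh labels off `S`; `q A f h` is its Möbius transform. The forms `q A` are positive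
semidefinite, and their sum over `A ⊆ B` is `K B`, which tends to `E[f h]` as `B` grows.
-/

namespace Vale.Agent.P161.Edge.Converse

open MeasureTheory Filter Finset Function
open scoped Topology Classical ENNReal

noncomputable section

variable {V : Type*}

/-- I.i.d. uniform labels. -/
def lab (ι : Type*) : Measure (ι → unitInterval) :=
  Measure.infinitePi fun _ : ι => (volume : Measure unitInterval)

instance (ι : Type*) : IsProbabilityMeasure (lab ι) := by unfold lab; infer_instance

/-- Reindexing along an injection preserves the law. -/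
lemma mp_reindex {ι κ : Type*} {e : κ → ι} (he : Injective e) :
    MeasurePreserving (fun ω : ι → unitInterval => fun k => ω (e k)) (lab ι) (lab κ) := by
  have hm : Measurable fun ω : ι → unitInterval => fun k => ω (e k) :=
    measurable_pi_lambda _ fun k => measurable_pi_apply (e k)
  refine ⟨hm, ?_⟩
  refine Measure.eq_infinitePi _ fun s t ht => ?_
  rw [Measure.map_apply hm (MeasurableSet.pi s.countable_toSet fun i _ => ht i)]
  set t' : ι → Set unitInterval := Function.extend e t fun _ => Set.univ with ht'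
  have hpre : (fun ω : ι → unitInterval => fun k => ω (e k)) ⁻¹' ((s : Set κ).pi t)
      = ((s.map ⟨e, he⟩ : Finset ι) : Set ι).pi t' := by
    ext ω
    simp [Set.mem_pi, ht', he.extend_apply]
  rw [hpre, lab, Measure.infinitePi_pi]
  · rw [Finset.prod_map]
    simp [ht', he.extend_apply]
  · intro i hi
    obtain ⟨k, -, rfl⟩ := Finset.mem_map.1 hi
    simpa [ht', he.extend_apply] using ht k

/-- The labels read through a choice of replica at each site. -/
def pick (a : V → ℕ) (ω : ℕ × V → unitInterval) : V → unitInterval := fun v => ω (a v, v)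

lemma mp_pick (a : V → ℕ) : MeasurePreserving (pick a) (lab (ℕ × V)) (lab V) :=
  mp_reindex fun _ _ h => (Prod.ext_iff.1 h).2

/-- A bounded measurable observable. -/
def Obs (f : (V → unitInterval) → ℝ) : Prop := Measurable f ∧ ∀ U, |f U| ≤ 1

variable {f h : (V → unitInterval) → ℝ}

/-- The two-replica expectation. -/
def pairE (f h : (V → unitInterval) → ℝ) (a a' : V → ℕ) : ℝ :=
  ∫ ω, f (pick a ω) * h (pick a' ω) ∂(lab (ℕ × V))

lemma measurable_prodObs (hf : Obs f) (hh : Obs h) (a a' : V → ℕ) :
    Measurable fun ω => f (pick a ω) * h (pick a' ω) :=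
  (hf.1.comp (mp_pick a).measurable).mul (hh.1.comp (mp_pick a').measurable)

lemma integrable_prodObs (hf : Obs f) (hh : Obs h) (a a' : V → ℕ) :
    Integrable (fun ω => f (pick a ω) * h (pick a' ω)) (lab (ℕ × V)) :=
  Integrable.of_bound (measurable_prodObs hf hh a a').aestronglyMeasurable 1
    (Eventually.of_forall fun ω => by
      rw [Real.norm_eq_abs, abs_mul]
      exact mul_le_one₀ (hf.2 _) (abs_nonneg _) (hh.2 _))

lemma abs_pairE_le (hf : Obs f) (hh : Obs h) (a a' : V → ℕ) : |pairE f h a a'| ≤ 1 := by
  have := norm_integral_le_of_norm_le_const (μ := lab (ℕ × V)) (C := 1)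
    (f := fun ω => f (pick a ω) * h (pick a' ω))
    (Eventually.of_forall fun ω => by
      rw [Real.norm_eq_abs, abs_mul]
      exact mul_le_one₀ (hf.2 _) (abs_nonneg _) (hh.2 _))
  simpa [pairE] using this

/-- Only the set of agreement of the two choices matters. -/
lemma pairE_eq_of_agree (hf : Obs f) (hh : Obs h) {a a' b b' : V → ℕ}
    (hab : ∀ v, a v = a' v ↔ b v = b' v) : pairE f h a a' = pairE f h b b' := by
  set σ : V → Equiv.Perm ℕ := fun v =>
    (Equiv.swap (a v) (b v)).trans
      (Equiv.swap (Equiv.swap (a v) (b v) (a' v)) (b' v)) with hσ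
  have h1 : ∀ v, σ v (a v) = b v := by
    intro v
    simp only [hσ, Equiv.trans_apply, Equiv.swap_apply_left]
    by_cases hv : a v = a' v
    · have hb := (hab v).1 hv
      rw [← hv, Equiv.swap_apply_left, ← hb, Equiv.swap_self]
      rfl
    · have hb : b v ≠ b' v := fun e => hv ((hab v).2 e)
      refine Equiv.swap_apply_of_ne_of_ne ?_ hb
      intro e
      refine hv ((Equiv.swap (a v) (b v)).injective ?_)
      rw [Equiv.swap_apply_left]
      exact e
  have h2 : ∀ v, σ v (a' v) = b' v := by
    intro v
    simp only [hσ, Equiv.trans_apply, Equiv.swap_apply_left]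
  set e : ℕ × V ≃ ℕ × V := Equiv.prodCongrLeft σ with he
  have hp := mp_reindex (ι := ℕ × V) (κ := ℕ × V) e.injective
  unfold pairE
  conv_lhs => rw [← hp.map_eq]
  rw [integral_map hp.measurable.aemeasurable
    (measurable_prodObs hf hh a a').aestronglyMeasurable]
  refine integral_congr_ae (Eventually.of_forall fun ω => ?_)
  have ea : pick a (fun k => ω (e k)) = pick b ω := by
    funext v
    simp [pick, he, h1]
  have ea' : pick a' (fun k => ω (e k)) = pick b' ω := by
    funext v
    simp [pick, he, h2]
  simp only [ea, ea']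

/-- Replica `0` on `S`, replica `1` elsewhere. -/
def ind (S : Finset V) (v : V) : ℕ := if v ∈ S then 0 else 1

/-- `E[f(U) h(U_S, U'_{Sᶜ})]`. -/
def K (S : Finset V) (f h : (V → unitInterval) → ℝ) : ℝ := pairE f h (fun _ => 0) (ind S)

lemma pairE_eq_K (hf : Obs f) (hh : Obs h) {a a' : V → ℕ} {S : Finset V}
    (hS : ∀ v, a v = a' v ↔ v ∈ S) : pairE f h a a' = K S f h :=
  pairE_eq_of_agree hf hh fun v => by
    rw [hS v]
    unfold ind
    split_ifs with hv <;> simp [hv]

lemma pairE_swap (f h : (V → unitInterval) → ℝ) (a a' : V → ℕ) :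
    pairE f h a a' = pairE h f a' a := by
  unfold pairE
  simp_rw [mul_comm]

lemma K_comm (hf : Obs f) (hh : Obs h) (S : Finset V) : K S f h = K S h f := by
  rw [K, pairE_swap]
  refine pairE_eq_K hh hf fun v => ?_
  unfold ind
  split_ifs with hv <;> simp [hv]

/-- The Möbius transform of `K`. -/
def q (A : Finset V) (f h : (V → unitInterval) → ℝ) : ℝ :=
  ∑ T ∈ A.powerset, (-1:ℝ) ^ (A.card + T.card) * K T f h

lemma sum_mobius (k : Finset V → ℝ) (B : Finset V) :
    ∑ A ∈ B.powerset, ∑ T ∈ A.powerset, (-1:ℝ) ^ (A.card + T.card) * k T = k B := by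
  induction B using Finset.induction generalizing k with
  | empty => simp
  | @insert v B hv ih =>
    rw [Finset.sum_powerset_insert hv]
    have e : ∀ A ∈ B.powerset,
        ∑ T ∈ (insert v A).powerset, (-1:ℝ) ^ ((insert v A).card + T.card) * k T
          = ∑ T ∈ A.powerset, (-1:ℝ) ^ (A.card + T.card) * (k (insert v T) - k T) := by
      intro A hA
      have hvA : v ∉ A := fun h => hv (Finset.mem_powerset.1 hA h)
      rw [Finset.sum_powerset_insert hvA, Finset.card_insert_of_notMem hvA,
        ← Finset.sum_add_distrib]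
      refine Finset.sum_congr rfl fun T hT => ?_
      have hvT : v ∉ T := fun h => hvA (Finset.mem_powerset.1 hT h)
      rw [Finset.card_insert_of_notMem hvT]
      ring
    rw [Finset.sum_congr rfl e, ih k, ih fun T => k (insert v T) - k T]
    ring

lemma sum_q (B : Finset V) (f h : (V → unitInterval) → ℝ) :
    ∑ A ∈ B.powerset, q A f h = K B f h :=
  sum_mobius (fun T => K T f h) B

lemma sum_inter_powerset (k : Finset V → ℝ) {A T : Finset V} (hT : T ⊆ A) (hne : T ≠ A) :
    ∑ T' ∈ A.powerset, (-1:ℝ) ^ (A.card + T'.card) * k (T ∩ T') = 0 := by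
  obtain ⟨v, hvA, hvT⟩ : ∃ v ∈ A, v ∉ T := by
    by_contra hc
    push Not at hc
    exact hne (Finset.Subset.antisymm hT hc)
  conv_lhs => rw [← Finset.insert_erase hvA]
  rw [Finset.sum_powerset_insert (Finset.notMem_erase v A), ← Finset.sum_add_distrib]
  refine Finset.sum_eq_zero fun T' hT' => ?_
  have hvT' : v ∉ T' := fun h => Finset.notMem_erase v A (Finset.mem_powerset.1 hT' h)
  have he : T ∩ insert v T' = T ∩ T' := by
    ext u
    simp only [Finset.mem_inter, Finset.mem_insert]
    constructor
    · rintro ⟨hu, rfl | hu'⟩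
      · exact absurd hu hvT
      · exact ⟨hu, hu'⟩
    · exact fun ⟨hu, hu'⟩ => ⟨hu, Or.inr hu'⟩
  rw [he, Finset.card_insert_of_notMem hvT', Finset.insert_erase hvA]
  ring

lemma sum_sum_inter (k : Finset V → ℝ) (A : Finset V) :
    ∑ T ∈ A.powerset, ∑ T' ∈ A.powerset,
        (-1:ℝ) ^ (A.card + T.card) * (-1:ℝ) ^ (A.card + T'.card) * k (T ∩ T')
      = ∑ T ∈ A.powerset, (-1:ℝ) ^ (A.card + T.card) * k T := by
  rw [Finset.sum_eq_single_of_mem A (Finset.mem_powerset_self A)]
  · refine Finset.sum_congr rfl fun T' hT' => ?_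
    rw [Finset.inter_eq_right.2 (Finset.mem_powerset.1 hT'),
      show A.card + A.card = 2 * A.card by ring, pow_mul]
    norm_num
  · intro T hT hne
    simp only [mul_assoc, ← Finset.mul_sum]
    rw [sum_inter_powerset k (Finset.mem_powerset.1 hT) hne, mul_zero]

/-! ### Positivity -/

/-- Replica `0` on `T`, replica `i + 1` elsewhere. -/
def repl (T : Finset V) (i : ℕ) (v : V) : ℕ := if v ∈ T then 0 else i + 1

lemma pairE_repl (hf : Obs f) (hh : Obs h) (T T' : Finset V) {i j : ℕ} (hij : i ≠ j) :
    pairE f h (repl T i) (repl T' j) = K (T ∩ T') f h := by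
  refine pairE_eq_K hf hh fun v => ?_
  unfold repl
  split_ifs with h1 h2 h2 <;> simp [h1, h2, hij]

/-- The statistic whose products average to `q A`. -/
def stat (A : Finset V) (f : (V → unitInterval) → ℝ) (i : ℕ) (ω : ℕ × V → unitInterval) : ℝ :=
  ∑ T ∈ A.powerset, (-1:ℝ) ^ (A.card + T.card) * f (pick (repl T i) ω)

lemma measurable_stat (hf : Obs f) (A : Finset V) (i : ℕ) : Measurable (stat A f i) :=
  Finset.measurable_fun_sum _ fun _ _ => (hf.1.comp (mp_pick _).measurable).const_mul _

lemma abs_stat_le (hf : Obs f) (A : Finset V) (i : ℕ) (ω : ℕ × V → unitInterval) :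
    |stat A f i ω| ≤ 2 ^ A.card := by
  refine (Finset.abs_sum_le_sum_abs _ _).trans ?_
  calc ∑ T ∈ A.powerset, |(-1:ℝ) ^ (A.card + T.card) * f (pick (repl T i) ω)|
      ≤ ∑ _T ∈ A.powerset, (1:ℝ) := Finset.sum_le_sum fun T _ => by
        rw [abs_mul, abs_neg_one_pow, one_mul]
        exact hf.2 _
    _ = _ := by simp [Finset.card_powerset]

lemma integrable_stat_mul (hf : Obs f) (hh : Obs h) (A : Finset V) (i j : ℕ) :
    Integrable (fun ω => stat A f i ω * stat A h j ω) (lab (ℕ × V)) :=
  Integrable.of_bound ((measurable_stat hf A i).mul (measurable_stat hh A j)).aestronglyMeasurable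
    (2 ^ A.card * 2 ^ A.card) (Eventually.of_forall fun ω => by
      rw [Real.norm_eq_abs, abs_mul]
      exact mul_le_mul (abs_stat_le hf A i ω) (abs_stat_le hh A j ω) (abs_nonneg _) (by positivity))

lemma integral_stat_mul (hf : Obs f) (hh : Obs h) (A : Finset V) {i j : ℕ} (hij : i ≠ j) :
    ∫ ω, stat A f i ω * stat A h j ω ∂(lab (ℕ × V)) = q A f h := by
  have e : ∀ ω, stat A f i ω * stat A h j ω = ∑ T ∈ A.powerset, ∑ T' ∈ A.powerset,
      (-1:ℝ) ^ (A.card + T.card) * (-1:ℝ) ^ (A.card + T'.card) *
        (f (pick (repl T i) ω) * h (pick (repl T' j) ω)) := by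
    intro ω
    rw [stat, stat, Finset.sum_mul_sum]
    exact Finset.sum_congr rfl fun T _ => Finset.sum_congr rfl fun T' _ => by ring
  simp_rw [e]
  rw [integral_finsetSum _ fun T _ => integrable_finsetSum _ fun T' _ =>
    (integrable_prodObs hf hh _ _).const_mul _, q, ← sum_sum_inter (fun T => K T f h) A]
  refine Finset.sum_congr rfl fun T _ => ?_
  rw [integral_finsetSum _ fun T' _ => (integrable_prodObs hf hh _ _).const_mul _]
  refine Finset.sum_congr rfl fun T' _ => ?_
  rw [integral_const_mul, ← pairE_repl hf hh T T' hij]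
  rfl

lemma tendsto_stat (hf : Obs f) (hh : Obs h) (A : Finset V) :
    Tendsto (fun N : ℕ => (∫ ω, (∑ i ∈ range N, stat A f i ω) * (∑ j ∈ range N, stat A h j ω)
      ∂(lab (ℕ × V))) / (N:ℝ) ^ 2) atTop (𝓝 (q A f h)) := by
  have e : ∀ N : ℕ, ∫ ω, (∑ i ∈ range N, stat A f i ω) * (∑ j ∈ range N, stat A h j ω)
        ∂(lab (ℕ × V))
      = (N:ℝ) ^ 2 * q A f h
        + ∑ i ∈ range N, ((∫ ω, stat A f i ω * stat A h i ω ∂(lab (ℕ × V))) - q A f h) := by
    intro N
    simp_rw [Finset.sum_mul_sum]
    rw [integral_finsetSum _ fun i _ => integrable_finsetSum _ fun j _ =>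
      integrable_stat_mul hf hh A i j]
    have inner : ∀ i ∈ range N,
        ∫ ω, ∑ j ∈ range N, stat A f i ω * stat A h j ω ∂(lab (ℕ × V))
          = (N:ℝ) * q A f h
            + ((∫ ω, stat A f i ω * stat A h i ω ∂(lab (ℕ × V))) - q A f h) := by
      intro i hi
      rw [integral_finsetSum _ fun j _ => integrable_stat_mul hf hh A i j,
        ← Finset.add_sum_erase _ _ hi,
        Finset.sum_congr rfl fun j hj =>
          integral_stat_mul hf hh A (Ne.symm (Finset.mem_erase.1 hj).1),
        Finset.sum_const, Finset.card_erase_of_mem hi, Finset.card_range, nsmul_eq_mul]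
      have hN : 1 ≤ N := by
        have := Finset.mem_range.1 hi
        omega
      rw [Nat.cast_sub hN]
      push_cast
      ring
    rw [Finset.sum_congr rfl inner, Finset.sum_add_distrib, Finset.sum_const, Finset.card_range,
      nsmul_eq_mul]
    ring
  set C : ℝ := 2 ^ A.card * 2 ^ A.card + |q A f h|
  rw [tendsto_iff_norm_sub_tendsto_zero]
  refine squeeze_zero' (Eventually.of_forall fun N => norm_nonneg _) ?_
    (tendsto_const_div_atTop_nhds_zero_nat C)
  filter_upwards [eventually_ge_atTop 1] with N hN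
  have hN0 : (0:ℝ) < N := by exact_mod_cast hN
  rw [e, add_div]
  rw [show (N:ℝ) ^ 2 * q A f h / (N:ℝ) ^ 2 = q A f h by field_simp, add_sub_cancel_left,
    norm_div, Real.norm_eq_abs, Real.norm_eq_abs, abs_of_pos (by positivity : (0:ℝ) < (N:ℝ) ^ 2)]
  calc |∑ i ∈ range N, ((∫ ω, stat A f i ω * stat A h i ω ∂(lab (ℕ × V))) - q A f h)| / (N:ℝ) ^ 2
      ≤ (N * C) / (N:ℝ) ^ 2 := by
        gcongr
        refine (Finset.abs_sum_le_sum_abs _ _).trans ?_
        refine (Finset.sum_le_sum (g := fun _ => C) fun i _ => (abs_sub _ _).trans ?_).trans_eq ?_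
        · refine add_le_add ?_ le_rfl
          have := norm_integral_le_of_norm_le_const (μ := lab (ℕ × V))
            (f := fun ω => stat A f i ω * stat A h i ω) (C := 2 ^ A.card * 2 ^ A.card)
            (Eventually.of_forall fun ω => by
              rw [Real.norm_eq_abs, abs_mul]
              exact mul_le_mul (abs_stat_le hf A i ω) (abs_stat_le hh A i ω) (abs_nonneg _)
                (by positivity))
          simpa using this
        · simp
    _ = C / N := by field_simp

/-- The forms `q A` are positive semidefinite. -/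
lemma q_form_nonneg (hf : Obs f) (hh : Obs h) (A : Finset V) (c : ℝ) :
    0 ≤ c ^ 2 * q A f f + 2 * c * q A f h + q A h h := by
  refine ge_of_tendsto' (((tendsto_stat hf hf A).const_mul (c ^ 2)).add
    ((tendsto_stat hf hh A).const_mul (2 * c)) |>.add (tendsto_stat hh hh A)) fun N => ?_
  set S := fun (f : (V → unitInterval) → ℝ) ω => ∑ i ∈ range N, stat A f i ω
  have hi : ∀ {f h : (V → unitInterval) → ℝ}, Obs f → Obs h →
      Integrable (fun ω => S f ω * S h ω) (lab (ℕ × V)) := by
    intro f h hf hh
    simp only [S, Finset.sum_mul_sum]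
    exact integrable_finsetSum _ fun i _ => integrable_finsetSum _ fun j _ =>
      integrable_stat_mul hf hh A i j
  have : 0 ≤ ∫ ω, (c * S f ω + S h ω) ^ 2 ∂(lab (ℕ × V)) :=
    integral_nonneg fun ω => sq_nonneg _
  have e : ∫ ω, (c * S f ω + S h ω) ^ 2 ∂(lab (ℕ × V))
      = c ^ 2 * (∫ ω, S f ω * S f ω ∂(lab (ℕ × V)))
        + 2 * c * (∫ ω, S f ω * S h ω ∂(lab (ℕ × V)))
        + ∫ ω, S h ω * S h ω ∂(lab (ℕ × V)) := by
    have i1 : Integrable (fun ω => c ^ 2 * (S f ω * S f ω) + 2 * c * (S f ω * S h ω))
        (lab (ℕ × V)) := ((hi hf hf).const_mul _).add ((hi hf hh).const_mul _)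
    rw [← integral_const_mul, ← integral_const_mul,
      ← integral_add ((hi hf hf).const_mul _) ((hi hf hh).const_mul _),
      ← integral_add i1 (hi hh hh)]
    exact integral_congr_ae (Eventually.of_forall fun ω => by ring)
  rw [e] at this
  have := div_nonneg this (sq_nonneg (N:ℝ))
  simp only [S] at this
  rw [add_div, add_div, mul_div_assoc, mul_div_assoc] at this
  exact this

lemma q_self_nonneg (hf : Obs f) (A : Finset V) : 0 ≤ q A f f := by
  simpa using q_form_nonneg hf hf A 0

lemma q_le (hf : Obs f) (hh : Obs h) (A : Finset V) {ρ : ℝ} (hρ : 0 < ρ) :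
    q A f h ≤ (ρ * q A f f + q A h h / ρ) / 2 := by
  have h1 := div_nonneg (q_form_nonneg hf hh A (-ρ)) hρ.le
  have e : (((-ρ) ^ 2 * q A f f + 2 * (-ρ) * q A f h + q A h h) / ρ)
      = ρ * q A f f + q A h h / ρ - 2 * q A f h := by
    field_simp
    ring
  linarith

/-! ### The empty set, covariance, and the limit -/

lemma K_empty (hf : Obs f) (hh : Obs h) :
    K ∅ f h = (∫ U, f U ∂(lab V)) * ∫ U, h U ∂(lab V) := by
  have hmap := Measure.infinitePi_map_curry
    (fun (_ : ℕ) (_ : V) => (volume : Measure unitInterval))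
  set cur := MeasurableEquiv.curry ℕ V unitInterval
  have hK : K ∅ f h = ∫ z, f (z 0) * h (z 1) ∂(Measure.infinitePi fun _ : ℕ => lab V) := by
    unfold lab
    rw [← hmap, integral_map (f := fun z : ℕ → V → unitInterval => f (z 0) * h (z 1))
      cur.measurable.aemeasurable
      ((hf.1.comp (measurable_pi_apply 0)).mul
        (hh.1.comp (measurable_pi_apply 1))).aestronglyMeasurable]
    unfold K pairE lab
    refine integral_congr_ae (Eventually.of_forall fun ω => ?_)
    have e0 : pick (fun _ => 0) ω = cur ω 0 := rfl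
    have e1 : pick (ind (∅ : Finset V)) ω = cur ω 1 := rfl
    simp only [e0, e1]
  rw [hK]
  have hind : ProbabilityTheory.IndepFun (fun z : ℕ → V → unitInterval => z 0)
      (fun z : ℕ → V → unitInterval => z 1) (Measure.infinitePi fun _ : ℕ => lab V) :=
    (ProbabilityTheory.iIndepFun_infinitePi (P := fun _ : ℕ => lab V)
      (X := fun _ => id) (fun _ => measurable_id)).indepFun (by norm_num)
  have hp := hind.comp hf.1 hh.1
  have hI := hp.integral_fun_mul_eq_mul_integral
    (hf.1.comp (measurable_pi_apply 0)).aestronglyMeasurable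
    (hh.1.comp (measurable_pi_apply 1)).aestronglyMeasurable
  simp only [Function.comp_apply] at hI
  rw [hI]
  congr 1
  · conv_rhs => rw [← Measure.infinitePi_map_eval (fun _ : ℕ => lab V) 0]
    rw [integral_map (measurable_pi_apply 0).aemeasurable hf.1.aestronglyMeasurable]
  · conv_rhs => rw [← Measure.infinitePi_map_eval (fun _ : ℕ => lab V) 1]
    rw [integral_map (measurable_pi_apply 1).aemeasurable hh.1.aestronglyMeasurable]

lemma K_map (hf : Obs f) (hh : Obs h) (g : V ≃ V) {f' h' : (V → unitInterval) → ℝ}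
    (ef : f' =ᵐ[lab V] fun U => f fun v => U (g v))
    (eh : h' =ᵐ[lab V] fun U => h fun v => U (g v)) (S : Finset V) :
    K (S.map g.toEmbedding) f' h' = K S f h := by
  set a : V → ℕ := fun _ => 0
  set a' : V → ℕ := ind (S.map g.toEmbedding)
  have c1 := (mp_pick a).quasiMeasurePreserving.ae_eq_comp ef
  have c2 := (mp_pick a').quasiMeasurePreserving.ae_eq_comp eh
  have he : Injective fun k : ℕ × V => (k.1, g k.2) := fun x y hxy => by
    obtain ⟨h1, h2⟩ := Prod.ext_iff.1 hxy
    exact Prod.ext h1 (g.injective h2)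
  have hp := mp_reindex (ι := ℕ × V) (κ := ℕ × V) he
  have e2 : ∀ v, a' (g v) = ind S v := fun v => by
    simp [a', ind]
  calc K (S.map g.toEmbedding) f' h'
      = ∫ ω, f (pick (fun _ => 0) fun k => ω (k.1, g k.2)) *
          h (pick (ind S) fun k => ω (k.1, g k.2)) ∂(lab (ℕ × V)) := by
        unfold K pairE
        refine integral_congr_ae ?_
        filter_upwards [c1, c2] with ω h1 h2
        simp only [Function.comp_apply] at h1 h2
        rw [h1, h2]
        congr 2
        funext v
        simp [pick, e2]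
    _ = K S f h := by
        unfold K pairE
        conv_rhs => rw [← hp.map_eq]
        rw [integral_map hp.measurable.aemeasurable
          (measurable_prodObs hf hh _ _).aestronglyMeasurable]

lemma q_map (hf : Obs f) (hh : Obs h) (g : V ≃ V) {f' h' : (V → unitInterval) → ℝ}
    (ef : f' =ᵐ[lab V] fun U => f fun v => U (g v))
    (eh : h' =ᵐ[lab V] fun U => h fun v => U (g v)) (A : Finset V) :
    q (A.map g.toEmbedding) f' h' = q A f h := by
  unfold q
  refine (Finset.sum_bij (fun T _ => T.map g.toEmbedding) ?_ ?_ ?_ ?_).symm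
  · intro T hT
    rw [Finset.mem_powerset] at hT ⊢
    exact Finset.map_subset_map.2 hT
  · intro T _ T' _ e
    exact Finset.map_injective _ e
  · intro T hT
    rw [Finset.mem_powerset] at hT
    refine ⟨T.map g.symm.toEmbedding, Finset.mem_powerset.2 fun v hv => ?_, ?_⟩
    · rw [Finset.mem_map_equiv, Equiv.symm_symm] at hv
      have := hT hv
      rw [Finset.mem_map_equiv, Equiv.symm_apply_apply] at this
      exact this
    · ext v
      simp
  · intro T _
    rw [K_map hf hh g ef eh, Finset.card_map, Finset.card_map]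

/-- Signs of measurable events are approximated by functions of finitely many labels. -/
lemma exists_K_close (hf : Obs f) {E : Set (V → unitInterval)} (hE : MeasurableSet E)
    {ε : ℝ} (hε : 0 < ε) :
    ∃ B : Finset V, ∀ B', B ⊆ B' →
      |K B' f (fun U => if U ∈ E then 1 else -1)
        - ∫ U, f U * (if U ∈ E then 1 else -1) ∂(lab V)| ≤ ε := by
  obtain ⟨t, ht, hsm⟩ := exists_measure_symmDiff_lt_of_generateFrom_isSetRing (μ := lab V)
    (C := measurableCylinders fun _ : V => unitInterval) isSetRing_measurableCylinders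
    ⟨{Set.univ}, Set.countable_singleton _,
      Set.singleton_subset_iff.2 (univ_mem_measurableCylinders _), by simp⟩
    generateFrom_measurableCylinders.symm hE
    (ε := ENNReal.ofReal (ε / 4)) (ENNReal.ofReal_pos.2 (by positivity))
  obtain ⟨B, S, hS, rfl⟩ := (mem_measurableCylinders t).1 ht
  refine ⟨B, fun B' hB' => ?_⟩
  set h := fun U : V → unitInterval => if U ∈ E then (1:ℝ) else -1 with hh_def
  have hh : Obs h := ⟨Measurable.ite hE measurable_const measurable_const, fun U => by
    simp only [hh_def]; split_ifs <;> simp⟩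
  set a : V → ℕ := fun _ => 0
  set a' : V → ℕ := ind B'
  have hbase : ∫ U, f U * h U ∂(lab V) = pairE f h a a := by
    conv_lhs => rw [← (mp_pick a).map_eq]
    rw [integral_map (f := fun U => f U * h U) (mp_pick a).measurable.aemeasurable
      (hf.1.mul hh.1).aestronglyMeasurable]
    rfl
  rw [hbase]
  change |pairE f h a a' - pairE f h a a| ≤ ε
  unfold pairE
  rw [← integral_sub (integrable_prodObs hf hh _ _) (integrable_prodObs hf hh _ _)]
  refine abs_integral_le_integral_abs.trans ?_
  set D := symmDiff (cylinder B S) E with hD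
  have hDm : MeasurableSet D := (MeasurableSet.cylinder B hS).symmDiff hE
  have key : ∀ ω, |f (pick a ω) * h (pick a' ω) - f (pick a ω) * h (pick a ω)|
      ≤ 2 * D.indicator (fun _ => (1:ℝ)) (pick a ω)
        + 2 * D.indicator (fun _ => (1:ℝ)) (pick a' ω) := by
    intro ω
    have hcyl : pick a ω ∈ cylinder B S ↔ pick a' ω ∈ cylinder B S := by
      have : B.restrict (pick a ω) = B.restrict (pick a' ω) := by
        funext v
        simp [pick, a, a', ind, hB' v.2]
      simp only [mem_cylinder, this]
    rw [← mul_sub, abs_mul]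
    refine (mul_le_of_le_one_left (abs_nonneg _) (hf.2 _)).trans ?_
    simp only [hh_def, Set.indicator_apply, hD, Set.mem_symmDiff]
    by_cases p1 : pick a ω ∈ E <;> by_cases p2 : pick a' ω ∈ E <;>
      by_cases p3 : pick a ω ∈ cylinder B S <;> simp [p1, p2, p3, ← hcyl] <;> norm_num
  have hI : ∀ b, Integrable (fun ω => D.indicator (fun _ => (1:ℝ)) (pick b ω)) (lab (ℕ × V)) :=
    fun b => Integrable.of_bound
      (((measurable_const.indicator hDm).comp (mp_pick b).measurable).aestronglyMeasurable) 1
      (Eventually.of_forall fun ω => by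
        rw [Real.norm_eq_abs]
        unfold Set.indicator
        split_ifs <;> simp)
  have hv : ∀ b, ∫ ω, D.indicator (fun _ => (1:ℝ)) (pick b ω) ∂(lab (ℕ × V)) ≤ ε / 4 := by
    intro b
    have e : ∫ ω, D.indicator (fun _ => (1:ℝ)) (pick b ω) ∂(lab (ℕ × V))
        = (lab V).real D := by
      rw [← integral_map (mp_pick b).measurable.aemeasurable
        (measurable_const.indicator hDm).aestronglyMeasurable (f := D.indicator fun _ => (1:ℝ)),
        (mp_pick b).map_eq, integral_indicator hDm, setIntegral_const]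
      simp
    rw [e]
    exact ENNReal.toReal_le_of_le_ofReal (by positivity) hsm.le
  calc ∫ ω, |f (pick a ω) * h (pick a' ω) - f (pick a ω) * h (pick a ω)| ∂(lab (ℕ × V))
      ≤ ∫ ω, (2 * D.indicator (fun _ => (1:ℝ)) (pick a ω)
          + 2 * D.indicator (fun _ => (1:ℝ)) (pick a' ω)) ∂(lab (ℕ × V)) :=
        integral_mono ((integrable_prodObs hf hh _ _).sub (integrable_prodObs hf hh _ _)).abs
          (((hI a).const_mul 2).add ((hI a').const_mul 2)) key
    _ = 2 * ∫ ω, D.indicator (fun _ => (1:ℝ)) (pick a ω) ∂(lab (ℕ × V))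
          + 2 * ∫ ω, D.indicator (fun _ => (1:ℝ)) (pick a' ω) ∂(lab (ℕ × V)) := by
        rw [integral_add ((hI a).const_mul 2) ((hI a').const_mul 2), integral_const_mul,
          integral_const_mul]
    _ ≤ ε := by linarith [hv a, hv a']

end

end Vale.Agent.P161.Edge.Converse
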