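import Vale.Agent.P161.Cumulant
import Vale.Agent.P161.Edge.Statements

/-!
Deterministic facts about a tree Ising posterior: positivity of covariances, the recursion of
regression coefficients along branches, the bound on the third cumulant, and the bilinear bound
on a ball.
-/

namespace Vale.Agent.P161.Edge

open Finset Function
open scoped Classical

noncomputable section

variable {V : Type*} {G : SimpleGraph V} {θ : ℝ}

/-! ### Peeling a leaf, explicitly -/

/-- The tilt left at the neighbour after a leaf is removed. -/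
def peelFld (θ : ℝ) (g : V → ℝ) (x q : V) : V → ℝ :=
  update g q ((g q + θ * g x) / (1 + θ * g x * g q))

/-- The slope of a leaf spin in the spin of its neighbour. -/
def peelSlope (θ a : ℝ) : ℝ := θ * (1 - a ^ 2) / (1 - (θ * a) ^ 2)

/-- The constant term of a leaf spin. -/
def peelConst (θ a : ℝ) : ℝ := a * (1 - θ ^ 2) / (1 - (θ * a) ^ 2)

lemma fld_peel (hθ : Par θ) {g : V → ℝ} (hg : Fld g) (x q : V) : Fld (peelFld θ g x q) :=
  hg.update q (absorb_abs_lt (hθ.mul_abs_lt (hg x).le) (hg q))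

lemma peelSlope_nonneg (hθ : Par θ) {a : ℝ} (ha : |a| < 1) : 0 ≤ peelSlope θ a := by
  have h1 : (θ * a) ^ 2 < 1 := (sq_lt_one_iff_abs_lt_one _).2 (hθ.mul_abs_lt ha.le)
  have h2 : a ^ 2 < 1 := (sq_lt_one_iff_abs_lt_one _).2 ha
  exact div_nonneg (mul_nonneg hθ.1 (by linarith)) (by linarith)

section peel

variable {D : Finset V} {x q : V}

lemma avg_peel (hθ : Par θ) (hx : x ∈ D) (hq : q ∈ D.erase x) (hxq : G.Adj x q)
    (hu : ∀ z ∈ D, G.Adj x z → z = q) {g : V → ℝ} (hg : Fld g) {f : (V → ℝ) → ℝ}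
    (hf : DepOn f (D.erase x)) :
    avg G θ D g f = avg G θ (D.erase x) (peelFld θ g x q) f := by
  have ht : |θ * g x| < 1 := hθ.mul_abs_lt (hg x).le
  have hk : 1 + θ * g x * g q ≠ 0 := (one_add_mul_pos ht (hg q).le).ne'
  unfold avg
  rw [Sm_peel_dep hx hq hxq hu g hf, Sm_peel_dep hx hq hxq hu g (fun _ _ _ => rfl),
    Sm_absorb hq hg ht, Sm_absorb hq hg ht, ← mul_assoc, ← mul_assoc,
    mul_div_mul_left _ _ (mul_ne_zero two_ne_zero hk)]
  rfl

lemma avg_peel_mul (hθ : Par θ) (hx : x ∈ D) (hq : q ∈ D.erase x) (hxq : G.Adj x q)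
    (hu : ∀ z ∈ D, G.Adj x z → z = q) {g : V → ℝ} (hg : Fld g) {f : (V → ℝ) → ℝ}
    (hf : DepOn f (D.erase x)) :
    avg G θ D g (fun s => f s * s x)
      = peelConst θ (g x) * avg G θ (D.erase x) (peelFld θ g x q) f
        + peelSlope θ (g x) * avg G θ (D.erase x) (peelFld θ g x q) (fun s => f s * s q) := by
  set a := g x with ha
  have ht : |θ * a| < 1 := hθ.mul_abs_lt (hg x).le
  have hd : 1 - (θ * a) ^ 2 ≠ 0 := by
    have := (sq_lt_one_iff_abs_lt_one _).2 ht
    linarith
  have hk : 1 + θ * a * g q ≠ 0 := (one_add_mul_pos ht (hg q).le).ne'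
  have hden : Sm G θ D g (fun _ => 1)
      = 2 * (1 + θ * a * g q) * Sm G θ (D.erase x) (peelFld θ g x q) (fun _ => 1) := by
    rw [Sm_peel_dep hx hq hxq hu g (fun _ _ _ => rfl), Sm_absorb hq hg ht]
    unfold peelFld
    ring
  unfold avg
  rw [hden, Sm_peel_mul hx hq hxq hu g hf]
  have e : Sm G θ (D.erase x) g (fun s => (g x + θ * s q) * f s)
      = Sm G θ (D.erase x) g
          (fun s => (1 + θ * a * s q) * (peelConst θ a * f s + peelSlope θ a * (f s * s q))) := by
    refine Sm_congr (fun _ _ => rfl) fun S _ => ?_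
    have h1 := spin_sq S q
    have key : (1 + θ * a * spin S q) * (peelConst θ a + peelSlope θ a * spin S q)
        = a + θ * spin S q := by
      rw [peelConst, peelSlope, div_mul_eq_mul_div, ← add_div, ← mul_div_assoc, div_eq_iff hd]
      linear_combination (θ ^ 2 * a * (1 - a ^ 2)) * h1
    rw [← ha, ← key]
    ring
  rw [e, Sm_absorb hq hg ht, Sm_add, Sm_smul, Sm_smul, ← mul_assoc,
    mul_div_mul_left _ _ (mul_ne_zero two_ne_zero hk), add_div, mul_div_assoc, mul_div_assoc]
  rfl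

end peel

/-! ### Variances, signs and regression coefficients -/

lemma var_pos (hθ : Par θ) {D : Finset V} {g : V → ℝ} (hg : Fld g) {v : V} (hv : v ∈ D) :
    0 < 1 - mean G θ D g v ^ 2 := by
  have hZ := Sm_one_pos (G := G) hθ D hg
  have hpos : ∀ S, 0 < wt G θ D (spin S) * ∏ u ∈ D, (1 + g u * spin S u) := fun S =>
    mul_pos (wt_pos hθ D S) (tilt_pos hg D S)
  have key : ∀ ε : ℝ, (ε = 1 ∨ ε = -1) → ε * mean G θ D g v < 1 := by
    intro ε hε
    rw [mean, avg, ← mul_div_assoc, div_lt_one hZ, ← Sm_smul]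
    unfold Sm
    refine Finset.sum_lt_sum (fun S _ => ?_) ?_
    · refine mul_le_mul_of_nonneg_left ?_ (hpos S).le
      refine (le_abs_self _).trans ?_
      rw [abs_mul, abs_spin, mul_one]
      rcases hε with rfl | rfl <;> simp
    · rcases hε with rfl | rfl
      · refine ⟨∅, by simp, mul_lt_mul_of_pos_left ?_ (hpos _)⟩
        norm_num [spin]
      · refine ⟨{v}, by simpa using hv, mul_lt_mul_of_pos_left ?_ (hpos _)⟩
        norm_num [spin]
  have h1 := key 1 (Or.inl rfl)
  have h2 := key (-1) (Or.inr rfl)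
  nlinarith

lemma cv_nonneg (hG : G.IsTree) (hθ : Par θ) :
    ∀ (D : Finset V), Closed G D → ∀ {g : V → ℝ}, Fld g → ∀ {v w : V}, v ∈ D → w ∈ D →
      0 ≤ cv G θ D g v w := by
  intro D
  induction D using Finset.strongInduction with
  | H D ih =>
    intro hD g hg v w hv hw
    by_cases hvw : v = w
    · subst hvw
      rw [cv_self hθ D hg]
      exact one_sub_sq_mean_nonneg hθ D hg v
    obtain ⟨x, hx, hxv, q, hq, hxq, hu, hD'⟩ := exists_leaf hG hD (closed_singleton v)
      ⟨v, by simp⟩ (by simpa using hv) (fun h => hvw (by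
        have := h.symm ▸ hw
        exact (Finset.mem_singleton.1 this).symm))
    rw [Finset.mem_singleton] at hxv
    have hgf := fld_peel hθ hg x q
    have hv' : v ∈ D.erase x := Finset.mem_erase.2 ⟨Ne.symm hxv, hv⟩
    by_cases hxw : x = w
    · subst hxw
      rw [cv_comm, cv_peel hθ hgf (fun f hf => avg_peel hθ hx hq hxq hu hg hf)
        (fun f hf => avg_peel_mul hθ hx hq hxq hu hg hf) hv']
      exact mul_nonneg (peelSlope_nonneg hθ (hg x))
        (ih _ (Finset.erase_ssubset hx) hD' hgf hq hv')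
    · have hw' : w ∈ D.erase x := Finset.mem_erase.2 ⟨Ne.symm hxw, hw⟩
      have e : cv G θ D g v w = cv G θ (D.erase x) (peelFld θ g x q) v w := by
        unfold cv mean
        rw [avg_peel hθ hx hq hxq hu hg (depOn_mul (depOn_eval hv') (depOn_eval hw')),
          avg_peel hθ hx hq hxq hu hg (depOn_eval hv'), avg_peel hθ hx hq hxq hu hg (depOn_eval hw')]
      rw [e]
      exact ih _ (Finset.erase_ssubset hx) hD' hgf hv' hw'

section reg

variable (hG : G.IsTree) (hθ : Par θ) {D : Finset V} (hD : Closed G D) {g : V → ℝ} (hg : Fld g)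
include hG hθ hD hg

lemma cv_le_pow {v w : V} (hv : v ∈ D) (hw : w ∈ D) :
    cv G θ D g v w ≤ θ ^ G.dist v w * (1 - mean G θ D g v ^ 2) := by
  rw [cv_comm, SimpleGraph.dist_comm]
  exact (le_abs_self _).trans (cov_bound hG hθ D hD hg hw hv)

lemma reg_nonneg {v w : V} (hv : v ∈ D) (hw : w ∈ D) : 0 ≤ reg G θ D g v w :=
  div_nonneg (cv_nonneg hG hθ D hD hg hv hw) (var_pos hθ hg hv).le

lemma reg_le_pow {v w : V} (hv : v ∈ D) (hw : w ∈ D) : reg G θ D g v w ≤ θ ^ G.dist v w := by
  rw [reg, div_le_iff₀ (var_pos hθ hg hv)]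
  exact cv_le_pow hG hθ hD hg hv hw

lemma cv_le_theta {v w : V} (hv : v ∈ D) (hw : w ∈ D) : cv G θ D g v w ≤ θ ^ G.dist v w :=
  (cv_le_pow hG hθ hD hg hv hw).trans
    (mul_le_of_le_one_right (pow_nonneg hθ.1 _) (by nlinarith [sq_nonneg (mean G θ D g v)]))

lemma reg_self {c : V} (hc : c ∈ D) : reg G θ D g c c = 1 := by
  rw [reg, cv_self hθ D hg, div_self (var_pos hθ hg hc).ne']

lemma reg_mul {c v x : V} (hc : c ∈ D) (hv : v ∈ D) (hx : x ∈ D) (hb : Btw G c v x) :
    reg G θ D g c x = reg G θ D g c v * reg G θ D g v x := by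
  unfold reg
  have hv0 := var_pos (G := G) hθ hg hv
  rw [div_mul_div_comm, ← cv_separation hG hθ D hD hg hc hx hv hb,
    mul_div_mul_right _ _ hv0.ne']

lemma cv_eq_reg {c x z : V} (hc : c ∈ D) (hx : x ∈ D) (hz : z ∈ D) (hb : Btw G x c z) :
    cv G θ D g x z = (1 - mean G θ D g c ^ 2) * reg G θ D g c x * reg G θ D g c z := by
  have hv0 := (var_pos (G := G) hθ hg hc).ne'
  unfold reg
  field_simp
  rw [cv_separation hG hθ D hD hg hx hz hc hb, cv_comm D g x c]

end reg

/-! ### Branches -/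

lemma tree_mem_branch {D : Finset V} {w p x : V} (hpw : G.Adj p w) :
    x ∈ branch G D w p ↔ x ∈ D ∧ G.dist p x = G.dist w x + 1 := by
  simp only [branch, Finset.mem_filter]
  unfold Btw
  rw [SimpleGraph.dist_eq_one_iff_adj.2 hpw]
  constructor <;> rintro ⟨h1, h2⟩ <;> exact ⟨h1, by omega⟩

lemma tree_self_mem_branch {D : Finset V} {w p : V} (hpw : G.Adj p w) (hw : w ∈ D) :
    w ∈ branch G D w p :=
  (tree_mem_branch hpw).2 ⟨hw, by rw [SimpleGraph.dist_eq_one_iff_adj.2 hpw, SimpleGraph.dist_self]⟩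

/-- The only edge leaving a branch is its root edge. -/
lemma cross (hG : G.IsTree) {p w x q : V} (hpw : G.Adj p w) (hxq : G.Adj x q)
    (hx : G.dist p x = G.dist w x + 1) (hq : G.dist p q ≠ G.dist w q + 1) : x = w ∧ q = p := by
  have h1 := hG.dist_eq_dist_add_one_of_adj q hpw
  have hpx := hG.dist_eq_dist_add_one_of_adj p hxq
  have hwx := hG.dist_eq_dist_add_one_of_adj w hxq
  rw [SimpleGraph.dist_comm (u := q) (v := p), SimpleGraph.dist_comm (u := q) (v := w)] at h1
  have hq' : G.dist w q = G.dist p q + 1 := by omega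
  have h2 : G.dist p x = G.dist p q + 1 ∧ G.dist w q = G.dist w x + 1 := by omega
  have hs := dist_add_of_split hG (G.dist x p) (u := w) (v := x) (w := p) (p := q) rfl hxq h2.1 h2.2
  rw [SimpleGraph.dist_comm (u := x) (v := p), SimpleGraph.dist_eq_one_iff_adj.2 hpw.symm] at hs
  have h3 : G.dist w x = 0 := by omega
  have h4 : G.dist p q = 0 := by omega
  exact ⟨(hG.connected.dist_eq_zero_iff.1 h3).symm, (hG.connected.dist_eq_zero_iff.1 h4).symm⟩

lemma tree_closed_branch (hG : G.IsTree) {D : Finset V} (hD : Closed G D) {w p : V} (hpw : G.Adj p w) :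
    Closed G (branch G D w p) := by
  intro v hv x hx hxv
  obtain ⟨hvD, hv'⟩ := (tree_mem_branch hpw).1 hv
  obtain ⟨hxD, hx'⟩ := (tree_mem_branch hpw).1 hx
  obtain ⟨q, hqD, hxq, hdq⟩ := hD v hvD x hxD hxv
  refine ⟨q, ?_, hxq, hdq⟩
  by_contra hqB
  obtain ⟨rfl, rfl⟩ := cross hG hpw hxq hx' fun h => hqB ((tree_mem_branch hpw).2 ⟨hqD, h⟩)
  rw [SimpleGraph.dist_comm (u := v) (v := x), SimpleGraph.dist_comm (u := v) (v := q)] at hdq
  omega

lemma reg_adj (hG : G.IsTree) (hθ : Par θ) :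
    ∀ (D : Finset V), Closed G D → ∀ {g : V → ℝ}, Fld g → ∀ {p w : V}, p ∈ D → w ∈ D →
      G.Adj p w → reg G θ D g p w = peelSlope θ (cav G θ D g w p) := by
  intro D
  induction D using Finset.strongInduction with
  | H D ih =>
    intro hD g hg p w hp hw hpw
    have hcl2 : Closed G ({p, w} : Finset V) := by
      intro a ha b hb hba
      simp only [Finset.mem_insert, Finset.mem_singleton] at ha hb
      refine ⟨a, by simp [ha], ?_, ?_⟩
      · rcases ha with rfl | rfl <;> rcases hb with rfl | rfl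
        · exact absurd rfl hba
        · exact hpw.symm
        · exact hpw
        · exact absurd rfl hba
      · rw [SimpleGraph.dist_self]
        rcases ha with rfl | rfl <;> rcases hb with rfl | rfl
        · exact absurd rfl hba
        · simpa using hpw
        · simpa using hpw.symm
        · exact absurd rfl hba
    have hsub : ({p, w} : Finset V) ⊆ D := Finset.insert_subset hp (by simpa using hw)
    by_cases hbase : ({p, w} : Finset V) = D
    · subst hbase
      have hwp : w ≠ p := hpw.ne.symm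
      have hp' : p ∈ ({p, w} : Finset V).erase w := Finset.mem_erase.2 ⟨hwp.symm, hp⟩
      have hu : ∀ z ∈ ({p, w} : Finset V), G.Adj w z → z = p := by
        intro z hz hwz
        simp only [Finset.mem_insert, Finset.mem_singleton] at hz
        rcases hz with rfl | rfl
        · rfl
        · exact absurd hwz (G.irrefl (v := z))
      have hgf := fld_peel hθ hg w p
      have hB : branch G ({p, w} : Finset V) w p = {w} := by
        ext y
        rw [tree_mem_branch hpw, Finset.mem_singleton, Finset.mem_insert, Finset.mem_singleton]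
        constructor
        · rintro ⟨rfl | rfl, h⟩
          · rw [SimpleGraph.dist_self] at h; omega
          · rfl
        · rintro rfl
          exact ⟨Or.inr rfl, by simp [SimpleGraph.dist_eq_one_iff_adj.2 hpw]⟩
      have hcav : cav G θ ({p, w} : Finset V) g w p = g w := by
        unfold cav
        rw [hB]
        unfold mean avg Sm
        have hedge : ∀ s : V → ℝ, wt G θ ({w} : Finset V) s = 1 := fun s => by
          unfold wt edgesIn
          refine Finset.prod_eq_one fun e he => ?_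
          exfalso
          induction e using Sym2.ind with
          | _ a b =>
            simp only [Finset.mem_filter, Finset.mk_mem_sym2_iff, Finset.mem_singleton,
              SimpleGraph.mem_edgeSet] at he
            exact G.irrefl (he.1.1 ▸ he.1.2 ▸ he.2)
        have hw0 : w ∉ (∅ : Finset V) := by simp
        simp only [show ({w} : Finset V).powerset = {∅, {w}} by
            ext t; simp [Finset.subset_singleton_iff],
          Finset.sum_insert (show (∅ : Finset V) ∉ ({{w}} : Finset (Finset V)) by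
            simp [(Finset.singleton_ne_empty w).symm]),
          Finset.sum_singleton, Finset.prod_singleton, hedge, one_mul, spin_notMem hw0]
        simp [spin]
        ring
      rw [hcav, reg, cv_comm,
        cv_peel hθ hgf (fun f hf => avg_peel hθ hw hp' hpw.symm hu hg hf)
          (fun f hf => avg_peel_mul hθ hw hp' hpw.symm hu hg hf) hp',
        cv_self hθ _ hgf,
        show mean G θ ({p, w} : Finset V) g p
          = mean G θ (({p, w} : Finset V).erase w) (peelFld θ g w p) p from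
          avg_peel hθ hw hp' hpw.symm hu hg (depOn_eval hp'),
        mul_div_assoc, div_self (var_pos hθ hgf hp').ne', mul_one]
    obtain ⟨x, hx, hxn, q, hq, hxq, hu, hD'⟩ :=
      exists_leaf hG hD hcl2 ⟨p, by simp⟩ hsub hbase
    have hxp : x ≠ p := fun h => hxn (by simp [h])
    have hxw : x ≠ w := fun h => hxn (by simp [h])
    have hp' : p ∈ D.erase x := Finset.mem_erase.2 ⟨Ne.symm hxp, hp⟩
    have hw' : w ∈ D.erase x := Finset.mem_erase.2 ⟨Ne.symm hxw, hw⟩
    have hgf := fld_peel hθ hg x q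
    have hqD : q ∈ D := (Finset.mem_erase.1 hq).2
    have e1 : reg G θ D g p w = reg G θ (D.erase x) (peelFld θ g x q) p w := by
      unfold reg cv mean
      rw [avg_peel hθ hx hq hxq hu hg (depOn_mul (depOn_eval hp') (depOn_eval hw')),
        avg_peel hθ hx hq hxq hu hg (depOn_eval hp'), avg_peel hθ hx hq hxq hu hg (depOn_eval hw')]
    have e2 : cav G θ D g w p = cav G θ (D.erase x) (peelFld θ g x q) w p := by
      unfold cav
      have hBe : branch G (D.erase x) w p = (branch G D w p).erase x := by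
        unfold branch
        rw [Finset.filter_erase]
      rw [hBe]
      by_cases hxB : x ∈ branch G D w p
      · have hqB : q ∈ branch G D w p := by
          by_contra hqB
          exact hxw (cross hG hpw hxq ((tree_mem_branch hpw).1 hxB).2
            fun h => hqB ((tree_mem_branch hpw).2 ⟨hqD, h⟩)).1
        have hwB : w ∈ (branch G D w p).erase x :=
          Finset.mem_erase.2 ⟨Ne.symm hxw, tree_self_mem_branch hpw hw⟩
        exact avg_peel hθ hxB (Finset.mem_erase.2 ⟨hxq.ne.symm, hqB⟩) hxq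
          (fun z hz => hu z (Finset.mem_filter.1 hz).1) hg (depOn_eval hwB)
      · rw [Finset.erase_eq_of_notMem hxB]
        have hqB : q ∉ branch G D w p := fun hqB =>
          hxp (cross hG hpw hxq.symm ((tree_mem_branch hpw).1 hqB).2
            fun h => hxB ((tree_mem_branch hpw).2 ⟨hx, h⟩)).2
        unfold mean avg
        rw [Sm_congr (g' := peelFld θ g x q) (f' := fun s => s w)
            (fun v hv => (update_of_ne (show v ≠ q from fun h => hqB (by rw [← h]; exact hv)) _ _).symm) (fun _ _ => rfl),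
          Sm_congr (g' := peelFld θ g x q) (f' := fun _ => (1:ℝ))
            (fun v hv => (update_of_ne (show v ≠ q from fun h => hqB (by rw [← h]; exact hv)) _ _).symm) (fun _ _ => rfl)
            (f := fun _ => (1:ℝ))]
    rw [e1, e2]
    exact ih _ (Finset.erase_ssubset hx) hD' hgf hp' hw' hpw

/-- A sum over the vertices beyond `w` splits along the children of `w`. -/
lemma sum_children (hG : G.IsTree) {D s : Finset V} (hD : Closed G D) {w : V} (hw : w ∈ D)
    (hs : s ⊆ D.erase w) (Z : Finset V) (hZ : ∀ z ∈ Z, G.Adj w z)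
    (hcov : ∀ x ∈ s, ∀ z ∈ D, G.Adj w z → G.dist x w = G.dist x z + 1 → z ∈ Z) (F : V → ℝ) :
    ∑ x ∈ s, F x
      = ∑ z ∈ Z, ∑ x ∈ s.filter (fun x => G.dist x w = G.dist x z + 1), F x := by
  rw [← Finset.sum_biUnion]
  · refine Finset.sum_congr ?_ fun _ _ => rfl
    ext x
    simp only [Finset.mem_biUnion, Finset.mem_filter]
    refine ⟨fun hx => ?_, fun ⟨_, _, hx, _⟩ => hx⟩
    obtain ⟨hne, hxD⟩ := Finset.mem_erase.1 (hs hx)
    obtain ⟨z, hzD, hwz, hdz⟩ := hD x hxD w hw hne.symm
    exact ⟨z, hcov x hx z hzD hwz hdz, hx, hdz⟩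
  · intro z₁ h₁ z₂ h₂ hne
    simp only [Function.onFun, Finset.disjoint_left, Finset.mem_filter]
    rintro x ⟨_, d₁⟩ ⟨_, d₂⟩
    exact hne (closer_unique hG (hZ z₁ h₁) (hZ z₂ h₂) d₁ d₂)

section rec

variable (hG : G.IsTree) (hθ : Par θ) {D : Finset V} (hD : Closed G D) {g : V → ℝ} (hg : Fld g)
include hG hθ hD hg

lemma sum_reg_branch {w z : V} (hw : w ∈ D) (hz : z ∈ D) (hwz : G.Adj w z) :
    ∑ x ∈ branch G D z w, reg G θ D g w x ^ 2
      = reg G θ D g w z ^ 2 * sqD G θ D g z w := by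
  rw [sqD, Finset.mul_sum]
  refine Finset.sum_congr rfl fun x hx => ?_
  obtain ⟨hxD, hb⟩ := Finset.mem_filter.1 hx
  rw [reg_mul hG hθ hD hg hw hz hxD hb, mul_pow]

lemma branch_filter {w z : V} (hwz : G.Adj w z) :
    (D.erase w).filter (fun x => G.dist x w = G.dist x z + 1) = branch G D z w := by
  ext x
  rw [Finset.mem_filter, Finset.mem_erase, tree_mem_branch hwz, SimpleGraph.dist_comm (u := x) (v := w),
    SimpleGraph.dist_comm (u := x) (v := z)]
  constructor
  · rintro ⟨⟨-, h1⟩, h2⟩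
    exact ⟨h1, h2⟩
  · rintro ⟨h1, h2⟩
    refine ⟨⟨fun e => ?_, h1⟩, h2⟩
    subst e
    rw [SimpleGraph.dist_self] at h2
    omega

lemma sqS_rec {c : V} (hc : c ∈ D) :
    sqS G θ D g c
      = 1 + ∑ w ∈ D.filter (G.Adj c), reg G θ D g c w ^ 2 * sqD G θ D g w c := by
  rw [sqS, ← Finset.add_sum_erase _ _ hc, reg_self hG hθ hD hg hc, one_pow,
    sum_children hG hD hc (Finset.Subset.refl _) (D.filter (G.Adj c))
      (fun z hz => (Finset.mem_filter.1 hz).2)
      (fun x _ z hz hcz _ => Finset.mem_filter.2 ⟨hz, hcz⟩)]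
  congr 1
  refine Finset.sum_congr rfl fun z hz => ?_
  obtain ⟨hzD, hcz⟩ := Finset.mem_filter.1 hz
  rw [branch_filter hG hθ hD hg hcz, sum_reg_branch hG hθ hD hg hc hzD hcz]

lemma sqD_rec {p w : V} (hw : w ∈ D) (hpw : G.Adj p w) :
    sqD G θ D g w p = 1 + ∑ z ∈ D.filter (fun z => G.Adj w z ∧ z ≠ p),
      reg G θ D g w z ^ 2 * sqD G θ D g z w := by
  have hwB := tree_self_mem_branch hpw hw
  have hsub : (branch G D w p).erase w ⊆ D.erase w :=
    Finset.erase_subset_erase _ (Finset.filter_subset _ _)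
  conv_lhs => rw [sqD, ← Finset.add_sum_erase _ _ hwB, reg_self hG hθ hD hg hw, one_pow,
    sum_children hG hD hw hsub (D.filter fun z => G.Adj w z ∧ z ≠ p)
      (fun z hz => (Finset.mem_filter.1 hz).2.1)
      (fun x hx z hz hwz hd => Finset.mem_filter.2 ⟨hz, hwz, fun e => by
        subst e
        have := ((tree_mem_branch hpw).1 (Finset.mem_erase.1 hx).2).2
        rw [SimpleGraph.dist_comm (u := x) (v := w), SimpleGraph.dist_comm (u := x) (v := z)] at hd
        omega⟩)]
  congr 1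
  refine Finset.sum_congr rfl fun z hz => ?_
  obtain ⟨hzD, hwz, hzp⟩ := Finset.mem_filter.1 hz
  rw [← sum_reg_branch hG hθ hD hg hw hzD hwz, ← branch_filter hG hθ hD hg hwz]
  refine Finset.sum_congr ?_ fun _ _ => rfl
  ext x
  simp only [Finset.mem_filter, Finset.mem_erase, tree_mem_branch hpw]
  constructor
  · rintro ⟨⟨hne, hxD, -⟩, h2⟩
    exact ⟨⟨hne, hxD⟩, h2⟩
  · rintro ⟨⟨hne, hxD⟩, h2⟩
    refine ⟨⟨hne, hxD, ?_⟩, h2⟩
    rw [SimpleGraph.dist_comm (u := p) (v := x), SimpleGraph.dist_comm (u := w) (v := x)]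
    rcases hG.dist_eq_dist_add_one_of_adj x hpw with h | h
    · exact h
    · exact absurd (closer_unique hG hwz hpw.symm h2 h) hzp

/-! ### The third cumulant -/

lemma k3_eq_cum3 (x y u : V) : k3 G θ D g x y u = cum3 G θ D g x y u := by
  have hf : (fun s : V → ℝ => (s x - mean G θ D g x) * (s y - mean G θ D g y)
        * (s u - mean G θ D g u))
      = fun s => s x * s y * s u
        + ((-mean G θ D g x) * (s y * s u) + ((-mean G θ D g y) * (s x * s u)
        + ((-mean G θ D g u) * (s x * s y) + ((mean G θ D g y * mean G θ D g u) * s x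
        + ((mean G θ D g x * mean G θ D g u) * s y + ((mean G θ D g x * mean G θ D g y) * s u
        + (-(mean G θ D g x * mean G θ D g y * mean G θ D g u)) * 1)))))) := by
    funext s
    ring
  unfold k3
  rw [hf]
  simp only [avg_add, avg_smul, avg_one hθ D hg]
  unfold cum3 mean
  ring

lemma abs_k3 {c x z y : V} (hc : c ∈ D) (hx : x ∈ D) (hz : z ∈ D) (hy : y ∈ D)
    (h1 : Btw G x c z) (h2 : Btw G x c y) (h3 : Btw G z c y) :
    |k3 G θ D g x z y|
      = 2 * |mean G θ D g c| * (reg G θ D g c x * reg G θ D g c z * cv G θ D g c y) := by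
  have hv := var_pos (G := G) hθ hg hc
  have hn : 0 ≤ reg G θ D g c x * reg G θ D g c z * cv G θ D g c y :=
    mul_nonneg (mul_nonneg (reg_nonneg hG hθ hD hg hc hx) (reg_nonneg hG hθ hD hg hc hz))
      (cv_nonneg hG hθ D hD hg hc hy)
  have e : cum3 G θ D g x z y
      = -2 * mean G θ D g c * (reg G θ D g c x * reg G θ D g c z * cv G θ D g c y) := by
    have h := cum3_median hG hθ D hD hg hx hz hy hc h1 h2 h3
    rw [cv_comm D g x c, cv_comm D g z c, cv_comm D g y c] at h
    unfold reg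
    field_simp
    linear_combination h
  rw [k3_eq_cum3 hG hθ hD hg, e, abs_mul, abs_of_nonneg hn, abs_mul]
  norm_num

lemma reg_pair {x z c c' : V} (hx : x ∈ D) (hz : z ∈ D) (hc : c ∈ D) (hc' : c' ∈ D)
    (h1 : Btw G x c z) (h2 : Btw G x c' z) :
    reg G θ D g c x * reg G θ D g c z * (reg G θ D g c' x * reg G θ D g c' z) ≤
      (θ ^ 2) ^ G.dist c c' * (reg G θ D g c x ^ 2 * reg G θ D g c' z ^ 2
        + reg G θ D g c' x ^ 2 * reg G θ D g c z ^ 2) := by
  -- it suffices to treat the case in which `c` is the one nearer to `x`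
  have main : ∀ {a b : V}, a ∈ D → b ∈ D → Btw G x a z → Btw G x b z →
      G.dist x a ≤ G.dist x b →
      reg G θ D g a x * reg G θ D g a z * (reg G θ D g b x * reg G θ D g b z) ≤
        (θ ^ 2) ^ G.dist a b * (reg G θ D g a x ^ 2 * reg G θ D g b z ^ 2) := by
    intro a b ha hb b1 b2 hle
    obtain ⟨m, -, m1, m2, m3⟩ := exists_median hG hD (G.dist x a) (u := b) hx ha rfl
    unfold Btw at b1 b2
    have hab : G.dist x a + G.dist a b = G.dist x b := by
      -- the median `m` of `x`, `a`, `b` is one of `a`, `b`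
      have u1 : G.dist x z ≤ G.dist x m + G.dist m z := hG.connected.dist_triangle
      have u2 : G.dist m z ≤ G.dist m a + G.dist a z := hG.connected.dist_triangle
      by_cases hma : m = a
      · subst hma; omega
      by_cases hmb : m = b
      · subst hmb
        rw [SimpleGraph.dist_self] at m3
        have := SimpleGraph.dist_comm (G := G) (u := a) (v := m)
        omega
      exfalso
      obtain ⟨p', hp', hdp⟩ := exists_closer hG hma
      obtain ⟨q', hq', hdq⟩ := exists_closer hG hmb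
      have u3 : G.dist m z ≤ G.dist m b + G.dist b z := hG.connected.dist_triangle
      have c1 := SimpleGraph.dist_comm (G := G) (u := a) (v := m)
      have c2 := SimpleGraph.dist_comm (G := G) (u := b) (v := m)
      have c3 := SimpleGraph.dist_comm (G := G) (u := z) (v := m)
      have c4 := SimpleGraph.dist_comm (G := G) (u := z) (v := a)
      have c5 := SimpleGraph.dist_comm (G := G) (u := z) (v := b)
      have u4 : G.dist z p' ≤ G.dist z a + G.dist a p' := hG.connected.dist_triangle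
      have u5 : G.dist z q' ≤ G.dist z b + G.dist b q' := hG.connected.dist_triangle
      have e4 : G.dist z m ≤ G.dist z p' + G.dist p' m := hG.connected.dist_triangle
      have e5 : G.dist z m ≤ G.dist z q' + G.dist q' m := hG.connected.dist_triangle
      have o4 : G.dist p' m = 1 := SimpleGraph.dist_eq_one_iff_adj.2 hp'.symm
      have o5 : G.dist q' m = 1 := SimpleGraph.dist_eq_one_iff_adj.2 hq'.symm
      obtain rfl := closer_unique hG hp' hq' (u := z) (by omega) (by omega)
      have u6 : G.dist a b ≤ G.dist a p' + G.dist p' b := hG.connected.dist_triangle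
      have c6 := SimpleGraph.dist_comm (G := G) (u := b) (v := p')
      omega
    have hzb : G.dist a b + G.dist b z = G.dist a z := by omega
    have r1 : reg G θ D g b x = reg G θ D g b a * reg G θ D g a x := by
      refine reg_mul hG hθ hD hg hb ha hx ?_
      unfold Btw
      rw [SimpleGraph.dist_comm (u := b) (v := a), SimpleGraph.dist_comm (u := a) (v := x),
        SimpleGraph.dist_comm (u := b) (v := x)]
      omega
    have r2 : reg G θ D g a z = reg G θ D g a b * reg G θ D g b z :=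
      reg_mul hG hθ hD hg ha hb hz hzb
    rw [r1, r2]
    have hA := reg_le_pow hG hθ hD hg ha hb
    have hB := reg_le_pow hG hθ hD hg hb ha
    rw [SimpleGraph.dist_comm (u := b) (v := a)] at hB
    calc reg G θ D g a x * (reg G θ D g a b * reg G θ D g b z) *
          (reg G θ D g b a * reg G θ D g a x * reg G θ D g b z)
        = (reg G θ D g a b * reg G θ D g b a) *
            (reg G θ D g a x ^ 2 * reg G θ D g b z ^ 2) := by ring
      _ ≤ _ := by
          refine mul_le_mul_of_nonneg_right ?_ (by positivity)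
          rw [← pow_mul, mul_comm 2, pow_mul, sq]
          exact mul_le_mul hA hB (reg_nonneg hG hθ hD hg hb ha) (pow_nonneg hθ.1 _)
  rcases le_total (G.dist x c) (G.dist x c') with hle | hle
  · refine (main hc hc' h1 h2 hle).trans (mul_le_mul_of_nonneg_left ?_ (by positivity))
    exact le_add_of_nonneg_right (by positivity)
  · have h := main hc' hc h2 h1 hle
    rw [SimpleGraph.dist_comm (u := c') (v := c)] at h
    calc _ = reg G θ D g c' x * reg G θ D g c' z * (reg G θ D g c x * reg G θ D g c z) := by ring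
      _ ≤ _ := h
      _ ≤ _ := mul_le_mul_of_nonneg_left (le_add_of_nonneg_left (by positivity)) (by positivity)

/-- The bound on the derivative of the covariance. -/
lemma k3_energy (w : V → ℝ) (hw : ∀ v, 0 ≤ w v) {a Kc : ℝ} (ha : 0 < a)
    (hK : ∀ A : Finset V, ∀ v u : V,
      ∑ y ∈ A, (θ ^ 2) ^ G.dist v y * a ^ G.dist y u ≤ Kc * a ^ G.dist v u) :
    ∑ x ∈ D, ∑ z ∈ D, (∑ y ∈ D, k3 G θ D g x z y * w y) ^ 2 ≤
      8 * Kc * ∑ c ∈ D, mean G θ D g c ^ 2 * sqS G θ D g c ^ 2 *
        (∑ y ∈ D, cv G θ D g c y * w y) ^ 2 := by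
  set u : V → ℝ := fun c => ∑ y ∈ D, cv G θ D g c y * w y with hu
  have hu0 : ∀ c ∈ D, 0 ≤ u c := fun c hc =>
    Finset.sum_nonneg fun y hy => mul_nonneg (cv_nonneg hG hθ D hD hg hc hy) (hw y)
  set r := fun c x => reg G θ D g c x with hr
  have hr0 : ∀ c ∈ D, ∀ x ∈ D, 0 ≤ r c x := fun c hc x hx => reg_nonneg hG hθ hD hg hc hx
  set M := fun c => |mean G θ D g c| * u c with hM
  have hM0 : ∀ c ∈ D, 0 ≤ M c := fun c hc => mul_nonneg (abs_nonneg _) (hu0 c hc)
  -- one pair of vertices
  have pair : ∀ x ∈ D, ∀ z ∈ D, (∑ y ∈ D, k3 G θ D g x z y * w y) ^ 2 ≤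
      4 * ∑ c ∈ D, ∑ c' ∈ D, M c * M c' * ((θ ^ 2) ^ G.dist c c' *
        (r c x ^ 2 * r c' z ^ 2 + r c' x ^ 2 * r c z ^ 2)) := by
    intro x hx z hz
    set P := D.filter fun c => Btw G x c z with hP
    have hPD : ∀ {c}, c ∈ P → c ∈ D := fun hc => (Finset.mem_filter.1 hc).1
    have b1 : |∑ y ∈ D, k3 G θ D g x z y * w y| ≤ 2 * ∑ c ∈ P, M c * (r c x * r c z) := by
      refine (Finset.abs_sum_le_sum_abs _ _).trans ?_
      calc ∑ y ∈ D, |k3 G θ D g x z y * w y|
          ≤ ∑ y ∈ D, ∑ c ∈ P,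
              2 * |mean G θ D g c| * (r c x * r c z * cv G θ D g c y) * w y := by
            refine Finset.sum_le_sum fun y hy => ?_
            obtain ⟨c, hc, e1, e2, e3⟩ := exists_median hG hD (G.dist x z) (u := y) hx hz rfl
            rw [abs_mul, abs_of_nonneg (hw y), abs_k3 hG hθ hD hg hc hx hz hy e1 e2 e3]
            exact Finset.single_le_sum
              (f := fun c => 2 * |mean G θ D g c| * (r c x * r c z * cv G θ D g c y) * w y)
              (fun c hc => mul_nonneg (mul_nonneg (by positivity)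
                (mul_nonneg (mul_nonneg (hr0 c (hPD hc) x hx) (hr0 c (hPD hc) z hz))
                  (cv_nonneg hG hθ D hD hg (hPD hc) hy))) (hw y))
              (Finset.mem_filter.2 ⟨hc, e1⟩)
        _ = _ := by
            rw [Finset.sum_comm, Finset.mul_sum]
            refine Finset.sum_congr rfl fun c _ => ?_
            simp only [hM, hu, Finset.mul_sum, Finset.sum_mul]
            exact Finset.sum_congr rfl fun y _ => by ring
    have hsum0 : 0 ≤ ∑ c ∈ P, M c * (r c x * r c z) := Finset.sum_nonneg fun c hc =>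
      mul_nonneg (hM0 c (hPD hc)) (mul_nonneg (hr0 c (hPD hc) x hx) (hr0 c (hPD hc) z hz))
    have hnn : ∀ c ∈ D, ∀ c' ∈ D, 0 ≤ M c * M c' * ((θ ^ 2) ^ G.dist c c' *
        (r c x ^ 2 * r c' z ^ 2 + r c' x ^ 2 * r c z ^ 2)) := fun c hc c' hc' =>
      mul_nonneg (mul_nonneg (hM0 c hc) (hM0 c' hc')) (by positivity)
    calc _ ≤ (2 * ∑ c ∈ P, M c * (r c x * r c z)) ^ 2 := by
          rw [← sq_abs (∑ y ∈ D, k3 G θ D g x z y * w y)]
          exact pow_le_pow_left₀ (abs_nonneg _) b1 2
      _ = 4 * ∑ c ∈ P, ∑ c' ∈ P, M c * M c' * (r c x * r c z * (r c' x * r c' z)) := by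
          rw [mul_pow, sq (∑ c ∈ P, M c * (r c x * r c z)), Finset.sum_mul_sum]
          norm_num
          exact Finset.sum_congr rfl fun c _ => Finset.sum_congr rfl fun c' _ => by ring
      _ ≤ 4 * ∑ c ∈ P, ∑ c' ∈ P, M c * M c' * ((θ ^ 2) ^ G.dist c c' *
            (r c x ^ 2 * r c' z ^ 2 + r c' x ^ 2 * r c z ^ 2)) := by
          refine mul_le_mul_of_nonneg_left (Finset.sum_le_sum fun c hc => Finset.sum_le_sum
            fun c' hc' => mul_le_mul_of_nonneg_left ?_
              (mul_nonneg (hM0 c (hPD hc)) (hM0 c' (hPD hc')))) (by norm_num)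
          exact reg_pair hG hθ hD hg hx hz (hPD hc) (hPD hc') (Finset.mem_filter.1 hc).2
            (Finset.mem_filter.1 hc').2
      _ ≤ _ := by
          refine mul_le_mul_of_nonneg_left ?_ (by norm_num)
          refine (Finset.sum_le_sum fun c hc => Finset.sum_le_sum_of_subset_of_nonneg
            (Finset.filter_subset _ _) fun c' hc' _ => hnn c (hPD hc) c' hc').trans
            (Finset.sum_le_sum_of_subset_of_nonneg (Finset.filter_subset _ _)
              fun c hc _ => Finset.sum_nonneg fun c' hc' => hnn c hc c' hc')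
  set v : V → ℝ := fun c => M c * sqS G θ D g c with hv
  -- summing over the pair
  have total : ∑ x ∈ D, ∑ z ∈ D, (∑ y ∈ D, k3 G θ D g x z y * w y) ^ 2
      ≤ 8 * ∑ c ∈ D, ∑ c' ∈ D, (θ ^ 2) ^ G.dist c c' * (v c * v c') := by
    refine (Finset.sum_le_sum fun x hx => Finset.sum_le_sum fun z hz => pair x hx z hz).trans_eq ?_
    simp only [← Finset.mul_sum]
    rw [show (8:ℝ) = 4 * 2 by norm_num, mul_assoc]
    congr 1
    simp only [Finset.sum_comm (γ := V) (s := D) (t := D)
      (f := fun z c => ∑ c' ∈ D, M c * M c' * ((θ ^ 2) ^ G.dist c c' *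
        (r c _ ^ 2 * r c' z ^ 2 + r c' _ ^ 2 * r c z ^ 2)))]
    rw [Finset.sum_comm, Finset.mul_sum]
    refine Finset.sum_congr rfl fun c _ => ?_
    rw [Finset.mul_sum]
    rw [show (∑ x ∈ D, ∑ z ∈ D, ∑ c' ∈ D, M c * M c' * ((θ ^ 2) ^ G.dist c c' *
          (r c x ^ 2 * r c' z ^ 2 + r c' x ^ 2 * r c z ^ 2)))
        = ∑ c' ∈ D, ∑ x ∈ D, ∑ z ∈ D, M c * M c' * ((θ ^ 2) ^ G.dist c c' *
          (r c x ^ 2 * r c' z ^ 2 + r c' x ^ 2 * r c z ^ 2)) from by
      rw [Finset.sum_comm (γ := V) (s := D) (t := D) (f := fun c' x => ∑ z ∈ D, M c * M c' *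
        ((θ ^ 2) ^ G.dist c c' * (r c x ^ 2 * r c' z ^ 2 + r c' x ^ 2 * r c z ^ 2)))]
      exact Finset.sum_congr rfl fun x _ => Finset.sum_comm]
    refine Finset.sum_congr rfl fun c' _ => ?_
    simp only [mul_add, Finset.sum_add_distrib, ← Finset.mul_sum, ← Finset.sum_mul, hv, sqS, hr]
    ring
  -- the Schur test
  refine total.trans ?_
  rw [mul_assoc 8]
  refine mul_le_mul_of_nonneg_left ?_ (by norm_num)
  have hv2 : ∀ c, mean G θ D g c ^ 2 * sqS G θ D g c ^ 2 * u c ^ 2 = v c ^ 2 := fun c => by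
    simp only [hv, hM, mul_pow, sq_abs]
    ring
  simp only [hu] at hv2
  simp only [hv2]
  rcases D.eq_empty_or_nonempty with hne | ⟨u₀, -⟩
  · simp [hne]
  set φ : V → ℝ := fun c => a ^ G.dist c u₀ with hφ
  have hφ0 : ∀ c, 0 < φ c := fun c => pow_pos ha _
  have amgm : ∀ c c', v c * v c' ≤ (v c ^ 2 / φ c * φ c' + v c' ^ 2 / φ c' * φ c) / 2 := by
    intro c c'
    have h1 := hφ0 c
    have h2 := hφ0 c'
    have e : (v c ^ 2 / φ c * φ c' + v c' ^ 2 / φ c' * φ c) / 2 - v c * v c'
        = (v c * φ c' - v c' * φ c) ^ 2 / (2 * (φ c * φ c')) := by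
      field_simp
      ring
    have h3 : (0:ℝ) ≤ (v c * φ c' - v c' * φ c) ^ 2 / (2 * (φ c * φ c')) := by positivity
    linarith
  have half : ∑ c ∈ D, ∑ c' ∈ D, (θ ^ 2) ^ G.dist c c' * (v c ^ 2 / φ c * φ c')
      ≤ Kc * ∑ c ∈ D, v c ^ 2 := by
    rw [Finset.mul_sum]
    refine Finset.sum_le_sum fun c _ => ?_
    calc ∑ c' ∈ D, (θ ^ 2) ^ G.dist c c' * (v c ^ 2 / φ c * φ c')
        = v c ^ 2 / φ c * ∑ c' ∈ D, (θ ^ 2) ^ G.dist c c' * a ^ G.dist c' u₀ := by
          rw [Finset.mul_sum]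
          exact Finset.sum_congr rfl fun c' _ => by simp only [hφ]; ring
      _ ≤ v c ^ 2 / φ c * (Kc * φ c) :=
          mul_le_mul_of_nonneg_left (hK D c u₀) (div_nonneg (sq_nonneg _) (hφ0 c).le)
      _ = _ := by rw [div_mul_eq_mul_div, mul_comm (Kc), ← mul_assoc]; field_simp [(hφ0 c).ne']
  have swap : ∑ c ∈ D, ∑ c' ∈ D, (θ ^ 2) ^ G.dist c c' * (v c' ^ 2 / φ c' * φ c)
      = ∑ c ∈ D, ∑ c' ∈ D, (θ ^ 2) ^ G.dist c c' * (v c ^ 2 / φ c * φ c') := by
    rw [Finset.sum_comm]
    exact Finset.sum_congr rfl fun c _ => Finset.sum_congr rfl fun c' _ => by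
      rw [SimpleGraph.dist_comm]
  calc ∑ c ∈ D, ∑ c' ∈ D, (θ ^ 2) ^ G.dist c c' * (v c * v c')
      ≤ ∑ c ∈ D, ∑ c' ∈ D, ((θ ^ 2) ^ G.dist c c' * (v c ^ 2 / φ c * φ c')
          + (θ ^ 2) ^ G.dist c c' * (v c' ^ 2 / φ c' * φ c)) / 2 := by
        refine Finset.sum_le_sum fun c _ => Finset.sum_le_sum fun c' _ => ?_
        rw [← mul_add, mul_div_assoc]
        exact mul_le_mul_of_nonneg_left (amgm c c') (by positivity)
    _ ≤ _ := by
        simp only [← Finset.sum_div, Finset.sum_add_distrib, swap]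
        linarith [half]

/-! ### The bilinear bound -/

omit hG hθ hD hg in
/-- One step of the recursion behind the bilinear bound. -/
lemma step_bound {φ A T U Dc L : ℝ} (hU : 0 ≤ U) (hT : 0 ≤ T) (hD : Dc = 1 + T) (hL : Dc ≤ L)
    (hA : A ^ 2 ≤ T * U) : (φ + A) ^ 2 ≤ (2 * φ ^ 2 + (1 - 1 / (2 * L)) * U) * Dc := by
  have hL0 : 0 < L := by linarith
  have hq : (2 * φ * A) ^ 2 ≤ (U / 2 + 2 * T * φ ^ 2) ^ 2 := by
    nlinarith [sq_nonneg (U / 2 - 2 * T * φ ^ 2), mul_le_mul_of_nonneg_left hA (sq_nonneg φ)]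
  have h1 : 2 * φ * A ≤ U / 2 + 2 * T * φ ^ 2 :=
    le_of_abs_le (abs_le_of_sq_le_sq hq (by positivity))
  have h2 : 1 / (2 * L) * Dc ≤ 1 / 2 := by
    rw [div_mul_eq_mul_div, one_mul, div_le_div_iff₀ (by linarith) two_pos]
    linarith
  have h3 := mul_le_mul_of_nonneg_right h2 hU
  have e : (2 * φ ^ 2 + (1 - 1 / (2 * L)) * U) * Dc
      = 2 * φ ^ 2 * Dc + U * Dc - 1 / (2 * L) * Dc * U := by ring
  rw [e, hD]
  rw [hD] at h3
  nlinarith [sq_nonneg φ]

/-- The bound on covariances restricted to a ball. -/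
lemma bilinear_ball {o : V} (ho : o ∈ D) (R : ℕ) (L : ℝ) (y r : V → ℝ) (hy : ∀ v, 0 ≤ y v)
    (hr : ∀ v, 0 ≤ r v) (hL : ∀ c ∈ D, G.dist o c ≤ R → sqS G θ D g c ≤ L) :
    ∑ x ∈ D.filter (fun v => G.dist o v ≤ R), ∑ z ∈ D.filter (fun v => G.dist o v ≤ R),
        cv G θ D g x z * y x * r z ≤
      4 * L ^ 2 * Real.sqrt (∑ x ∈ D, y x ^ 2) * Real.sqrt (∑ z ∈ D, r z ^ 2) := by
  set B := D.filter fun v => G.dist o v ≤ R with hB
  have hBD : ∀ {c}, c ∈ B → c ∈ D := fun hc => (Finset.mem_filter.1 hc).1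
  set dn : V → Finset V := fun c => B.filter fun x => Btw G o c x with hdn
  set X : (V → ℝ) → V → ℝ := fun φ c => ∑ x ∈ dn c, reg G θ D g c x * φ x with hX
  set kids : V → Finset V := fun c =>
    B.filter fun z => G.Adj c z ∧ G.dist o z = G.dist o c + 1 with hkids
  set Dn : V → ℝ := fun c => ∑ x ∈ dn c, reg G θ D g c x ^ 2 with hDn
  have hself : ∀ c ∈ B, c ∈ dn c := fun c hc =>
    Finset.mem_filter.2 ⟨hc, by unfold Btw; simp⟩
  -- the vertices below `c` split along the children of `c`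
  have split : ∀ c ∈ B, ∀ F : V → ℝ,
      ∑ x ∈ dn c, F x = F c + ∑ z ∈ kids c, ∑ x ∈ dn z, F x := by
    intro c hc F
    rw [← Finset.add_sum_erase _ _ (hself c hc),
      sum_children hG hD (hBD hc) (s := (dn c).erase c)
        (fun x hx => Finset.mem_erase.2 ⟨(Finset.mem_erase.1 hx).1,
          hBD (Finset.mem_filter.1 (Finset.mem_erase.1 hx).2).1⟩)
        (kids c) (fun z hz => (Finset.mem_filter.1 hz).2.1) ?_]
    · congr 1
      refine Finset.sum_congr rfl fun z hz => ?_
      obtain ⟨hzB, hcz, hoz⟩ := Finset.mem_filter.1 hz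
      have hcz1 : G.dist c z = 1 := SimpleGraph.dist_eq_one_iff_adj.2 hcz
      refine Finset.sum_congr ?_ fun _ _ => rfl
      ext x
      simp only [hdn, Finset.mem_filter, Finset.mem_erase]
      unfold Btw
      have t1 : G.dist o x ≤ G.dist o z + G.dist z x := hG.connected.dist_triangle
      have t2 : G.dist o x ≤ G.dist o c + G.dist c x := hG.connected.dist_triangle
      have t3 : G.dist c x ≤ G.dist c z + G.dist z x := hG.connected.dist_triangle
      rw [SimpleGraph.dist_comm (u := x) (v := c), SimpleGraph.dist_comm (u := x) (v := z)]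
      constructor
      · rintro ⟨⟨-, hxB, h1⟩, h2⟩
        exact ⟨hxB, by omega⟩
      · rintro ⟨hxB, h1⟩
        refine ⟨⟨fun e => ?_, hxB, by omega⟩, by omega⟩
        subst e
        omega
    · intro x hx z hz hcz hd
      obtain ⟨hxB, hbx⟩ := Finset.mem_filter.1 (Finset.mem_erase.1 hx).2
      have hcz1 : G.dist c z = 1 := SimpleGraph.dist_eq_one_iff_adj.2 hcz
      have hxR := (Finset.mem_filter.1 hxB).2
      unfold Btw at hbx
      have t1 : G.dist o x ≤ G.dist o z + G.dist z x := hG.connected.dist_triangle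
      have t2 : G.dist o z ≤ G.dist o c + G.dist c z := hG.connected.dist_triangle
      rw [SimpleGraph.dist_comm (u := x) (v := c), SimpleGraph.dist_comm (u := x) (v := z)] at hd
      exact Finset.mem_filter.2 ⟨Finset.mem_filter.2 ⟨hz, by omega⟩, hcz, by omega⟩
  have hmul : ∀ c ∈ B, ∀ z ∈ kids c, ∀ x ∈ dn z,
      reg G θ D g c x = reg G θ D g c z * reg G θ D g z x := by
    intro c hc z hz x hx
    obtain ⟨hzB, hcz, hoz⟩ := Finset.mem_filter.1 hz
    obtain ⟨hxB, hbx⟩ := Finset.mem_filter.1 hx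
    refine reg_mul hG hθ hD hg (hBD hc) (hBD hzB) (hBD hxB) ?_
    unfold Btw at hbx ⊢
    have hcz1 : G.dist c z = 1 := SimpleGraph.dist_eq_one_iff_adj.2 hcz
    have t2 : G.dist o x ≤ G.dist o c + G.dist c x := hG.connected.dist_triangle
    have t3 : G.dist c x ≤ G.dist c z + G.dist z x := hG.connected.dist_triangle
    omega
  have hDrec : ∀ c ∈ B, Dn c = 1 + ∑ z ∈ kids c, reg G θ D g c z ^ 2 * Dn z := by
    intro c hc
    simp only [hDn]
    rw [split c hc, reg_self hG hθ hD hg (hBD hc), one_pow]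
    congr 1
    refine Finset.sum_congr rfl fun z hz => ?_
    rw [Finset.mul_sum]
    exact Finset.sum_congr rfl fun x hx => by rw [hmul c hc z hz x hx, mul_pow]
  have hD1 : ∀ c ∈ B, 1 ≤ Dn c := fun c hc => by
    have h := Finset.single_le_sum (f := fun x => reg G θ D g c x ^ 2) (fun x _ => sq_nonneg _)
      (hself c hc)
    simpa [hDn, reg_self hG hθ hD hg (hBD hc)] using h
  have hDL : ∀ c ∈ B, Dn c ≤ L := fun c hc =>
    le_trans (Finset.sum_le_sum_of_subset_of_nonneg
      (fun x hx => hBD (Finset.mem_filter.1 hx).1) fun _ _ _ => sq_nonneg _)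
      (hL c (hBD hc) (Finset.mem_filter.1 hc).2)
  -- the norm of `X`
  have hXn : ∀ φ : V → ℝ, ∑ c ∈ B, X φ c ^ 2 ≤ 4 * L ^ 2 * ∑ x ∈ D, φ x ^ 2 := by
    intro φ
    rcases B.eq_empty_or_nonempty with hBe | ⟨c₀, hc₀⟩
    · rw [hBe, Finset.sum_empty]
      positivity
    have hL1 : 1 ≤ L := (hD1 c₀ hc₀).trans (hDL c₀ hc₀)
    have hXrec : ∀ c ∈ B, X φ c = φ c + ∑ z ∈ kids c, reg G θ D g c z * X φ z := by
      intro c hc
      simp only [hX]
      rw [split c hc, reg_self hG hθ hD hg (hBD hc), one_mul]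
      congr 1
      refine Finset.sum_congr rfl fun z hz => ?_
      rw [Finset.mul_sum]
      exact Finset.sum_congr rfl fun x hx => by rw [hmul c hc z hz x hx]; ring
    set Q : V → ℝ := fun c => X φ c ^ 2 / Dn c with hQ
    have hQ0 : ∀ c ∈ B, 0 ≤ Q c := fun c hc =>
      div_nonneg (sq_nonneg _) (le_trans zero_le_one (hD1 c hc))
    have step : ∀ c ∈ B, Q c ≤ 2 * φ c ^ 2 + (1 - 1 / (2 * L)) * ∑ z ∈ kids c, Q z := by
      intro c hc
      set A := ∑ z ∈ kids c, reg G θ D g c z * X φ z with hA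
      set T := ∑ z ∈ kids c, reg G θ D g c z ^ 2 * Dn z with hT
      set U := ∑ z ∈ kids c, Q z with hU
      have hU0 : 0 ≤ U := Finset.sum_nonneg fun z hz => hQ0 z (Finset.mem_filter.1 hz).1
      have hcs : A ^ 2 ≤ T * U := by
        have hk : ∀ z ∈ kids c, 0 < Dn z := fun z hz =>
          lt_of_lt_of_le one_pos (hD1 z (Finset.mem_filter.1 hz).1)
        refine Finset.sum_sq_le_sum_mul_sum_of_sq_eq_mul _ (fun z hz =>
          mul_nonneg (sq_nonneg _) (hk z hz).le) (fun z hz => hQ0 z (Finset.mem_filter.1 hz).1)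
          fun z hz => ?_
        simp only [hQ]
        field_simp [(hk z hz).ne']
      have hT0 : 0 ≤ T := Finset.sum_nonneg fun z hz => mul_nonneg (sq_nonneg _)
        (le_trans zero_le_one (hD1 z (Finset.mem_filter.1 hz).1))
      have hDc : Dn c = 1 + T := hDrec c hc
      have hDc0 : 0 < Dn c := by linarith
      simp only [hQ]
      rw [div_le_iff₀ hDc0, hXrec c hc, ← hA]
      exact step_bound hU0 hT0 hDc (hDL c hc) hcs
    have hkid : ∑ c ∈ B, ∑ z ∈ kids c, Q z ≤ ∑ z ∈ B, Q z := by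
      rw [← Finset.sum_biUnion]
      · refine Finset.sum_le_sum_of_subset_of_nonneg (fun z hz => ?_) fun z hz _ => hQ0 z hz
        obtain ⟨c, -, hzc⟩ := Finset.mem_biUnion.1 hz
        exact (Finset.mem_filter.1 hzc).1
      · intro c₁ _ c₂ _ hne
        simp only [Function.onFun, Finset.disjoint_left]
        intro z h₁ h₂
        obtain ⟨-, a₁, d₁⟩ := Finset.mem_filter.1 h₁
        obtain ⟨-, a₂, d₂⟩ := Finset.mem_filter.1 h₂
        exact hne (closer_unique hG a₁.symm a₂.symm d₁ d₂)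
    set SQ := ∑ c ∈ B, Q c with hSQ
    have hL2 : 0 ≤ 1 - 1 / (2 * L) := by
      rw [sub_nonneg, div_le_one (by linarith)]
      linarith
    have hφB : ∑ c ∈ B, φ c ^ 2 ≤ ∑ x ∈ D, φ x ^ 2 :=
      Finset.sum_le_sum_of_subset_of_nonneg (fun x hx => hBD hx) fun _ _ _ => sq_nonneg _
    have hsum : SQ ≤ 2 * ∑ x ∈ D, φ x ^ 2 + (1 - 1 / (2 * L)) * SQ := by
      calc SQ ≤ ∑ c ∈ B, (2 * φ c ^ 2 + (1 - 1 / (2 * L)) * ∑ z ∈ kids c, Q z) :=
            Finset.sum_le_sum step
        _ ≤ _ := by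
            rw [Finset.sum_add_distrib, ← Finset.mul_sum, ← Finset.mul_sum]
            exact add_le_add (mul_le_mul_of_nonneg_left hφB zero_le_two)
              (mul_le_mul_of_nonneg_left hkid hL2)
    have hSQb : SQ ≤ 4 * L * ∑ x ∈ D, φ x ^ 2 := by
      have h : SQ / (2 * L) ≤ 2 * ∑ x ∈ D, φ x ^ 2 := by
        have e : (1 - 1 / (2 * L)) * SQ = SQ - SQ / (2 * L) := by ring
        linarith
      rw [div_le_iff₀ (by linarith)] at h
      linarith
    calc ∑ c ∈ B, X φ c ^ 2 ≤ ∑ c ∈ B, L * Q c := by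
          refine Finset.sum_le_sum fun c hc => ?_
          simp only [hQ]
          rw [← mul_div_assoc, le_div_iff₀ (lt_of_lt_of_le one_pos (hD1 c hc))]
          nlinarith [sq_nonneg (X φ c), hDL c hc]
      _ ≤ _ := by
          rw [← Finset.mul_sum]
          calc L * SQ ≤ L * (4 * L * ∑ x ∈ D, φ x ^ 2) :=
                mul_le_mul_of_nonneg_left hSQb (by linarith)
            _ = _ := by ring
  have hterm : ∀ x ∈ B, ∀ z ∈ B, cv G θ D g x z * y x * r z ≤
      ∑ c ∈ B, (if Btw G o c x then reg G θ D g c x * y x else 0) *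
        (if Btw G o c z then reg G θ D g c z * r z else 0) := by
    intro x hx z hz
    obtain ⟨c, hc, e1, e2, e3⟩ := exists_median hG hD (G.dist x z) (u := o) (hBD hx) (hBD hz) rfl
    rw [SimpleGraph.dist_comm (u := c) (v := o), SimpleGraph.dist_comm (u := x) (v := o)] at e2
    rw [SimpleGraph.dist_comm (u := c) (v := o), SimpleGraph.dist_comm (u := z) (v := o)] at e3
    have hox := (Finset.mem_filter.1 hx).2
    have hcB : c ∈ B := Finset.mem_filter.2 ⟨hc, by omega⟩
    have hb2 : Btw G o c x := by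
      unfold Btw; rw [SimpleGraph.dist_comm (u := c) (v := x)]; omega
    have hb3 : Btw G o c z := by
      unfold Btw; rw [SimpleGraph.dist_comm (u := c) (v := z)]; omega
    have hn : ∀ c' ∈ B, 0 ≤ (if Btw G o c' x then reg G θ D g c' x * y x else 0) *
        (if Btw G o c' z then reg G θ D g c' z * r z else 0) := fun c' hc' => by
      refine mul_nonneg ?_ ?_ <;> split_ifs
      · exact mul_nonneg (reg_nonneg hG hθ hD hg (hBD hc') (hBD hx)) (hy x)
      · exact le_rfl
      · exact mul_nonneg (reg_nonneg hG hθ hD hg (hBD hc') (hBD hz)) (hr z)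
      · exact le_rfl
    refine le_trans ?_ (Finset.single_le_sum hn hcB)
    simp only [if_pos hb2, if_pos hb3]
    rw [cv_eq_reg hG hθ hD hg hc (hBD hx) (hBD hz) e1]
    have hp : 0 ≤ reg G θ D g c x * y x * (reg G θ D g c z * r z) := mul_nonneg
      (mul_nonneg (reg_nonneg hG hθ hD hg hc (hBD hx)) (hy x))
      (mul_nonneg (reg_nonneg hG hθ hD hg hc (hBD hz)) (hr z))
    calc _ = (1 - mean G θ D g c ^ 2) * (reg G θ D g c x * y x * (reg G θ D g c z * r z)) := by ring
      _ ≤ _ := mul_le_of_le_one_left hp (by nlinarith [sq_nonneg (mean G θ D g c)])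
  calc ∑ x ∈ B, ∑ z ∈ B, cv G θ D g x z * y x * r z
      ≤ ∑ x ∈ B, ∑ z ∈ B, ∑ c ∈ B, (if Btw G o c x then reg G θ D g c x * y x else 0) *
          (if Btw G o c z then reg G θ D g c z * r z else 0) :=
        Finset.sum_le_sum fun x hx => Finset.sum_le_sum fun z hz => hterm x hx z hz
    _ = ∑ c ∈ B, X y c * X r c := by
        simp only [hX, hdn, Finset.sum_filter]
        rw [Finset.sum_congr rfl fun x _ => Finset.sum_comm, Finset.sum_comm]
        simp only [Finset.sum_mul_sum]
    _ ≤ Real.sqrt (∑ c ∈ B, X y c ^ 2) * Real.sqrt (∑ c ∈ B, X r c ^ 2) :=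
        Real.sum_mul_le_sqrt_mul_sqrt _ _ _
    _ ≤ Real.sqrt (4 * L ^ 2 * ∑ x ∈ D, y x ^ 2) * Real.sqrt (4 * L ^ 2 * ∑ z ∈ D, r z ^ 2) :=
        mul_le_mul (Real.sqrt_le_sqrt (hXn y)) (Real.sqrt_le_sqrt (hXn r)) (Real.sqrt_nonneg _)
          (Real.sqrt_nonneg _)
    _ = _ := by
        have h4 : (0:ℝ) ≤ 4 * L ^ 2 := by positivity
        rw [Real.sqrt_mul h4, Real.sqrt_mul h4]
        calc _ = Real.sqrt (4 * L ^ 2) * Real.sqrt (4 * L ^ 2) *
              Real.sqrt (∑ x ∈ D, y x ^ 2) * Real.sqrt (∑ z ∈ D, r z ^ 2) := by ring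
          _ = _ := by rw [Real.mul_self_sqrt h4]

end rec

theorem treeStmt : TreeStmt := by
  intro V G d θ D g hG hd3 _ hθ hD hg
  refine ⟨fun v hv => var_pos hθ hg hv, fun v hv w hw => ⟨cv_nonneg hG hθ D hD hg hv hw,
    reg_nonneg hG hθ hD hg hv hw, cv_le_theta hG hθ hD hg hv hw, reg_le_pow hG hθ hD hg hv hw⟩,
    fun c hc v hv x hx hb => reg_mul hG hθ hD hg hc hv hx hb, fun p hp w hw hpw => ⟨?_, ?_, ?_⟩,
    fun c hc => sqS_rec hG hθ hD hg hc, fun w Kc hw hK => ?_,
    fun o R L y r ho hy hr hL => bilinear_ball hG hθ hD hg ho R L y r hy hr hL⟩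
  · have h := var_pos (G := G) hθ hg (tree_self_mem_branch hpw hw (G := G) (D := D))
    exact (sq_lt_one_iff_abs_lt_one _).1 (by unfold cav; linarith)
  · rw [reg_adj hG hθ D hD hg hp hw hpw, peelSlope, mul_pow]
  · exact sqD_rec hG hθ hD hg hw hpw
  · have h3 : (3:ℝ) ≤ d := by exact_mod_cast hd3
    exact k3_energy hG hθ hD hg w hw (inv_pos.2 (Real.sqrt_pos.2 (by linarith))) hK

end

end Vale.Agent.P161.Edge
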