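import Vale.Agent.P161.Balls
import Vale.Agent.P161.Edge.Tree
import Vale.Agent.P161.Edge.Auto
import Vale.Agent.P161.Edge.ConverseGram

/-!
The free Ising state is not a factor of IID when `θ √(d-1) > 1` (Sly).

Spins at distance `n` have correlation `θ ^ n`, while for a factor of IID the correlations summed
over a sphere of radius `n` are at most `(n + 1) (d-1) ^ (n/2)`: in the orthogonal decomposition
along finite sets `A` one weights a vertex `v` by `(d-1) ^ (-ecc_A(v)/2)`.
-/

namespace Vale.Agent.P161.Edge

open MeasureTheory Finset Function Filter Converse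
open scoped Topology Classical

noncomputable section

variable {V : Type*} {G : SimpleGraph V} {d : ℕ} {θ : ℝ}

namespace Converse

/-! ### Spheres -/

section geometry

variable (hG : G.IsTree) (hd : Regular G d) (hd3 : 3 ≤ d)

/-- The sphere of radius `n`. -/
def sphere (o : V) (n : ℕ) : Finset V :=
  (ballF hG hd hd3 o n).filter fun x => G.dist o x = n

lemma mem_sphere {o x : V} {n : ℕ} : x ∈ sphere hG hd hd3 o n ↔ G.dist o x = n := by
  simp only [sphere, Finset.mem_filter, mem_ballF, and_iff_right_iff_imp]
  exact fun h => h.le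

lemma sphere_succ (o : V) (n : ℕ) :
    sphere hG hd hd3 o (n + 1) = (sphere hG hd hd3 o n).biUnion (children hd hd3 o) := by
  ext x
  rw [Finset.mem_biUnion, mem_sphere]
  constructor
  · intro hx
    obtain ⟨z, hz, hdz⟩ := exists_closer hG (u := o) (x := x) (fun e => by simp [e] at hx)
    exact ⟨z, (mem_sphere hG hd hd3).2 (by omega), (mem_children hd hd3).2 ⟨hz.symm, hdz⟩⟩
  · rintro ⟨p, hp, hx⟩
    rw [mem_sphere] at hp
    rw [((mem_children hd hd3).1 hx).2, hp]

lemma disjoint_children (o : V) (n : ℕ) :
    ((sphere hG hd hd3 o n : Finset V) : Set V).PairwiseDisjoint (children hd hd3 o) := by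
  intro p hp p' hp' hne
  refine Finset.disjoint_left.2 fun z hz hz' => hne ?_
  obtain ⟨a, b⟩ := (mem_children hd hd3).1 hz
  obtain ⟨a', b'⟩ := (mem_children hd hd3).1 hz'
  exact closer_unique hG a.symm a'.symm b b'

lemma sphere_zero (o : V) : sphere hG hd hd3 o 0 = {o} := by
  ext x
  rw [mem_sphere, Finset.mem_singleton, hG.connected.dist_eq_zero_iff]
  exact eq_comm

lemma card_sphere_ge (o : V) : ∀ n, (d - 1) ^ n ≤ (sphere hG hd hd3 o n).card := by
  intro n
  induction n with
  | zero => simp [sphere_zero]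
  | succ n ih =>
    rw [sphere_succ, Finset.card_biUnion (disjoint_children hG hd hd3 o n)]
    calc (d - 1) ^ (n + 1) ≤ (sphere hG hd hd3 o n).card * (d - 1) := by
          rw [pow_succ]; exact Nat.mul_le_mul_right _ ih
      _ = ∑ _p ∈ sphere hG hd hd3 o n, (d - 1) := by simp
      _ ≤ _ := Finset.sum_le_sum fun p _ => by
          rw [card_children hG hd hd3]
          split_ifs <;> omega

include hG in
/-- A vertex `p` has a child closer to `u` only if it lies between `o` and `u`. -/
lemma on_geod {o u p z : V} (hz : z ∈ children hd hd3 o p)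
    (h : G.dist u p = G.dist u z + 1) : G.dist o u = G.dist o p + G.dist p u := by
  obtain ⟨a, b⟩ := (mem_children hd hd3).1 hz
  exact dist_add_of_split hG (G.dist p u) rfl a h b

include hG in
lemma geod_unique (o u : V) : ∀ (n : ℕ) {p p' : V}, G.dist o p = n → G.dist o p' = n →
    G.dist o u = n + G.dist p u → G.dist o u = n + G.dist p' u → p = p' := by
  intro n
  induction n with
  | zero =>
    intro p p' hp hp' _ _
    rw [← hG.connected.dist_eq_zero_iff.1 hp, ← hG.connected.dist_eq_zero_iff.1 hp']
  | succ n ih =>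
    intro p p' hp hp' hu hu'
    obtain ⟨q, hq, hdq⟩ := exists_closer hG (u := o) (x := p) (fun e => by simp [e] at hp)
    obtain ⟨q', hq', hdq'⟩ := exists_closer hG (u := o) (x := p') (fun e => by simp [e] at hp')
    have step : ∀ {p q : V}, G.Adj p q → G.dist o q = n → G.dist o u = n + 1 + G.dist p u →
        G.dist u q = G.dist u p + 1 := by
      intro p q hq hqn hu
      have h1 := hG.connected.dist_triangle (u := o) (v := q) (w := u)
      rcases hG.dist_eq_dist_add_one_of_adj u hq with h | h
      · rw [SimpleGraph.dist_comm (u := u) (v := p), SimpleGraph.dist_comm (u := u) (v := q)] at h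
        omega
      · exact h
    have e1 := step hq (by omega) hu
    have e2 := step hq' (by omega) hu'
    have s1 : G.dist q u = G.dist p u + 1 := by
      rw [SimpleGraph.dist_comm (u := q), SimpleGraph.dist_comm (u := p)]; exact e1
    have s2 : G.dist q' u = G.dist p' u + 1 := by
      rw [SimpleGraph.dist_comm (u := q'), SimpleGraph.dist_comm (u := p')]; exact e2
    have hqq := ih (p := q) (p' := q') (by omega) (by omega) (by omega) (by omega)
    subst hqq
    exact closer_unique hG hq.symm hq'.symm e1 e2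

/-- Radially weighted sums over a sphere, seen from another vertex. -/
lemma sum_sphere_le (o u : V) {s : ℝ} (hs : 1 ≤ s) (hs2 : s ^ 2 = (d:ℝ) - 1) : ∀ n,
    ∑ x ∈ sphere hG hd hd3 o n, s⁻¹ ^ G.dist x u
      ≤ ((n:ℝ) + 1) * s ^ n * s⁻¹ ^ G.dist o u := by
  have hs0 : 0 < s := lt_of_lt_of_le one_pos hs
  set r := s⁻¹ with hr
  have hr0 : 0 < r := inv_pos.2 hs0
  have hr1 : r ≤ 1 := inv_le_one_of_one_le₀ hs
  intro n
  induction n with
  | zero => simp [sphere_zero]
  | succ n ih =>
    rw [sphere_succ, Finset.sum_biUnion (disjoint_children hG hd hd3 o n)]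
    set geo := fun p => G.dist o u = n + G.dist p u with hgeo
    have hp : ∀ p ∈ sphere hG hd hd3 o n, ∑ z ∈ children hd hd3 o p, r ^ G.dist z u
        ≤ r ^ G.dist p u * s + if geo p then r ^ G.dist p u * s else 0 := by
      intro p hp
      rw [mem_sphere] at hp
      set C := (children hd hd3 o p).filter fun z => G.dist u p = G.dist u z + 1 with hC
      have hC1 : C.card ≤ 1 := Finset.card_le_one.2 fun a ha b hb => by
        rw [hC, Finset.mem_filter, mem_children] at ha hb
        exact closer_unique hG ha.1.1 hb.1.1 ha.2 hb.2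
      have e : ∑ z ∈ children hd hd3 o p, r ^ G.dist z u
          = r ^ G.dist p u * ((children hd hd3 o p).card * r + C.card * (s - r)) := by
        have e' : ∀ z ∈ children hd hd3 o p, r ^ G.dist z u
            = r ^ G.dist p u * (r + if G.dist u p = G.dist u z + 1 then s - r else 0) := by
          intro z hz
          obtain ⟨a, -⟩ := (mem_children hd hd3).1 hz
          rw [SimpleGraph.dist_comm (u := z), SimpleGraph.dist_comm (u := p)]
          by_cases h : G.dist u p = G.dist u z + 1
          · rw [if_pos h, h, add_sub_cancel, pow_succ, mul_assoc, hr, inv_mul_cancel₀ hs0.ne',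
              mul_one]
          · rw [if_neg h, add_zero]
            rcases hG.dist_eq_dist_add_one_of_adj u a with h' | h'
            · exact absurd h' h
            · rw [h', pow_succ]
        rw [Finset.sum_congr rfl e', ← Finset.mul_sum, Finset.sum_add_distrib, Finset.sum_const,
          ← Finset.sum_filter, ← hC, Finset.sum_const, nsmul_eq_mul, nsmul_eq_mul]
      rw [e, card_children hG hd hd3]
      have hbr : ((d:ℝ) - 1) * r = s := by
        rw [← hs2, sq, hr, mul_assoc, mul_inv_cancel₀ hs0.ne', mul_one]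
      have hpow : 0 ≤ r ^ G.dist p u := pow_nonneg hr0.le _
      have hC' : (C.card : ℝ) ≤ 1 := by exact_mod_cast hC1
      have hsr : r ≤ s := hr1.trans hs
      have hCs : (C.card : ℝ) * (s - r) ≤ s - r :=
        mul_le_of_le_one_left (by linarith) hC'
      by_cases hg : geo p
      · rw [if_pos hg, ← mul_add]
        refine mul_le_mul_of_nonneg_left ?_ hpow
        split_ifs with hpo
        · have e2 : (d:ℝ) * r = s + r := by linarith
          linarith
        · rw [Nat.cast_sub (by omega), Nat.cast_one, hbr]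
          linarith
      · rw [if_neg hg, add_zero]
        have hpo : p ≠ o := by
          rintro rfl
          rw [SimpleGraph.dist_self] at hp
          exact hg (by simp [hgeo, ← hp])
        have hC0 : C = ∅ := Finset.filter_eq_empty_iff.2 fun z hz h => hg (by
          have := on_geod hG hd hd3 hz h
          rw [hp] at this
          exact this)
        rw [if_neg hpo, hC0, Nat.cast_sub (by omega), Nat.cast_one, hbr]
        simp
    refine (Finset.sum_le_sum hp).trans ?_
    rw [Finset.sum_add_distrib, ← Finset.sum_mul, ← Finset.sum_filter]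
    have hgeo_card : ((sphere hG hd hd3 o n).filter geo).card ≤ 1 :=
      Finset.card_le_one.2 fun a ha b hb => by
        simp only [Finset.mem_filter, mem_sphere] at ha hb
        exact geod_unique hG o u n ha.1 hb.1 ha.2 hb.2
    have h2 : ∑ p ∈ (sphere hG hd hd3 o n).filter geo, r ^ G.dist p u * s
        ≤ s ^ (n + 1) * r ^ G.dist o u := by
      calc _ ≤ ∑ _p ∈ (sphere hG hd hd3 o n).filter geo, s ^ (n + 1) * r ^ G.dist o u := by
            refine Finset.sum_le_sum fun p hp => le_of_eq ?_
            have hg : G.dist o u = n + G.dist p u := (Finset.mem_filter.1 hp).2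
            have hsn : s ^ n * r ^ n = 1 := by
              rw [← mul_pow, hr, mul_inv_cancel₀ hs0.ne', one_pow]
            rw [hg]
            calc r ^ G.dist p u * s = s ^ n * r ^ n * (r ^ G.dist p u * s) := by rw [hsn, one_mul]
              _ = _ := by ring
        _ ≤ _ := by
            rw [Finset.sum_const, nsmul_eq_mul]
            exact mul_le_of_le_one_left (by positivity) (by exact_mod_cast hgeo_card)
    refine (add_le_add (mul_le_mul_of_nonneg_right ih hs0.le) h2).trans_eq ?_
    push_cast
    ring

/-- The largest distance from `v` to a point of `A`. -/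
def ecc (A : Finset V) (v : V) : ℕ := A.sup (G.dist v)

lemma ecc_map (g : G ≃g G) (A : Finset V) (v : V) :
    ecc (G := G) (A.map g.toEquiv.toEmbedding) (g v) = ecc (G := G) A v := by
  unfold ecc
  rw [Finset.sup_map]
  exact congrArg A.sup (funext fun u => dist_iso g v u)

lemma sum_ecc_le (o : V) {A : Finset V} (hA : A.Nonempty) {s : ℝ} (hs : 1 ≤ s)
    (hs2 : s ^ 2 = (d:ℝ) - 1) (n : ℕ) :
    ∑ x ∈ sphere hG hd hd3 o n, s⁻¹ ^ ecc (G := G) A x / s⁻¹ ^ ecc (G := G) A o
      ≤ ((n:ℝ) + 1) * s ^ n := by
  have hs0 : 0 < s := lt_of_lt_of_le one_pos hs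
  obtain ⟨u, hu, he⟩ := Finset.exists_mem_eq_sup A hA (G.dist o)
  rw [← Finset.sum_div, div_le_iff₀ (by positivity)]
  calc ∑ x ∈ sphere hG hd hd3 o n, s⁻¹ ^ ecc (G := G) A x
      ≤ ∑ x ∈ sphere hG hd hd3 o n, s⁻¹ ^ G.dist x u :=
        Finset.sum_le_sum fun x _ => pow_le_pow_of_le_one (inv_nonneg.2 hs0.le)
          (inv_le_one_of_one_le₀ hs) (Finset.le_sup (f := G.dist x) hu)
    _ ≤ _ := sum_sphere_le hG hd hd3 o u hs hs2 n
    _ = _ := by rw [ecc, he]

end geometry

/-! ### Moments of the free state -/

lemma avg_zero_peel (hθ : Par θ) {D : Finset V} {x p : V} (hx : x ∈ D) (hp : p ∈ D.erase x)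
    (hxp : G.Adj x p) (hu : ∀ z ∈ D, G.Adj x z → z = p) {f : (V → ℝ) → ℝ}
    (hf : DepOn f (D.erase x)) :
    avg G θ D (fun _ => 0) f = avg G θ (D.erase x) (fun _ => 0) f ∧
      avg G θ D (fun _ => 0) (fun s => f s * s x)
        = θ * avg G θ (D.erase x) (fun _ => 0) (fun s => f s * s p) := by
  have e : peelFld θ (fun _ : V => (0:ℝ)) x p = fun _ => 0 := by
    funext v
    simp [peelFld, Function.update_apply]
  constructor
  · rw [avg_peel hθ hx hp hxp hu Fld.zero hf, e]
  · rw [avg_peel_mul hθ hx hp hxp hu Fld.zero hf, e]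
    simp [peelConst, peelSlope]

lemma avg_pair (hG : G.IsTree) (hθ : Par θ) :
    ∀ (D : Finset V), Closed G D → ∀ {v w : V}, v ∈ D → w ∈ D →
      avg G θ D (fun _ => 0) (fun s => s v * s w) = θ ^ G.dist v w := by
  intro D
  induction D using Finset.strongInduction with
  | H D ih =>
    intro hD v w hv hw
    by_cases hvw : v = w
    · subst hvw
      rw [SimpleGraph.dist_self, pow_zero, ← avg_one (G := G) hθ D Fld.zero]
      unfold avg
      rw [Sm_congr (fun _ _ => rfl) (fun S _ => spin_sq S v) (f := fun s : V → ℝ => s v * s v)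
        (f' := fun _ => (1:ℝ))]
    obtain ⟨x, hx, hxv, p, hp, hxp, hu, hD'⟩ := exists_leaf hG hD (closed_singleton v)
      ⟨v, by simp⟩ (by simpa using hv) (fun h => hvw (by
        have := h.symm ▸ hw
        exact (Finset.mem_singleton.1 this).symm))
    rw [Finset.mem_singleton] at hxv
    have hv' : v ∈ D.erase x := Finset.mem_erase.2 ⟨Ne.symm hxv, hv⟩
    have hss : D.erase x ⊂ D := Finset.erase_ssubset hx
    by_cases hxw : x = w
    · subst hxw
      obtain ⟨p', hp', hxp', hdp'⟩ := hD v hv x hx hxv
      have := hu p' hp' hxp'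
      subst this
      rw [(avg_zero_peel hθ hx hp hxp hu fun _ _ h => h v hv').2, ih _ hss hD' hv' hp, hdp',
        pow_succ]
      ring
    · have hw' : w ∈ D.erase x := Finset.mem_erase.2 ⟨Ne.symm hxw, hw⟩
      rw [(avg_zero_peel hθ hx hp hxp hu (f := fun s => s v * s w)
        fun _ _ h => by simp only [h v hv', h w hw']).1, ih _ hss hD' hv' hw']

lemma avg_single (hG : G.IsTree) {D : Finset V} (hD : Closed G D) {v : V} (hv : v ∈ D) :
    avg G θ D (fun _ => 0) (fun s => s v) = 0 := by
  rw [avg_consistent hG (closed_singleton v) ⟨v, by simp⟩ hD (by simpa using hv)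
    (fun _ _ _ => rfl) fun _ _ h => h v (Finset.mem_singleton_self v)]
  have he : edgesIn G {v} = ∅ := by
    refine Finset.eq_empty_of_forall_notMem fun e => ?_
    induction e using Sym2.ind with
    | _ a b =>
      simp only [edgesIn, Finset.mem_filter, Finset.mk_mem_sym2_iff, Finset.mem_singleton,
        SimpleGraph.mem_edgeSet, not_and]
      rintro ⟨rfl, rfl⟩ h
      exact h.ne rfl
  have hp : ({v} : Finset V).powerset = {∅, {v}} := by
    ext S
    simp [Finset.subset_singleton_iff]
  simp [avg, Sm, wt, he, hp, spin]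

/-- Expectations of functions of the spins in a finite connected set are tilt-free averages. -/
lemma integral_freeIsing (hθ : Par θ) {μ : Measure (V → Bool)} (hμ : IsFreeIsing G θ μ) {D : Finset V}
    (hD : (G.induce (D : Set V)).Connected) {f : (V → ℝ) → ℝ} (hf : DepOn f D) :
    ∫ σ, f (fun v => spinVal (σ v)) ∂μ = avg G θ D (fun _ => 0) f := by
  have := hμ.1
  set η : Finset V → V → Bool := fun S v => decide (v ∈ S) with hη
  set C : Finset V → Set (V → Bool) := fun S => {σ | ∀ v ∈ D, σ v = η S v}
  set K0 : ℝ := 1 / 2 * (1 / 2) ^ (edgesIn G D).card with hK0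
  have hCm : ∀ S, MeasurableSet (C S) := fun S => by
    have : C S = ⋂ v ∈ D, (fun σ : V → Bool => σ v) ⁻¹' {η S v} := by
      ext σ; simp [C]
    rw [this]
    exact D.measurableSet_biInter fun v _ => measurable_pi_apply v (measurableSet_singleton _)
  have hw : ∀ S, μ.real (C S) = K0 * wt G θ D (spin S) := by
    intro S
    have e : isingWeight G θ D (η S) = K0 * wt G θ D (spin S) := by
      rw [hK0, isingWeight, wt, ← Finset.prod_const, mul_assoc, ← Finset.prod_mul_distrib]
      congr 1
      refine Finset.prod_congr rfl fun e _ => ?_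
      induction e using Sym2.ind with
      | _ a b =>
        have hs : ∀ v, spinVal (η S v) = spin S v := fun v => by
          simp [spinVal, spin, hη]
        simp only [edgeTerm, Sym2.lift_mk, edgeFactor_mk, hs]
        ring
    rw [measureReal_def, hμ.2 D hD (η S), ← e, ENNReal.toReal_ofReal]
    unfold isingWeight
    refine mul_nonneg (by norm_num) (Finset.prod_nonneg fun e _ => ?_)
    induction e using Sym2.ind with
    | _ a b =>
      simp only [edgeTerm, Sym2.lift_mk, spinVal]
      obtain ⟨h0, h1⟩ := hθ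
      split_ifs <;> nlinarith
  have key : ∀ F : (V → ℝ) → ℝ, DepOn F D →
      ∫ σ, F (fun v => spinVal (σ v)) ∂μ = K0 * Sm G θ D (fun _ => 0) F := by
    intro F hF
    have e : (fun σ : V → Bool => F fun v => spinVal (σ v))
        = fun σ => ∑ S ∈ D.powerset, (C S).indicator (fun _ => F (spin S)) σ := by
      funext σ
      set S₀ := D.filter fun v => σ v = true
      have hS₀ : σ ∈ C S₀ := fun v hv => by
        cases h : σ v <;> simp [η, S₀, hv, h]
      rw [Finset.sum_eq_single_of_mem S₀ (Finset.mem_powerset.2 (Finset.filter_subset _ _)),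
        Set.indicator_of_mem hS₀]
      · exact hF _ _ fun v hv => by
          cases h : σ v <;> simp [spinVal, spin, S₀, hv, h]
      · intro S hS hne
        refine Set.indicator_of_notMem (fun hσ => hne (Finset.ext fun v => ?_)) _
        rw [Finset.mem_powerset] at hS
        by_cases hv : v ∈ D
        · have := hσ v hv
          simp only [η] at this
          simp [S₀, hv, this]
        · exact ⟨fun h => absurd (hS h) hv, fun h => absurd (Finset.filter_subset _ _ h) hv⟩
    rw [e, integral_finsetSum _ fun S _ => (integrable_const _).indicator (hCm S), Sm,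
      Finset.mul_sum]
    refine Finset.sum_congr rfl fun S _ => ?_
    rw [integral_indicator (hCm S), setIntegral_const, smul_eq_mul, hw]
    simp [mul_assoc]
  have h1 := key (fun _ => 1) fun _ _ _ => rfl
  simp at h1
  rw [key f hf, avg]
  have hne : Sm G θ D (fun _ => 0) (fun _ => 1) ≠ 0 := fun h => by
    rw [h, mul_zero] at h1
    exact one_ne_zero h1
  rw [eq_div_iff hne, mul_right_comm, ← h1, one_mul]

end Converse

open Converse in
/-- **Sly's theorem.** Beyond `θ = 1/√(d-1)` the free Ising state is not a factor of IID. -/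
theorem not_isFactorOfIID (hG : G.IsTree) (hd : Regular G d) (hd3 : 3 ≤ d)
    (hθ : (Real.sqrt ((d:ℝ)-1))⁻¹ < θ) (hθ1 : θ < 1) {μ : Measure (V → Bool)}
    (hμ : IsFreeIsing G θ μ) : ¬ IsFactorOfIID G μ := by
  rintro ⟨Φ, hΦ, heq, hlaw⟩
  set s := Real.sqrt ((d:ℝ) - 1) with hs_def
  have hd2 : (2:ℝ) ≤ (d:ℝ) - 1 := by
    have : (3:ℝ) ≤ d := by exact_mod_cast hd3
    linarith
  have hs : 1 ≤ s := Real.one_le_sqrt.2 (by linarith)
  have hs2 : s ^ 2 = (d:ℝ) - 1 := Real.sq_sqrt (by linarith)
  have hs0 : 0 < s := lt_of_lt_of_le one_pos hs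
  have hθ0 : 0 < θ := lt_trans (inv_pos.2 hs0) hθ
  have hP : Par θ := ⟨hθ0.le, hθ1⟩
  obtain ⟨o⟩ : Nonempty V := hG.connected.nonempty
  -- the spins of the factor
  set F : V → (V → unitInterval) → ℝ := fun v U => spinVal (Φ U v) with hF_def
  have hFm : ∀ v, Measurable fun U => Φ U v := fun v => (measurable_pi_apply v).comp hΦ
  have hobs : ∀ v, Obs (F v) := fun v =>
    ⟨(measurable_of_countable spinVal).comp (hFm v), fun U => by
      simp only [hF_def, spinVal]; split_ifs <;> simp⟩
  have hlab : lab V = Measure.infinitePi fun _ : V => (volume : Measure unitInterval) := rfl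
  have hcov : ∀ (g : G ≃g G) (v : V), F (g v) =ᵐ[lab V] fun U => F v fun u => U (g u) := by
    intro g v
    filter_upwards [heq g.symm] with U hU
    have h1 := congrFun hU v
    simp only [RelIso.symm_symm] at h1
    simp only [hF_def, h1]
  have hint : ∀ f : (V → Bool) → ℝ, Measurable f →
      ∫ U, f (Φ U) ∂(lab V) = ∫ σ, f σ ∂μ := by
    intro f hf
    rw [← hlaw, hlab, integral_map hΦ.aemeasurable hf.aestronglyMeasurable]
  have hspin : ∀ v, Measurable fun σ : V → Bool => spinVal (σ v) := fun v =>
    (measurable_of_countable spinVal).comp (measurable_pi_apply v)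
  have hmean : ∀ v, ∫ U, F v U ∂(lab V) = 0 := by
    intro v
    have e := integral_freeIsing hP hμ (D := ballF hG hd hd3 v 0) (connected_ballF v 0)
      (f := fun s => s v) fun _ _ h => h v (self_mem_ballF v 0)
    rw [avg_single hG (closed_ballF v 0) (self_mem_ballF v 0)] at e
    exact (hint _ (hspin v)).trans e
  have hpair : ∀ v w, ∫ U, F v U * F w U ∂(lab V) = θ ^ G.dist v w := by
    intro v w
    have hw : w ∈ ballF hG hd hd3 v (G.dist v w) := mem_ballF.2 le_rfl
    have hv : v ∈ ballF hG hd hd3 v (G.dist v w) := self_mem_ballF _ _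
    have e := integral_freeIsing hP hμ (D := ballF hG hd hd3 v (G.dist v w)) (connected_ballF v _)
      (f := fun s => s v * s w) fun _ _ h => by simp only [h v hv, h w hw]
    rw [avg_pair hG hP _ (closed_ballF v _) hv hw] at e
    exact (hint _ ((hspin v).mul (hspin w))).trans e
  have hq0 : ∀ v w, q ∅ (F v) (F w) = 0 := by
    intro v w
    simp [q, K_empty (hobs v) (hobs w), hmean]
  have hswap : ∀ x, ∃ g : G ≃g G, g o = x ∧ g x = o := fun x =>
    exists_iso_pair hG hd hd3 o x x o SimpleGraph.dist_comm
  choose sw hsw using hswap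
  -- correlations summed over a sphere
  have main : ∀ n : ℕ, ((sphere hG hd hd3 o n).card : ℝ) * θ ^ n ≤ ((n:ℝ) + 1) * s ^ n := by
    intro n
    set S := sphere hG hd hd3 o n
    refine le_of_forall_pos_le_add fun ε hε => ?_
    set ε' := ε / (S.card + 1) with hε'
    have hε0 : 0 < ε' := by positivity
    have happ : ∀ x, ∃ B : Finset V, ∀ B', B ⊆ B' →
        |K B' (F o) (F x) - θ ^ G.dist o x| ≤ ε' := by
      intro x
      have hE : MeasurableSet {U | Φ U x = true} := hFm x (measurableSet_singleton true)
      obtain ⟨B, hB⟩ := exists_K_close (hobs o) hE hε0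
      refine ⟨B, fun B' hB' => ?_⟩
      rw [← hpair o x]
      convert hB B' hB' using 1
      have hfx : F x = fun U => if U ∈ {U | Φ U x = true} then (1:ℝ) else -1 := by
        funext U
        simp [hF_def, spinVal]
      simp only [hfx]
      congr!
    choose B₀ hB₀ using happ
    set B := S.biUnion B₀
    set B' := B ∪ S.biUnion fun x => B.map (sw x).symm.toEquiv.toEmbedding
    set w : Finset V → V → ℝ := fun A x =>
      s⁻¹ ^ ecc (G := G) A x / s⁻¹ ^ ecc (G := G) A o * q A (F o) (F o)
    have hw0 : ∀ A x, 0 ≤ w A x := fun A x =>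
      mul_nonneg (by positivity) (q_self_nonneg (hobs o) A)
    have hx : ∀ x ∈ S, θ ^ n - ε' ≤ ∑ A ∈ B'.powerset, w A x := by
      intro x hxS
      have hdx : G.dist o x = n := (mem_sphere hG hd hd3).1 hxS
      have h1 := hB₀ x B (Finset.subset_biUnion_of_mem B₀ hxS)
      rw [hdx] at h1
      have h2 : θ ^ n - ε' ≤ K B (F o) (F x) := by linarith [(abs_le.1 h1).1]
      refine h2.trans ?_
      rw [← sum_q]
      set ρ : Finset V → ℝ := fun A => s⁻¹ ^ ecc (G := G) A x / s⁻¹ ^ ecc (G := G) A o with hρ
      have hρ0 : ∀ A, 0 < ρ A := fun A => by positivity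
      have h3 : ∑ A ∈ B.powerset, q A (F o) (F x)
          ≤ (∑ A ∈ B.powerset, w A x + ∑ A ∈ B.powerset, q A (F x) (F x) / ρ A) / 2 := by
        rw [← Finset.sum_add_distrib, Finset.sum_div]
        exact Finset.sum_le_sum fun A _ => q_le (hobs o) (hobs x) A (hρ0 A)
      refine h3.trans ?_
      obtain ⟨hgo, hgx⟩ := hsw x
      set g := sw x
      have hflip : ∀ A, q (A.map g.toEquiv.toEmbedding) (F x) (F x)
          / ρ (A.map g.toEquiv.toEmbedding) = w A x := by
        intro A
        have ec := hcov g o
        rw [hgo] at ec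
        rw [q_map (hobs o) (hobs o) g.toEquiv ec ec]
        have e1 : ecc (G := G) (A.map g.toEquiv.toEmbedding) x = ecc (G := G) A o := by
          have := ecc_map g A o
          rwa [hgo] at this
        have e2 : ecc (G := G) (A.map g.toEquiv.toEmbedding) o = ecc (G := G) A x := by
          have := ecc_map g A x
          rwa [hgx] at this
        simp only [hρ, w, e1, e2, div_div_eq_mul_div]
        ring
      have h4 : ∑ A ∈ B.powerset, q A (F x) (F x) / ρ A
          = ∑ A ∈ (B.map g.symm.toEquiv.toEmbedding).powerset, w A x := by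
        have hset : (B.map g.symm.toEquiv.toEmbedding).map g.toEquiv.toEmbedding = B := by
          ext v; rw [Finset.mem_map_equiv, Finset.mem_map_equiv]; exact Iff.of_eq (congrArg (· ∈ _) (g.toEquiv.apply_symm_apply v))
        conv_lhs => rw [← hset]
        symm
        refine Finset.sum_bij (fun A _ => A.map g.toEquiv.toEmbedding)
          (fun A hA => Finset.mem_powerset.2 (Finset.map_subset_map.2 (Finset.mem_powerset.1 hA)))
          (fun A _ A' _ e => Finset.map_injective _ e) (fun T hT => ?_) (fun A _ => (hflip A).symm)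
        rw [Finset.mem_powerset, hset] at hT
        refine ⟨T.map g.symm.toEquiv.toEmbedding,
          Finset.mem_powerset.2 (Finset.map_subset_map.2 hT), ?_⟩
        ext v; rw [Finset.mem_map_equiv, Finset.mem_map_equiv]; exact Iff.of_eq (congrArg (· ∈ _) (g.toEquiv.apply_symm_apply v))
      rw [h4]
      have m1 : ∑ A ∈ B.powerset, w A x ≤ ∑ A ∈ B'.powerset, w A x :=
        Finset.sum_le_sum_of_subset_of_nonneg (Finset.powerset_mono.2 Finset.subset_union_left)
          fun A _ _ => hw0 A x
      have m2 : ∑ A ∈ (B.map g.symm.toEquiv.toEmbedding).powerset, w A x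
          ≤ ∑ A ∈ B'.powerset, w A x :=
        Finset.sum_le_sum_of_subset_of_nonneg (Finset.powerset_mono.2
          ((Finset.subset_biUnion_of_mem
            (fun x => B.map (sw x).symm.toEquiv.toEmbedding) hxS).trans Finset.subset_union_right))
          fun A _ _ => hw0 A x
      linarith
    have h5 := Finset.sum_le_sum hx
    rw [Finset.sum_const, nsmul_eq_mul, Finset.sum_comm] at h5
    have h6 : ∑ A ∈ B'.powerset, ∑ x ∈ S, w A x
        ≤ ∑ A ∈ B'.powerset, ((n:ℝ) + 1) * s ^ n * q A (F o) (F o) := by
      refine Finset.sum_le_sum fun A _ => ?_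
      rcases A.eq_empty_or_nonempty with rfl | hA
      · simp [w, hq0]
      · simp only [w, ← Finset.sum_mul]
        exact mul_le_mul_of_nonneg_right (sum_ecc_le hG hd hd3 o hA hs hs2 n)
          (q_self_nonneg (hobs o) A)
    rw [← Finset.mul_sum, sum_q] at h6
    have h7 : K B' (F o) (F o) ≤ 1 :=
      (le_abs_self _).trans (abs_pairE_le (hobs o) (hobs o) _ _)
    have h8 : ((n:ℝ) + 1) * s ^ n * K B' (F o) (F o) ≤ ((n:ℝ) + 1) * s ^ n :=
      mul_le_of_le_one_right (by positivity) h7
    have h9 : (S.card : ℝ) * ε' ≤ ε := by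
      rw [hε', ← mul_div_assoc, div_le_iff₀ (by positivity)]
      nlinarith
    nlinarith
  -- exponential growth beats linear
  set r := (θ * s)⁻¹ with hr
  have hts : 1 < θ * s := by
    have := mul_lt_mul_of_pos_right hθ hs0
    rwa [inv_mul_cancel₀ hs0.ne'] at this
  have hr0 : 0 < r := inv_pos.2 (by linarith)
  have hr1 : r < 1 := inv_lt_one_of_one_lt₀ hts
  have hlim : Tendsto (fun n : ℕ => ((n:ℝ) + 1) * r ^ n) atTop (𝓝 0) := by
    simp only [add_mul, one_mul]
    simpa using (tendsto_self_mul_const_pow_of_lt_one hr0.le hr1).add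
      (tendsto_pow_atTop_nhds_zero_of_lt_one hr0.le hr1)
  obtain ⟨n, hn⟩ := (hlim.eventually (eventually_lt_nhds one_pos)).exists
  have hcard : s ^ (2 * n) ≤ ((sphere hG hd hd3 o n).card : ℝ) := by
    have h := card_sphere_ge hG hd hd3 o n
    have h' : (((d - 1) ^ n : ℕ) : ℝ) ≤ ((sphere hG hd hd3 o n).card : ℝ) := by exact_mod_cast h
    rw [Nat.cast_pow, Nat.cast_sub (by omega), Nat.cast_one] at h'
    rwa [pow_mul, hs2]
  have h1 := (mul_le_mul_of_nonneg_right hcard (pow_nonneg hθ0.le n)).trans (main n)
  have hsn : 0 < s ^ n := pow_pos hs0 n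
  have h2 : (θ * s) ^ n ≤ (n:ℝ) + 1 := by
    refine le_of_mul_le_mul_right ?_ hsn
    calc (θ * s) ^ n * s ^ n = s ^ (2 * n) * θ ^ n := by ring
      _ ≤ _ := h1
  have h3 : 0 < (θ * s) ^ n := pow_pos (by linarith) n
  rw [hr, inv_pow, ← div_eq_mul_inv, div_lt_one h3] at hn
  linarith

end

end Vale.Agent.P161.Edge
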