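import Vale.Agent.P161.Edge.Step

/-!
A pathwise bound on the root row of the response: on a ball the covariance matrix is controlled by
the squared sums of regression coefficients, outside it by the deterministic spatial decay.
-/

namespace Vale.Agent.P161.Edge

open Finset Real
open scoped NNReal Classical

noncomputable section

variable {V : Type} {G : SimpleGraph V} {d : ℕ} {P : Prm} {D : Finset V}

lemma wnorm_nonneg' (o : V) (ρ : ℝ) (r : V → ℝ) : 0 ≤ wnorm G D o ρ r := Real.sqrt_nonneg _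

lemma wnorm_one (o : V) (r : V → ℝ) : wnorm G D o 1 r = Real.sqrt (∑ x ∈ D, r x ^ 2) := by
  simp [wnorm]

lemma wnorm_congr {o : V} {ρ : ℝ} {r r' : V → ℝ} (h : ∀ x ∈ D, r x = r' x) :
    wnorm G D o ρ r = wnorm G D o ρ r' := by
  unfold wnorm
  rw [Finset.sum_congr rfl fun x hx => by rw [h x hx]]

lemma wnorm_cut_le (o : V) {ρ : ℝ} (hρ : 1 ≤ ρ) (p : V → Prop) (r : V → ℝ) :
    wnorm G D o ρ (fun x => if p x then r x else 0) ≤ wnorm G D o ρ r := by
  refine Real.sqrt_le_sqrt (Finset.sum_le_sum fun x _ => ?_)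
  simp only
  split_ifs
  · exact le_rfl
  · rw [mul_zero, sq, mul_zero]; positivity

/-- The plain norm outside a ball is small compared with the weighted norm. -/
lemma wnorm_out_le (o : V) {ρ : ℝ} (hρ : 1 ≤ ρ) (R : ℕ) (r : V → ℝ) :
    wnorm G D o 1 (fun x => if G.dist o x ≤ R then 0 else r x) ≤
      (ρ ^ R)⁻¹ * wnorm G D o ρ r := by
  have hρR : 0 < ρ ^ R := pow_pos (by linarith) R
  rw [le_inv_mul_iff₀ hρR, ← wnorm_smul D o 1 _ hρR.le]
  refine Real.sqrt_le_sqrt (Finset.sum_le_sum fun x _ => ?_)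
  simp only [one_pow, one_mul]
  split_ifs with h
  · rw [mul_zero, sq, mul_zero]; positivity
  · rw [mul_pow, mul_pow]
    exact mul_le_mul_of_nonneg_right
      (pow_le_pow_left₀ hρR.le (pow_le_pow_right₀ hρ (by omega)) 2) (sq_nonneg _)

variable (hT : TreeStmt) (hG : G.IsTree) (hd : Regular G d) (hR : Reg d P) (hD : Closed G D)
include hT hG hd hR hD

/-- The covariance matrix inside a ball. -/
lemma ball_op (Y : ℕ → V × V → ℝ) (k : ℕ) {o : V} (ho : o ∈ D) (R : ℕ) {L : ℝ}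
    (hS : ∀ c ∈ D, G.dist o c ≤ R → sqSJ G P D Y k c ≤ L) (y : V → ℝ) (hy : ∀ x, 0 ≤ y x) :
    wnorm G D o 1 (fun x => if G.dist o x ≤ R then
        ∑ z ∈ D, pcov G P D Y k x z * (if G.dist o z ≤ R then y z else 0) else 0) ≤
      4 * L ^ 2 * wnorm G D o 1 y := by
  set v := fun x => if G.dist o x ≤ R ∧ x ∈ D then
    ∑ z ∈ D, pcov G P D Y k x z * (if G.dist o z ≤ R then y z else 0) else 0
  have hv : ∀ x, 0 ≤ v x := fun x => by
    simp only [v]; split_ifs with h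
    · exact Finset.sum_nonneg fun z hz => mul_nonneg (pcov_nonneg hT hG hd hR hD Y k h.2 hz)
        (by split_ifs <;> simp [hy z])
    · exact le_rfl
  rw [wnorm_congr (r' := v) fun x hx => by simp only [v, hx, and_true]]
  have hb := (hT V G d (thetaJ P k) D (tilt G P D Y k) hG hR.deg hd (hR.par k).2.2.2 hD
    (Fld.tanh _)).2.2.2.2.2.2 o R L v y ho hv hy hS
  have e : ∑ x ∈ D.filter (fun v => G.dist o v ≤ R), ∑ z ∈ D.filter (fun v => G.dist o v ≤ R),
      cv G (thetaJ P k) D (tilt G P D Y k) x z * v x * y z = ∑ x ∈ D, v x ^ 2 := by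
    rw [Finset.sum_filter]
    refine Finset.sum_congr rfl fun x hx => ?_
    by_cases h : G.dist o x ≤ R
    · have hvx : v x = ∑ z ∈ D, pcov G P D Y k x z * (if G.dist o z ≤ R then y z else 0) := by
        simp only [v, h, hx, and_self, if_true]
      rw [if_pos h, sq]
      conv_rhs => arg 2; rw [hvx]
      rw [Finset.sum_filter, Finset.mul_sum]
      refine Finset.sum_congr rfl fun z _ => ?_
      unfold pcov
      split_ifs <;> ring
    · simp [v, h]
  rw [e] at hb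
  rw [wnorm_one, wnorm_one]
  set a := Real.sqrt (∑ x ∈ D, v x ^ 2)
  have ha : ∑ x ∈ D, v x ^ 2 = a ^ 2 :=
    (Real.sq_sqrt (Finset.sum_nonneg fun _ _ => sq_nonneg _)).symm
  rw [ha] at hb
  rcases (Real.sqrt_nonneg (∑ x ∈ D, v x ^ 2)).eq_or_lt with h0 | h0
  · rw [show a = 0 from h0.symm]
    positivity
  · nlinarith

/-- One transposed step, in the plain norm. -/
lemma wnorm_one_step (Y : ℕ → V × V → ℝ) (k : ℕ) {o : V} (ho : o ∈ D) (R : ℕ) {L ρ ϑ : ℝ}
    (hS : ∀ c ∈ D, G.dist o c ≤ R → sqSJ G P D Y k c ≤ L) (hϑ : thetaJ P k ≤ ϑ) (hρ : 1 ≤ ρ)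
    (hg : Real.sqrt ((d : ℝ) - 1) * (ϑ * ρ) < 1) (r : V → ℝ) (hr : ∀ x, 0 ≤ r x) :
    wnorm G D o 1 (fun y => r y + P.h * ∑ x ∈ D, pcov G P D Y k y x * qop G P D k r x) ≤
      (1 + P.h * (4 * kap d P.η * L ^ 2)) * wnorm G D o 1 r +
        P.h * (2 * (d / (1 - Real.sqrt ((d : ℝ) - 1) * (ϑ * ρ)) ^ 2 * (kap d P.η * ρ)) *
          (ρ ^ R)⁻¹) * wnorm G D o ρ r := by
  obtain ⟨hk0, -, -, hp⟩ := hR.par k
  have hκ : 0 ≤ kap d P.η := by have := hR.eta; unfold kap; positivity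
  have hϑ0 : 0 ≤ ϑ := hk0.trans hϑ
  set s := Real.sqrt ((d : ℝ) - 1)
  set Λ := (d : ℝ) / (1 - s * (ϑ * ρ)) ^ 2 with hΛdef
  have hΛ : 0 ≤ Λ := by positivity
  have hg1 : s * (ϑ * 1) < 1 := lt_of_le_of_lt
    (mul_le_mul_of_nonneg_left (mul_le_mul_of_nonneg_left hρ hϑ0) (Real.sqrt_nonneg _)) hg
  have hΛ1 : (d : ℝ) / (1 - s * (ϑ * 1)) ^ 2 ≤ Λ := by
    refine div_le_div_of_nonneg_left (Nat.cast_nonneg d) (pow_pos (by linarith) 2)
      (pow_le_pow_left₀ (by linarith) ?_ 2)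
    have := mul_le_mul_of_nonneg_left (mul_le_mul_of_nonneg_left hρ hϑ0)
      (Real.sqrt_nonneg ((d : ℝ) - 1))
    linarith
  have hK : ∀ x ∈ D, ∀ z ∈ D, |pcov G P D Y k x z| ≤ ϑ ^ G.dist x z := fun x hx z hz =>
    (abs_pcov_le hG hD hp Y hx hz).trans (pow_le_pow_left₀ hk0 hϑ _)
  set y := qop G P D k r with hy
  have hy0 : ∀ x, 0 ≤ y x := fun x => by
    rw [hy, qop_eq]
    exact Finset.sum_nonneg fun u _ => mul_nonneg (qker_nonneg _ _ _) (hr u)
  set yi := fun z => if G.dist o z ≤ R then y z else 0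
  set yo := fun z => if G.dist o z ≤ R then 0 else y z
  set Ci := fun x => ∑ z ∈ D, pcov G P D Y k x z * yi z
  set Co := fun x => ∑ z ∈ D, pcov G P D Y k x z * yo z
  have hsplit : ∀ x, ∑ z ∈ D, pcov G P D Y k x z * y z =
      (if G.dist o x ≤ R then Ci x else 0) + ((if G.dist o x ≤ R then 0 else Ci x) + Co x) := by
    intro x
    have e : ∑ z ∈ D, pcov G P D Y k x z * y z = Ci x + Co x := by
      simp only [Ci, Co, ← Finset.sum_add_distrib, yi, yo]
      exact Finset.sum_congr rfl fun z _ => by split_ifs <;> ring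
    rw [e]
    split_ifs <;> ring
  have hqy : wnorm G D o 1 y ≤ kap d P.η * wnorm G D o 1 r := by
    simpa using wnorm_qop hG hd hR.deg hR.eta o le_rfl k r
  have hqρ : wnorm G D o ρ y ≤ kap d P.η * ρ * wnorm G D o ρ r :=
    wnorm_qop hG hd hR.deg hR.eta o hρ k r
  have hρR : 0 ≤ (ρ ^ R)⁻¹ := inv_nonneg.2 (pow_nonneg (by linarith) R)
  have t1 : wnorm G D o 1 (fun x => if G.dist o x ≤ R then Ci x else 0) ≤
      4 * kap d P.η * L ^ 2 * wnorm G D o 1 r :=
    (ball_op hT hG hd hR hD Y k ho R hS y hy0).trans ((mul_le_mul_of_nonneg_left hqy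
      (by positivity)).trans_eq (by ring))
  have k1 : wnorm G D o ρ Ci ≤ Λ * wnorm G D o ρ yi := by
    have := wnorm_kernel hG hd hR.deg D o hϑ0 hρ hg (fun a b => pcov G P D Y k a b) hK yi
    exact this
  have k2 : wnorm G D o ρ yi ≤ kap d P.η * ρ * wnorm G D o ρ r :=
    le_trans (le_trans (le_of_eq (wnorm_congr fun z _ => by simp only [yi]; split_ifs <;> rfl))
      (wnorm_cut_le (G := G) (D := D) o hρ (fun z => G.dist o z ≤ R) y)) hqρ
  have t2 : wnorm G D o 1 (fun x => if G.dist o x ≤ R then 0 else Ci x) ≤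
      Λ * (kap d P.η * ρ) * (ρ ^ R)⁻¹ * wnorm G D o ρ r := by
    refine (wnorm_out_le o hρ R Ci).trans ?_
    refine (mul_le_mul_of_nonneg_left (k1.trans (mul_le_mul_of_nonneg_left k2 hΛ)) hρR).trans
      (le_of_eq ?_)
    ring
  have t3 : wnorm G D o 1 Co ≤ Λ * (kap d P.η * ρ) * (ρ ^ R)⁻¹ * wnorm G D o ρ r := by
    refine (wnorm_kernel hG hd hR.deg D o hϑ0 le_rfl hg1 _ hK yo).trans ?_
    calc (d : ℝ) / (1 - s * (ϑ * 1)) ^ 2 * wnorm G D o 1 yo
        ≤ Λ * ((ρ ^ R)⁻¹ * (kap d P.η * ρ * wnorm G D o ρ r)) :=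
          mul_le_mul hΛ1 ((wnorm_out_le o hρ R y).trans (mul_le_mul_of_nonneg_left hqρ hρR))
            (wnorm_nonneg' _ _ _) hΛ
      _ = _ := by ring
  refine (wnorm_add_le D o 1 _ _).trans ?_
  rw [wnorm_smul D o 1 _ P.h.coe_nonneg]
  have hC : wnorm G D o 1 (fun x => ∑ z ∈ D, pcov G P D Y k x z * y z) ≤
      4 * kap d P.η * L ^ 2 * wnorm G D o 1 r +
        2 * (Λ * (kap d P.η * ρ)) * (ρ ^ R)⁻¹ * wnorm G D o ρ r := by
    rw [wnorm_congr (r' := fun x => (if G.dist o x ≤ R then Ci x else 0) +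
      ((if G.dist o x ≤ R then 0 else Ci x) + Co x)) fun x _ => hsplit x]
    refine (wnorm_add_le D o 1 _ _).trans (le_trans (add_le_add t1
      ((wnorm_add_le D o 1 _ _).trans (add_le_add t2 t3))) (le_of_eq (by ring)))
  refine le_trans (add_le_add_right (mul_le_mul_of_nonneg_left hC P.h.coe_nonneg) _)
    (le_of_eq ?_)
  ring

/-- The transposed response in the plain norm. -/
lemma wnorm_one_pair (Y : ℕ → V × V → ℝ) {o : V} (ho : o ∈ D) (R : ℕ) {ρ ϑ : ℝ} (L : ℕ → ℝ)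
    (j₀ : ℕ) (hρ : 1 ≤ ρ) (hϑ1 : ϑ < 1) (hg : Real.sqrt ((d : ℝ) - 1) * (ϑ * ρ) < 1) :
    ∀ j, j₀ < j → (∀ k, j₀ < k → k < j → thetaJ P k ≤ ϑ ∧
        ∀ c ∈ D, G.dist o c ≤ R → sqSJ G P D Y k c ≤ L k) →
      ∀ r : V → ℝ, (∀ x, 0 ≤ r x) →
      wnorm G D o 1 (fun z => ∑ x ∈ D, r x * wvec G P D Y j₀ z j x) ≤
        Real.exp (∑ k ∈ Ico (j₀ + 1) j, P.h * (4 * kap d P.η * L k ^ 2)) *
          (wnorm G D o 1 r + ((j - (j₀ + 1) : ℕ) : ℝ) *
            (P.h * (2 * (d / (1 - Real.sqrt ((d : ℝ) - 1) * (ϑ * ρ)) ^ 2 * (kap d P.η * ρ)) *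
              (ρ ^ R)⁻¹)) *
            (1 + P.h * (d / (1 - Real.sqrt ((d : ℝ) - 1) * (ϑ * ρ)) ^ 2 * (kap d P.η * ρ))) ^
              (j - (j₀ + 1)) * wnorm G D o ρ r) := by
  have hκ : 0 ≤ kap d P.η := by have := hR.eta; unfold kap; positivity
  have hρ0 : 0 ≤ ρ := by linarith
  set Λ := (d : ℝ) / (1 - Real.sqrt ((d : ℝ) - 1) * (ϑ * ρ)) ^ 2
  have hΛ : 0 ≤ Λ := by positivity
  set e := (P.h : ℝ) * (2 * (Λ * (kap d P.η * ρ)) * (ρ ^ R)⁻¹)
  set g := 1 + (P.h : ℝ) * (Λ * (kap d P.η * ρ))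
  have he : 0 ≤ e := by positivity
  have hg1 : 1 ≤ g := le_add_of_nonneg_right (by positivity)
  intro j hj
  induction j, hj using Nat.le_induction with
  | base =>
    intro _ r _
    simp only [Nat.succ_eq_add_one, Ico_self, Finset.sum_empty, Real.exp_zero, Nat.sub_self,
      Nat.cast_zero, zero_mul, add_zero, one_mul]
    exact le_of_eq (wnorm_congr fun z hz => by simp [wvec, Pi.single_apply, hz])
  | succ j hj ih =>
    intro hk r hr
    obtain ⟨hϑ, hS⟩ := hk j hj (Nat.lt_succ_self j)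
    set r' := fun y => r y + P.h * ∑ x ∈ D, pcov G P D Y j y x * qop G P D j r x
    set r'' := fun y => if y ∈ D then r' y else 0
    have hr'' : ∀ y, 0 ≤ r'' y := fun y => by
      simp only [r'', r']
      split_ifs with h
      · refine add_nonneg (hr y) (mul_nonneg P.h.coe_nonneg (Finset.sum_nonneg fun x hx =>
          mul_nonneg (pcov_nonneg hT hG hd hR hD Y j h hx) ?_))
        rw [qop_eq]
        exact Finset.sum_nonneg fun u _ => mul_nonneg (qker_nonneg _ _ _) (hr u)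
      · exact le_rfl
    have hfun : ∀ z ∈ D, ∑ x ∈ D, r x * wvec G P D Y j₀ z (j + 1) x =
        ∑ x ∈ D, r'' x * wvec G P D Y j₀ z j x := fun z _ => by
      rw [pair_step Y j₀ j hj z r]
      exact Finset.sum_congr rfl fun x hx => by simp only [r'', r', hx, if_true]
    rw [wnorm_congr hfun]
    refine (ih (fun k a b => hk k a (by omega)) r'' hr'').trans ?_
    have e' : j + 1 - (j₀ + 1) = (j - (j₀ + 1)) + 1 := by
      have : j₀ + 1 ≤ j := hj
      omega
    rw [e', Finset.sum_Ico_succ_top (by exact hj : j₀ + 1 ≤ j), Real.exp_add,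
      mul_assoc (Real.exp _) (Real.exp _)]
    refine mul_le_mul_of_nonneg_left ?_ (Real.exp_pos _).le
    set x := (P.h : ℝ) * (4 * kap d P.η * L j ^ 2)
    have hx : 0 ≤ x := by positivity
    set n := j - (j₀ + 1)
    set A := wnorm G D o 1 r
    set B := wnorm G D o ρ r
    have hA : 0 ≤ A := wnorm_nonneg' _ _ _
    have hB : 0 ≤ B := wnorm_nonneg' _ _ _
    have h1 : wnorm G D o 1 r'' ≤ (1 + x) * A + e * B := by
      rw [wnorm_congr (r' := r') fun y hy => by simp only [r'', hy, if_true]]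
      exact wnorm_one_step hT hG hd hR hD Y j ho R hS hϑ hρ hg r hr
    have h2 : wnorm G D o ρ r'' ≤ g * B := by
      rw [wnorm_congr (r' := r') fun y hy => by simp only [r'', hy, if_true]]
      refine (wnorm_add_le D o ρ _ _).trans ?_
      rw [wnorm_smul D o ρ _ P.h.coe_nonneg]
      simp only [g, add_mul, one_mul, mul_assoc]
      refine add_le_add_right (mul_le_mul_of_nonneg_left ((wnorm_kernel hG hd hR.deg D o
        ((hR.par j).1.trans hϑ) hρ hg _ (fun a ha b hb =>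
          (abs_pcov_le hG hD (hR.par j).2.2.2 Y ha hb).trans
            (pow_le_pow_left₀ (hR.par j).1 hϑ _)) _).trans ?_) P.h.coe_nonneg) _
      refine mul_le_mul_of_nonneg_left ?_ hΛ
      simpa [mul_assoc] using wnorm_qop hG hd hR.deg hR.eta o hρ j r
    have hgn : 1 ≤ g ^ (n + 1) := one_le_pow₀ hg1
    have hex : 1 + x ≤ Real.exp x := by linarith [Real.add_one_le_exp x]
    have hex1 : 1 ≤ Real.exp x := Real.one_le_exp hx
    have hn0 : 0 ≤ (n : ℝ) * e * g ^ n := by positivity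
    calc wnorm G D o 1 r'' + (n : ℝ) * e * g ^ n * wnorm G D o ρ r''
        ≤ ((1 + x) * A + e * B) + (n : ℝ) * e * g ^ n * (g * B) :=
          add_le_add h1 (mul_le_mul_of_nonneg_left h2 hn0)
      _ ≤ Real.exp x * A + Real.exp x * ((e * B) * g ^ (n + 1) + (n : ℝ) * e * g ^ n * (g * B)) := by
          rw [add_assoc]
          refine add_le_add (mul_le_mul_of_nonneg_right hex hA) ?_
          refine le_trans ?_ (le_mul_of_one_le_left (by positivity) hex1)
          exact add_le_add_left (le_mul_of_one_le_right (by positivity) hgn) _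
      _ = Real.exp x * (A + ((n + 1 : ℕ) : ℝ) * e * g ^ (n + 1) * B) := by
          push_cast; ring

/-- The plain norm of the root row. -/
theorem row_crude (Y : ℕ → V × V → ℝ) {o : V} (ho : o ∈ D) (R : ℕ) {ρ ϑ : ℝ} (L : ℕ → ℝ)
    {j₀ j : ℕ} (hρ : 1 ≤ ρ) (hϑ1 : ϑ < 1) (hg : Real.sqrt ((d : ℝ) - 1) * (ϑ * ρ) < 1)
    (hj : j₀ < j) (hk : ∀ k, j₀ < k → k ≤ j → thetaJ P k ≤ ϑ)
    (hS : ∀ k, j₀ < k → k < j → ∀ c ∈ D, G.dist o c ≤ R → sqSJ G P D Y k c ≤ L k) :
    Real.sqrt (∑ z ∈ D, resp G P D Y j₀ j o z ^ 2) ≤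
      Real.exp (∑ k ∈ Ico (j₀ + 1) j, P.h * (4 * kap d P.η * L k ^ 2)) *
        (d / (1 - Real.sqrt ((d : ℝ) - 1) * (ϑ * ρ)) ^ 2 *
          (1 + ((j - (j₀ + 1) : ℕ) : ℝ) *
            (P.h * (2 * (d / (1 - Real.sqrt ((d : ℝ) - 1) * (ϑ * ρ)) ^ 2 * (kap d P.η * ρ)) *
              (ρ ^ R)⁻¹)) *
            (1 + P.h * (d / (1 - Real.sqrt ((d : ℝ) - 1) * (ϑ * ρ)) ^ 2 * (kap d P.η * ρ))) ^
              (j - (j₀ + 1)))) := by
  have hκ : 0 ≤ kap d P.η := by have := hR.eta; unfold kap; positivity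
  have hρ0 : 0 ≤ ρ := by linarith
  set s := Real.sqrt ((d : ℝ) - 1)
  set Λ := (d : ℝ) / (1 - s * (ϑ * ρ)) ^ 2
  obtain ⟨hk0, -, -, hp⟩ := hR.par j
  have hϑ0 : 0 ≤ ϑ := hk0.trans (hk j hj le_rfl)
  set r := fun x => if x ∈ D then pcov G P D Y j o x else 0
  have hr : ∀ x, 0 ≤ r x := fun x => by
    simp only [r]; split_ifs with h
    · exact pcov_nonneg hT hG hd hR hD Y j ho h
    · exact le_rfl
  have hinit : ∀ ρ' : ℝ, 1 ≤ ρ' → ρ' ≤ ρ → wnorm G D o ρ' r ≤ Λ := by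
    intro ρ' h1 h2
    have hg' : s * (ϑ * ρ') < 1 := lt_of_le_of_lt
      (mul_le_mul_of_nonneg_left (mul_le_mul_of_nonneg_left h2 hϑ0) (Real.sqrt_nonneg _)) hg
    rw [wnorm_congr (r' := fun x => ∑ z ∈ D, pcov G P D Y j x z * (if z = o then (1:ℝ) else 0))
      fun x hx => by simp [r, hx, ho, pcov_comm]]
    refine (wnorm_kernel hG hd hR.deg D o hϑ0 h1 hg' _ (fun a ha b hb =>
      (abs_pcov_le hG hD hp Y ha hb).trans (pow_le_pow_left₀ hk0 (hk j hj le_rfl) _)) _).trans ?_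
    have : wnorm G D o ρ' (fun z => if z = o then (1:ℝ) else 0) = 1 := by
      unfold wnorm
      rw [Finset.sum_eq_single o (fun z _ hz => by simp [hz]) fun h => absurd ho h]
      simp
    rw [this, mul_one]
    refine div_le_div_of_nonneg_left (Nat.cast_nonneg d) (pow_pos (by linarith) 2)
      (pow_le_pow_left₀ (by linarith) ?_ 2)
    have := mul_le_mul_of_nonneg_left (mul_le_mul_of_nonneg_left h2 hϑ0)
      (Real.sqrt_nonneg ((d : ℝ) - 1))
    linarith
  have hmain := wnorm_one_pair hT hG hd hR hD Y ho R L j₀ hρ hϑ1 hg j hj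
    (fun k a b => ⟨hk k a b.le, hS k a b⟩) r hr
  rw [wnorm_one] at hmain
  have e : ∑ z ∈ D, resp G P D Y j₀ j o z ^ 2 =
      ∑ z ∈ D, (∑ x ∈ D, r x * wvec G P D Y j₀ z j x) ^ 2 :=
    Finset.sum_congr rfl fun z _ => by
      unfold resp
      rw [Finset.sum_congr rfl fun x hx => by
        rw [show pcov G P D Y j o x = r x from by simp [r, hx]]]
  rw [e]
  refine hmain.trans (mul_le_mul_of_nonneg_left ?_ (Real.exp_pos _).le)
  refine le_trans (add_le_add (hinit 1 le_rfl hρ)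
    (mul_le_mul_of_nonneg_left (hinit ρ hρ le_rfl) ?_)) (le_of_eq (by ring))
  have hΛ : 0 ≤ Λ := by positivity
  positivity

end

end Vale.Agent.P161.Edge
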