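import Vale.Agent.P161.Edge.Kernel

/-!
Spatial decay of the response away from time zero, uniformly up to the critical coupling.
-/

namespace Vale.Agent.P161.Edge

open Finset Real
open scoped NNReal Classical

noncomputable section

variable {V : Type*} {G : SimpleGraph V} {d : ℕ}

lemma sqrt_deg_facts (hd3 : 3 ≤ d) :
    1 < Real.sqrt ((d : ℝ) - 1) ∧ Real.sqrt ((d : ℝ) - 1) ≤ d := by
  have : (3 : ℝ) ≤ d := by exact_mod_cast hd3
  refine ⟨Real.lt_sqrt_of_sq_lt (by norm_num; linarith), Real.sqrt_le_iff.2 ⟨by linarith, ?_⟩⟩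
  nlinarith

lemma hlev_count (k : ℕ) : ((2 ^ k : ℕ) : ℝ) * hlev k = 1 := by
  have h2 : ((2 : ℝ) ^ k) ≠ 0 := by positivity
  simp [hlev, mul_inv_cancel₀ h2]

lemma growth_le {x : ℝ} (hx : 0 ≤ x) {n : ℕ} {T : ℝ} (k : ℕ) (hn : (n : ℝ) * hlev k ≤ T) :
    (1 + (hlev k : ℝ) * x) ^ n ≤ Real.exp (T * x) := by
  have h1 : 1 + (hlev k : ℝ) * x ≤ Real.exp ((hlev k : ℝ) * x) := by
    have := Real.add_one_le_exp ((hlev k : ℝ) * x)
    linarith
  refine (pow_le_pow_left₀ (by positivity) h1 n).trans ?_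
  rw [← Real.exp_nat_mul, Real.exp_le_exp, ← mul_assoc]
  exact mul_le_mul_of_nonneg_right hn hx

/-- The decay rate. -/
def decayγ (η δ : ℝ) : ℝ := η * min δ 1 / 8

/-- The constant in the decay bound. -/
def decayK (d : ℕ) (η δ : ℝ) (T : ℕ) : ℝ :=
  (Real.exp (T * ((d : ℝ) / decayγ η δ ^ 2 * (kap d η * (1 + decayγ η δ)))) *
    ((d : ℝ) / decayγ η δ ^ 2)) ^ 2

/-- The bound behind `DecayStmt`. -/
theorem resp_decay (hG : G.IsTree) (hd : Regular G d) (hd3 : 3 ≤ d) {η δ : ℝ} (hη : 0 < η)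
    (hη1 : η ≤ 1 / (4 * d)) (hδ : 0 < δ) (T : ℕ) :
    ∀ (o : V) (θ : ℝ), (Real.sqrt ((d : ℝ) - 1))⁻¹ / 2 ≤ θ →
      θ ≤ (Real.sqrt ((d : ℝ) - 1))⁻¹ →
      ∀ (D : Finset V) (k r : ℕ) (j₀ j : ℕ) (Y : ℕ → V × V → ℝ), Closed G D → o ∈ D →
      δ ≤ ((j₀ : ℝ) + 1) * hlev k → j₀ < j → j ≤ T * 2 ^ k →
      ∑ z ∈ D.filter (fun z => r ≤ G.dist o z),
          resp G ⟨θ, η, hlev k, 2 ^ k⟩ D Y j₀ j o z ^ 2 ≤
            decayK d η δ T * Real.exp (-(2 * Real.log (1 + decayγ η δ)) * r) := by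
  set s := Real.sqrt ((d : ℝ) - 1) with hs
  obtain ⟨hs1, hsd⟩ := sqrt_deg_facts hd3
  rw [← hs] at hs1 hsd
  have hd0 : (3 : ℝ) ≤ d := by exact_mod_cast hd3
  have hs0 : 0 < s := by linarith
  unfold decayK decayγ
  set γ := η * min δ 1 / 8 with hγ
  have hγ0 : 0 < γ := by positivity
  have hmin : min δ 1 ≤ 1 := min_le_right _ _
  have hηle : η ≤ 1 := hη1.trans ((div_le_one (by positivity)).2 (by linarith))
  have hγ1 : γ ≤ 1 / 8 := by rw [hγ]; nlinarith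
  set ρ := 1 + γ with hρ
  set Λ := (d : ℝ) / γ ^ 2
  intro o θ hθ0 hθ1 D k r j₀ j Y hD ho hs' hj hjT
  set P : Prm := ⟨θ, η, hlev k, 2 ^ k⟩ with hP
  have hN : (P.N₁ : ℝ) * P.h = 1 := hlev_count k
  have hsθ : s * P.θ ≤ 1 := by
    change s * θ ≤ 1
    calc s * θ ≤ s * s⁻¹ := mul_le_mul_of_nonneg_left hθ1 hs0.le
      _ = 1 := mul_inv_cancel₀ hs0.ne'
  have hθp : 0 ≤ P.θ := le_trans (by positivity) hθ0
  have hηθ : P.η ≤ P.θ := by
    refine le_trans hη1 (le_trans ?_ hθ0)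
    rw [inv_eq_one_div, div_div]
    exact one_div_le_one_div_of_le (by positivity) (by linarith)
  set ϑ := (1 - 2 * γ) / s
  have hθk : ∀ i, j₀ < i → i ≤ j → 0 ≤ thetaJ P i ∧ thetaJ P i ≤ ϑ := by
    intro i hi _
    obtain ⟨a, -, c⟩ := sqrt_mul_thetaJ_le hd3 hθp hsθ hN hη.le hηθ i
    refine ⟨a, ?_⟩
    rw [le_div_iff₀ hs0]
    have ht : min δ 1 ≤ tcl P.h P.N₁ i := le_tcl hN (by
      refine (min_le_left _ _).trans (hs'.trans ?_)
      exact mul_le_mul_of_nonneg_right (by exact_mod_cast hi) P.h.coe_nonneg) hmin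
    have : η * min δ 1 ≤ P.η * tcl P.h P.N₁ i := mul_le_mul_of_nonneg_left ht hη.le
    have e1 : η * min δ 1 = 8 * γ := by rw [hγ]; ring
    linarith [mul_comm (thetaJ P i) s]
  have hϑ1 : ϑ < 1 := by rw [div_lt_one hs0]; linarith
  have hsd2 : s * (ϑ * ρ) = (1 - 2 * γ) * ρ := by simp only [ϑ]; field_simp
  have hgap : γ ≤ 1 - s * (ϑ * ρ) := by rw [hsd2, hρ]; nlinarith
  have hw := wnorm_resp (G := G) hG hd hd3 hD hη.le ho hϑ1 (le_add_of_nonneg_right hγ0.le :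
    (1:ℝ) ≤ ρ) (by linarith) Y hj hθk
  set C := (d : ℝ) / (1 - s * (ϑ * ρ)) ^ 2
  have hC : C ≤ Λ := div_le_div_of_nonneg_left (by positivity) (by positivity)
    (pow_le_pow_left₀ hγ0.le hgap 2)
  have hC0 : 0 ≤ C := by positivity
  have hkρ : 0 ≤ kap d η * ρ := by unfold kap; positivity
  have hgr : (1 + (P.h : ℝ) * (C * (kap d P.η * ρ))) ^ (j - (j₀ + 1)) * C ≤
      Real.exp (T * (Λ * (kap d η * ρ))) * Λ := by
    refine mul_le_mul ((growth_le (mul_nonneg hC0 hkρ) k ?_).trans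
      (Real.exp_le_exp.2 (mul_le_mul_of_nonneg_left (mul_le_mul_of_nonneg_right hC hkρ)
        (Nat.cast_nonneg T)))) hC hC0 (Real.exp_pos _).le
    calc ((j - (j₀ + 1) : ℕ) : ℝ) * hlev k ≤ ((T * 2 ^ k : ℕ) : ℝ) * hlev k :=
          mul_le_mul_of_nonneg_right (by exact_mod_cast (Nat.sub_le _ _).trans hjT)
            (hlev k).coe_nonneg
      _ = T := by push_cast; rw [mul_assoc, ← Nat.cast_two, ← Nat.cast_pow, hlev_count, mul_one]
  have hle := hw.trans hgr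
  unfold wnorm at hle
  have hsum := (Real.sqrt_le_iff.1 hle).2
  have hρr : 0 < ρ ^ r := by positivity
  rw [neg_mul, mul_comm (2 * Real.log ρ) (r : ℝ),
    show -((r : ℝ) * (2 * Real.log ρ)) = -((2 * r : ℕ) * Real.log ρ) by push_cast; ring,
    Real.exp_neg, show Real.exp (((2 * r : ℕ) : ℝ) * Real.log ρ) = ρ ^ (2 * r) by
      rw [Real.exp_nat_mul, Real.exp_log (by positivity)], ← div_eq_mul_inv,
    le_div_iff₀ (by positivity), Finset.sum_mul]
  refine le_trans ?_ hsum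
  refine (Finset.sum_le_sum fun z hz => ?_).trans
    (Finset.sum_le_sum_of_subset_of_nonneg (Finset.filter_subset _ _) fun _ _ _ => sq_nonneg _)
  rw [mul_pow, mul_comm, mul_comm 2 r, pow_mul]
  exact mul_le_mul_of_nonneg_right (pow_le_pow_left₀ hρr.le (pow_le_pow_right₀
    (le_add_of_nonneg_right hγ0.le) (Finset.mem_filter.1 hz).2) 2) (sq_nonneg _)

theorem decay : DecayStmt := by
  intro d hd3
  refine ⟨1 / (4 * d), by positivity, fun η hη hη1 T δ hδ => ?_⟩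
  refine ⟨decayK d η δ T, 2 * Real.log (1 + decayγ η δ),
    mul_pos two_pos (Real.log_pos (lt_add_of_pos_right 1 (by unfold decayγ; positivity))), ?_⟩
  intro V G hG hd _ o θ h0 h1 D k r j₀ j Y hD ho hs hj hjT
  exact resp_decay hG hd hd3 hη hη1 hδ T o θ h0 h1 D k r j₀ j Y hD ho hs hj hjT

end

end Vale.Agent.P161.Edge
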