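import Vale.Agent.P161.Edge.Gen
import Vale.Agent.P161.Balls

/-!
The observation model on a finite set `D` of vertices of a tree: one observation `σ_v` per vertex
and, before step `N₁`, one observation `√(η/2) (σ_v + σ_w)` per ordered pair of neighbours.
-/

namespace Vale.Agent.P161.Edge

open MeasureTheory Finset
open scoped NNReal Classical

noncomputable section

variable {V : Type*} (G : SimpleGraph V)

/-- States on `D`: the sets of plus spins. -/
abbrev Cfg (D : Finset V) : Type _ := {S : Finset V // S ∈ D.powerset}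

/-- The observation indices inside `D`. -/
def obsIx (D : Finset V) : Finset (V × V) :=
  (D ×ˢ D).filter fun i => i.1 = i.2 ∨ G.Adj i.1 i.2

/-- Multiplicity of `v` in the pair `i`. -/
def mult (i : V × V) (v : V) : ℝ := (if i.1 = v then 1 else 0) + if i.2 = v then 1 else 0

/-- The coefficient of the observation `i` at step `j`. -/
def coef (η : ℝ) (N₁ j : ℕ) (i : V × V) : ℝ :=
  if i.1 = i.2 then 1 / 2 else if j < N₁ then Real.sqrt (η / 2) else 0

/-- The feature of the observation `i` at step `j`. -/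
def feat (η : ℝ) (N₁ : ℕ) (D : Finset V) (j : ℕ) (i : obsIx G D) (S : Cfg D) : ℝ :=
  coef η N₁ j i.1 * (spin S.1 i.1.1 + spin S.1 i.1.2)

/-- The log prior weights. -/
def lpw (θ : ℝ) (D : Finset V) (S : Cfg D) : ℝ := Real.log (wt G θ D (spin S.1))

/-- The time up to which the edge observations have run. -/
def tcl (h : ℝ≥0) (N₁ j : ℕ) : ℝ := (min j N₁ : ℕ) * h

/-- The coupling left after edge observations up to time `t`. -/
def thetaAt (θ η t : ℝ) : ℝ := (θ - Real.tanh (η * t)) / (1 - θ * Real.tanh (η * t))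

/-- The parameters of a scheme. -/
structure Prm where
  θ : ℝ
  η : ℝ
  h : ℝ≥0
  N₁ : ℕ

variable {G} in
/-- Restriction of observations indexed by all pairs. -/
def res (D : Finset V) (Y : ℕ → V × V → ℝ) (j : ℕ) (i : obsIx G D) : ℝ := Y j i.1

/-- Extension by zero of observations indexed by the pairs in `D`. -/
def tot (D : Finset V) (y : ℕ → obsIx G D → ℝ) (j : ℕ) (i : V × V) : ℝ :=
  if hi : i ∈ obsIx G D then y j ⟨i, hi⟩ else 0

variable (P : Prm) (D : Finset V)

/-- Expectation in the planted model on `D` with `N` steps. -/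
def E (N : ℕ) (Φ : Finset V → (ℕ → V × V → ℝ) → ℝ) : ℝ :=
  Gen.Epl (feat G P.η P.N₁ D) P.h (lpw G P.θ D) N fun S y => Φ S.1 (tot G D y)

/-- The fields after `j` steps. -/
def fieldH (Y : ℕ → V × V → ℝ) (j : ℕ) (v : V) : ℝ :=
  ∑ k ∈ range j, ∑ i ∈ obsIx G D, coef P.η P.N₁ k i * mult i v * Y k i

/-- The coupling after `j` steps. -/
def thetaJ (j : ℕ) : ℝ := thetaAt P.θ P.η (tcl P.h P.N₁ j)

/-- The tilts after `j` steps. -/
def tilt (Y : ℕ → V × V → ℝ) (j : ℕ) (v : V) : ℝ := Real.tanh (fieldH G P D Y j v)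

/-- The posterior mean after `j` steps. -/
def pmean (Y : ℕ → V × V → ℝ) (j : ℕ) (v : V) : ℝ := mf G (thetaJ P j) D (fieldH G P D Y j) v

/-- The posterior covariance after `j` steps. -/
def pcov (Y : ℕ → V × V → ℝ) (j : ℕ) (v w : V) : ℝ :=
  cv G (thetaJ P j) D (tilt G P D Y j) v w

/-- The matrix `Q` of step `j` applied to `k`. -/
def qop (j : ℕ) (k : V → ℝ) (v : V) : ℝ :=
  ∑ i ∈ obsIx G D, coef P.η P.N₁ j i ^ 2 * mult i v * (k i.1 + k i.2)

/-- The linearised response of the fields to a unit change at `z` at step `j₀`. -/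
def wvec (Y : ℕ → V × V → ℝ) (j₀ : ℕ) (z : V) : ℕ → V → ℝ
  | 0 => 0
  | j + 1 => if j = j₀ then Pi.single z 1 else fun v =>
      wvec Y j₀ z j v +
        P.h * qop G P D j (fun x => ∑ y ∈ D, pcov G P D Y j x y * wvec Y j₀ z j y) v

/-- The derivative of the posterior mean at `o` after `j` steps in the field at `z` after step
`j₀`. -/
def resp (Y : ℕ → V × V → ℝ) (j₀ j : ℕ) (o z : V) : ℝ :=
  ∑ x ∈ D, pcov G P D Y j o x * wvec G P D Y j₀ z j x

end

end Vale.Agent.P161.Edge
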