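import Vale.Agent.P161.Edge.Bridge
import Vale.Agent.P161.Edge.Decay

/-!
One step of the expected squared column of the response.
-/

namespace Vale.Agent.P161.Edge

open MeasureTheory ProbabilityTheory Finset Function
open scoped NNReal Classical

noncomputable section

variable {V : Type} {G : SimpleGraph V} {d : ℕ} {P : Prm} {D : Finset V}

/-- The squared norm of the column at `o`. -/
def colY (G : SimpleGraph V) (P : Prm) (D : Finset V) (Y : ℕ → V × V → ℝ) (j₀ i : ℕ) (o : V) :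
    ℝ :=
  ∑ x ∈ D, resp G P D Y j₀ i x o ^ 2

/-- The weighted squared norm driving the growth of the column. -/
def wenY (G : SimpleGraph V) (P : Prm) (D : Finset V) (Y : ℕ → V × V → ℝ) (j₀ i : ℕ) (o : V) :
    ℝ :=
  ∑ c ∈ D, pmean G P D Y i c ^ 2 * sqSJ G P D Y i c ^ 2 * resp G P D Y j₀ i c o ^ 2

/-- The Schur constant of the critical squared kernel. -/
def schurC (d : ℕ) : ℝ := d / (1 - (Real.sqrt ((d : ℝ) - 1))⁻¹) ^ 2

lemma schurC_nonneg (d : ℕ) : 0 ≤ schurC d := by unfold schurC; positivity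

lemma schurC_spec (hG : G.IsTree) (hd : Regular G d) (hd3 : 3 ≤ d) {θ : ℝ} (hθ0 : 0 ≤ θ)
    (hθ : Real.sqrt ((d : ℝ) - 1) * θ ≤ 1) (A : Finset V) (v u : V) :
    ∑ y ∈ A, (θ ^ 2) ^ G.dist v y * ((Real.sqrt ((d : ℝ) - 1))⁻¹) ^ G.dist y u ≤
      schurC d * ((Real.sqrt ((d : ℝ) - 1))⁻¹) ^ G.dist v u := by
  set s := Real.sqrt ((d : ℝ) - 1) with hs
  obtain ⟨hs1, -⟩ := sqrt_deg_facts hd3
  rw [← hs] at hs1
  have hs0 : 0 < s := by linarith
  have hb : (d : ℝ) - 1 = s * s := (Real.mul_self_sqrt (by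
    have : (3 : ℝ) ≤ d := by exact_mod_cast hd3
    linarith)).symm
  have hx : θ ^ 2 ≤ (s * s)⁻¹ := by
    rw [inv_eq_one_div, le_div_iff₀ (by positivity)]
    nlinarith [mul_nonneg hs0.le hθ0]
  have hlt : (s * s)⁻¹ < s⁻¹ := inv_strictAnti₀ hs0 (by nlinarith)
  have hbx : ((d : ℝ) - 1) * ((s * s)⁻¹ * s⁻¹) < 1 := by
    rw [hb, ← mul_assoc, mul_inv_cancel₀ (by positivity), one_mul]
    exact inv_lt_one_of_one_lt₀ hs1
  refine le_trans ?_ ((kernel_supersolution hG hd hd3 (by positivity : (0:ℝ) ≤ (s * s)⁻¹) hlt hbx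
    A v u).trans (le_of_eq ?_))
  · exact Finset.sum_le_sum fun y _ =>
      mul_le_mul_of_nonneg_right (pow_le_pow_left₀ (sq_nonneg θ) hx _) (by positivity)
  · congr 1
    rw [hb, ← mul_assoc, mul_inv_cancel₀ (by positivity), one_mul]
    unfold schurC
    rw [← hs]
    have : (1 - s⁻¹) ≠ 0 := by
      have := inv_lt_one_of_one_lt₀ hs1
      linarith
    have : s⁻¹ - (s * s)⁻¹ ≠ 0 := by linarith
    have : (s - 1) ≠ 0 := by linarith
    field_simp

/-- Standing facts about the coupling along a scheme. -/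
structure Reg (d : ℕ) (P : Prm) : Prop where
  deg : 3 ≤ d
  par : ∀ i, 0 ≤ thetaJ P i ∧ thetaJ P i ≤ P.θ ∧ Real.sqrt ((d : ℝ) - 1) * thetaJ P i ≤ 1 ∧
    Par (thetaJ P i)
  eta : 0 ≤ P.η
  nonneg : 0 ≤ P.θ
  lt_one : P.θ < 1
  tau : Real.tanh (P.η * (P.N₁ * P.h)) ≤ P.θ

lemma reg_of (hd3 : 3 ≤ d) {η θ : ℝ} (hη : 0 ≤ η) (hη1 : η ≤ 1 / (4 * d))
    (hθ0 : (Real.sqrt ((d : ℝ) - 1))⁻¹ / 2 ≤ θ) (hθ1 : θ ≤ (Real.sqrt ((d : ℝ) - 1))⁻¹) (k : ℕ) :
    Reg d ⟨θ, η, hlev k, 2 ^ k⟩ := by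
  set s := Real.sqrt ((d : ℝ) - 1) with hs
  obtain ⟨hs1, hsd⟩ := sqrt_deg_facts hd3
  rw [← hs] at hs1 hsd
  have hs0 : 0 < s := by linarith
  have hsθ : s * θ ≤ 1 := by
    calc s * θ ≤ s * s⁻¹ := mul_le_mul_of_nonneg_left hθ1 hs0.le
      _ = 1 := mul_inv_cancel₀ hs0.ne'
  have hθp : 0 ≤ θ := le_trans (by positivity) hθ0
  have hθl : θ < 1 := lt_of_le_of_lt hθ1 (inv_lt_one_of_one_lt₀ hs1)
  have hηθ : η ≤ θ := by
    refine le_trans hη1 (le_trans ?_ hθ0)
    rw [inv_eq_one_div, div_div]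
    exact one_div_le_one_div_of_le (by positivity) (by
      have : (3 : ℝ) ≤ d := by exact_mod_cast hd3
      linarith)
  refine ⟨hd3, fun i => ?_, hη, hθp, hθl, ?_⟩
  · obtain ⟨a, b, c⟩ := sqrt_mul_thetaJ_le (P := ⟨θ, η, hlev k, 2 ^ k⟩) hd3 hθp hsθ
      (hlev_count k) hη hηθ i
    have b' : thetaJ (⟨θ, η, hlev k, 2 ^ k⟩ : Prm) i ≤ θ := b
    exact ⟨a, b, (mul_le_mul_of_nonneg_left b' hs0.le).trans hsθ, a, lt_of_le_of_lt b' hθl⟩
  · change Real.tanh (η * (((2 ^ k : ℕ) : ℝ) * hlev k)) ≤ θ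
    rw [hlev_count, mul_one]
    exact (tanh_le_self' hη).trans hηθ

variable (hT : TreeStmt) (hG : G.IsTree) (hd : Regular G d) (hR : Reg d P) (hD : Closed G D)
include hT hG hd hR hD

lemma pcov_nonneg (Y : ℕ → V × V → ℝ) (i : ℕ) {v w : V} (hv : v ∈ D) (hw : w ∈ D) :
    0 ≤ pcov G P D Y i v w :=
  ((hT V G d (thetaJ P i) D (tilt G P D Y i) hG hR.deg hd (hR.par i).2.2.2 hD
    (Fld.tanh _)).2.1 v hv w hw).1

lemma wvec_nonneg (Y : ℕ → V × V → ℝ) (j₀ : ℕ) (z : V) :
    ∀ i, ∀ v ∈ D, 0 ≤ wvec G P D Y j₀ z i v := by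
  intro i
  induction i with
  | zero => intro v _; simp [wvec]
  | succ i ih =>
    intro v hv
    simp only [wvec]
    split_ifs
    · rw [Pi.single_apply]; split_ifs <;> norm_num
    · refine add_nonneg (ih v hv) (mul_nonneg P.h.coe_nonneg ?_)
      rw [qop_eq]
      exact Finset.sum_nonneg fun u hu => mul_nonneg (qker_nonneg _ _ _)
        (Finset.sum_nonneg fun y hy => mul_nonneg (pcov_nonneg hT hG hd hR hD Y i hu hy) (ih y hy))

lemma resp_nonneg (Y : ℕ → V × V → ℝ) (j₀ i : ℕ) {o : V} (ho : o ∈ D) (z : V) :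
    0 ≤ resp G P D Y j₀ i o z :=
  Finset.sum_nonneg fun x hx =>
    mul_nonneg (pcov_nonneg hT hG hd hR hD Y i ho hx) (wvec_nonneg hT hG hd hR hD Y j₀ z i x hx)

lemma sqSJ_bounds (Y : ℕ → V × V → ℝ) (i : ℕ) {c : V} (hc : c ∈ D) :
    0 ≤ sqSJ G P D Y i c ∧ sqSJ G P D Y i c ≤ D.card := by
  refine ⟨Finset.sum_nonneg fun _ _ => sq_nonneg _, ?_⟩
  have h := (hT V G d (thetaJ P i) D (tilt G P D Y i) hG hR.deg hd (hR.par i).2.2.2 hD
    (Fld.tanh _)).2.1
  refine (Finset.sum_le_card_nsmul D _ 1 fun x hx => ?_).trans_eq (by simp)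
  obtain ⟨-, h0, -, h1⟩ := h c hc x hx
  exact pow_le_one₀ h0 (h1.trans (pow_le_one₀ (hR.par i).1 (hR.par i).2.2.2.2.le))

omit hT in
lemma abs_pcov_le_one (Y : ℕ → V × V → ℝ) (i : ℕ) {v w : V} (hv : v ∈ D) (hw : w ∈ D) :
    |pcov G P D Y i v w| ≤ 1 :=
  (abs_pcov_le hG hD (hR.par i).2.2.2 Y hv hw).trans
    (pow_le_one₀ (hR.par i).1 (hR.par i).2.2.2.2.le)

omit hT in
lemma wvec_l1 (Y : ℕ → V × V → ℝ) (j₀ : ℕ) (z : V) :
    ∀ i, ∑ v ∈ D, |wvec G P D Y j₀ z i v| ≤ (1 + P.h * (kap d P.η * D.card)) ^ i := by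
  have hκ : 0 ≤ kap d P.η := by have := hR.eta; unfold kap; positivity
  intro i
  induction i with
  | zero => simp [wvec]
  | succ i ih =>
    simp only [wvec]
    split_ifs
    · refine le_trans ?_ (one_le_pow₀ (le_add_of_nonneg_right (by positivity)))
      simp only [Pi.single_apply]
      calc ∑ v ∈ D, |if v = z then (1:ℝ) else 0| = ∑ v ∈ D, if v = z then (1:ℝ) else 0 :=
            Finset.sum_congr rfl fun v _ => by split_ifs <;> simp
        _ ≤ 1 := by rw [Finset.sum_ite_eq']; split_ifs <;> norm_num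
    · set w := wvec G P D Y j₀ z i
      have hu : ∀ u ∈ D, |∑ y ∈ D, pcov G P D Y i u y * w y| ≤ ∑ y ∈ D, |w y| := fun u hu =>
        (Finset.abs_sum_le_sum_abs _ _).trans (Finset.sum_le_sum fun y hy => by
          rw [abs_mul]
          exact mul_le_of_le_one_left (abs_nonneg _) (abs_pcov_le_one hG hd hR hD Y i hu hy))
      have hq : ∑ v ∈ D, |qop G P D i (fun x => ∑ y ∈ D, pcov G P D Y i x y * w y) v| ≤
          kap d P.η * D.card * ∑ y ∈ D, |w y| := by
        calc _ ≤ ∑ v ∈ D, ∑ u ∈ D, qker G P D i v u * ∑ y ∈ D, |w y| := by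
              refine Finset.sum_le_sum fun v _ => ?_
              rw [qop_eq]
              refine (Finset.abs_sum_le_sum_abs _ _).trans (Finset.sum_le_sum fun u hu' => ?_)
              rw [abs_mul, abs_of_nonneg (qker_nonneg i v u)]
              exact mul_le_mul_of_nonneg_left (hu u hu') (qker_nonneg i v u)
          _ ≤ ∑ _v ∈ D, kap d P.η * ∑ y ∈ D, |w y| := by
              refine Finset.sum_le_sum fun v _ => ?_
              rw [← Finset.sum_mul]
              exact mul_le_mul_of_nonneg_right (sum_qker_le hd hR.deg hR.eta i v)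
                (Finset.sum_nonneg fun _ _ => abs_nonneg _)
          _ = _ := by rw [Finset.sum_const, nsmul_eq_mul]; ring
      calc _ ≤ ∑ v ∈ D, (|w v| +
            P.h * |qop G P D i (fun x => ∑ y ∈ D, pcov G P D Y i x y * w y) v|) :=
            Finset.sum_le_sum fun v _ => (abs_add_le _ _).trans
              (by rw [abs_mul, abs_of_nonneg P.h.coe_nonneg])
        _ ≤ ∑ v ∈ D, |w v| + P.h * (kap d P.η * D.card * ∑ y ∈ D, |w y|) := by
            rw [Finset.sum_add_distrib, ← Finset.mul_sum]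
            exact add_le_add_right (mul_le_mul_of_nonneg_left hq P.h.coe_nonneg) _
        _ = (1 + P.h * (kap d P.η * D.card)) * ∑ y ∈ D, |w y| := by ring
        _ ≤ _ := by
            rw [pow_succ']
            exact mul_le_mul_of_nonneg_left ih (by positivity)

omit hT in
lemma abs_resp_le (Y : ℕ → V × V → ℝ) (j₀ i : ℕ) {o : V} (ho : o ∈ D) (z : V) :
    |resp G P D Y j₀ i o z| ≤ (1 + P.h * (kap d P.η * D.card)) ^ i := by
  refine le_trans ((Finset.abs_sum_le_sum_abs _ _).trans (Finset.sum_le_sum fun x hx => ?_))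
    (wvec_l1 hG hd hR hD Y j₀ z i)
  rw [abs_mul]
  exact mul_le_of_le_one_left (abs_nonneg _) (abs_pcov_le_one hG hd hR hD Y i ho hx)

omit hT in
lemma abs_colY_le (Y : ℕ → V × V → ℝ) (j₀ i : ℕ) (o : V) :
    |colY G P D Y j₀ i o| ≤ D.card * ((1 + P.h * (kap d P.η * D.card)) ^ i) ^ 2 := by
  have h0 : 0 ≤ colY G P D Y j₀ i o := Finset.sum_nonneg fun x _ => sq_nonneg _
  rw [abs_of_nonneg h0]
  unfold colY
  refine (Finset.sum_le_card_nsmul D _ _ fun x hx => ?_).trans_eq (nsmul_eq_mul _ _)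
  rw [← sq_abs]
  exact pow_le_pow_left₀ (abs_nonneg _) (abs_resp_le hG hd hR hD Y j₀ i hx o) 2

lemma abs_wenY_le (Y : ℕ → V × V → ℝ) (j₀ i : ℕ) (o : V) :
    |wenY G P D Y j₀ i o| ≤
      D.card * ((D.card : ℝ) ^ 2 * ((1 + P.h * (kap d P.η * D.card)) ^ i) ^ 2) := by
  have h0 : 0 ≤ wenY G P D Y j₀ i o := Finset.sum_nonneg fun x _ => by positivity
  rw [abs_of_nonneg h0]
  unfold wenY
  refine (Finset.sum_le_card_nsmul D _ _ fun c hc => ?_).trans_eq (nsmul_eq_mul _ _)
  obtain ⟨s0, s1⟩ := sqSJ_bounds hT hG hd hR hD Y i hc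
  have hm : pmean G P D Y i c ^ 2 ≤ 1 := by
    rw [← sq_abs]
    exact pow_le_one₀ (abs_nonneg _) (abs_mf_le (hR.par i).2.2.2 D _ c)
  refine mul_le_mul ?_ ?_ (sq_nonneg _) (by positivity)
  · calc _ ≤ 1 * (D.card : ℝ) ^ 2 :=
          mul_le_mul hm (pow_le_pow_left₀ s0 s1 2) (sq_nonneg _) zero_le_one
      _ = _ := one_mul _
  · rw [← sq_abs]
    exact pow_le_pow_left₀ (abs_nonneg _) (abs_resp_le hG hd hR hD Y j₀ i hc o) 2

/-- The sum of squared third cumulants along the observations. -/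
lemma sum_cum3_le (hBr : Bridge G P D) (y : ℕ → obsIx G D → ℝ) (i : ℕ) (w : V → ℝ)
    (hw : ∀ v ∈ D, 0 ≤ w v) :
    ∑ x ∈ D, ∑ l : obsIx G D,
        Gen.cum3 (lk G P D i y) (spinF D x) (lin D w) (feat G P.η P.N₁ D i l) ^ 2 ≤
      kap d P.η * (8 * schurC d * ∑ c ∈ D, pmean G P D (tot G D y) i c ^ 2 *
        sqSJ G P D (tot G D y) i c ^ 2 *
          (∑ z ∈ D, pcov G P D (tot G D y) i c z * w z) ^ 2) := by
  set g := tilt G P D (tot G D y) i
  set θt := thetaJ P i
  set k := fun x b => ∑ z ∈ D, k3 G θt D g x b z * w z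
  have h1 : ∀ x, ∑ l : obsIx G D,
      Gen.cum3 (lk G P D i y) (spinF D x) (lin D w) (feat G P.η P.N₁ D i l) ^ 2 ≤
        kap d P.η * ∑ b ∈ D, k x b ^ 2 := by
    intro x
    calc ∑ l : obsIx G D,
          Gen.cum3 (lk G P D i y) (spinF D x) (lin D w) (feat G P.η P.N₁ D i l) ^ 2
        = ∑ l ∈ obsIx G D, coef P.η P.N₁ i l ^ 2 * (∑ b ∈ D, mult l b * k x b) ^ 2 := by
          rw [← Finset.attach_eq_univ, ← Finset.sum_attach (obsIx G D) (fun l =>
            coef P.η P.N₁ i l ^ 2 * (∑ b ∈ D, mult l b * k x b) ^ 2)]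
          refine Finset.sum_congr rfl fun l _ => ?_
          rw [cum3_feat hBr, mul_pow]
      _ = ∑ b ∈ D, ∑ b' ∈ D, qker G P D i b b' * (k x b * k x b') := by
          simp only [qker, sq (∑ b ∈ D, _), Finset.sum_mul, Finset.mul_sum]
          rw [Finset.sum_comm]
          refine Finset.sum_congr rfl fun b _ => ?_
          rw [Finset.sum_comm]
          exact Finset.sum_congr rfl fun b' _ => Finset.sum_congr rfl fun l _ => by ring
      _ ≤ ∑ b ∈ D, ∑ b' ∈ D, qker G P D i b b' * ((k x b ^ 2 + k x b' ^ 2) / 2) :=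
          Finset.sum_le_sum fun b _ => Finset.sum_le_sum fun b' _ =>
            mul_le_mul_of_nonneg_left (by nlinarith [sq_nonneg (k x b - k x b')])
              (qker_nonneg i b b')
      _ = ∑ b ∈ D, (∑ b' ∈ D, qker G P D i b b') * k x b ^ 2 := by
          have e : ∑ b ∈ D, ∑ b' ∈ D, qker G P D i b b' * k x b' ^ 2
              = ∑ b ∈ D, ∑ b' ∈ D, qker G P D i b b' * k x b ^ 2 := by
            rw [Finset.sum_comm]
            exact Finset.sum_congr rfl fun b _ => Finset.sum_congr rfl fun b' _ => by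
              rw [qker_comm]
          simp only [Finset.sum_mul]
          simp only [mul_div_assoc', mul_add, add_div, Finset.sum_add_distrib, ← Finset.sum_div]
          rw [e]; ring
      _ ≤ _ := by
          rw [Finset.mul_sum]
          exact Finset.sum_le_sum fun b _ =>
            mul_le_mul_of_nonneg_right (sum_qker_le hd hR.deg hR.eta i b) (sq_nonneg _)
  refine (Finset.sum_le_sum fun x _ => h1 x).trans ?_
  rw [← Finset.mul_sum]
  refine mul_le_mul_of_nonneg_left ?_ (by have := hR.eta; unfold kap; positivity)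
  set w' := fun v => if v ∈ D then w v else 0
  have hw' : ∀ v, 0 ≤ w' v := fun v => by
    simp only [w']; split_ifs with hv
    · exact hw v hv
    · exact le_rfl
  have := (hT V G d θt D g hG hR.deg hd (hR.par i).2.2.2 hD (Fld.tanh _)).2.2.2.2.2.1 w'
    (schurC d) hw' fun A v u => schurC_spec hG hd hR.deg (hR.par i).1 (hR.par i).2.2.1 A v u
  have e : ∀ (f : V → ℝ), ∑ z ∈ D, f z * w' z = ∑ z ∈ D, f z * w z := fun f =>
    Finset.sum_congr rfl fun z hz => by simp only [w', hz, if_true]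
  simp only [e] at this
  refine this.trans_eq ?_
  refine congrArg _ (Finset.sum_congr rfl fun c hc => ?_)
  simp only [pmean, mf, if_pos hc, sqSJ, pcov, g, θt]
  rfl

/-- One step of the expected column. -/
theorem col_step (hlaw : GenLawStmt) {K : ℝ} (hh : P.h ≠ 0) (hh1 : (P.h : ℝ) ≤ 1)
    (hBr : Bridge G P D) {A : ℝ} {j₀ i : ℕ} (hi : j₀ < i) (o : V)
    (hA : (1 + P.h * (kap d P.η * D.card)) ^ i ≤ A)
    (hstep : ∀ (ψ φ W : Cfg D → ℝ), (∀ S, |φ S| ≤ 1) → (∀ S, |W S| ≤ A) →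
      Gen.stepE (feat G P.η P.N₁ D) P.h i ψ (fun ψ' =>
          Gen.cov ψ' φ (Gen.propStep (feat G P.η P.N₁ D) P.h i ψ W) ^ 2) ≤
        Gen.cov ψ φ W ^ 2 + P.h * ∑ l, Gen.cum3 ψ φ W (feat G P.η P.N₁ D i l) ^ 2 +
          K * P.h * Real.sqrt P.h) :
    E G P D (i + 1) (fun _ Y => colY G P D Y j₀ (i + 1) o) ≤
      E G P D i (fun _ Y => colY G P D Y j₀ i o) +
        P.h * (kap d P.η * (8 * schurC d)) * E G P D i (fun _ Y => wenY G P D Y j₀ i o) +
          D.card * (K * P.h * Real.sqrt P.h) := by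
  set f := feat G P.η P.N₁ D
  set ψ₀ := lpw G P.θ D
  set Φ : (ℕ → obsIx G D → ℝ) → ℝ := fun y => colY G P D (tot G D y) j₀ (i + 1) o
  set B₁ := (D.card : ℝ) * ((1 + P.h * (kap d P.η * D.card)) ^ (i + 1)) ^ 2
  have mcol : ∀ j, MeasY (fun _ Y => colY G P D Y j₀ j o) := fun j S β _ Y hY =>
    Finset.measurable_sum _ fun x _ => (measurable_resp P D hY j₀ j x o).pow_const 2
  have hadm : GenAdm (i + 1) B₁ (fun _ : Cfg D => Φ) :=
    ⟨fun _ => mcol (i + 1) ∅ _ _ (measurable_tot_ext D),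
      fun _ y => abs_colY_le hG hd hR hD _ j₀ (i + 1) o⟩
  have key : E G P D (i + 1) (fun _ Y => colY G P D Y j₀ (i + 1) o) =
      Gen.Epl f P.h ψ₀ i (fun _ y => ∑ S, Gen.post (Gen.llk f P.h ψ₀ i y) S *
          ∫ ξ : obsIx G D → ℝ, Φ (update y i fun l => P.h * f i l S + ξ l)
            ∂(Measure.pi fun _ => gl P.h)) :=
    (hlaw (obsIx G D) (Cfg D) f P.h ψ₀ hh).2 i B₁ Φ hadm
  have hpt : ∀ y : ℕ → obsIx G D → ℝ,
      (∑ S, Gen.post (Gen.llk f P.h ψ₀ i y) S *
          ∫ ξ : obsIx G D → ℝ, Φ (update y i fun l => P.h * f i l S + ξ l)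
            ∂(Measure.pi fun _ => gl P.h)) ≤
        colY G P D (tot G D y) j₀ i o +
          (P.h * (kap d P.η * (8 * schurC d)) * wenY G P D (tot G D y) j₀ i o +
            D.card * (K * P.h * Real.sqrt P.h)) := by
    intro y
    set ψ := Gen.llk f P.h ψ₀ i y
    set w := wvec G P D (tot G D y) j₀ o i
    set w₁ := fun v => w v + P.h * qop G P D i
      (fun x => ∑ z ∈ D, pcov G P D (tot G D y) i x z * w z) v
    set W := lin D w
    have hW : ∀ S, |W S| ≤ A := fun S => by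
      refine le_trans ((Finset.abs_sum_le_sum_abs (fun v => w v * spin S.1 v) D).trans
        (Finset.sum_le_sum fun v _ => ?_)) ((wvec_l1 hG hd hR hD (tot G D y) j₀ o i).trans hA)
      rw [abs_mul, abs_spin, mul_one]
    have hcov : ∀ (S : Cfg D) (ξ : obsIx G D → ℝ),
        Φ (update y i fun l => P.h * f i l S + ξ l) = ∑ x ∈ D,
          Gen.cov (fun T => ψ T + Gen.inc f P.h i (fun l => P.h * f i l S + ξ l) T) (spinF D x)
            (Gen.propStep f P.h i ψ W) ^ 2 := by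
      intro S ξ
      set y' := update y i fun l => P.h * f i l S + ξ l
      have hlk : (fun T => ψ T + Gen.inc f P.h i (fun l => P.h * f i l S + ξ l) T)
          = lk G P D (i + 1) y' := by
        funext T
        simp only [lk, ψ, Gen.llk, Finset.sum_range_succ, y', update_self]
        rw [Finset.sum_congr rfl fun k hk => show Gen.inc f P.h k
          (update y i (fun l => P.h * f i l S + ξ l) k) T = Gen.inc f P.h k (y k) T by
            rw [update_of_ne (ne_of_lt (Finset.mem_range.1 hk))]]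
        rw [add_assoc]
      have hw₁ : wvec G P D (tot G D y') j₀ o (i + 1) = w₁ := by
        have hw : wvec G P D (tot G D y') j₀ o i = w := wvec_congr j₀ o fun k hk l hl => by
          simp only [tot, hl, dif_pos, y', update_of_ne (by omega : k ≠ i)]
        have hc : pcov G P D (tot G D y') i = pcov G P D (tot G D y) i :=
          pcov_congr fun k hk l hl => by
            simp only [tot, hl, dif_pos, y', update_of_ne (by omega : k ≠ i)]
        funext v
        simp only [wvec, if_neg (by omega : i ≠ j₀), hw, hc, w₁]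
      have hprop : Gen.propStep f P.h i ψ W = lin D w₁ := propStep_lin hBr y i hR.eta w
      simp only [Φ, colY, resp]
      refine Finset.sum_congr rfl fun x _ => ?_
      rw [hlk, hprop, cov_spin_lin hBr, hw₁]
    simp only [hcov]
    have hint : ∀ (S : Cfg D) (x : V), Integrable (fun ξ : obsIx G D → ℝ =>
        Gen.cov (fun T => ψ T + Gen.inc f P.h i (fun l => P.h * f i l S + ξ l) T) (spinF D x)
          (Gen.propStep f P.h i ψ W) ^ 2) (Measure.pi fun _ => gl P.h) := by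
      intro S x
      obtain ⟨B, hB⟩ : ∃ B, ∀ T, |Gen.propStep f P.h i ψ W T| ≤ B :=
        ⟨∑ T, |Gen.propStep f P.h i ψ W T|, fun T =>
          Finset.single_le_sum (f := fun T => |Gen.propStep f P.h i ψ W T|)
            (fun _ _ => abs_nonneg _) (Finset.mem_univ T)⟩
      refine integrable_of_bdd (B := (2 * (1 * B)) ^ 2) ?_ fun ξ => ?_
      · unfold Gen.cov Gen.ev Gen.post Gen.inc
        fun_prop
      · rw [abs_pow]
        exact pow_le_pow_left₀ (abs_nonneg _)
          (abs_cov_le _ (fun T => (abs_spin _ _).le) hB) 2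
    have hswap : ∀ S : Cfg D, ∫ ξ : obsIx G D → ℝ, ∑ x ∈ D,
        Gen.cov (fun T => ψ T + Gen.inc f P.h i (fun l => P.h * f i l S + ξ l) T) (spinF D x)
          (Gen.propStep f P.h i ψ W) ^ 2 ∂(Measure.pi fun _ => gl P.h) = ∑ x ∈ D, ∫ ξ,
        Gen.cov (fun T => ψ T + Gen.inc f P.h i (fun l => P.h * f i l S + ξ l) T) (spinF D x)
          (Gen.propStep f P.h i ψ W) ^ 2 ∂(Measure.pi fun _ => gl P.h) := fun S =>
      integral_finsetSum _ fun x _ => hint S x
    simp only [hswap, Finset.mul_sum]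
    rw [Finset.sum_comm]
    refine (Finset.sum_le_sum fun x _ => hstep ψ (spinF D x) W
      (fun T => (abs_spin _ _).le) hW).trans ?_
    simp only [Finset.sum_add_distrib, Finset.sum_const, nsmul_eq_mul, ← Finset.mul_sum]
    refine le_of_le_of_eq (add_le_add_left (add_le_add_right (mul_le_mul_of_nonneg_left
      (sum_cum3_le hT hG hd hR hD hBr y i w
        (fun v hv => wvec_nonneg hT hG hd hR hD _ j₀ o i v hv)) P.h.coe_nonneg) _) _) ?_
    have e1 : ∀ x, Gen.cov ψ (spinF D x) W = resp G P D (tot G D y) j₀ i x o := fun x =>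
      cov_spin_lin hBr y i x w
    simp only [e1, colY, wenY, resp, w]
    ring
  rw [key]
  set C := (D.card : ℝ) * (K * P.h * Real.sqrt P.h)
  set c₁ := (P.h : ℝ) * (kap d P.η * (8 * schurC d))
  have mwen : MeasY (fun _ Y => wenY G P D Y j₀ i o) := fun S β _ Y hY =>
    Finset.measurable_sum _ fun c _ => (((measurable_pmean P D hY i c).pow_const 2).mul
      ((measurable_sqSJ P D hY i c).pow_const 2)).mul ((measurable_resp P D hY j₀ i c o).pow_const 2)
  have hc₁ : 0 ≤ c₁ := by have := hR.eta; have := schurC_nonneg d; unfold c₁ kap; positivity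
  have bwen : ∀ Y, |c₁ * wenY G P D Y j₀ i o + C| ≤ c₁ *
      (D.card * ((D.card : ℝ) ^ 2 * ((1 + P.h * (kap d P.η * D.card)) ^ i) ^ 2)) + |C| := fun Y => by
    refine (abs_add_le _ _).trans (add_le_add_left ?_ _)
    rw [abs_mul, abs_of_nonneg hc₁]
    exact mul_le_mul_of_nonneg_left (abs_wenY_le hT hG hd hR hD Y j₀ i o) hc₁
  calc _ ≤ E G P D i (fun _ Y => colY G P D Y j₀ i o + (c₁ * wenY G P D Y j₀ i o + C)) := by
        refine Finset.sum_le_sum fun S _ => mul_le_mul_of_nonneg_left ?_ (post_nonneg _ _)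
        haveI : IsProbabilityMeasure (Gen.nl (ι := obsIx G D) P.h i) := by
          unfold Gen.nl; infer_instance
        refine integral_mono_of_nonneg (ae_of_all _ fun ξ => Finset.sum_nonneg fun T _ =>
          mul_nonneg (post_nonneg _ _) (integral_nonneg fun η' =>
            Finset.sum_nonneg fun x _ => sq_nonneg _)) ?_ (ae_of_all _ fun ξ => hpt _)
        exact integrable_plant (Φ := fun _ Y => colY G P D Y j₀ i o +
          (c₁ * wenY G P D Y j₀ i o + C))
          (fun S' β _ Y hY => (mcol i S' β Y hY).add (((mwen S' β Y hY).const_mul c₁).add_const C))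
          (fun _ Y => (abs_add_le _ _).trans (add_le_add (abs_colY_le hG hd hR hD Y j₀ i o)
            (bwen Y))) S
    _ = _ := by
        rw [E_add (mcol i) (fun S' β _ Y hY => ((mwen S' β Y hY).const_mul c₁).add_const C)
            (fun _ Y => abs_colY_le hG hd hR hD Y j₀ i o) (fun _ Y => bwen Y),
          E_add (Φ := fun _ Y => c₁ * wenY G P D Y j₀ i o)
            (fun S' β _ Y hY => (mwen S' β Y hY).const_mul c₁)
            (fun S' β _ Y _ => measurable_const)
            (B := c₁ * (D.card * ((D.card : ℝ) ^ 2 *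
              ((1 + P.h * (kap d P.η * D.card)) ^ i) ^ 2))) (B' := |C|)
            (fun _ Y => by
              rw [abs_mul, abs_of_nonneg hc₁]
              exact mul_le_mul_of_nonneg_left (abs_wenY_le hT hG hd hR hD Y j₀ i o) hc₁)
            (fun _ _ => le_rfl),
          E_const_mul, E_const, ← add_assoc]

end

end Vale.Agent.P161.Edge
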