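import Vale.Agent.P161.Edge.Parts
import Vale.Agent.P161.Edge.Step

/-!
The change of the smoothed innovations when the posterior means change, in terms of the squared
changes of the means near the vertex.
-/

namespace Vale.Agent.P161.Edge

open MeasureTheory Finset
open scoped NNReal Classical

noncomputable section

variable {V : Type} {G : SimpleGraph V} {d : ℕ}

/-- The squared change of the posterior means on the ball between two schemes at the fine level. -/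
def pmQ (hG : G.IsTree) (hd : Regular G d) (hd3 : 3 ≤ d) (S : Sch) (r : ℕ) (v : V) (θ₁ θ₂ : ℝ)
    (K : ℕ) (A₁ A₂ : Finset V) (Y : ℕ → V × V → ℝ) : ℝ :=
  ∑ m ∈ range (S.T * 2 ^ K), ∑ i ∈ ballB hG hd hd3 v r, 2 * (hlev K : ℝ) *
    ((pmean G (prm θ₁ S.η K) A₁ Y m i.1 - pmean G (prm θ₂ S.η K) A₂ Y m i.1) ^ 2 +
      (pmean G (prm θ₁ S.η K) A₁ Y m i.2 - pmean G (prm θ₂ S.η K) A₂ Y m i.2) ^ 2)

lemma card_ballB_le (hG : G.IsTree) (hd : Regular G d) (hd3 : 3 ≤ d) (v : V) (r : ℕ) :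
    ((ballB hG hd hd3 v r).card : ℝ) ≤ ((d : ℝ) ^ (r + 2)) ^ 2 := by
  calc ((ballB hG hd hd3 v r).card : ℝ)
      ≤ ((ballF hG hd hd3 v r ×ˢ ballF hG hd hd3 v r).card : ℝ) := by
        exact_mod_cast Finset.card_filter_le _ _
    _ = ((ballF hG hd hd3 v r).card : ℝ) ^ 2 := by
        rw [Finset.card_product, Nat.cast_mul, sq]
    _ ≤ _ := pow_le_pow_left₀ (Nat.cast_nonneg _) (card_ballF v r) 2

lemma two_pow_split {k K : ℕ} (hk : k ≤ K) (T : ℕ) :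
    T * 2 ^ k * 2 ^ (K - k) = T * 2 ^ K := by
  rw [mul_assoc, ← pow_add, Nat.add_sub_cancel' hk]

section fixed

variable (hG : G.IsTree) (hd : Regular G d) (hd3 : 3 ≤ d)

lemma measurable_dfn (S : Sch) (R r : ℕ) (v : V) (θ : ℝ) (K : ℕ) (A : Finset V) :
    MeasY (dfn hG hd hd3 S R r v θ K A) := fun _ _ _ _ hY =>
  ((measurable_Hs S _ _ v fun j i => measurable_aggY _ (fun j i => measurable_innY _ A hY j i) j i).sub
    measurable_const).abs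

lemma dfn_bound (S : Sch) (R r : ℕ) (v : V) (θ : ℝ) (K : ℕ) (A : Finset V) (σ : Finset V)
    (Y : ℕ → V × V → ℝ) : |dfn hG hd hd3 S R r v θ K A σ Y| ≤ 2 := by
  unfold dfn Hb
  rw [abs_abs]
  refine (abs_sub _ _).trans ?_
  have := abs_Hs_le (G := G) S (ballF hG hd hd3 v R) (ballB hG hd hd3 v r) v
    (aggY (2 ^ (K - S.k)) (innY G (prm θ S.η K) A Y))
  rw [abs_spin]
  linarith

/-- The distance to the spin depends on the observations in the domain before the horizon. -/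
lemma obsDep_dfn (S : Sch) (hα : 0 ≤ S.α) (hα2 : S.α ^ 2 ≤ 1 / 2) (R : ℕ) {r : ℕ} {v : V}
    (θ : ℝ) {K : ℕ} (hK : S.k ≤ K) {A : Finset V} (hA : ballF hG hd hd3 v r ⊆ A) :
    ObsDep G A ∅ (S.T * 2 ^ K) (dfn hG hd hd3 S R r v θ K A) := by
  intro σ σ' Y Y' hσ hY
  unfold dfn Hb
  rw [hσ v (hA (self_mem_ballF v r))]
  congr 2
  refine Hs_congr S _ v hα hα2 fun j hj i hi => ?_
  unfold aggY innY
  refine Finset.sum_congr rfl fun l hl => ?_
  have hlt : j * 2 ^ (K - S.k) + l < S.T * 2 ^ K := by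
    have h1 : (j + 1) * 2 ^ (K - S.k) ≤ S.N * 2 ^ (K - S.k) := Nat.mul_le_mul_right _ hj
    rw [Nat.succ_mul, Sch.N, two_pow_split hK] at h1
    have := Finset.mem_range.1 hl
    omega
  have hiA := ballB_subset hG hd hd3 hA hi
  have hp : ∀ u, pmean G (prm θ S.η K) A Y (j * 2 ^ (K - S.k) + l) u =
      pmean G (prm θ S.η K) A Y' (j * 2 ^ (K - S.k) + l) u := fun u =>
    pmean_congr _ A (fun m hm i' hi' => hY m (hm.trans hlt) i' hi' (Finset.notMem_empty _)) u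
  rw [hY _ hlt i hiA (Finset.notMem_empty _), hp, hp]

/-- The smoothed outputs at two innovation sequences. -/
lemma Hb_diff_le (S : Sch) (hα : 0 < S.α) (hα2 : S.α ^ 2 ≤ 1 / 2) (hη : 0 ≤ S.η) (hη2 : S.η ≤ 2)
    {R r : ℕ} (hR : r ≤ R) (v : V) (θ₁ θ₂ : ℝ) {K : ℕ} (hK : S.k ≤ K) (A₁ A₂ : Finset V)
    (Y : ℕ → V × V → ℝ) {e : ℝ} (he : 0 < e) :
    |Hb hG hd hd3 S R r v (aggY (2 ^ (K - S.k)) (innY G (prm θ₁ S.η K) A₁ Y)) -
        Hb hG hd hd3 S R r v (aggY (2 ^ (K - S.k)) (innY G (prm θ₂ S.η K) A₂ Y))| ≤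
      3 / S.α * (pmQ hG hd hd3 S r v θ₁ θ₂ K A₁ A₂ Y / (2 * e) + e / 2) := by
  rw [abs_sub_comm]
  refine (Hs_sub_le S _ v hα hα2 (ballB_subset hG hd hd3 (ballF_mono (by simpa using hR))) _ _
    he).trans ?_
  refine mul_le_mul_of_nonneg_left (add_le_add_left (div_le_div_of_nonneg_right ?_
    (by positivity)) _) (by positivity)
  refine (qd_le_of_block (k := S.k) (k' := K) (η := S.η) hK hη hη2 S.N _
    (fun m u => pmean G (prm θ₁ S.η K) A₁ Y m u - pmean G (prm θ₂ S.η K) A₂ Y m u)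
    fun j _ i _ => ?_).trans (le_of_eq ?_)
  · unfold aggY innY
    simp only
    rw [← Finset.sum_sub_distrib, Finset.mul_sum, Finset.mul_sum]
    refine Finset.sum_congr rfl fun l hl => ?_
    rw [coef_block hK (Finset.mem_range.1 hl)]
    ring
  · unfold pmQ
    rw [← two_pow_split hK S.T, sum_range_mul_add _ (2 ^ (K - S.k)) (S.T * 2 ^ S.k)]
    exact Finset.sum_congr rfl fun j _ => by rw [Finset.sum_comm]

lemma measurable_pmQ (S : Sch) (r : ℕ) (v : V) (θ₁ θ₂ : ℝ) (K : ℕ) (A₁ A₂ : Finset V) :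
    MeasY fun _ Y => pmQ hG hd hd3 S r v θ₁ θ₂ K A₁ A₂ Y := fun σ β _ Y hY =>
  Finset.measurable_sum _ fun m _ => Finset.measurable_sum _ fun i _ =>
    ((((measurable_pmean _ A₁ hY m i.1).sub (measurable_pmean _ A₂ hY m i.1)).pow_const 2).add
      (((measurable_pmean _ A₁ hY m i.2).sub (measurable_pmean _ A₂ hY m i.2)).pow_const 2)).const_mul
      _

lemma pmQ_nonneg (S : Sch) (r : ℕ) (v : V) (θ₁ θ₂ : ℝ) (K : ℕ) (A₁ A₂ : Finset V)
    (Y : ℕ → V × V → ℝ) : 0 ≤ pmQ hG hd hd3 S r v θ₁ θ₂ K A₁ A₂ Y :=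
  Finset.sum_nonneg fun m _ => Finset.sum_nonneg fun i _ => by positivity

variable (P : Prm) (D : Finset V) (N : ℕ)

/-- The expected squared changes from bounds at each vertex of the ball. -/
lemma E_pmQ_le (S : Sch) (r : ℕ) (v : V) (θ₁ θ₂ : ℝ) (K : ℕ) (A₁ A₂ : Finset V)
    (h1 : ∀ m, Par (thetaJ (prm θ₁ S.η K) m)) (h2 : ∀ m, Par (thetaJ (prm θ₂ S.η K) m))
    (g : ℕ → ℝ)
    (hg : ∀ m < S.T * 2 ^ K, ∀ u ∈ ballF hG hd hd3 v r, E G P D N (fun _ Y =>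
      (pmean G (prm θ₁ S.η K) A₁ Y m u - pmean G (prm θ₂ S.η K) A₂ Y m u) ^ 2) ≤ g m) :
    E G P D N (fun _ Y => pmQ hG hd hd3 S r v θ₁ θ₂ K A₁ A₂ Y) ≤
      (ballB hG hd hd3 v r).card * (4 * ∑ m ∈ range (S.T * 2 ^ K), (hlev K : ℝ) * g m) := by
  have mΔ : ∀ m u, MeasY fun _ Y =>
      (pmean G (prm θ₁ S.η K) A₁ Y m u - pmean G (prm θ₂ S.η K) A₂ Y m u) ^ 2 :=
    fun m u σ β _ Y hY =>
      ((measurable_pmean _ A₁ hY m u).sub (measurable_pmean _ A₂ hY m u)).pow_const 2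
  have bΔ : ∀ m u (_ : Finset V) Y,
      |(pmean G (prm θ₁ S.η K) A₁ Y m u - pmean G (prm θ₂ S.η K) A₂ Y m u) ^ 2| ≤ 2 ^ 2 :=
    fun m u _ Y => by
      rw [abs_pow]
      exact pow_le_pow_left₀ (abs_nonneg _) ((abs_sub _ _).trans (by
        linarith [pmean_bound (G := G) _ A₁ (h1 m) Y u, pmean_bound (G := G) _ A₂ (h2 m) Y u])) 2
  have mterm : ∀ m (i : V × V), MeasY fun _ Y => 2 * (hlev K : ℝ) *
      ((pmean G (prm θ₁ S.η K) A₁ Y m i.1 - pmean G (prm θ₂ S.η K) A₂ Y m i.1) ^ 2 +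
        (pmean G (prm θ₁ S.η K) A₁ Y m i.2 - pmean G (prm θ₂ S.η K) A₂ Y m i.2) ^ 2) :=
    fun m i σ β _ Y hY => ((mΔ m i.1 σ β Y hY).add (mΔ m i.2 σ β Y hY)).const_mul _
  have bterm : ∀ m (i : V × V) (_ : Finset V) Y, |2 * (hlev K : ℝ) *
      ((pmean G (prm θ₁ S.η K) A₁ Y m i.1 - pmean G (prm θ₂ S.η K) A₂ Y m i.1) ^ 2 +
        (pmean G (prm θ₁ S.η K) A₁ Y m i.2 - pmean G (prm θ₂ S.η K) A₂ Y m i.2) ^ 2)| ≤
      2 * (hlev K : ℝ) * 8 := fun m i σ Y => by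
    rw [abs_mul, abs_of_nonneg (by positivity : (0:ℝ) ≤ 2 * (hlev K : ℝ))]
    exact mul_le_mul_of_nonneg_left
      ((abs_add_le _ _).trans (by linarith [bΔ m i.1 σ Y, bΔ m i.2 σ Y])) (by positivity)
  unfold pmQ
  rw [E_sum (range (S.T * 2 ^ K)) (fun m _ σ β _ Y hY => Finset.measurable_sum _ fun i _ =>
      mterm m i σ β Y hY) (B := fun _ => ∑ _i ∈ ballB hG hd hd3 v r, 2 * (hlev K : ℝ) * 8)
    fun m _ σ Y => (Finset.abs_sum_le_sum_abs _ _).trans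
      (Finset.sum_le_sum fun i _ => bterm m i σ Y), Finset.mul_sum, Finset.mul_sum]
  refine Finset.sum_le_sum fun m hm => ?_
  rw [E_sum (ballB hG hd hd3 v r) (fun i _ => mterm m i) (fun i _ => bterm m i)]
  refine (Finset.sum_le_card_nsmul _ _ (4 * ((hlev K : ℝ) * g m)) fun i hi => ?_).trans_eq
    (by rw [nsmul_eq_mul])
  rw [E_const_mul, E_add (mΔ m i.1) (mΔ m i.2) (bΔ m i.1) (bΔ m i.2)]
  obtain ⟨⟨hi1, hi2⟩, -⟩ := mem_obsIx.1 hi
  have := add_le_add (hg m (Finset.mem_range.1 hm) _ hi1) (hg m (Finset.mem_range.1 hm) _ hi2)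
  calc _ ≤ 2 * (hlev K : ℝ) * (g m + g m) := mul_le_mul_of_nonneg_left this (by positivity)
    _ = _ := by ring

/-- Changing the means inside the smoothing costs the averaged squared changes. -/
lemma E_dfn_diff_le (S : Sch) (hα : 0 < S.α) (hα2 : S.α ^ 2 ≤ 1 / 2) (hη : 0 ≤ S.η)
    (hη2 : S.η ≤ 2) {R r : ℕ} (hR : r ≤ R) (v : V) (θ₁ θ₂ : ℝ) {K : ℕ} (hK : S.k ≤ K)
    (A₁ A₂ : Finset V) (h1 : ∀ m, Par (thetaJ (prm θ₁ S.η K) m))
    (h2 : ∀ m, Par (thetaJ (prm θ₂ S.η K) m)) {e Q : ℝ} (he : 0 < e)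
    (hQ : E G P D N (fun _ Y => pmQ hG hd hd3 S r v θ₁ θ₂ K A₁ A₂ Y) ≤ Q) :
    |E G P D N (dfn hG hd hd3 S R r v θ₁ K A₁) - E G P D N (dfn hG hd hd3 S R r v θ₂ K A₂)| ≤
      3 / S.α * (Q / (2 * e) + e / 2) := by
  set F := fun (_ : Finset V) (Y : ℕ → V × V → ℝ) =>
    3 / S.α * (pmQ hG hd hd3 S r v θ₁ θ₂ K A₁ A₂ Y / (2 * e) + e / 2) with hF
  set BQ := ∑ _m ∈ range (S.T * 2 ^ K), ∑ _i ∈ ballB hG hd hd3 v r,
    2 * (hlev K : ℝ) * (2 ^ 2 + 2 ^ 2)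
  have bQ : ∀ (_ : Finset V) Y, |pmQ hG hd hd3 S r v θ₁ θ₂ K A₁ A₂ Y| ≤ BQ := fun _ Y => by
    rw [abs_of_nonneg (pmQ_nonneg hG hd hd3 S r v θ₁ θ₂ K A₁ A₂ Y)]
    refine Finset.sum_le_sum fun m _ => Finset.sum_le_sum fun i _ =>
      mul_le_mul_of_nonneg_left (add_le_add ?_ ?_) (by positivity)
    all_goals
      rw [← sq_abs]
      exact pow_le_pow_left₀ (abs_nonneg _) ((abs_sub _ _).trans (by
        linarith [pmean_bound (G := G) _ A₁ (h1 m) Y i.1, pmean_bound (G := G) _ A₂ (h2 m) Y i.1,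
          pmean_bound (G := G) _ A₁ (h1 m) Y i.2,
          pmean_bound (G := G) _ A₂ (h2 m) Y i.2])) 2
  have mQ := measurable_pmQ hG hd hd3 S r v θ₁ θ₂ K A₁ A₂
  have mF : MeasY F := fun σ β _ Y hY => (((mQ σ β Y hY).div_const _).add_const _).const_mul _
  have bF : ∀ σ Y, |F σ Y| ≤ 3 / S.α * (BQ / (2 * e) + e / 2) := fun σ Y => by
    rw [hF, abs_mul, abs_of_nonneg (by positivity : (0:ℝ) ≤ 3 / S.α)]
    refine mul_le_mul_of_nonneg_left ((abs_add_le _ _).trans (add_le_add ?_ (le_of_eq ?_)))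
      (by positivity)
    · rw [abs_div, abs_of_pos (by positivity : (0:ℝ) < 2 * e)]
      exact div_le_div_of_nonneg_right (bQ σ Y) (by positivity)
    · exact abs_of_nonneg (by positivity)
  have hEF : E G P D N F ≤ 3 / S.α * (Q / (2 * e) + e / 2) := by
    rw [hF, E_const_mul, E_congr (Ψ := fun _ Y => (1 / (2 * e)) *
        pmQ hG hd hd3 S r v θ₁ θ₂ K A₁ A₂ Y + e / 2) (fun _ _ Y => by ring),
      E_add (Φ := fun _ Y => (1 / (2 * e)) * pmQ hG hd hd3 S r v θ₁ θ₂ K A₁ A₂ Y)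
        (Ψ := fun _ _ => e / 2) (fun σ β _ Y hY => (mQ σ β Y hY).const_mul _)
        (fun _ _ _ _ _ => measurable_const) (B := 1 / (2 * e) * BQ) (B' := e / 2)
        (fun σ Y => by
          rw [abs_mul, abs_of_nonneg (by positivity : (0:ℝ) ≤ 1 / (2 * e))]
          exact mul_le_mul_of_nonneg_left (bQ σ Y) (by positivity))
        (fun _ _ => (abs_of_nonneg (by positivity)).le), E_const_mul, E_const]
    refine mul_le_mul_of_nonneg_left (add_le_add_left ?_ _) (by positivity)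
    rw [one_div_mul_eq_div]
    exact div_le_div_of_nonneg_right hQ (by positivity)
  have key : ∀ σ Y, |dfn hG hd hd3 S R r v θ₁ K A₁ σ Y - dfn hG hd hd3 S R r v θ₂ K A₂ σ Y| ≤
      F σ Y := fun σ Y => by
    unfold dfn
    refine (abs_abs_sub_abs_le_abs_sub _ _).trans ?_
    rw [sub_sub_sub_cancel_right]
    exact Hb_diff_le hG hd hd3 S hα hα2 hη hη2 hR v θ₁ θ₂ hK A₁ A₂ Y he
  have m1 := measurable_dfn hG hd hd3 S R r v θ₁ K A₁
  have m2 := measurable_dfn hG hd hd3 S R r v θ₂ K A₂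
  have b1 := dfn_bound hG hd hd3 S R r v θ₁ K A₁
  have b2 := dfn_bound hG hd hd3 S R r v θ₂ K A₂
  have one : ∀ (Φ Ψ : Finset V → (ℕ → V × V → ℝ) → ℝ), MeasY Φ → MeasY Ψ →
      (∀ σ Y, |Φ σ Y| ≤ 2) → (∀ σ Y, |Ψ σ Y| ≤ 2) → (∀ σ Y, Φ σ Y ≤ Ψ σ Y + F σ Y) →
      E G P D N Φ ≤ E G P D N Ψ + E G P D N F := fun Φ Ψ hΦ hΨ bΦ bΨ h => by
    rw [← E_add hΨ mF bΨ bF]
    exact E_mono hΦ (fun σ β _ Y hY => (hΨ σ β Y hY).add (mF σ β Y hY)) bΦ
      (fun σ Y => (abs_add_le _ _).trans (add_le_add (bΨ σ Y) (bF σ Y))) fun σ _ Y => h σ Y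
  have u1 := one _ _ m1 m2 b1 b2 fun σ Y => by linarith [(abs_le.1 (key σ Y)).2]
  have u2 := one _ _ m2 m1 b2 b1 fun σ Y => by linarith [(abs_le.1 (key σ Y)).1]
  rw [abs_le]
  constructor <;> linarith

end fixed

end

end Vale.Agent.P161.Edge
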