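import Vale.Agent.P161.Edge.DriftCommon

/-!
Observations outside a large ball change the smoothed innovations little.
-/

namespace Vale.Agent.P161.Edge

open MeasureTheory Finset
open scoped NNReal Classical

noncomputable section

variable {V : Type} {G : SimpleGraph V} {d : ℕ}

lemma avg_clip {θ : ℝ} (D : Finset V) (g : V → ℝ) (u : V) :
    avg G θ D g (fun s => cl (s u)) = avg G θ D g (fun s => s u) := by
  unfold avg Sm
  congr 1
  refine Finset.sum_congr rfl fun S _ => ?_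
  simp only
  congr 1
  unfold cl spin
  split_ifs <;> norm_num

/-- The expected squared change of a posterior mean when observations outside a ball are added. -/
lemma pmean_gain (hG : G.IsTree) (hd : Regular G d) (hd3 : 3 ≤ d) {P : Prm}
    (h0 : 0 ≤ P.θ) (h1 : P.θ < 1) (hh : P.h ≠ 0) (hη : 0 ≤ P.η)
    (ht : Real.tanh (P.η * (P.N₁ * P.h)) ≤ P.θ) {A D : Finset V} (hA : Closed G A)
    (hD : Closed G D) (hsub : A ⊆ D) {u : V} {R' N j : ℕ} (hjN : j ≤ N)
    (hball : ∀ w, G.dist u w ≤ R' → w ∈ A) {x : ℝ} (hx : 0 ≤ x) (hxθ : thetaJ P j ^ 2 ≤ x)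
    (hx1 : ((d : ℝ) - 1) * x < 1) :
    E G P D N (fun _ Y => (pmean G P D Y j u - pmean G P A Y j u) ^ 2) ≤
      64 * (d : ℝ) ^ 3 * ((((d : ℝ) - 1) * x) ^ R' / (1 - ((d : ℝ) - 1) * x)) := by
  have huA : u ∈ A := hball u (by simp)
  have := Mdl.gain genLawStmt hG hd3 hd P h0 h1 hh hη ht (φ := fun s => cl (s u)) (r := 0)
    (R := R') (o := u) hA hD hsub hjN (Nat.zero_le _) hball
    (fun s s' h => by rw [h u (by simp)]) (fun s => abs_cl_le _) hx hxθ hx1
  simp only [zero_add, Nat.sub_zero] at this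
  refine le_trans (le_of_eq ?_) this
  refine E_congr fun S _ Y => ?_
  rw [avg_clip, avg_clip, pmean_eq_mean P (hsub huA), pmean_eq_mean P huA]
  rfl

/-- A spectral bound away from time zero. -/
lemma gap_after (hd3 : 3 ≤ d) {η θ : ℝ} (hη : 0 < η) (hη1 : η ≤ 1 / (4 * d))
    (hθ0 : (Real.sqrt ((d : ℝ) - 1))⁻¹ / 2 ≤ θ) (hθ1 : θ ≤ (Real.sqrt ((d : ℝ) - 1))⁻¹)
    {δ : ℝ} (hδ : 0 < δ) (hδ1 : δ ≤ 1) (K : ℕ) {m : ℕ} (hm : δ ≤ (m : ℝ) * hlev K) :
    thetaJ (prm θ η K) m ^ 2 ≤ ((1 - η * δ / 4) / Real.sqrt ((d : ℝ) - 1)) ^ 2 := by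
  obtain ⟨hs1, hsd⟩ := sqrt_deg_facts hd3
  have hs0 : 0 < Real.sqrt ((d : ℝ) - 1) := by linarith
  have hsθ : Real.sqrt ((d : ℝ) - 1) * θ ≤ 1 := by
    have := mul_le_mul_of_nonneg_left hθ1 hs0.le
    rwa [mul_inv_cancel₀ hs0.ne'] at this
  have hηθ : η ≤ θ := by
    refine le_trans hη1 (le_trans ?_ hθ0)
    rw [inv_eq_one_div, div_div]
    exact one_div_le_one_div_of_le (by positivity) (by linarith)
  obtain ⟨a, -, c⟩ := sqrt_mul_thetaJ_le (P := prm θ η K) hd3 (le_trans (by positivity) hθ0) hsθ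
    (hlev_count K) hη.le hηθ m
  refine pow_le_pow_left₀ a ?_ 2
  rw [le_div_iff₀ hs0]
  have := mul_le_mul_of_nonneg_left (le_tcl (P := prm θ η K) (hlev_count K) hm hδ1) hη.le
  have e : Real.sqrt ((d : ℝ) - 1) * (prm θ η K).θ ≤ 1 := hsθ
  have e2 : (prm θ η K).η = η := rfl
  rw [e2] at c
  linarith [mul_comm (thetaJ (prm θ η K) m) (Real.sqrt ((d : ℝ) - 1))]

/-- A sum over steps, split at a small time. -/
lemma sum_split_time {h δ γ : ℝ} {M : ℕ} {T : ℝ} (hh : 0 < h) (hδ : 0 ≤ δ) (hγ : 0 ≤ γ)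
    (hM : (M : ℝ) * h ≤ T) :
    ∑ m ∈ range M, h * (if (m : ℝ) * h < δ then 4 else γ) ≤ 4 * (δ + h) + γ * T := by
  have hcard : (((range M).filter fun m : ℕ => (m : ℝ) * h < δ).card : ℝ) * h ≤ δ + h := by
    have hsub : ((range M).filter fun m : ℕ => (m : ℝ) * h < δ) ⊆ range ⌈δ / h⌉₊ := fun m hm => by
      refine Finset.mem_range.2 (Nat.lt_ceil.2 ?_)
      rw [lt_div_iff₀ hh]
      exact (Finset.mem_filter.1 hm).2
    have h1 : (((range M).filter fun m : ℕ => (m : ℝ) * h < δ).card : ℝ) ≤ ⌈δ / h⌉₊ := by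
      have := Finset.card_le_card hsub
      rw [Finset.card_range] at this
      exact_mod_cast this
    refine (mul_le_mul_of_nonneg_right (h1.trans (Nat.ceil_lt_add_one (by positivity)).le)
      hh.le).trans_eq ?_
    field_simp
  calc ∑ m ∈ range M, h * (if (m : ℝ) * h < δ then 4 else γ)
      ≤ ∑ m ∈ range M, ((if (m : ℝ) * h < δ then 4 * h else 0) + γ * h) :=
        Finset.sum_le_sum fun m _ => by
          split_ifs
          · have := mul_nonneg hγ hh.le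
            linarith
          · linarith
    _ = 4 * ((((range M).filter fun m : ℕ => (m : ℝ) * h < δ).card : ℝ) * h) +
        γ * ((M : ℝ) * h) := by
        rw [Finset.sum_add_distrib, ← Finset.sum_filter, Finset.sum_const, Finset.sum_const,
          Finset.card_range, nsmul_eq_mul, nsmul_eq_mul]
        ring
    _ ≤ _ := add_le_add (mul_le_mul_of_nonneg_left hcard (by norm_num))
        (mul_le_mul_of_nonneg_left hM hγ)

theorem gain_le : ∀ d : ℕ, 3 ≤ d → ∀ η : ℝ, 0 < η → η ≤ 1 / (4 * d) → ∀ (T r : ℕ) (α ε : ℝ),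
    0 < α → α ^ 2 ≤ 1 / 2 → 0 < ε → ∃ R₁ k₀ : ℕ, r ≤ R₁ ∧
    ∀ (V : Type) (G : SimpleGraph V) (hG : G.IsTree) (hd : Regular G d) (hd3 : 3 ≤ d) (v : V)
      (θ' θ : ℝ), (Real.sqrt ((d : ℝ) - 1))⁻¹ / 2 ≤ θ → θ ≤ (Real.sqrt ((d : ℝ) - 1))⁻¹ →
    ∀ (R : ℕ), r ≤ R → ∀ (k K N : ℕ), k₀ ≤ k → k ≤ K → T * 2 ^ K ≤ N →
    ∀ (A D : Finset V), Closed G A → Closed G D → A ⊆ D → ballF hG hd hd3 v R₁ ⊆ A →
      let S : Sch := ⟨θ', η, α, k, T⟩
      |E G (prm θ η K) D N (dfn hG hd hd3 S R r v θ K D) -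
          E G (prm θ η K) A (T * 2 ^ K) (dfn hG hd hd3 S R r v θ K A)| ≤ ε := by
  intro d hd3 η hη hη1 T r α ε hα hα2 hε
  obtain ⟨hs1, hsd⟩ := sqrt_deg_facts hd3
  have hd0 : (3 : ℝ) ≤ d := by exact_mod_cast hd3
  have hη2 : η ≤ 2 := hη1.trans ((div_le_iff₀ (by positivity)).2 (by linarith))
  set CB := ((d : ℝ) ^ (r + 2)) ^ 2
  have hCB : 0 < CB := by positivity
  set e := α * ε / 3 with he
  have he0 : 0 < e := by positivity
  set Q := α * ε * e / 3 with hQ
  have hQ0 : 0 < Q := by positivity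
  set δ := min 1 (Q / (64 * CB)) with hδ
  have hδ0 : 0 < δ := lt_min one_pos (by positivity)
  have hδ1 : δ ≤ 1 := min_le_left _ _
  set q := (1 - η * δ / 4) ^ 2 with hq
  have hηδ : 0 < η * δ ∧ η * δ ≤ 2 := ⟨mul_pos hη hδ0, by nlinarith⟩
  have hq1 : q < 1 := by
    rw [hq]
    exact pow_lt_one₀ (by linarith [hηδ.2]) (by linarith [hηδ.1]) two_ne_zero
  have hq0 : 0 ≤ q := sq_nonneg _
  set γ := Q / (16 * CB * (T + 1)) with hγ
  have hγ0 : 0 < γ := by positivity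
  obtain ⟨R', hR'⟩ := exists_geom (C := 64 * (d : ℝ) ^ 3 / (1 - q))
    (div_nonneg (by positivity) (by linarith)) hq1 hγ0
  obtain ⟨k₀, hk₀⟩ := exists_small 1 (show 0 < Q / (64 * CB) by positivity)
  refine ⟨r + R', k₀, Nat.le_add_right r R', ?_⟩
  intro V G hG hd _ v θ' θ hθ0 hθ1 R hR k K N hk hkK hN A D hA hD hsub hball S
  have hreg := reg_of hd3 hη.le hη1 hθ0 hθ1 K
  have hP : ∀ m, Par (thetaJ (prm θ η K) m) := fun m => (hreg.par m).2.2.2
  have hAne : A.Nonempty := ⟨v, hball (self_mem_ballF v _)⟩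
  have hBA : ballF hG hd hd3 v r ⊆ A := (ballF_mono (by simp)).trans hball
  set g := fun m : ℕ => if (m : ℝ) * hlev K < δ then (4 : ℝ) else γ
  have hg : ∀ m < S.T * 2 ^ K, ∀ u ∈ ballF hG hd hd3 v r, E G (prm θ η K) D N (fun _ Y =>
      (pmean G (prm θ η K) D Y m u - pmean G (prm θ η K) A Y m u) ^ 2) ≤ g m := by
    intro m hm u hu
    simp only [g]
    split_ifs with hmδ
    · refine (E_mono (B := 4) (B' := 4) (Ψ := fun _ _ => (4 : ℝ))
        (fun σ β _ Y hY => ((measurable_pmean _ D hY m u).sub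
          (measurable_pmean _ A hY m u)).pow_const 2)
        (fun _ _ _ _ _ => measurable_const) ?_ (fun _ _ => (abs_of_pos (by norm_num)).le)
        ?_).trans_eq (E_const _ _)
      all_goals intros
      rw [abs_of_nonneg (sq_nonneg _)]
      all_goals
        nlinarith [abs_le.1 (pmean_bound (G := G) (prm θ η K) D (hP m) ‹_› u),
          abs_le.1 (pmean_bound (G := G) (prm θ η K) A (hP m) ‹_› u)]
    · have hx := gap_after hd3 hη hη1 hθ0 hθ1 hδ0 hδ1 K (not_lt.1 hmδ)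
      have ex : ((d : ℝ) - 1) * ((1 - η * δ / 4) / Real.sqrt ((d : ℝ) - 1)) ^ 2 = q := by
        rw [div_pow, Real.sq_sqrt (by linarith), hq]
        have : (d : ℝ) - 1 ≠ 0 := by linarith
        field_simp
      refine (pmean_gain hG hd hd3 hreg.nonneg hreg.lt_one (hlev_ne_zero K) hη.le hreg.tau hA hD
        hsub (R' := R') (hm.le.trans hN) (fun w hw => hball (mem_ballF.2 ?_)) (sq_nonneg _) hx
        (ex.le.trans_lt hq1)).trans ?_
      · exact (hG.connected.dist_triangle (v := u)).trans (add_le_add (mem_ballF.1 hu) hw)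
      · rw [ex]
        refine le_trans (le_of_eq ?_) hR'
        ring
  have hsum : ∑ m ∈ range (S.T * 2 ^ K), (hlev K : ℝ) * g m ≤
      4 * (δ + hlev K) + γ * T :=
    sum_split_time (hlev_pos K) hδ0.le hγ0.le (mul_hlev K T).le
  have hK0 : (hlev K : ℝ) ≤ Q / (64 * CB) := by
    have := hk₀ K (hk.trans hkK)
    rwa [one_mul] at this
  have hEQ : E G (prm θ η K) D N (fun _ Y => pmQ hG hd hd3 S r v θ θ K D A Y) ≤ Q := by
    refine (E_pmQ_le hG hd hd3 _ D N S r v θ θ K D A hP hP g hg).trans ?_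
    refine (mul_le_mul (card_ballB_le hG hd hd3 v r) (mul_le_mul_of_nonneg_left hsum (by norm_num))
      (mul_nonneg (by norm_num) (Finset.sum_nonneg fun m _ => mul_nonneg (hlev_pos K).le
        (by simp only [g]; split_ifs <;> linarith))) hCB.le).trans ?_
    have h1 : CB * δ ≤ Q / 64 := by
      refine (mul_le_mul_of_nonneg_left (min_le_right _ _) hCB.le).trans_eq ?_
      field_simp
    have h2 : CB * hlev K ≤ Q / 64 := by
      refine (mul_le_mul_of_nonneg_left hK0 hCB.le).trans_eq ?_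
      field_simp
    have h3 : CB * (γ * T) ≤ Q / 16 := by
      calc CB * (γ * T) ≤ CB * (γ * ((T : ℝ) + 1)) := by
            refine mul_le_mul_of_nonneg_left ?_ hCB.le
            exact mul_le_mul_of_nonneg_left (by linarith) hγ0.le
        _ = Q / 16 := by rw [hγ]; field_simp
    calc CB * (4 * (4 * (δ + (hlev K : ℝ)) + γ * T))
        = 16 * (CB * δ) + 16 * (CB * hlev K) + 4 * (CB * (γ * T)) := by ring
      _ ≤ _ := by linarith
  have hmarg : E G (prm θ η K) D N (dfn hG hd hd3 S R r v θ K A) =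
      E G (prm θ η K) A (T * 2 ^ K) (dfn hG hd hd3 S R r v θ K A) :=
    Mdl.E_marginal hG (prm θ η K) hreg.nonneg hreg.lt_one hA hAne hD hsub hN
      (adm_of (measurable_dfn hG hd hd3 S R r v θ K A) (dfn_bound hG hd hd3 S R r v θ K A))
      (obsDep_dfn hG hd hd3 S hα.le hα2 R θ hkK hBA)
  rw [← hmarg]
  refine (E_dfn_diff_le hG hd hd3 _ D N S hα hα2 hη.le hη2 hR v θ θ hkK D A hP hP he0 hEQ).trans
    (le_of_eq ?_)
  simp only [S, hQ, he]
  field_simp
  ring

end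

end Vale.Agent.P161.Edge
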