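import Vale.Agent.P161.Edge.Parts
import Vale.Agent.P161.Edge.Step

/-!
Refining the mesh changes the smoothed innovations little.
-/

namespace Vale.Agent.P161.Edge

open MeasureTheory Finset
open scoped NNReal Classical

noncomputable section

variable {V : Type} {G : SimpleGraph V} {d : ℕ}

/-- Over the blocks of the coarse mesh the martingale increments sum to at most one. -/
lemma E_qd_le (hG : G.IsTree) {D : Finset V} (hD : Closed G D) {θ η : ℝ} (h0 : 0 ≤ θ) (h1 : θ < 1)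
    (hη : 0 ≤ η) (hη2 : η ≤ 2) {k K : ℕ} (hk : k ≤ K)
    (ht : Real.tanh (η * (((2 ^ K : ℕ) : ℝ) * hlev K)) ≤ θ) (N : ℕ) {B : Finset (V × V)}
    (hB : B ⊆ obsIx G D) :
    E G (prm θ η K) D (N * 2 ^ (K - k)) (fun _ Y => qd (hlev k) N B
      (innY G (prm θ η k) D (aggY (2 ^ (K - k)) Y))
      (aggY (2 ^ (K - k)) (innY G (prm θ η K) D Y))) ≤ 4 * B.card * hlev k := by
  set M := 2 ^ (K - k) with hM
  set P := prm θ η K with hP
  have hM0 : 0 < M := by positivity
  have hh : P.h ≠ 0 := hlev_ne_zero K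
  have hb1 : ∀ j (v : V) Y, |pmean G P D Y j v| ≤ 1 := fun j v Y =>
    pmean_bound P D (Mdl.par_thetaJ (P := P) h1 hη ht j) Y v
  set e : (ℕ → V × V → ℝ) → ℕ → V → ℝ := fun Y m x =>
    pmean G P D Y m x - pmean G P D Y (m / M * M) x with he
  have hblock : ∀ j l, l < M → (j * M + l) / M * M = j * M := fun j l hl => by
    rw [add_comm, Nat.add_mul_div_right _ _ hM0, Nat.div_eq_of_lt hl, zero_add]
  have me : ∀ m x, MeasY fun _ Y => e Y m x ^ 2 := fun m x S _ _ Y hY =>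
    ((measurable_pmean P D hY m x).sub (measurable_pmean P D hY _ x)).pow_const 2
  have be : ∀ m x (_ : Finset V) Y, |e Y m x ^ 2| ≤ 4 := fun m x _ Y => by
    rw [abs_pow]
    calc |e Y m x| ^ 2 ≤ 2 ^ 2 := pow_le_pow_left₀ (abs_nonneg _)
          ((abs_sub _ _).trans (by linarith [hb1 m x Y, hb1 (m / M * M) x Y])) 2
      _ = 4 := by norm_num
  set g : ℕ × (V × V) × ℕ → Finset V → (ℕ → V × V → ℝ) → ℝ := fun q _ Y =>
    2 * (hlev K : ℝ) * (e Y (q.1 * M + q.2.2) q.2.1.1 ^ 2 + e Y (q.1 * M + q.2.2) q.2.1.2 ^ 2)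
    with hg
  set idx := range N ×ˢ (B ×ˢ range M) with hidx
  have mg : ∀ q, MeasY (g q) := fun q S β _ Y hY =>
    ((me (q.1 * M + q.2.2) q.2.1.1 S β Y hY).add
      (me (q.1 * M + q.2.2) q.2.1.2 S β Y hY)).const_mul _
  have bg : ∀ q S Y, |g q S Y| ≤ 16 * (hlev K : ℝ) := fun q S Y => by
    simp only [hg]
    rw [abs_mul, abs_of_nonneg (by have := hlev_pos K; positivity : (0:ℝ) ≤ 2 * hlev K)]
    refine (mul_le_mul_of_nonneg_left ((abs_add_le _ _).trans
      (add_le_add (be _ _ S Y) (be _ _ S Y))) (by have := hlev_pos K; positivity)).trans_eq ?_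
    ring
  have hpt : ∀ S Y, qd (hlev k) N B (innY G (prm θ η k) D (aggY M Y))
      (aggY M (innY G P D Y)) ≤ ∑ q ∈ idx, g q S Y := fun S Y => by
    refine (qd_le_of_block hk hη hη2 N B (e Y) fun j _ i _ => ?_).trans_eq ?_
    · rw [innY_block hk D Y j i]
      congr 1
      congr 1
      refine Finset.sum_congr rfl fun l hl => ?_
      simp only [he, ← hP, ← hM, hblock j l (Finset.mem_range.1 hl)]
    · simp only [hidx, Finset.sum_product, hg, hM]
  have mΦ : MeasY fun _ Y => qd (hlev k) N B (innY G (prm θ η k) D (aggY M Y))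
      (aggY M (innY G P D Y)) := fun S β _ Y hY =>
    Finset.measurable_sum _ fun j _ => Finset.measurable_sum _ fun i _ =>
      (((measurable_innY _ D (fun j i => measurable_aggY M hY j i) j i).sub
        (measurable_aggY M (fun j i => measurable_innY P D hY j i) j i)).pow_const 2).div_const _
  have mΨ : MeasY fun S Y => ∑ q ∈ idx, g q S Y := fun S β _ Y hY =>
    Finset.measurable_sum _ fun q _ => mg q S β Y hY
  have bΨ : ∀ S Y, |∑ q ∈ idx, g q S Y| ≤ idx.card * (16 * (hlev K : ℝ)) := fun S Y => by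
    refine (Finset.abs_sum_le_sum_abs _ _).trans ((Finset.sum_le_sum fun q _ => bg q S Y).trans_eq ?_)
    rw [Finset.sum_const, nsmul_eq_mul]
  refine (E_mono (B := idx.card * (16 * (hlev K : ℝ))) mΦ mΨ (fun S Y => ?_) bΨ fun S _ Y => hpt S Y).trans ?_
  · rw [abs_of_nonneg (qd_nonneg (hlev_pos k).le _ _ _ _)]
    exact (hpt S Y).trans ((le_abs_self _).trans (bΨ S Y))
  rw [E_sum idx (fun q _ => mg q) fun q _ => bg q]
  have hmsq : ∀ x ∈ D, ∀ j < N, ∀ l < M,
      E G P D (N * M) (fun _ Y => e Y (j * M + l) x ^ 2) ≤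
        msqJ G P D ((j + 1) * M) x - msqJ G P D (j * M) x := fun x hx j hj l hl => by
    have hjN : (j + 1) * M ≤ N * M := Nat.mul_le_mul_right M hj
    have hsucc : (j + 1) * M = j * M + M := Nat.succ_mul _ _
    simp only [he, hblock j l hl]
    rw [E_pmean_sq_diff hG hD h0 h1 hh hη ht hx (Nat.le_add_right _ _) (by omega)]
    linarith [msqJ_mono hG hD h0 h1 hh hη ht hx (a := j * M + l) (i := (j + 1) * M) (by omega)]
  have hx1 : ∀ x ∈ D, ∑ j ∈ range N, (msqJ G P D ((j + 1) * M) x - msqJ G P D (j * M) x) ≤ 1 :=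
    fun x _ => by
    rw [Finset.sum_range_sub fun j => msqJ G P D (j * M) x]
    linarith [(msqJ_mem (G := G) (P := P) (D := D) h1 hη ht x (N * M)).2,
      (msqJ_mem (G := G) (P := P) (D := D) h1 hη ht x (0 * M)).1]
  calc ∑ q ∈ idx, E G P D (N * M) (g q)
      ≤ ∑ q ∈ idx, 2 * (hlev K : ℝ) *
          ((msqJ G P D ((q.1 + 1) * M) q.2.1.1 - msqJ G P D (q.1 * M) q.2.1.1) +
            (msqJ G P D ((q.1 + 1) * M) q.2.1.2 - msqJ G P D (q.1 * M) q.2.1.2)) := by
        refine Finset.sum_le_sum fun q hq => ?_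
        obtain ⟨hj, hi, hl⟩ : q.1 < N ∧ q.2.1 ∈ B ∧ q.2.2 < M := by
          simpa [hidx, Finset.mem_product] using hq
        obtain ⟨⟨h1D, h2D⟩, -⟩ := mem_obsIx.1 (hB hi)
        simp only [hg]
        rw [E_const_mul, E_add (me _ _) (me _ _) (be _ _) (be _ _)]
        exact mul_le_mul_of_nonneg_left (add_le_add (hmsq _ h1D _ hj _ hl) (hmsq _ h2D _ hj _ hl))
          (by have := hlev_pos K; positivity)
    _ = ∑ i ∈ B, 2 * ((M : ℝ) * hlev K) *
          ((∑ j ∈ range N, (msqJ G P D ((j + 1) * M) i.1 - msqJ G P D (j * M) i.1)) +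
            ∑ j ∈ range N, (msqJ G P D ((j + 1) * M) i.2 - msqJ G P D (j * M) i.2)) := by
        simp only [hidx, Finset.sum_product, Finset.sum_const, Finset.card_range, nsmul_eq_mul]
        rw [Finset.sum_comm]
        refine Finset.sum_congr rfl fun i _ => ?_
        rw [← Finset.sum_add_distrib, Finset.mul_sum]
        exact Finset.sum_congr rfl fun j _ => by ring
    _ ≤ ∑ _i ∈ B, 2 * ((M : ℝ) * hlev K) * (1 + 1) := by
        refine Finset.sum_le_sum fun i hi => ?_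
        obtain ⟨⟨h1D, h2D⟩, -⟩ := mem_obsIx.1 (hB hi)
        exact mul_le_mul_of_nonneg_left (add_le_add (hx1 _ h1D) (hx1 _ h2D))
          (by have := hlev_pos K; positivity)
    _ = 4 * B.card * hlev k := by
        rw [Finset.sum_const, nsmul_eq_mul, show ((hlev k : ℝ≥0) : ℝ) = (M : ℝ) * hlev K from
          hlev_refine hk]
        ring

/-- The quadratic distance is bounded, crudely. -/
lemma exists_qd_bound (hG : G.IsTree) {D : Finset V} (hD : Closed G D) {θ η : ℝ} {k K : ℕ}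
    (hR : Reg d (prm θ η K)) (hη : 0 ≤ η) (hη2 : η ≤ 2) (hk : k ≤ K) (N : ℕ)
    (B : Finset (V × V)) :
    ∃ Bq : ℝ, ∀ (_ : Finset V) Y, |qd (hlev k) N B
      (innY G (prm θ η k) D (aggY (2 ^ (K - k)) Y))
      (aggY (2 ^ (K - k)) (innY G (prm θ η K) D Y))| ≤ Bq := by
  set M := 2 ^ (K - k) with hM
  have hM0 : 0 < M := by positivity
  refine ⟨∑ _j ∈ range N, ∑ _i ∈ B, ∑ _l ∈ range M, 2 * (hlev K : ℝ) * (2 ^ 2 + 2 ^ 2),
    fun _ Y => ?_⟩
  rw [abs_of_nonneg (qd_nonneg (hlev_pos k).le _ _ _ _)]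
  set e : ℕ → V → ℝ := fun m x =>
    pmean G (prm θ η K) D Y m x - pmean G (prm θ η K) D Y (m / M * M) x with he
  refine (qd_le_of_block hk hη hη2 N B e fun j _ i _ => ?_).trans ?_
  · rw [innY_block hk D Y j i]
    congr 1
    congr 1
    refine Finset.sum_congr rfl fun l hl => ?_
    have hb : (j * M + l) / M * M = j * M := by
      rw [add_comm, Nat.add_mul_div_right _ _ hM0, Nat.div_eq_of_lt (Finset.mem_range.1 hl),
        zero_add]
    simp only [he, ← hM, hb]
  · have he2 : ∀ m x, e m x ^ 2 ≤ 2 ^ 2 := fun m x => by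
      rw [← sq_abs]
      refine pow_le_pow_left₀ (abs_nonneg _) ((abs_sub _ _).trans ?_) 2
      linarith [pmean_bound (G := G) (prm θ η K) D (hR.par m).2.2.2 Y x,
        pmean_bound (G := G) (prm θ η K) D (hR.par (m / M * M)).2.2.2 Y x]
    refine Finset.sum_le_sum fun j _ => Finset.sum_le_sum fun i _ =>
      Finset.sum_le_sum fun l _ => mul_le_mul_of_nonneg_left (add_le_add (he2 _ _) (he2 _ _))
        (by have := hlev_pos K; positivity)

theorem refine_le : ∀ d : ℕ, 3 ≤ d → ∀ η : ℝ, 0 < η → η ≤ 1 / (4 * d) → ∀ (T r : ℕ) (α ε : ℝ),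
    0 < α → α ^ 2 ≤ 1 / 2 → 0 < ε → ∃ k₀ : ℕ,
    ∀ (V : Type) (G : SimpleGraph V) (hG : G.IsTree) (hd : Regular G d) (hd3 : 3 ≤ d) (v : V)
      (θ : ℝ), (Real.sqrt ((d : ℝ) - 1))⁻¹ / 2 ≤ θ → θ ≤ (Real.sqrt ((d : ℝ) - 1))⁻¹ →
    ∀ (R : ℕ), r ≤ R → ∀ (k K : ℕ), k₀ ≤ k → k ≤ K →
      let S : Sch := ⟨θ, η, α, k, T⟩
      let D := ballF hG hd hd3 v R
      E G (prm θ η K) D (T * 2 ^ K) (dfn hG hd hd3 S R r v θ K D) ≤
        E G S.P D S.N (fun σ Y => |Hb hG hd hd3 S R r v (innY G S.P D Y) - spin σ v|) + ε := by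
  intro d hd3 η hη hη4 T r α ε hα hα2 hε
  set e := α * ε / 3 with he
  have he0 : 0 < e := by positivity
  obtain ⟨k₀, hk₀⟩ := exists_small (4 * ((d : ℝ) ^ (r + 2) * (d : ℝ) ^ (r + 2)))
    (show 0 < e ^ 2 by positivity)
  refine ⟨k₀, fun V G hG hd hd3' v θ hθ0 hθ1 R hrR k K hk hkK => ?_⟩
  intro S D
  have hR : Reg d (prm θ η K) := reg_of hd3 hη.le hη4 hθ0 hθ1 K
  have hη2 : η ≤ 2 := hη4.trans (by
    have : (3:ℝ) ≤ d := by exact_mod_cast hd3
    rw [div_le_iff₀ (by positivity)]; linarith)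
  have hD : Closed G D := closed_ballF v R
  have hsub : ballF hG hd hd3' v r ⊆ D :=
    ballF_mono (by rw [SimpleGraph.dist_self, zero_add]; exact hrR)
  set B := ballB hG hd hd3' v r with hBdef
  have hB : B ⊆ obsIx G D := ballB_subset hG hd hd3' hsub
  set M := 2 ^ (K - k) with hM
  have hN : T * 2 ^ K = S.N * M := by
    show T * 2 ^ K = T * 2 ^ k * 2 ^ (K - k)
    rw [mul_assoc, ← pow_add, Nat.add_sub_cancel' hkK]
  set qf : Finset V → (ℕ → V × V → ℝ) → ℝ := fun _ Y => qd (hlev k) S.N B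
    (innY G (prm θ η k) D (aggY M Y)) (aggY M (innY G (prm θ η K) D Y)) with hqf
  set H : Finset V → (ℕ → V × V → ℝ) → ℝ := fun σ Y =>
    |Hb hG hd hd3' S R r v (innY G S.P D Y) - spin σ v| with hH
  have mH : MeasY H := fun σ β _ Y hY =>
    ((measurable_Hs S D B v fun j i => measurable_innY S.P D hY j i).sub
      measurable_const).abs
  have hHs : ∀ Z, |Hb hG hd hd3' S R r v Z| ≤ 1 := fun Z => abs_Hs_le S D B v Z
  have bH : ∀ σ Y, |H σ Y| ≤ 2 := fun σ Y => by
    simp only [hH, abs_abs]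
    exact (abs_sub _ _).trans (by rw [abs_spin]; linarith [hHs (innY G S.P D Y)])
  set L := fun σ Y => dfn hG hd hd3' S R r v θ K D σ Y with hL
  have mL : MeasY L := fun σ β _ Y hY =>
    ((measurable_Hs S D B v fun j i =>
      measurable_aggY M (fun j i => measurable_innY _ D hY j i) j i).sub measurable_const).abs
  have bL : ∀ σ Y, |L σ Y| ≤ 2 := fun σ Y => by
    simp only [hL, dfn, abs_abs]
    exact (abs_sub _ _).trans (by
      rw [abs_spin]; linarith [hHs (aggY (2 ^ (K - S.k)) (innY G (prm θ S.η K) D Y))])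
  set Q : Finset V → (ℕ → V × V → ℝ) → ℝ := fun σ Y =>
    3 / α * (qf σ Y / (2 * e) + e / 2) with hQ
  set mn : Finset V → (ℕ → V × V → ℝ) → ℝ := fun σ Y => min 4 (Q σ Y) with hmn
  have hq0 : ∀ σ Y, 0 ≤ qf σ Y := fun σ Y => qd_nonneg (hlev_pos k).le _ _ _ _
  have hpt : ∀ σ Y, L σ Y ≤ H σ (aggY M Y) + mn σ Y := fun σ Y => by
    have h1 := Hs_sub_le (G := G) S D v hα hα2 hB (aggY M (innY G (prm θ η K) D Y))
      (innY G (prm θ η k) D (aggY M Y)) he0
    have h2 : L σ Y ≤ H σ (aggY M Y) +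
        |Hb hG hd hd3' S R r v (innY G S.P D (aggY M Y)) -
          Hb hG hd hd3' S R r v (aggY M (innY G (prm θ η K) D Y))| := by
      simp only [hL, hH, dfn]
      rw [abs_sub_comm (Hb hG hd hd3' S R r v (innY G S.P D (aggY M Y)))
        (Hb hG hd hd3' S R r v (aggY M (innY G (prm θ η K) D Y))), add_comm]
      exact abs_sub_le _ _ _
    rw [hmn, ← sub_le_iff_le_add']
    have h3 : |Hb hG hd hd3' S R r v (innY G S.P D (aggY M Y)) -
        Hb hG hd hd3' S R r v (aggY M (innY G (prm θ η K) D Y))| ≤ Q σ Y := h1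
    refine le_min ?_ (by linarith)
    linarith [le_abs_self (L σ Y), bL σ Y, neg_abs_le (H σ (aggY M Y)), bH σ (aggY M Y)]
  have mq : MeasY qf := fun σ β _ Y hY =>
    Finset.measurable_sum _ fun j _ => Finset.measurable_sum _ fun i _ =>
      (((measurable_innY _ D (fun j i => measurable_aggY M hY j i) j i).sub
        (measurable_aggY M (fun j i => measurable_innY _ D hY j i) j i)).pow_const 2).div_const _
  have mQ : MeasY Q := fun σ β _ Y hY =>
    (((mq σ β Y hY).div_const _).add_const _).const_mul _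
  have mmn : MeasY mn := fun σ β _ Y hY => measurable_const.min (mQ σ β Y hY)
  have hQ0 : ∀ σ Y, 0 ≤ Q σ Y := fun σ Y => by
    have := hq0 σ Y; simp only [hQ]; positivity
  have bmn : ∀ σ Y, |mn σ Y| ≤ 4 := fun σ Y => by
    rw [abs_of_nonneg (le_min (by norm_num) (hQ0 σ Y))]; exact min_le_left _ _
  have mH' : MeasY fun σ Y => H σ (aggY M Y) := fun σ β _ Y hY =>
    mH σ β _ fun j i => measurable_aggY M hY j i
  rw [hN]
  refine (E_mono mL (fun σ β _ Y hY => (mH' σ β Y hY).add (mmn σ β Y hY)) bL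
    (fun σ Y => (abs_add_le _ _).trans (add_le_add (bH σ _) (bmn σ Y)))
    fun σ _ Y => hpt σ Y).trans ?_
  rw [E_add mH' mmn (fun σ Y => bH σ _) bmn, E_agg hkK D S.N mH]
  refine add_le_add le_rfl ?_
  obtain ⟨Bq, hBq⟩ : ∃ Bq : ℝ, ∀ σ Y, |qf σ Y| ≤ Bq :=
    exists_qd_bound hG hD hR hη.le hη2 hkK S.N B
  have bQ : ∀ σ Y, |Q σ Y| ≤ 3 / α * (Bq / (2 * e) + e / 2) := fun σ Y => by
    rw [abs_of_nonneg (hQ0 σ Y)]
    simp only [hQ]
    gcongr
    exact (le_abs_self _).trans (hBq σ Y)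
  refine (E_mono mmn mQ bmn bQ fun σ _ Y => min_le_right _ _).trans ?_
  have hq := E_qd_le hG hD hR.nonneg hR.lt_one hη.le hη2 hkK hR.tau S.N hB
  have hcard : (B.card : ℝ) ≤ (d : ℝ) ^ (r + 2) * (d : ℝ) ^ (r + 2) := by
    refine le_trans ?_ (mul_le_mul (card_ballF (hG := hG) (hd := hd) (hd3 := hd3') v r)
      (card_ballF (hG := hG) (hd := hd) (hd3 := hd3') v r) (Nat.cast_nonneg _)
      (by positivity))
    rw [← Nat.cast_mul, ← Finset.card_product]
    exact_mod_cast Finset.card_filter_le _ _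
  have hq' : E G (prm θ η K) D (S.N * M) qf ≤ e ^ 2 := by
    refine hq.trans (le_trans ?_ (hk₀ k hk))
    have := hlev_pos k
    gcongr
  calc E G (prm θ η K) D (S.N * M) Q
      = 3 / α / (2 * e) * E G (prm θ η K) D (S.N * M) qf + 3 / α * (e / 2) := by
        rw [E_congr (Ψ := fun σ Y => 3 / α / (2 * e) * qf σ Y + 3 / α * (e / 2))
            fun σ _ Y => by simp only [hQ]; ring,
          E_add (fun σ β _ Y hY => (mq σ β Y hY).const_mul _) (fun _ _ _ _ _ => measurable_const)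
            (B := |3 / α / (2 * e)| * Bq) (fun σ Y => by
              rw [abs_mul]; exact mul_le_mul_of_nonneg_left (hBq σ Y) (abs_nonneg _))
            (B' := |3 / α * (e / 2)|) (fun _ _ => le_rfl),
          E_const_mul, E_const]
    _ ≤ 3 / α / (2 * e) * e ^ 2 + 3 / α * (e / 2) :=
        add_le_add_left (mul_le_mul_of_nonneg_left hq' (by positivity)) _
    _ = ε := by rw [he]; field_simp; ring

end

end Vale.Agent.P161.Edge
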