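import Vale.Agent.P161.Edge.DriftCommon

/-!
Moving the coupling to the critical one on a fixed finite domain.
-/

namespace Vale.Agent.P161.Edge

open MeasureTheory Finset
open scoped NNReal Classical

noncomputable section

variable {V : Type} {G : SimpleGraph V} {d : ℕ}

/-- Averages with respect to two nearly proportional weights. -/
lemma ratio_close {α : Type*} (s : Finset α) {w w' F : α → ℝ} {e B : ℝ} (hw : ∀ a ∈ s, 0 ≤ w a)
    (hclose : ∀ a ∈ s, |w' a - w a| ≤ e * w a) (hF : ∀ a ∈ s, |F a| ≤ B) (he : e ≤ 1 / 2)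
    (hB : 0 ≤ B) (hpos : 0 < ∑ a ∈ s, w a) :
    |(∑ a ∈ s, w' a * F a) / (∑ a ∈ s, w' a) - (∑ a ∈ s, w a * F a) / ∑ a ∈ s, w a| ≤
      4 * e * B := by
  set Z := ∑ a ∈ s, w a
  set Z' := ∑ a ∈ s, w' a
  set N := ∑ a ∈ s, w a * F a
  set N' := ∑ a ∈ s, w' a * F a
  have he0 : 0 ≤ e := by
    obtain ⟨a, ha, hpa⟩ : ∃ a ∈ s, 0 < w a := by
      by_contra hc
      push Not at hc
      exact absurd (Finset.sum_nonpos hc) (not_le.2 hpos)
    exact nonneg_of_mul_nonneg_left ((abs_nonneg _).trans (hclose a ha)) hpa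
  have h1 : |Z' - Z| ≤ e * Z := by
    simp only [Z', Z, ← Finset.sum_sub_distrib, Finset.mul_sum]
    exact (Finset.abs_sum_le_sum_abs _ _).trans (Finset.sum_le_sum hclose)
  have h2 : |N' - N| ≤ B * (e * Z) := by
    simp only [N', N, Z, ← Finset.sum_sub_distrib, Finset.mul_sum]
    refine (Finset.abs_sum_le_sum_abs _ _).trans (Finset.sum_le_sum fun a ha => ?_)
    rw [← sub_mul, abs_mul, mul_comm]
    exact mul_le_mul (hF a ha) (hclose a ha) (abs_nonneg _) hB
  have h3 : |N| ≤ B * Z := by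
    simp only [N, Z, Finset.mul_sum]
    refine (Finset.abs_sum_le_sum_abs _ _).trans (Finset.sum_le_sum fun a ha => ?_)
    rw [abs_mul, abs_of_nonneg (hw a ha), mul_comm]
    exact mul_le_mul_of_nonneg_right (hF a ha) (hw a ha)
  have hZ' : Z / 2 ≤ Z' := by
    have := (abs_le.1 h1).1
    nlinarith
  have hZ'0 : 0 < Z' := by linarith
  have e1 : N' / Z' - N / Z = ((N' - N) - N / Z * (Z' - Z)) / Z' := by field_simp; ring
  rw [e1, abs_div, abs_of_pos hZ'0, div_le_iff₀ hZ'0]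
  have h4 : |N / Z * (Z' - Z)| ≤ B * (e * Z) := by
    rw [abs_mul, abs_div, abs_of_pos hpos]
    exact mul_le_mul ((div_le_iff₀ hpos).2 h3) h1 (abs_nonneg _) hB
  calc |(N' - N) - N / Z * (Z' - Z)| ≤ B * (e * Z) + B * (e * Z) :=
        (abs_sub _ _).trans (add_le_add h2 h4)
    _ ≤ 4 * e * B * Z' := by nlinarith [mul_nonneg hB he0]

/-- The weights at two nearby couplings are nearly proportional. -/
lemma wt_close {θ θ' c : ℝ} (hθ : 0 ≤ θ) (hθc : θ ≤ c) (hθ' : 0 ≤ θ') (hθ'c : θ' ≤ c)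
    (hc : c < 1) (D S : Finset V) (hsmall : (edgesIn G D).card * (|θ' - θ| / (1 - c)) ≤ 1) :
    |wt G θ' D (spin S) - wt G θ D (spin S)| ≤
      2 * ((edgesIn G D).card * (|θ' - θ| / (1 - c))) * wt G θ D (spin S) := by
  set q := |θ' - θ| / (1 - c) with hq
  have hc0 : 0 < 1 - c := by linarith
  have hq0 : 0 ≤ q := by positivity
  have key : ∀ a b : ℝ, 0 ≤ a → a ≤ c → 0 ≤ b → b ≤ c → |b - a| / (1 - c) = q →
      wt G b D (spin S) ≤ wt G a D (spin S) * Real.exp ((edgesIn G D).card * q) := by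
    intro a b ha hac hb hbc hab
    have hfac : ∀ t : ℝ, 0 ≤ t → t ≤ c → ∀ e : Sym2 V, 1 - c ≤ edgeFactor t (spin S) e := by
      intro t ht htc e
      induction e using Sym2.ind with
      | _ x y =>
        rw [edgeFactor_mk]
        unfold spin
        split_ifs <;> linarith
    unfold wt
    rw [Real.exp_nat_mul, ← Finset.prod_const, ← Finset.prod_mul_distrib]
    refine Finset.prod_le_prod (fun e _ => (hc0.le.trans (hfac b hb hbc e))) fun e _ => ?_
    induction e using Sym2.ind with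
    | _ x y =>
      have h1 := hfac a ha hac s(x, y)
      rw [edgeFactor_mk] at h1 ⊢
      rw [edgeFactor_mk]
      have hs : |spin S x * spin S y| = 1 := by rw [abs_mul, abs_spin, abs_spin, one_mul]
      have h2 : |b - a| = q * (1 - c) := by rw [← hab]; field_simp
      calc 1 + b * spin S x * spin S y
          = (1 + a * spin S x * spin S y) + (b - a) * (spin S x * spin S y) := by ring
        _ ≤ (1 + a * spin S x * spin S y) + q * (1 - c) := by
            refine add_le_add_right ?_ _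
            refine (le_abs_self _).trans ?_
            rw [abs_mul, hs, mul_one, h2]
        _ ≤ (1 + a * spin S x * spin S y) * (1 + q) := by
            nlinarith [mul_le_mul_of_nonneg_left h1 hq0]
        _ ≤ _ := mul_le_mul_of_nonneg_left (by linarith [Real.add_one_le_exp q]) (by linarith)
  have k1 := key θ θ' hθ hθc hθ' hθ'c rfl
  have k2 := key θ' θ hθ' hθ'c hθ hθc (by rw [hq, abs_sub_comm])
  set x := ((edgesIn G D).card : ℝ) * q
  have hx : 0 ≤ x := by positivity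
  have hw : 0 < wt G θ D (spin S) := wt_pos ⟨hθ, by linarith⟩ D S
  have hw' : 0 < wt G θ' D (spin S) := wt_pos ⟨hθ', by linarith⟩ D S
  have hex : Real.exp x - 1 ≤ 2 * x := by
    have := Real.abs_exp_sub_one_le (x := x) (by rwa [abs_of_nonneg hx])
    rw [abs_of_nonneg hx] at this
    linarith [le_abs_self (Real.exp x - 1)]
  have hlo : wt G θ D (spin S) * (1 - x) ≤ wt G θ' D (spin S) := by
    calc wt G θ D (spin S) * (1 - x)
        ≤ wt G θ D (spin S) * Real.exp (-x) :=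
          mul_le_mul_of_nonneg_left (by linarith [Real.add_one_le_exp (-x)]) hw.le
      _ ≤ _ := by
          rw [Real.exp_neg, ← div_eq_mul_inv, div_le_iff₀ (Real.exp_pos _)]
          exact k2
  rw [abs_le]
  constructor
  · nlinarith
  · nlinarith [mul_le_mul_of_nonneg_left hex hw.le]

lemma card_edgesIn_le (hG : G.IsTree) {D : Finset V} (hD : Closed G D) (hne : D.Nonempty) :
    (edgesIn G D).card ≤ D.card := by
  have := card_edgesIn (G := G) hG hD hne
  omega

/-- The couplings along a scheme move at most proportionally. -/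
lemma thetaAt_close {θ θ' c τ : ℝ} (hθ : θ ≤ c) (hθ' : θ' ≤ c) (hc : c < 1) (hτ0 : 0 ≤ τ)
    (hτ1 : τ ≤ 1) (hθ0 : 0 ≤ θ) (hθ'0 : 0 ≤ θ') :
    |(θ' - τ) / (1 - θ' * τ) - (θ - τ) / (1 - θ * τ)| ≤ |θ' - θ| / (1 - c) ^ 2 := by
  have d1 : 1 - c ≤ 1 - θ * τ := by linarith [mul_le_of_le_one_right hθ0 hτ1]
  have d2 : 1 - c ≤ 1 - θ' * τ := by linarith [mul_le_of_le_one_right hθ'0 hτ1]
  have hc0 : 0 < 1 - c := by linarith
  rw [div_sub_div _ _ (by linarith : (1 - θ' * τ) ≠ 0) (by linarith : (1 - θ * τ) ≠ 0), abs_div,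
    show (θ' - τ) * (1 - θ * τ) - (1 - θ' * τ) * (θ - τ) = (θ' - θ) * (1 - τ ^ 2) by ring,
    abs_mul, abs_of_pos (mul_pos (by linarith : 0 < 1 - θ' * τ) (by linarith : 0 < 1 - θ * τ))]
  refine div_le_div₀ (abs_nonneg _) (mul_le_of_le_one_right (abs_nonneg _) ?_) (by positivity) ?_
  · rw [abs_of_nonneg (by nlinarith)]; nlinarith
  · rw [sq]; exact mul_le_mul d2 d1 hc0.le (by linarith)

theorem theta_le : ∀ d : ℕ, 3 ≤ d → ∀ η : ℝ, 0 < η → η ≤ 1 / (4 * d) → ∀ (T r C : ℕ) (α ε : ℝ),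
    0 < α → α ^ 2 ≤ 1 / 2 → 0 < ε → ∃ θ₀ : ℝ, θ₀ < (Real.sqrt ((d : ℝ) - 1))⁻¹ ∧
      (Real.sqrt ((d : ℝ) - 1))⁻¹ / 2 ≤ θ₀ ∧
    ∀ (V : Type) (G : SimpleGraph V) (hG : G.IsTree) (hd : Regular G d) (hd3 : 3 ≤ d) (v : V)
      (θ' θ : ℝ), θ₀ ≤ θ → θ ≤ (Real.sqrt ((d : ℝ) - 1))⁻¹ →
    ∀ (R : ℕ), r ≤ R → ∀ (k K : ℕ), k ≤ K →
    ∀ (A : Finset V), A.card ≤ C → Closed G A → ballF hG hd hd3 v r ⊆ A →
      let S : Sch := ⟨θ', η, α, k, T⟩
      let θc := (Real.sqrt ((d : ℝ) - 1))⁻¹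
      |E G (prm θ η K) A (T * 2 ^ K) (dfn hG hd hd3 S R r v θ K A) -
          E G (prm θc η K) A (T * 2 ^ K) (dfn hG hd hd3 S R r v θc K A)| ≤ ε := by
  intro d hd3 η hη hη1 T r C α ε hα hα2 hε
  obtain ⟨hs1, hsd⟩ := sqrt_deg_facts hd3
  have hd0 : (3 : ℝ) ≤ d := by exact_mod_cast hd3
  have hη2 : η ≤ 2 := hη1.trans ((div_le_iff₀ (by positivity)).2 (by linarith))
  set c := (Real.sqrt ((d : ℝ) - 1))⁻¹ with hc
  have hc0 : 0 < c := inv_pos.2 (by linarith)
  have hc1 : c < 1 := inv_lt_one_of_one_lt₀ hs1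
  set CB := ((d : ℝ) ^ (r + 2)) ^ 2
  have hCB : 0 < CB := by positivity
  set e' := α * ε / 6 with he'
  have he'0 : 0 < e' := by positivity
  set Q := α * ε * e' / 6 with hQ
  have hQ0 : 0 < Q := by positivity
  set u := min (1 / 2) (min (ε / 16) (Real.sqrt (Q / (64 * CB * ((T : ℝ) + 1))))) with hu
  have hu0 : 0 < u := lt_min (by norm_num) (lt_min (by positivity) (by positivity))
  set τ₀ := u * (1 - c) ^ 3 / (2 * (C : ℝ) + 1) with hτ₀
  have hτ₀0 : 0 < τ₀ := by
    have : 0 < 1 - c := by linarith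
    positivity
  refine ⟨max (c / 2) (c - τ₀), max_lt (by linarith) (by linarith), le_max_left _ _, ?_⟩
  intro V G hG hd _ v θ' θ hθ₀ hθ1 R hR k K hkK A hAC hA hball S θc
  have hθh : c / 2 ≤ θ := (le_max_left _ _).trans hθ₀
  have hregθ := reg_of hd3 hη.le hη1 hθh hθ1 K
  have hregc := reg_of hd3 hη.le hη1 (show c / 2 ≤ c by linarith) le_rfl K
  have hAne : A.Nonempty := ⟨v, hball (self_mem_ballF v _)⟩
  have hΔ : |θ - c| ≤ τ₀ := by
    rw [abs_sub_comm, abs_of_nonneg (by linarith)]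
    linarith [le_max_right (c / 2) (c - τ₀), hθ₀]
  have hcard : ((edgesIn G A).card : ℝ) ≤ C := by
    exact_mod_cast (card_edgesIn_le hG hA hAne).trans hAC
  have hwt : ∀ a b : ℝ, 0 ≤ a → a ≤ c → 0 ≤ b → b ≤ c → |b - a| ≤ τ₀ / (1 - c) ^ 2 →
      ∀ σ, |wt G b A (spin σ) - wt G a A (spin σ)| ≤ u * wt G a A (spin σ) := by
    intro a b ha hac hb hbc hab σ
    have h1c : 0 < 1 - c := by linarith
    have hx : ((edgesIn G A).card : ℝ) * (|b - a| / (1 - c)) ≤ u / 2 := by
      calc ((edgesIn G A).card : ℝ) * (|b - a| / (1 - c))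
          ≤ (C : ℝ) * (τ₀ / (1 - c) ^ 2 / (1 - c)) :=
            mul_le_mul hcard (div_le_div_of_nonneg_right hab h1c.le) (by positivity)
              (Nat.cast_nonneg C)
        _ = (C : ℝ) / (2 * C + 1) * u := by rw [hτ₀]; field_simp
        _ ≤ 1 / 2 * u := by
            refine mul_le_mul_of_nonneg_right ?_ hu0.le
            rw [div_le_div_iff₀ (by positivity) two_pos]
            linarith
        _ = _ := by ring
    refine (wt_close ha hac hb hbc hc1 A σ (hx.trans ?_)).trans ?_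
    · linarith [min_le_left (1 / 2 : ℝ) (min (ε / 16) (Real.sqrt (Q / (64 * CB * ((T : ℝ) + 1)))))]
    · refine mul_le_mul_of_nonneg_right ?_ (wt_pos ⟨ha, by linarith⟩ A σ).le
      linarith
  have hsq : (1 - c) ^ 2 ≤ 1 := pow_le_one₀ (by linarith) (by linarith)
  have hτsq : τ₀ ≤ τ₀ / (1 - c) ^ 2 :=
    le_div_self hτ₀0.le (by have : 0 < 1 - c := by linarith
                            positivity) hsq
  have hu2 : u ≤ 1 / 2 := min_le_left _ _
  -- the posterior means
  have hpm : ∀ m Y w, |pmean G (prm θ η K) A Y m w - pmean G (prm c η K) A Y m w| ≤ 4 * u := by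
    intro m Y w
    unfold pmean mf
    split_ifs with hw
    swap
    · simp [hu0.le]
    have hfld : fieldH G (prm θ η K) A Y m = fieldH G (prm c η K) A Y m := rfl
    rw [hfld]
    unfold mean avg Sm
    simp only [mul_one]
    set g := fun u => Real.tanh (fieldH G (prm c η K) A Y m u)
    have hp : ∀ σ, 0 ≤ ∏ x ∈ A, (1 + g x * spin σ x) := fun σ =>
      Finset.prod_nonneg fun x _ => by
        have h1 := (Fld.tanh (fieldH G (prm c η K) A Y m)) x
        have h2 : |g x * spin σ x| ≤ 1 := by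
          rw [abs_mul, abs_spin, mul_one]; exact h1.le
        linarith [(abs_le.1 h2).1]
    obtain ⟨a0, a1, -, apar⟩ := hregθ.par m
    obtain ⟨b0, b1, -, bpar⟩ := hregc.par m
    have hclose : |thetaJ (prm θ η K) m - thetaJ (prm c η K) m| ≤ τ₀ / (1 - c) ^ 2 := by
      unfold thetaJ thetaAt
      refine (thetaAt_close (c := c) le_rfl hθ1 hc1 ?_ (Real.tanh_lt_one _).le hc0.le
        (le_trans (by linarith) hθh)).trans (div_le_div_of_nonneg_right hΔ (sq_nonneg _))
      rw [Real.tanh_eq_sinh_div_cosh]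
      exact div_nonneg (Real.sinh_nonneg_iff.2 (mul_nonneg hη.le (tcl_mem (hlev_count K) m).1))
        (Real.cosh_pos _).le
    refine le_trans (ratio_close A.powerset (B := 1)
      (w := fun σ => wt G (thetaJ (prm c η K) m) A (spin σ) * ∏ x ∈ A, (1 + g x * spin σ x))
      (w' := fun σ => wt G (thetaJ (prm θ η K) m) A (spin σ) * ∏ x ∈ A, (1 + g x * spin σ x))
      (F := fun σ => spin σ w) (fun σ _ => mul_nonneg (wt_pos bpar A σ).le (hp σ))
      (fun σ _ => ?_) (fun σ _ => (abs_spin σ w).le) hu2 zero_le_one ?_) (le_of_eq (mul_one _))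
    · rw [← sub_mul, abs_mul, abs_of_nonneg (hp σ), ← mul_assoc]
      exact mul_le_mul_of_nonneg_right
        (hwt _ _ b0 b1 a0 (a1.trans hθ1) hclose σ) (hp σ)
    · refine Finset.sum_pos (fun σ _ => mul_pos (wt_pos bpar A σ)
        (Finset.prod_pos fun x _ => ?_)) ⟨∅, Finset.empty_mem_powerset A⟩
      have h1 := (Fld.tanh (fieldH G (prm c η K) A Y m)) x
      have h2 : |g x * spin σ x| < 1 := by
        rw [abs_mul, abs_spin, mul_one]; exact h1
      linarith [(abs_lt.1 h2).1]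
  have hg : ∀ m < S.T * 2 ^ K, ∀ w ∈ ballF hG hd hd3 v r, E G (prm c η K) A (T * 2 ^ K)
      (fun _ Y => (pmean G (prm θ η K) A Y m w - pmean G (prm c η K) A Y m w) ^ 2) ≤
        16 * u ^ 2 := by
    intro m _ w _
    refine (E_mono (B := 16 * u ^ 2) (B' := 16 * u ^ 2) (Ψ := fun _ _ => 16 * u ^ 2)
      (fun σ β _ Y hY => ((measurable_pmean _ A hY m w).sub
        (measurable_pmean _ A hY m w)).pow_const 2)
      (fun _ _ _ _ _ => measurable_const) ?_ (fun _ _ => (abs_of_nonneg (by positivity)).le)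
      ?_).trans_eq (E_const _ _)
    · intro σ Y
      rw [abs_of_nonneg (sq_nonneg _)]
      have := pow_le_pow_left₀ (abs_nonneg _) (hpm m Y w) 2
      rw [sq_abs] at this
      linarith
    · intro σ _ Y
      have := pow_le_pow_left₀ (abs_nonneg _) (hpm m Y w) 2
      rw [sq_abs] at this
      linarith
  have hEQ : E G (prm c η K) A (T * 2 ^ K) (fun _ Y => pmQ hG hd hd3 S r v θ c K A A Y) ≤ Q := by
    refine (E_pmQ_le hG hd hd3 _ A _ S r v θ c K A A (fun m => (hregθ.par m).2.2.2)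
      (fun m => (hregc.par m).2.2.2) _ hg).trans ?_
    rw [Finset.sum_const, Finset.card_range, nsmul_eq_mul, ← mul_assoc _ (hlev K : ℝ) (16 * u ^ 2),
      mul_hlev K T]
    refine (mul_le_mul_of_nonneg_right (card_ballB_le hG hd hd3 v r) (by positivity)).trans ?_
    have h1 : u ^ 2 ≤ Q / (64 * CB * ((T : ℝ) + 1)) := by
      refine (pow_le_pow_left₀ hu0.le ((min_le_right _ _).trans (min_le_right _ _)) 2).trans_eq ?_
      exact Real.sq_sqrt (by positivity)
    calc CB * (4 * ((T : ℝ) * (16 * u ^ 2))) = 64 * CB * T * u ^ 2 := by ring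
      _ ≤ 64 * CB * ((T : ℝ) + 1) * (Q / (64 * CB * ((T : ℝ) + 1))) :=
          mul_le_mul (mul_le_mul_of_nonneg_left (by linarith) (by positivity)) h1 (sq_nonneg _)
            (by positivity)
      _ = Q := by field_simp
  -- the prior
  set Φ := dfn hG hd hd3 S R r v θ K A
  have hprior : |E G (prm θ η K) A (T * 2 ^ K) Φ - E G (prm c η K) A (T * 2 ^ K) Φ| ≤ 4 * u * 2 := by
    rw [Mdl.E_eq _ hregθ.nonneg hregθ.lt_one, Mdl.E_eq _ hregc.nonneg hregc.lt_one]
    refine ratio_close (B := 2) Finset.univ (fun σ _ => (wt_pos ⟨hc0.le, hc1⟩ A σ.1).le)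
      (fun σ _ => hwt c θ hc0.le le_rfl (le_trans (by linarith) hθh) hθ1 (hΔ.trans hτsq) σ.1)
      (fun σ _ => ?_) hu2 zero_le_two
      (Finset.sum_pos (fun σ _ => wt_pos ⟨hc0.le, hc1⟩ A σ.1)
        ⟨⟨∅, Finset.empty_mem_powerset A⟩, Finset.mem_univ _⟩)
    have : IsProbabilityMeasure (Gen.nl (ι := obsIx G A) (hlev K) (T * 2 ^ K)) := by
      unfold Gen.nl; infer_instance
    have := norm_integral_le_of_norm_le_const
      (μ := Gen.nl (ι := obsIx G A) (hlev K) (T * 2 ^ K)) (C := 2)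
      (f := fun ξ => Φ σ.1 (tot G A (Gen.plant (feat G η (2 ^ K) A) (hlev K) σ ξ)))
      (ae_of_all _ fun ξ => dfn_bound hG hd hd3 S R r v θ K A _ _)
    simpa using this
  have hdiff := E_dfn_diff_le hG hd hd3 (prm c η K) A (T * 2 ^ K) S hα hα2 hη.le hη2 hR v θ c hkK
    A A (fun m => (hregθ.par m).2.2.2) (fun m => (hregc.par m).2.2.2) he'0 hEQ
  refine (abs_sub_le _ (E G (prm c η K) A (T * 2 ^ K) Φ) _).trans ?_
  refine (add_le_add hprior hdiff).trans ?_
  have hu16 : u ≤ ε / 16 := (min_le_right _ _).trans (min_le_left _ _)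
  have e : 3 / S.α * (Q / (2 * e') + e' / 2) = ε / 2 := by
    simp only [S, hQ, he']
    field_simp
    ring
  rw [e]
  linarith

end

end Vale.Agent.P161.Edge
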