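import Vale.Agent.P161.Edge.Statements
import Vale.Agent.P161.Cumulant

/-!
Branches of a tree, and the dependence of the squared regression sums on the fields.
-/

namespace Vale.Agent.P161.Edge

open Finset Function
open scoped Classical

noncomputable section

variable {V : Type} {G : SimpleGraph V}

/-- The children of `w` seen from its neighbour `p`. -/
def ch (G : SimpleGraph V) (D : Finset V) (w p : V) : Finset V :=
  D.filter fun z => G.Adj w z ∧ z ≠ p

/-- A vertex together with the branches at some of its neighbours. -/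
def part (G : SimpleGraph V) (D : Finset V) (w : V) (F : Finset V) : Finset V :=
  insert w (F.biUnion fun z => branch G D z w)

/-- The regression coefficient across an edge as a function of the cavity mean. -/
def rq (θ A : ℝ) : ℝ := θ * (1 - A ^ 2) / (1 - θ ^ 2 * A ^ 2)

lemma mem_ch {D : Finset V} {w p z : V} : z ∈ ch G D w p ↔ z ∈ D ∧ G.Adj w z ∧ z ≠ p := by
  simp [ch]

lemma mem_branch {D : Finset V} {w p x : V} : x ∈ branch G D w p ↔ x ∈ D ∧ Btw G p w x := by
  simp [branch]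

lemma btw_nbr {w z x : V} (h : G.Adj w z) :
    Btw G w z x ↔ G.dist w x = G.dist z x + 1 := by
  rw [Btw, SimpleGraph.dist_eq_one_iff_adj.2 h]
  omega

lemma btw_self_of_adj {w z : V} (_h : G.Adj w z) : Btw G w z z := by
  simp [Btw]

lemma not_btw_back {w z : V} (h : G.Adj w z) : ¬Btw G w z w := by
  rw [btw_nbr h]
  simp

/-- A step from a branch stays in the branch unless it reaches the vertex behind it. -/
lemma btw_step (hG : G.IsTree) {w z x y : V} (hwz : G.Adj w z) (h : Btw G w z x)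
    (hxy : G.Adj x y) (hyw : y ≠ w) : Btw G w z y := by
  rw [btw_nbr hwz] at h ⊢
  have hw : G.dist w y ≤ G.dist w z + G.dist z y := hG.connected.dist_triangle
  rw [SimpleGraph.dist_eq_one_iff_adj.2 hwz] at hw
  rcases hG.dist_eq_dist_add_one_of_adj w hxy with h1 | h1 <;>
    rcases hG.dist_eq_dist_add_one_of_adj z hxy with h2 | h2
  · omega
  · exfalso
    by_cases hxz : x = z
    · subst hxz
      rw [SimpleGraph.dist_self] at h
      exact hyw (hG.connected.dist_eq_zero_iff.1 (show G.dist w y = 0 by omega)).symm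
    · obtain ⟨q, hxq, hq⟩ := exists_closer hG (u := z) hxz
      have hw' : G.dist w q ≤ G.dist w z + G.dist z q := hG.connected.dist_triangle
      rw [SimpleGraph.dist_eq_one_iff_adj.2 hwz] at hw'
      rcases hG.dist_eq_dist_add_one_of_adj w hxq with h3 | h3
      · have := closer_unique hG hxy hxq h1 h3
        subst this
        omega
      · omega
  · omega
  · omega

lemma btw_unique (hG : G.IsTree) {w z z' x : V} (h : G.Adj w z) (h' : G.Adj w z')
    (hb : Btw G w z x) (hb' : Btw G w z' x) : z = z' := by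
  rw [btw_nbr h] at hb
  rw [btw_nbr h'] at hb'
  refine closer_unique hG (u := x) h h' ?_ ?_
  · rw [SimpleGraph.dist_comm (u := x) (v := w), SimpleGraph.dist_comm (u := x) (v := z)]
    exact hb
  · rw [SimpleGraph.dist_comm (u := x) (v := w), SimpleGraph.dist_comm (u := x) (v := z')]
    exact hb'

lemma btw_exists {D : Finset V} (hD : Closed G D) {w x : V} (hw : w ∈ D)
    (hx : x ∈ D) (hxw : x ≠ w) : ∃ z ∈ D, G.Adj w z ∧ Btw G w z x := by
  obtain ⟨z, hz, hwz, hd⟩ := hD x hx w hw hxw.symm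
  refine ⟨z, hz, hwz, (btw_nbr hwz).2 ?_⟩
  rw [SimpleGraph.dist_comm (u := w) (v := x), SimpleGraph.dist_comm (u := z) (v := x)]
  exact hd

lemma self_mem_branch {D : Finset V} {w p : V} (hw : w ∈ D) (h : G.Adj p w) :
    w ∈ branch G D w p :=
  mem_branch.2 ⟨hw, btw_self_of_adj h⟩

lemma notMem_branch {D : Finset V} {w p : V} (h : G.Adj p w) : p ∉ branch G D w p :=
  fun hm => not_btw_back h (mem_branch.1 hm).2

lemma branch_step (hG : G.IsTree) {D : Finset V} {w p x y : V} (h : G.Adj p w)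
    (hx : x ∈ branch G D w p) (hy : y ∈ D) (hxy : G.Adj x y) : y = p ∨ y ∈ branch G D w p := by
  by_cases hyp : y = p
  · exact Or.inl hyp
  · exact Or.inr (mem_branch.2 ⟨hy, btw_step hG h (mem_branch.1 hx).2 hxy hyp⟩)

lemma branch_disjoint (hG : G.IsTree) {D D' : Finset V} {w z z' x : V} (h : G.Adj w z)
    (h' : G.Adj w z') (hx : x ∈ branch G D z w) (hx' : x ∈ branch G D' z' w) : z = z' :=
  btw_unique hG h h' (mem_branch.1 hx).2 (mem_branch.1 hx').2

lemma mem_part {D F : Finset V} {w x : V} :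
    x ∈ part G D w F ↔ x = w ∨ ∃ z ∈ F, x ∈ branch G D z w := by
  simp [part]

lemma part_subset {D F : Finset V} {w : V} (hw : w ∈ D) : part G D w F ⊆ D := fun x hx => by
  rcases mem_part.1 hx with rfl | ⟨z, _, hz⟩
  · exact hw
  · exact (mem_branch.1 hz).1

lemma closed_part (hG : G.IsTree) {D F : Finset V} (hD : Closed G D) {w : V} (hw : w ∈ D)
    (hF : ∀ z ∈ F, z ∈ D ∧ G.Adj w z) : Closed G (part G D w F) := by
  intro v hv x hx hxv
  have hvD := part_subset hw hv
  have hxD := part_subset hw hx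
  obtain ⟨q, hqD, hxq, hd⟩ := hD v hvD x hxD hxv
  refine ⟨q, ?_, hxq, hd⟩
  rcases mem_part.1 hx with rfl | ⟨z, hzF, hxz⟩
  · rcases mem_part.1 hv with rfl | ⟨z, hzF, hvz⟩
    · exact absurd rfl hxv
    · have hb : Btw G x q v := (btw_nbr hxq).2 (by
        rw [SimpleGraph.dist_comm (u := x) (v := v), SimpleGraph.dist_comm (u := q) (v := v)]
        exact hd)
      obtain rfl := btw_unique hG hxq (hF z hzF).2 hb (mem_branch.1 hvz).2
      exact mem_part.2 (Or.inr ⟨q, hzF, self_mem_branch hqD hxq⟩)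
  · rcases branch_step hG (hF z hzF).2 hxz hqD hxq with h | h
    · exact mem_part.2 (Or.inl h)
    · exact mem_part.2 (Or.inr ⟨z, hzF, h⟩)

lemma branch_eq_part (hG : G.IsTree) {D : Finset V} (hD : Closed G D) {w p : V} (hw : w ∈ D)
    (h : G.Adj p w) : branch G D w p = part G D w (ch G D w p) := by
  ext x
  rw [mem_part]
  constructor
  · intro hx
    obtain ⟨hxD, hb⟩ := mem_branch.1 hx
    by_cases hxw : x = w
    · exact Or.inl hxw
    obtain ⟨z, hz, hwz, hbz⟩ := btw_exists hD hw hxD hxw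
    refine Or.inr ⟨z, mem_ch.2 ⟨hz, hwz, ?_⟩, mem_branch.2 ⟨hxD, hbz⟩⟩
    rintro rfl
    rw [btw_nbr h] at hb
    rw [btw_nbr hwz] at hbz
    omega
  · rintro (rfl | ⟨z, hz, hxz⟩)
    · exact self_mem_branch hw h
    · obtain ⟨_, hwz, hzp⟩ := mem_ch.1 hz
      obtain ⟨hxD, hb⟩ := mem_branch.1 hxz
      refine mem_branch.2 ⟨hxD, ?_⟩
      rw [btw_nbr hwz] at hb
      rw [btw_nbr h]
      rcases hG.dist_eq_dist_add_one_of_adj x h with h1 | h1
      · rw [SimpleGraph.dist_comm (u := p) (v := x), SimpleGraph.dist_comm (u := w) (v := x)]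
        exact h1
      · exfalso
        refine hzp (btw_unique hG hwz h.symm ((btw_nbr hwz).2 hb) ((btw_nbr h.symm).2 ?_))
        rw [SimpleGraph.dist_comm (u := p) (v := x), SimpleGraph.dist_comm (u := w) (v := x)]
        exact h1

lemma closed_branch (hG : G.IsTree) {D : Finset V} (hD : Closed G D) {w p : V} (hw : w ∈ D)
    (h : G.Adj p w) : Closed G (branch G D w p) := by
  rw [branch_eq_part hG hD hw h]
  exact closed_part hG hD hw fun z hz => ⟨(mem_ch.1 hz).1, (mem_ch.1 hz).2.1⟩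

lemma branch_eq_of_subset {A D : Finset V} {w p : V} (hA : A ⊆ D)
    (h : branch G D w p ⊆ A) : branch G A w p = branch G D w p := by
  ext x
  rw [mem_branch]
  exact ⟨fun hx => mem_branch.2 ⟨hA hx.1, hx.2⟩, fun hx => ⟨h hx, (mem_branch.1 hx).2⟩⟩

lemma branch_part {D F : Finset V} {w z : V} (hw : w ∈ D) (hz : z ∈ F) :
    branch G (part G D w F) z w = branch G D z w :=
  branch_eq_of_subset (part_subset hw) fun _ hx => mem_part.2 (Or.inr ⟨z, hz, hx⟩)

lemma branch_ssubset (hG : G.IsTree) {D : Finset V} (hD : Closed G D) {w p z : V} (hw : w ∈ D)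
    (h : G.Adj p w) (hz : z ∈ ch G D w p) : branch G D z w ⊂ branch G D w p := by
  rw [Finset.ssubset_iff_of_subset]
  · exact ⟨w, self_mem_branch hw h, notMem_branch (mem_ch.1 hz).2.1⟩
  · rw [branch_eq_part hG hD hw h]
    exact fun x hx => mem_part.2 (Or.inr ⟨z, hz, hx⟩)

lemma ch_eq_of_branch_eq (hG : G.IsTree) {D D' : Finset V} {w p : V} (hD : Closed G D)
    (hD' : Closed G D') (hw : w ∈ D) (hw' : w ∈ D') (h : G.Adj p w)
    (hb : branch G D w p = branch G D' w p) :
    ch G D w p = ch G D' w p ∧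
      ∀ z ∈ ch G D w p, branch G D z w = branch G D' z w := by
  have key : ∀ {A A' : Finset V}, Closed G A → w ∈ A →
      branch G A w p = branch G A' w p → ∀ z ∈ ch G A w p, z ∈ A' ∧
        branch G A z w ⊆ branch G A' z w := by
    intro A A' hA hwA hAA z hz
    obtain ⟨hzA, hwz, _⟩ := mem_ch.1 hz
    have sub : branch G A z w ⊆ branch G A' w p := by
      rw [← hAA, branch_eq_part hG hA hwA h]
      exact fun x hx => mem_part.2 (Or.inr ⟨z, hz, hx⟩)
    refine ⟨(mem_branch.1 (sub (self_mem_branch hzA hwz))).1, fun x hx => ?_⟩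
    exact mem_branch.2 ⟨(mem_branch.1 (sub hx)).1, (mem_branch.1 hx).2⟩
  have e : ch G D w p = ch G D' w p := by
    ext z
    constructor
    · intro hz
      exact mem_ch.2 ⟨(key hD hw hb z hz).1, (mem_ch.1 hz).2⟩
    · intro hz
      exact mem_ch.2 ⟨(key hD' hw' hb.symm z hz).1, (mem_ch.1 hz).2⟩
  refine ⟨e, fun z hz => Finset.Subset.antisymm (key hD hw hb z hz).2 ?_⟩
  exact (key hD' hw' hb.symm z (e ▸ hz)).2

/-! ### Neighbour counts -/

lemma card_nbrs_le {d : ℕ} (hd : Regular G d) (hd3 : 3 ≤ d) (D : Finset V) (w : V) :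
    (D.filter (G.Adj w)).card ≤ d := by
  have hf := hd.finite_nbr hd3 w
  rw [← hd w, ← Set.ncard_coe_finset]
  refine Set.ncard_le_ncard ?_ hf
  intro z hz
  simpa using (Finset.mem_filter.1 hz).2

lemma card_ch_le {d : ℕ} (hd : Regular G d) (hd3 : 3 ≤ d) {D : Finset V} {w p : V}
    (h : G.Adj p w) : (ch G D w p).card ≤ d - 1 := by
  have hf := hd.finite_nbr hd3 w
  rw [← hd w, ← Set.ncard_sdiff_singleton_of_mem (a := p) (show p ∈ G.neighborSet w from h.symm),
    ← Set.ncard_coe_finset]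
  refine Set.ncard_le_ncard ?_ hf.sdiff
  intro z hz
  obtain ⟨_, hwz, hzp⟩ := mem_ch.1 hz
  exact ⟨hwz, by simpa using hzp⟩

lemma card_ch_eq {d : ℕ} (hd : Regular G d) (hd3 : 3 ≤ d) {D : Finset V} {w p : V}
    (h : G.Adj p w) (hall : ∀ z, G.Adj w z → z ∈ D) : (ch G D w p).card = d - 1 := by
  have hf := hd.finite_nbr hd3 w
  rw [← hd w, ← Set.ncard_sdiff_singleton_of_mem (a := p) (show p ∈ G.neighborSet w from h.symm),
    ← Set.ncard_coe_finset]
  congr 1
  ext z
  simp only [Finset.mem_coe, mem_ch, Set.mem_sdiff, SimpleGraph.mem_neighborSet,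
    Set.mem_singleton_iff]
  exact ⟨fun hz => hz.2, fun hz => ⟨hall z hz.1, hz⟩⟩

/-! ### Posterior quantities -/

section posterior

variable {θ : ℝ} {d : ℕ} {D : Finset V} {g : V → ℝ}

lemma rq_bounds (h0 : 0 ≤ θ) (h1 : θ < 1) {A : ℝ} (hA : |A| ≤ 1) :
    0 ≤ rq θ A ∧ rq θ A ≤ θ ∧ rq θ A ^ 2 ≤ θ ^ 2 * (1 - (1 - θ ^ 2) * A ^ 2) := by
  have hA2 : A ^ 2 ≤ 1 := by
    have := pow_le_one₀ (n := 2) (abs_nonneg A) hA
    rwa [sq_abs] at this
  have ht : θ ^ 2 < 1 := by nlinarith
  have hden : 0 < 1 - θ ^ 2 * A ^ 2 := by nlinarith [sq_nonneg A, sq_nonneg θ]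
  set r := (1 - A ^ 2) / (1 - θ ^ 2 * A ^ 2) with hr
  have e : rq θ A = θ * r := by rw [rq, hr, mul_div_assoc]
  have r0 : 0 ≤ r := div_nonneg (by linarith) hden.le
  have r1 : r ≤ 1 - (1 - θ ^ 2) * A ^ 2 := by
    rw [hr, div_le_iff₀ hden]
    nlinarith [mul_nonneg (mul_nonneg (sq_nonneg θ) (sq_nonneg A))
      (mul_nonneg (sub_nonneg.2 ht.le) (sq_nonneg A)), sq_nonneg θ]
  have r2 : r ≤ 1 := r1.trans (by nlinarith [sq_nonneg A])
  refine ⟨by rw [e]; positivity, by rw [e]; exact mul_le_of_le_one_right h0 r2, ?_⟩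
  rw [e, mul_pow]
  refine mul_le_mul_of_nonneg_left ?_ (sq_nonneg θ)
  calc r ^ 2 = r * r := sq r
    _ ≤ 1 * r := mul_le_mul_of_nonneg_right r2 r0
    _ ≤ _ := by rw [one_mul]; exact r1

lemma mean_congr {B : Finset V} {g g' : V → ℝ} (h : ∀ v ∈ B, g v = g' v) (v : V) :
    mean G θ B g v = mean G θ B g' v := by
  unfold mean avg
  rw [Sm_congr (f := fun s => s v) (f' := fun s => s v) h fun _ _ => rfl,
    Sm_congr (f := fun _ => (1 : ℝ)) (f' := fun _ => (1 : ℝ)) h fun _ _ => rfl]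

lemma spin_sdiff {B S : Finset V} {v : V} (hv : v ∈ B) : spin (B \ S) v = -spin S v := by
  unfold spin
  by_cases h : v ∈ S <;> simp [hv, h]

lemma Sm_neg (B : Finset V) (g : V → ℝ) {f : (V → ℝ) → ℝ} (hf : DepOn f B) :
    Sm G θ B (fun v => -g v) f = Sm G θ B g (fun s => f fun v => -s v) := by
  unfold Sm
  refine Finset.sum_bij' (fun S _ => B \ S) (fun S _ => B \ S)
    (fun S _ => Finset.mem_powerset.2 Finset.sdiff_subset)
    (fun S _ => Finset.mem_powerset.2 Finset.sdiff_subset)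
    (fun S hS => Finset.sdiff_sdiff_eq_self (Finset.mem_powerset.1 hS))
    (fun S hS => Finset.sdiff_sdiff_eq_self (Finset.mem_powerset.1 hS)) fun S _ => ?_
  have hw : wt G θ B (spin (B \ S)) = wt G θ B (spin S) := by
    refine Finset.prod_congr rfl fun e he => ?_
    induction e using Sym2.ind with
    | _ a b =>
      simp only [edgesIn, Finset.mem_filter, Finset.mk_mem_sym2_iff] at he
      rw [edgeFactor_mk, edgeFactor_mk, spin_sdiff he.1.1, spin_sdiff he.1.2]
      ring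
  rw [hw, hf (spin S) (fun v => -spin (B \ S) v) fun v hv => by simp [spin_sdiff hv]]
  congr 2
  refine Finset.prod_congr rfl fun v hv => ?_
  rw [spin_sdiff hv]
  ring

lemma mean_neg {B : Finset V} (g : V → ℝ) {v : V} (hv : v ∈ B) :
    mean G θ B (fun u => -g u) v = -mean G θ B g v := by
  unfold mean avg
  rw [Sm_neg B g (f := fun s => s v) (depOn_eval hv),
    Sm_neg B g (f := fun _ => (1 : ℝ)) fun _ _ _ => rfl,
    show (fun s : V → ℝ => -s v) = fun s => (-1 : ℝ) * s v from funext fun s => by ring,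
    Sm_smul]
  ring

lemma mean_zero_field {B : Finset V} {v : V}
    (hv : v ∈ B) : mean G θ B (fun _ => 0) v = 0 := by
  have h := mean_neg (G := G) (θ := θ) (fun _ : V => (0 : ℝ)) hv
  simp only [neg_zero] at h
  linarith

lemma Fld.neg (hg : Fld g) : Fld (fun v => -g v) := fun v => by rw [abs_neg]; exact hg v

/-- What is used of the tree posterior. -/
structure TreeFacts (G : SimpleGraph V) (θ : ℝ) (D : Finset V) (g : V → ℝ) : Prop where
  var_pos : ∀ v ∈ D, 0 < 1 - mean G θ D g v ^ 2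
  reg_le : ∀ v ∈ D, ∀ w ∈ D, 0 ≤ reg G θ D g v w ∧ reg G θ D g v w ≤ θ ^ G.dist v w
  cav_lt : ∀ w ∈ D, ∀ z ∈ D, G.Adj w z → |cav G θ D g z w| < 1
  reg_eq : ∀ w ∈ D, ∀ z ∈ D, G.Adj w z → reg G θ D g w z = rq θ (cav G θ D g z w)
  sqD_eq : ∀ p ∈ D, ∀ w ∈ D, G.Adj p w →
    sqD G θ D g w p = 1 + ∑ z ∈ ch G D w p, rq θ (cav G θ D g z w) ^ 2 * sqD G θ D g z w
  sqS_eq : ∀ c ∈ D,
    sqS G θ D g c = 1 + ∑ w ∈ D.filter (G.Adj c), rq θ (cav G θ D g w c) ^ 2 * sqD G θ D g w c
  reg_mul : ∀ c ∈ D, ∀ v ∈ D, ∀ x ∈ D, Btw G c v x →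
    reg G θ D g c x = reg G θ D g c v * reg G θ D g v x

lemma TreeStmt.facts (hT : TreeStmt) (hG : G.IsTree) (hd3 : 3 ≤ d) (hd : Regular G d)
    (hθ : Par θ) (hD : Closed G D) (hg : Fld g) : TreeFacts G θ D g := by
  obtain ⟨h1, h2, h3, h4, h5, _⟩ := hT V G d θ D g hG hd3 hd hθ hD hg
  refine ⟨h1, fun v hv w hw => ⟨(h2 v hv w hw).2.1, (h2 v hv w hw).2.2.2⟩,
    fun w hw z hz ha => (h4 w hw z hz ha).1, fun w hw z hz ha => (h4 w hw z hz ha).2.1,
    fun p hp w hw ha => ?_, fun c hc => ?_, h3⟩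
  · rw [(h4 p hp w hw ha).2.2]
    congr 1
    refine Finset.sum_congr rfl fun z hz => ?_
    obtain ⟨hz', hwz, _⟩ := mem_ch.1 hz
    rw [(h4 w hw z hz' hwz).2.1]
    rfl
  · rw [h5 c hc]
    congr 1
    refine Finset.sum_congr rfl fun z hz => ?_
    obtain ⟨hz', hwz⟩ := Finset.mem_filter.1 hz
    rw [(h4 c hc z hz' hwz).2.1]
    rfl

lemma sqD_nonneg (g : V → ℝ) (w p : V) : 0 ≤ sqD G θ D g w p :=
  Finset.sum_nonneg fun _ _ => sq_nonneg _

lemma sqS_nonneg (g : V → ℝ) (c : V) : 0 ≤ sqS G θ D g c :=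
  Finset.sum_nonneg fun _ _ => sq_nonneg _

lemma TreeFacts.sum_le (hf : TreeFacts G θ D g) (hθ : Par θ) {c : V} (hc : c ∈ D) {A : Finset V}
    (hA : A ⊆ D) : ∑ x ∈ A, reg G θ D g c x ^ 2 ≤ D.card := by
  refine (Finset.sum_le_card_nsmul A _ 1 fun x hx => ?_).trans ?_
  · obtain ⟨r0, r1⟩ := hf.reg_le c hc x (hA hx)
    exact pow_le_one₀ r0 (r1.trans (pow_le_one₀ hθ.1 hθ.2.le))
  · rw [nsmul_eq_mul, mul_one]
    exact_mod_cast Finset.card_le_card hA

/-- The squared sum into a branch only looks at the fields inside it. -/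
lemma sqD_congr (hT : TreeStmt) (hG : G.IsTree) (hd3 : 3 ≤ d) (hd : Regular G d) (hθ : Par θ) :
    ∀ (B : Finset V) {D D' : Finset V} {g g' : V → ℝ} {w p : V}, Closed G D → Closed G D' →
      Fld g → Fld g' → p ∈ D → p ∈ D' → w ∈ D → w ∈ D' → G.Adj p w →
      branch G D w p = B → branch G D' w p = B → (∀ x ∈ B, x ≠ w → g x = g' x) →
      sqD G θ D g w p = sqD G θ D' g' w p := by
  intro B
  induction B using Finset.strongInduction with
  | H B ih =>
    intro D D' g g' w p hD hD' hg hg' hp hp' hw hw' ha hb hb' hgg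
    obtain ⟨hc, hbz⟩ := ch_eq_of_branch_eq hG hD hD' hw hw' ha (hb.trans hb'.symm)
    rw [(hT.facts hG hd3 hd hθ hD hg).sqD_eq p hp w hw ha,
      (hT.facts hG hd3 hd hθ hD' hg').sqD_eq p hp' w hw' ha, ← hc]
    congr 1
    refine Finset.sum_congr rfl fun z hz => ?_
    obtain ⟨hzD, hwz, _⟩ := mem_ch.1 hz
    have hzD' : z ∈ D' := (mem_ch.1 (hc ▸ hz)).1
    have hlt := branch_ssubset hG hD hw ha hz
    rw [hb] at hlt
    have hgz : ∀ x ∈ branch G D z w, g x = g' x := fun x hx =>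
      hgg x (hlt.subset hx) fun e => notMem_branch hwz (e ▸ hx)
    rw [ih _ hlt hD hD' hg hg' hw hw' hzD hzD' hwz rfl (hbz z hz).symm
      fun x hx _ => hgz x hx]
    congr 2
    unfold cav
    rw [← hbz z hz, mean_congr hgz]

/-- The squared sum into a branch is even in the fields. -/
lemma sqD_neg (hT : TreeStmt) (hG : G.IsTree) (hd3 : 3 ≤ d) (hd : Regular G d) (hθ : Par θ)
    (hD : Closed G D) (hg : Fld g) :
    ∀ (B : Finset V) {w p : V}, p ∈ D → w ∈ D → G.Adj p w → branch G D w p = B →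
      sqD G θ D (fun v => -g v) w p = sqD G θ D g w p := by
  intro B
  induction B using Finset.strongInduction with
  | H B ih =>
    intro w p hp hw ha hb
    rw [(hT.facts hG hd3 hd hθ hD (Fld.neg hg)).sqD_eq p hp w hw ha,
      (hT.facts hG hd3 hd hθ hD hg).sqD_eq p hp w hw ha]
    congr 1
    refine Finset.sum_congr rfl fun z hz => ?_
    obtain ⟨hzD, hwz, _⟩ := mem_ch.1 hz
    rw [ih _ (hb ▸ branch_ssubset hG hD hw ha hz) hw hzD hwz rfl]
    congr 1
    unfold cav rq
    rw [mean_neg g (self_mem_branch hzD hwz), neg_sq]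

/-- At zero fields covariances are powers of `θ`. -/
lemma cv_zero_field (hT : TreeStmt) (hG : G.IsTree) (hd3 : 3 ≤ d) (hd : Regular G d) (hθ : Par θ)
    (hD : Closed G D) :
    ∀ (n : ℕ) {x y : V}, x ∈ D → y ∈ D → G.dist x y = n →
      cv G θ D (fun _ => 0) x y = θ ^ n := by
  have hf := hT.facts hG hd3 hd hθ hD (g := fun _ => 0) Fld.zero
  have hm : ∀ v ∈ D, mean G θ D (fun _ => 0) v = 0 := fun v hv => mean_zero_field hv
  have hreg : ∀ x ∈ D, ∀ y, reg G θ D (fun _ => 0) x y = cv G θ D (fun _ => 0) x y := by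
    intro x hx y
    rw [reg, hm x hx]
    norm_num
  intro n
  induction n with
  | zero =>
    intro x y hx _ hn
    obtain rfl := hG.connected.dist_eq_zero_iff.1 hn
    rw [cv_self hθ D Fld.zero, hm x hx]
    norm_num
  | succ n ih =>
    intro x y hx hy hn
    have hxy : y ≠ x := by rintro rfl; simp at hn
    obtain ⟨q, hq, hxq, hb⟩ := btw_exists hD hx hy hxy
    have hqy : G.dist q y = n := by
      rw [btw_nbr hxq] at hb
      omega
    rw [← hreg x hx y, hf.reg_mul x hx q hq y hy hb, hreg q hq y, ih hq hy hqy,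
      hf.reg_eq x hx q hq hxq]
    unfold cav rq
    rw [mean_zero_field (self_mem_branch hq hxq)]
    ring

end posterior

end

end Vale.Agent.P161.Edge
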