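import Vale.Agent.P161.Edge.Step
import Vale.Agent.P161.Edge.GenLaw
import Vale.Agent.P161.Edge.Tree
import Vale.Agent.P161.Edge.ProbTree
import Vale.Agent.P161.Edge.Model

/-!
Moments of the posterior mean at the root: they grow like `(A p √t) ^ p`, so a mean of order one
has probability at most `exp (-c / √t)`.
-/

namespace Vale.Agent.P161.Edge

open MeasureTheory ProbabilityTheory Finset Function
open scoped NNReal Classical

noncomputable section

/-! ### Elementary inequalities -/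

/-- The growth of `u ^ q` when `u ^ 2` grows by `h`. -/
lemma pow_gain {u v h : ℝ} (hu : 0 < u) (hv : 0 ≤ v) (hh : 0 ≤ h) (hv2 : v ^ 2 = u ^ 2 + h)
    (hhu : h ≤ u ^ 2) (q : ℕ) :
    h / (3 * u) ≤ v - u ∧ u ^ q + q * u ^ (q - 1) * (h / (3 * u)) ≤ v ^ q := by
  have huv : u ≤ v := by nlinarith
  have hv3 : v ≤ 2 * u := by nlinarith
  have hd : h / (3 * u) ≤ v - u := by
    rw [div_le_iff₀ (by positivity)]
    nlinarith
  refine ⟨hd, ?_⟩
  have h0 : 0 ≤ h / (3 * u) := by positivity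
  have hle : ∀ m : ℕ, u ^ m + m * u ^ (m - 1) * (v - u) ≤ v ^ m := by
    intro m
    induction m with
    | zero => simp
    | succ m ih =>
      rcases Nat.eq_zero_or_pos m with rfl | hm
      · simp
      have e : u ^ m = u ^ (m - 1) * u := by
        conv_lhs => rw [← Nat.succ_pred_eq_of_pos hm, pow_succ]
        rfl
      have hp : 0 ≤ u ^ (m - 1) := by positivity
      have hm0 : (0:ℝ) ≤ m := Nat.cast_nonneg m
      rw [Nat.add_sub_cancel, pow_succ, pow_succ]
      push_cast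
      calc u ^ m * u + ((m:ℝ) + 1) * u ^ m * (v - u)
          ≤ (u ^ m + m * u ^ (m - 1) * (v - u)) * v := by
            rw [e]
            nlinarith [mul_nonneg (mul_nonneg hm0 hp) (sq_nonneg (v - u))]
        _ ≤ v ^ m * v := mul_le_mul_of_nonneg_right ih hv
  refine le_trans ?_ (hle q)
  exact add_le_add_right (mul_le_mul_of_nonneg_left hd (by positivity)) _

/-- A stretched double exponential is below any admissible power. -/
lemma small_bad {c a : ℝ} (hc : 0 < c) (ha : 0 < a) (C : ℝ) :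
    ∃ u₀ : ℝ, 0 < u₀ ∧ u₀ ≤ 1 ∧ ∀ (u b : ℝ) (k q : ℕ), 0 < u → u ≤ u₀ → 2 ≤ b →
      1 / u ≤ k → (q : ℝ) ≤ C / u → Real.exp (-c * b ^ k * u ^ 2) ≤ a * u ^ q := by
  set l := Real.log 2 with hl
  have hl0 : 0 < l := Real.log_pos (by norm_num)
  set c' := c * (l ^ 5 / 120) with hc'
  have hc0 : 0 < c' := by positivity
  refine ⟨min 1 (c' / (|C| + |Real.log a| + 1)), lt_min one_pos (by positivity), min_le_left _ _,
    fun u b k q hu hu₀ hb hk hq => ?_⟩
  have hu1 : u ≤ 1 := hu₀.trans (min_le_left _ _)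
  have hu2 : u * (|C| + |Real.log a| + 1) ≤ c' :=
    (le_div_iff₀ (by positivity)).1 (hu₀.trans (min_le_right _ _))
  -- the double exponential
  have h2k : (l / u) ^ 5 / 120 ≤ b ^ k := by
    calc (l / u) ^ 5 / 120 = (l / u) ^ 5 / (Nat.factorial 5 : ℕ) := by norm_num [Nat.factorial]
      _ ≤ Real.exp (l / u) := Real.pow_div_factorial_le_exp _ (by positivity) 5
      _ ≤ Real.exp (k * l) := by
          rw [Real.exp_le_exp, div_le_iff₀ hu]
          rw [div_le_iff₀ hu] at hk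
          nlinarith
      _ = 2 ^ k := by rw [Real.exp_nat_mul, hl, Real.exp_log two_pos]
      _ ≤ b ^ k := pow_le_pow_left₀ (by norm_num) hb k
  have hX : c' / u ^ 3 ≤ c * b ^ k * u ^ 2 := by
    calc c' / u ^ 3 = c * ((l / u) ^ 5 / 120) * u ^ 2 := by
          rw [hc']; field_simp
      _ ≤ _ := by gcongr
  -- the power
  have hue : Real.exp (-(1 / u)) ≤ u := by
    rw [Real.exp_neg, inv_le_comm₀ (Real.exp_pos _) hu, ← one_div]
    linarith [Real.add_one_le_exp (1 / u)]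
  have hpow : Real.exp (Real.log a - |C| / u ^ 2) ≤ a * u ^ q := by
    rw [Real.exp_sub, Real.exp_log ha, div_eq_mul_inv, ← Real.exp_neg]
    refine mul_le_mul_of_nonneg_left (le_trans ?_ (pow_le_pow_left₀ (Real.exp_pos _).le hue q)) ha.le
    rw [← Real.exp_nat_mul, Real.exp_le_exp, mul_neg, neg_le_neg_iff, mul_one_div,
      div_le_div_iff₀ hu (by positivity)]
    have h1 : (q : ℝ) * u ≤ |C| := by
      rw [le_div_iff₀ hu] at hq
      exact hq.trans (le_abs_self C)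
    nlinarith
  refine le_trans ?_ hpow
  rw [Real.exp_le_exp]
  have h3 : (|C| + |Real.log a| + 1) / u ^ 2 ≤ c' / u ^ 3 := by
    rw [div_le_div_iff₀ (by positivity) (by positivity)]
    nlinarith [mul_le_mul_of_nonneg_right hu2 (sq_nonneg u)]
  have h4 : |Real.log a| ≤ |Real.log a| / u ^ 2 := by
    rw [le_div_iff₀ (by positivity)]
    exact mul_le_of_le_one_right (abs_nonneg _) (pow_le_one₀ hu.le hu1)
  have h5 : (|C| + |Real.log a| + 1) / u ^ 2 = |C| / u ^ 2 + |Real.log a| / u ^ 2 + 1 / u ^ 2 := by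
    ring
  have h6 : 0 ≤ 1 / u ^ 2 := by positivity
  nlinarith [neg_abs_le (Real.log a)]

/-- The main part of the moment recursion. -/
lemma main_gain {κ K A u v h : ℝ} (hK : 0 ≤ K) (hκ : 0 ≤ κ) (hu : 0 < u) (hv : 0 ≤ v) (hh : 0 ≤ h)
    (hv2 : v ^ 2 = u ^ 2 + h) (hhu : h ≤ u ^ 2) (hA : 36 * κ * K + 1 ≤ A) (q : ℕ) (hq : 1 ≤ q) :
    (A * q * u) ^ q + 2 * (q : ℝ) ^ 2 * κ * h * (2 * (3 * K / u)) * (A * q * u) ^ (q - 1) ≤
      (A * q * v) ^ q := by
  obtain ⟨-, hg⟩ := pow_gain hu hv hh hv2 hhu q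
  have hA1 : 1 ≤ A := by nlinarith [mul_nonneg hκ hK]
  have hA0 : 0 ≤ A := by linarith
  obtain ⟨m, rfl⟩ : ∃ m, q = m + 1 := ⟨q - 1, by omega⟩
  simp only [Nat.add_sub_cancel] at hg ⊢
  set Q : ℝ := ((m + 1 : ℕ) : ℝ) with hQ
  have hQ0 : 0 ≤ Q := Nat.cast_nonneg _
  have h1 : (A * Q) ^ (m + 1) * (u ^ (m + 1) + Q * u ^ m * (h / (3 * u))) ≤ (A * Q * v) ^ (m + 1) := by
    rw [mul_pow (A * Q) v]
    exact mul_le_mul_of_nonneg_left hg (by positivity)
  refine le_trans ?_ h1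
  have e1 : (A * Q * u) ^ (m + 1) = (A * Q) ^ (m + 1) * u ^ (m + 1) := mul_pow _ _ _
  rw [mul_add, e1, mul_pow (A * Q) u m]
  refine add_le_add_right ?_ _
  have e2 : 2 * Q ^ 2 * κ * h * (2 * (3 * K / u)) * ((A * Q) ^ m * u ^ m)
      = (36 * κ * K) * ((A * Q) ^ m * (Q ^ 2 * u ^ m * (h / (3 * u)))) := by
    field_simp
    ring
  have e3 : (A * Q) ^ (m + 1) * (Q * u ^ m * (h / (3 * u)))
      = A * ((A * Q) ^ m * (Q ^ 2 * u ^ m * (h / (3 * u)))) := by ring
  rw [e2, e3]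
  exact mul_le_mul_of_nonneg_right (by linarith) (by positivity)

/-- The error part of the moment recursion. -/
lemma err_gain {κ K W u v h δ e : ℝ} (hκ : 0 ≤ κ) (hK : 0 ≤ K) (hu : 0 < u) (hu1 : u ≤ 1)
    (hv : 0 ≤ v) (hh : 0 ≤ h) (hv2 : v ^ 2 = u ^ 2 + h) (hhu : h ≤ u ^ 2) (hδ : 0 ≤ δ)
    (he : e ≤ δ) (he0 : 0 ≤ e) {P q : ℕ} (hq : 1 ≤ q) (hqP : q ≤ P)
    (hW : 36 * κ * K * (P : ℝ) ^ 2 + 3 ≤ W) :
    δ * W ^ q * (1 + u) + 2 * (q : ℝ) ^ 2 * κ * h * (3 * K / u) * (δ * W ^ (q - 1) * (1 + u)) + h * e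
      ≤ δ * W ^ q * (1 + v) := by
  obtain ⟨hd, -⟩ := pow_gain hu hv hh hv2 hhu q
  have hW1 : 1 ≤ W := by nlinarith [mul_nonneg (mul_nonneg hκ hK) (sq_nonneg (P : ℝ))]
  obtain ⟨m, rfl⟩ : ∃ m, q = m + 1 := ⟨q - 1, by omega⟩
  simp only [Nat.add_sub_cancel]
  have hQ : ((m + 1 : ℕ) : ℝ) ^ 2 ≤ (P : ℝ) ^ 2 :=
    pow_le_pow_left₀ (Nat.cast_nonneg _) (by exact_mod_cast hqP) 2
  set Y := δ * W ^ m * (h / (3 * u)) with hY
  have hY0 : 0 ≤ Y := by positivity
  have t1 : 2 * ((m + 1 : ℕ) : ℝ) ^ 2 * κ * h * (3 * K / u) * (δ * W ^ m * (1 + u))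
      ≤ 36 * κ * K * (P : ℝ) ^ 2 * Y := by
    have e1 : 2 * ((m + 1 : ℕ) : ℝ) ^ 2 * κ * h * (3 * K / u) * (δ * W ^ m * (1 + u))
        = 18 * κ * K * (1 + u) * ((m + 1 : ℕ) : ℝ) ^ 2 * Y := by
      rw [hY]; field_simp; ring
    rw [e1]
    refine mul_le_mul_of_nonneg_right ?_ hY0
    calc 18 * κ * K * (1 + u) * ((m + 1 : ℕ) : ℝ) ^ 2 ≤ 18 * κ * K * 2 * (P : ℝ) ^ 2 := by
          gcongr; linarith
      _ = _ := by ring
  have t2 : h * e ≤ 3 * Y := by
    have hWm : 1 ≤ W ^ m := one_le_pow₀ hW1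
    have e2 : 3 * Y = δ * W ^ m * h / u := by rw [hY]; field_simp
    rw [e2, le_div_iff₀ hu]
    calc h * e * u ≤ h * δ * 1 := by gcongr
      _ ≤ h * δ * W ^ m := by gcongr
      _ = _ := by ring
  have t3 : (36 * κ * K * (P : ℝ) ^ 2 + 3) * Y ≤ δ * W ^ (m + 1) * (v - u) := by
    calc _ ≤ W * Y := mul_le_mul_of_nonneg_right hW hY0
      _ ≤ W * (δ * W ^ m * (v - u)) := by
          refine mul_le_mul_of_nonneg_left ?_ (by linarith)
          rw [hY]
          exact mul_le_mul_of_nonneg_left hd (by positivity)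
      _ = _ := by ring
  nlinarith

/-- An exponential Markov inequality for an indicator. -/
lemma ind_le_exp {lam a x : ℝ} (hlam : 0 ≤ lam) :
    (if a ≤ |x| then (1:ℝ) else 0)
      ≤ Real.exp (-(lam * a)) * (Real.exp (lam * x) + Real.exp (-lam * x)) := by
  split_ifs with hx
  · rw [mul_add, ← Real.exp_add, ← Real.exp_add]
    rcases le_abs.1 hx with h | h
    · have : 1 ≤ Real.exp (-(lam * a) + lam * x) :=
        Real.one_le_exp (by nlinarith)
      linarith [Real.exp_pos (-(lam * a) + -lam * x)]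
    · have : 1 ≤ Real.exp (-(lam * a) + -lam * x) :=
        Real.one_le_exp (by nlinarith)
      linarith [Real.exp_pos (-(lam * a) + lam * x)]
  · positivity

/-! ### One step of the moments -/

variable {V : Type} {G : SimpleGraph V} {d : ℕ} {P : Prm} {D : Finset V}

lemma ev_spin_eq_pmean (hB : Bridge G P D) (y : ℕ → obsIx G D → ℝ) (j : ℕ) {o : V} (ho : o ∈ D) :
    Gen.ev (lk G P D j y) (spinF D o) = pmean G P D (tot G D y) j o := by
  unfold pmean mf
  rw [if_pos ho]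
  exact hB y j fun s => s o

lemma pmean_zero {o : V} (ho : o ∈ D) (Y : ℕ → V × V → ℝ) : pmean G P D Y 0 o = 0 := by
  have : fieldH G P D Y 0 = fun _ => 0 := by funext v; simp [fieldH]
  unfold pmean mf
  rw [this, if_pos ho]
  simp only [Real.tanh_zero]
  exact mean_zero_field ho

/-- The indicator that the mean is large. -/
def bigM (G : SimpleGraph V) (P : Prm) (D : Finset V) (ε : ℝ) (j : ℕ) (o : V) :
    Finset V → (ℕ → V × V → ℝ) → ℝ :=
  fun _ Y => if ε < pmean G P D Y j o ^ 2 then 1 else 0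

variable (hT : TreeStmt) (hG : G.IsTree) (hd : Regular G d) (hR : Reg d P) (hD : Closed G D)
include hG hd hR hD

omit hG hd hD in
lemma abs_pmean_le (Y : ℕ → V × V → ℝ) (i : ℕ) (v : V) : |pmean G P D Y i v| ≤ 1 :=
  abs_mf_le (hR.par i).2.2.2 D _ v

include hT

lemma sum_cov_sq_le (hB : Bridge G P D) (y : ℕ → obsIx G D → ℝ) (i : ℕ) {o : V} (ho : o ∈ D) :
    ∑ l : obsIx G D, Gen.cov (lk G P D i y) (spinF D o) (feat G P.η P.N₁ D i l) ^ 2 ≤
      kap d P.η * sqSJ G P D (tot G D y) i o := by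
  set C := fun b => pcov G P D (tot G D y) i o b with hC
  calc ∑ l : obsIx G D, Gen.cov (lk G P D i y) (spinF D o) (feat G P.η P.N₁ D i l) ^ 2
      = ∑ l ∈ obsIx G D, coef P.η P.N₁ i l ^ 2 * (∑ b ∈ D, mult l b * C b) ^ 2 := by
        rw [← Finset.attach_eq_univ, ← Finset.sum_attach (obsIx G D) (fun l =>
          coef P.η P.N₁ i l ^ 2 * (∑ b ∈ D, mult l b * C b) ^ 2)]
        refine Finset.sum_congr rfl fun l _ => ?_
        rw [feat_eq_lin, cov_spin_lin hB, ← mul_pow, Finset.mul_sum]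
        congr 1
        exact Finset.sum_congr rfl fun b _ => by simp only [hC]; ring
    _ = ∑ b ∈ D, ∑ b' ∈ D, qker G P D i b b' * (C b * C b') := by
        simp only [qker, sq (∑ b ∈ D, _), Finset.sum_mul, Finset.mul_sum]
        rw [Finset.sum_comm]
        refine Finset.sum_congr rfl fun b _ => ?_
        rw [Finset.sum_comm]
        exact Finset.sum_congr rfl fun b' _ => Finset.sum_congr rfl fun l _ => by ring
    _ ≤ ∑ b ∈ D, ∑ b' ∈ D, qker G P D i b b' * ((C b ^ 2 + C b' ^ 2) / 2) :=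
        Finset.sum_le_sum fun b _ => Finset.sum_le_sum fun b' _ =>
          mul_le_mul_of_nonneg_left (by nlinarith [sq_nonneg (C b - C b')]) (qker_nonneg i b b')
    _ = ∑ b ∈ D, (∑ b' ∈ D, qker G P D i b b') * C b ^ 2 := by
        have e : ∑ b ∈ D, ∑ b' ∈ D, qker G P D i b b' * C b' ^ 2
            = ∑ b ∈ D, ∑ b' ∈ D, qker G P D i b b' * C b ^ 2 := by
          rw [Finset.sum_comm]
          exact Finset.sum_congr rfl fun b _ => Finset.sum_congr rfl fun b' _ => by rw [qker_comm]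
        simp only [Finset.sum_mul]
        simp only [mul_div_assoc', mul_add, add_div, Finset.sum_add_distrib, ← Finset.sum_div]
        rw [e]; ring
    _ ≤ ∑ b ∈ D, kap d P.η * reg G (thetaJ P i) D (tilt G P D (tot G D y) i) o b ^ 2 := by
        refine Finset.sum_le_sum fun b _ => ?_
        refine mul_le_mul (sum_qker_le hd hR.deg hR.eta i b) ?_ (sq_nonneg _) (by
          have := hR.eta; unfold kap; positivity)
        set g := tilt G P D (tot G D y) i
        set W := 1 - mean G (thetaJ P i) D g o ^ 2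
        have hW : 0 < W :=
          (hT V G d (thetaJ P i) D g hG hR.deg hd (hR.par i).2.2.2 hD (Fld.tanh _)).1 o ho
        have hW1 : W ≤ 1 := by simp only [W]; nlinarith [sq_nonneg (mean G (thetaJ P i) D g o)]
        have e : C b = W * reg G (thetaJ P i) D g o b := by
          simp only [hC, pcov, reg]
          rw [mul_div_cancel₀ _ hW.ne']
        rw [e, mul_pow]
        exact mul_le_of_le_one_left (sq_nonneg _) (pow_le_one₀ hW.le hW1)
    _ = _ := by rw [← Finset.mul_sum]; rfl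

lemma sqSJ_le_geom (i : ℕ) (hlt : ((d : ℝ) - 1) * thetaJ P i ^ 2 < 1) (Y : ℕ → V × V → ℝ) {c : V}
    (hc : c ∈ D) : sqSJ G P D Y i c ≤ d / (1 - ((d : ℝ) - 1) * thetaJ P i ^ 2) := by
  have hb := (hT V G d (thetaJ P i) D (tilt G P D Y i) hG hR.deg hd (hR.par i).2.2.2 hD
    (Fld.tanh _)).2.1
  calc sqSJ G P D Y i c ≤ ∑ x ∈ D, (thetaJ P i ^ 2) ^ G.dist c x := by
        refine Finset.sum_le_sum fun x hx => ?_
        obtain ⟨-, h0, -, h1⟩ := hb c hc x hx
        rw [← pow_mul, mul_comm, pow_mul]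
        exact pow_le_pow_left₀ h0 h1 2
    _ ≤ d * (((d : ℝ) - 1) * thetaJ P i ^ 2) ^ 0 / (1 - ((d : ℝ) - 1) * thetaJ P i ^ 2) :=
        sum_pow_dist_le hG hd hR.deg c D (sq_nonneg _) hlt 0 fun _ _ => Nat.zero_le _
    _ = _ := by rw [pow_zero, mul_one]

/-- One step of an even moment of the mean. -/
lemma moment_step (hlaw : GenLawStmt) {K : ℝ} (hh : P.h ≠ 0) (hB : Bridge G P D) (i : ℕ) {q : ℕ}
    {o : V} (ho : o ∈ D)
    (hstep : ∀ ψ : Cfg D → ℝ,
      Gen.stepE (feat G P.η P.N₁ D) P.h i ψ (fun ψ' => Gen.ev ψ' (spinF D o) ^ (2 * q)) ≤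
        Gen.ev ψ (spinF D o) ^ (2 * q) +
          P.h * (q * (2 * q - 1)) * Gen.ev ψ (spinF D o) ^ (2 * (q - 1)) *
            ∑ l, Gen.cov ψ (spinF D o) (feat G P.η P.N₁ D i l) ^ 2 + K * P.h * Real.sqrt P.h) :
    E G P D (i + 1) (fun _ Y => pmean G P D Y (i + 1) o ^ (2 * q)) ≤
      E G P D i (fun _ Y => pmean G P D Y i o ^ (2 * q)) +
        2 * (q : ℝ) ^ 2 * kap d P.η * P.h *
          E G P D i (fun _ Y => pmean G P D Y i o ^ (2 * (q - 1)) * sqSJ G P D Y i o) +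
        K * P.h * Real.sqrt P.h := by
  set f := feat G P.η P.N₁ D
  set ψ₀ := lpw G P.θ D
  set Φ : (ℕ → obsIx G D → ℝ) → ℝ := fun y => pmean G P D (tot G D y) (i + 1) o ^ (2 * q)
  have mpow : ∀ (j r : ℕ), MeasY (fun _ Y => pmean G P D Y j o ^ r) := fun j r S β _ Y hY =>
    (measurable_pmean P D hY j o).pow_const r
  have bpow : ∀ (j r : ℕ) (Y : ℕ → V × V → ℝ), |pmean G P D Y j o ^ r| ≤ 1 := fun j r Y => by
    rw [abs_pow]; exact pow_le_one₀ (abs_nonneg _) (abs_pmean_le hR Y j o)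
  have key : E G P D (i + 1) (fun _ Y => pmean G P D Y (i + 1) o ^ (2 * q)) =
      Gen.Epl f P.h ψ₀ i (fun _ y => ∑ S, Gen.post (Gen.llk f P.h ψ₀ i y) S *
          ∫ ξ : obsIx G D → ℝ, Φ (update y i fun l => P.h * f i l S + ξ l)
            ∂(Measure.pi fun _ => gl P.h)) :=
    (hlaw (obsIx G D) (Cfg D) f P.h ψ₀ hh).2 i 1 Φ
      ⟨fun _ => mpow (i + 1) (2 * q) ∅ _ _ (measurable_tot_ext D), fun _ y => bpow _ _ _⟩
  set c₁ := 2 * (q : ℝ) ^ 2 * kap d P.η * P.h with hc₁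
  have hc₁0 : 0 ≤ c₁ := by have := hR.eta; rw [hc₁]; unfold kap; positivity
  set C := K * P.h * Real.sqrt P.h
  have hpt : ∀ y : ℕ → obsIx G D → ℝ,
      (∑ S, Gen.post (Gen.llk f P.h ψ₀ i y) S *
          ∫ ξ : obsIx G D → ℝ, Φ (update y i fun l => P.h * f i l S + ξ l)
            ∂(Measure.pi fun _ => gl P.h)) ≤
        pmean G P D (tot G D y) i o ^ (2 * q) +
          (c₁ * (pmean G P D (tot G D y) i o ^ (2 * (q - 1)) * sqSJ G P D (tot G D y) i o) + C) := by
    intro y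
    set ψ := Gen.llk f P.h ψ₀ i y
    have hΦ : ∀ (S : Cfg D) (ξ : obsIx G D → ℝ),
        Φ (update y i fun l => P.h * f i l S + ξ l) =
          Gen.ev (fun T => ψ T + Gen.inc f P.h i (fun l => P.h * f i l S + ξ l) T) (spinF D o)
            ^ (2 * q) := by
      intro S ξ
      set y' := update y i fun l => P.h * f i l S + ξ l
      have hlk : (fun T => ψ T + Gen.inc f P.h i (fun l => P.h * f i l S + ξ l) T)
          = lk G P D (i + 1) y' := by
        funext T
        simp only [lk, ψ, Gen.llk, Finset.sum_range_succ, y', update_self]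
        rw [Finset.sum_congr rfl fun k hk => show Gen.inc f P.h k
          (update y i (fun l => P.h * f i l S + ξ l) k) T = Gen.inc f P.h k (y k) T by
            rw [update_of_ne (ne_of_lt (Finset.mem_range.1 hk))]]
        rw [add_assoc]
      rw [hlk, ev_spin_eq_pmean hB y' (i + 1) ho]
    simp only [hΦ]
    refine (hstep ψ).trans ?_
    have e1 : Gen.ev ψ (spinF D o) = pmean G P D (tot G D y) i o := ev_spin_eq_pmean hB y i ho
    rw [e1]
    set m := pmean G P D (tot G D y) i o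
    have hm : 0 ≤ m ^ (2 * (q - 1)) := by rw [pow_mul]; positivity
    have hS := sum_cov_sq_le hT hG hd hR hD hB y i ho
    have hS0 : 0 ≤ ∑ l : obsIx G D, Gen.cov ψ (spinF D o) (f i l) ^ 2 :=
      Finset.sum_nonneg fun _ _ => sq_nonneg _
    have hq2 : (q : ℝ) * (2 * q - 1) ≤ 2 * (q : ℝ) ^ 2 := by nlinarith [(Nat.cast_nonneg q : (0:ℝ) ≤ q)]
    have main : P.h * ((q : ℝ) * (2 * q - 1)) * m ^ (2 * (q - 1)) *
        ∑ l : obsIx G D, Gen.cov ψ (spinF D o) (f i l) ^ 2 ≤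
        c₁ * (m ^ (2 * (q - 1)) * sqSJ G P D (tot G D y) i o) := by
      calc _ ≤ P.h * (2 * (q : ℝ) ^ 2) * m ^ (2 * (q - 1)) *
            ∑ l : obsIx G D, Gen.cov ψ (spinF D o) (f i l) ^ 2 := by gcongr
        _ ≤ P.h * (2 * (q : ℝ) ^ 2) * m ^ (2 * (q - 1)) *
            (kap d P.η * sqSJ G P D (tot G D y) i o) := by
            exact mul_le_mul_of_nonneg_left hS (by positivity)
        _ = _ := by rw [hc₁]; ring
    linarith
  rw [key]
  have mS : MeasY (fun _ Y => pmean G P D Y i o ^ (2 * (q - 1)) * sqSJ G P D Y i o) :=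
    fun S β _ Y hY => (mpow i _ S β Y hY).mul (measurable_sqSJ P D hY i o)
  have bS : ∀ Y, |pmean G P D Y i o ^ (2 * (q - 1)) * sqSJ G P D Y i o| ≤ D.card := fun Y => by
    obtain ⟨s0, s1⟩ := sqSJ_bounds hT hG hd hR hD Y i ho
    rw [abs_mul, abs_of_nonneg s0]
    calc _ ≤ 1 * (D.card : ℝ) := mul_le_mul (bpow _ _ _) s1 s0 zero_le_one
      _ = _ := one_mul _
  have bS' : ∀ Y, |c₁ * (pmean G P D Y i o ^ (2 * (q - 1)) * sqSJ G P D Y i o) + C| ≤
      c₁ * D.card + |C| := fun Y => by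
    refine (abs_add_le _ _).trans (add_le_add_left ?_ _)
    rw [abs_mul, abs_of_nonneg hc₁0]
    exact mul_le_mul_of_nonneg_left (bS Y) hc₁0
  calc _ ≤ E G P D i (fun _ Y => pmean G P D Y i o ^ (2 * q) +
        (c₁ * (pmean G P D Y i o ^ (2 * (q - 1)) * sqSJ G P D Y i o) + C)) := by
        refine Finset.sum_le_sum fun S _ => mul_le_mul_of_nonneg_left ?_ (post_nonneg _ _)
        haveI : IsProbabilityMeasure (Gen.nl (ι := obsIx G D) P.h i) := by
          unfold Gen.nl; infer_instance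
        refine integral_mono_of_nonneg (ae_of_all _ fun ξ => Finset.sum_nonneg fun T _ =>
          mul_nonneg (post_nonneg _ _) (integral_nonneg fun η' => ?_)) ?_
          (ae_of_all _ fun ξ => hpt _)
        · show (0:ℝ) ≤ Φ _
          simp only [Φ]
          rw [pow_mul]
          positivity
        · exact integrable_plant (Φ := fun _ Y => pmean G P D Y i o ^ (2 * q) +
            (c₁ * (pmean G P D Y i o ^ (2 * (q - 1)) * sqSJ G P D Y i o) + C))
            (fun S' β _ Y hY => (mpow i _ S' β Y hY).add (((mS S' β Y hY).const_mul c₁).add_const C))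
            (fun _ Y => (abs_add_le _ _).trans (add_le_add (bpow i _ Y) (bS' Y))) S
    _ = _ := by
        rw [E_add (mpow i (2 * q)) (fun S' β _ Y hY => ((mS S' β Y hY).const_mul c₁).add_const C)
            (fun _ Y => bpow i _ Y) (fun _ Y => bS' Y),
          E_add (Φ := fun _ Y => c₁ * (pmean G P D Y i o ^ (2 * (q - 1)) * sqSJ G P D Y i o))
            (fun S' β _ Y hY => (mS S' β Y hY).const_mul c₁) (fun S' β _ Y _ => measurable_const)
            (B := c₁ * D.card) (B' := |C|)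
            (fun _ Y => by
              rw [abs_mul, abs_of_nonneg hc₁0]
              exact mul_le_mul_of_nonneg_left (bS Y) hc₁0)
            (fun _ _ => le_rfl),
          E_const_mul, E_const, ← add_assoc]

/-- The weighted expectation of the squared sum. -/
lemma weighted_le (i q : ℕ) {o : V} (ho : o ∈ D) {L S₁ Bd : ℝ} (hL : 0 ≤ L) (hS : 0 ≤ S₁)
    (hmax : ∀ Y, sqSJ G P D Y i o ≤ S₁)
    (hbad : E G P D i (fun _ Y => if L < sqSJ G P D Y i o then 1 else 0) ≤ Bd) :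
    E G P D i (fun _ Y => pmean G P D Y i o ^ (2 * q) * sqSJ G P D Y i o) ≤
      L * E G P D i (fun _ Y => pmean G P D Y i o ^ (2 * q)) + S₁ * Bd := by
  have mp : MeasY (fun _ Y => pmean G P D Y i o ^ (2 * q)) := fun S β _ Y hY =>
    (measurable_pmean P D hY i o).pow_const _
  have mI : MeasY (fun _ Y => if L < sqSJ G P D Y i o then (1:ℝ) else 0) := fun S β _ Y hY =>
    Measurable.ite (measurableSet_lt measurable_const (measurable_sqSJ P D hY i o))
      measurable_const measurable_const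
  have bp : ∀ Y, |pmean G P D Y i o ^ (2 * q)| ≤ 1 := fun Y => by
    rw [abs_pow]; exact pow_le_one₀ (abs_nonneg _) (abs_pmean_le hR Y i o)
  have bI : ∀ Y, |(if L < sqSJ G P D Y i o then (1:ℝ) else 0)| ≤ 1 := fun Y => by
    split_ifs <;> norm_num
  have bp' : ∀ (Y : ℕ → V × V → ℝ), |L * pmean G P D Y i o ^ (2 * q)| ≤ L := fun Y => by
    rw [abs_mul, abs_of_nonneg hL]; exact mul_le_of_le_one_right hL (bp Y)
  have bI' : ∀ (Y : ℕ → V × V → ℝ),
      |S₁ * (if L < sqSJ G P D Y i o then (1:ℝ) else 0)| ≤ S₁ := fun Y => by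
    rw [abs_mul, abs_of_nonneg hS]; exact mul_le_of_le_one_right hS (bI Y)
  refine (E_mono (B := D.card) (B' := L + S₁)
    (Ψ := fun _ Y => L * pmean G P D Y i o ^ (2 * q) +
      S₁ * (if L < sqSJ G P D Y i o then 1 else 0))
    (fun S β _ Y hY => (mp S β Y hY).mul (measurable_sqSJ P D hY i o))
    (fun S β _ Y hY => ((mp S β Y hY).const_mul L).add ((mI S β Y hY).const_mul S₁))
    (fun _ Y => ?_) (fun _ Y => (abs_add_le _ _).trans (add_le_add (bp' Y) (bI' Y)))
    fun S _ Y => ?_).trans ?_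
  · obtain ⟨s0, s1⟩ := sqSJ_bounds hT hG hd hR hD Y i ho
    rw [abs_mul, abs_of_nonneg s0]
    calc _ ≤ 1 * (D.card : ℝ) := mul_le_mul (bp Y) s1 s0 zero_le_one
      _ = _ := one_mul _
  · have hm0 : 0 ≤ pmean G P D Y i o ^ (2 * q) := by rw [pow_mul]; positivity
    have hm1 : pmean G P D Y i o ^ (2 * q) ≤ 1 := le_of_abs_le (bp Y)
    obtain ⟨s0, -⟩ := sqSJ_bounds hT hG hd hR hD Y i ho
    have h1 := hmax Y
    split_ifs with hbig
    · nlinarith [mul_nonneg hL hm0, mul_le_mul hm1 h1 s0 zero_le_one]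
    · nlinarith [mul_le_mul_of_nonneg_left (not_lt.1 hbig) hm0]
  · rw [E_add (fun S β _ Y hY => (mp S β Y hY).const_mul L)
      (fun S β _ Y hY => (mI S β Y hY).const_mul S₁) (fun _ Y => bp' Y) (fun _ Y => bI' Y),
      E_const_mul, E_const_mul]
    exact add_le_add_right (mul_le_mul_of_nonneg_left hbad hS) _

omit hT

lemma measY_bigM (ε : ℝ) (j : ℕ) (o : V) : MeasY (bigM G P D ε j o) := fun S β _ Y hY =>
  Measurable.ite (measurableSet_lt measurable_const ((measurable_pmean P D hY j o).pow_const 2))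
    measurable_const measurable_const

/-- For very small times a large mean is a large deviation of the observations. -/
lemma small_time {o : V} (ho : o ∈ D) (hη1 : P.η ≤ 1) (hN : (P.N₁ : ℝ) * P.h = 1) {ε : ℝ}
    (hε : 0 < ε) {j : ℕ} (hh : P.h ≠ 0) (hj : 0 < j) (ht1 : (j : ℝ) * P.h ≤ 1)
    (hsmall : 8 * ((j : ℝ) * P.h) ≤ Real.sqrt ε / (2 * ((obsIx G D).card + 1))) :
    E G P D j (bigM G P D ε j o) ≤ 2 * (((obsIx G D).card : ℝ) + 1) *
      Real.exp (-((Real.sqrt ε / (2 * ((obsIx G D).card + 1))) ^ 2 / (8 * ((j : ℝ) * P.h)))) := by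
  set M : ℝ := ((obsIx G D).card : ℝ) + 1 with hM
  set a := Real.sqrt ε / (2 * M) with ha
  set t := (j : ℝ) * P.h with ht
  have hM0 : 0 < M := by positivity
  have ha0 : 0 < a := by positivity
  have hh0 : (0:ℝ) < P.h := by positivity
  have ht0 : 0 < t := by positivity
  have hjN : j ≤ P.N₁ := by
    have h1 : (j : ℝ) * P.h ≤ (P.N₁ : ℝ) * P.h := by linarith
    exact_mod_cast le_of_mul_le_mul_right h1 hh0
  set cf : V × V → ℝ := fun l => coef P.η P.N₁ 0 l
  have hcf : ∀ k < j, ∀ l, coef P.η P.N₁ k l = cf l := fun k hk l => by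
    simp only [cf, coef]
    split_ifs <;> first | rfl | omega
  have hcf1 : ∀ l, |cf l| ≤ 1 := fun l => by
    simp only [cf, coef]
    split_ifs
    · norm_num
    · rw [abs_of_nonneg (Real.sqrt_nonneg _), Real.sqrt_le_one]
      linarith
    · norm_num
  set Gs : (ℕ → V × V → ℝ) → V × V → ℝ := fun Y l => ∑ k ∈ range j, cf l * Y k l
  have hmbig : ∀ Y, bigM G P D ε j o ∅ Y ≤ ∑ l ∈ obsIx G D, if a ≤ |Gs Y l| then 1 else 0 := by
    intro Y
    unfold bigM
    by_cases hbig : ε < pmean G P D Y j o ^ 2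
    swap
    · rw [if_neg hbig]; exact Finset.sum_nonneg fun l _ => by split_ifs <;> norm_num
    rw [if_pos hbig]
    by_contra hcon
    have hall : ∀ l ∈ obsIx G D, |Gs Y l| < a := fun l hl => by
      by_contra hl'
      refine hcon (le_trans ?_ (Finset.single_le_sum (f := fun l => if a ≤ |Gs Y l| then (1:ℝ) else 0)
        (fun l _ => by split_ifs <;> norm_num) hl))
      rw [if_pos (not_lt.1 hl')]
    have h1 := mf_lipschitz hG (hR.par j).2.2.2 hD (fieldH G P D Y j) (fun _ => 0) ho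
    have h0 : mf G (thetaJ P j) D (fun _ => 0) o = 0 := by
      unfold mf
      rw [if_pos ho]
      simp only [Real.tanh_zero]
      exact mean_zero_field ho
    rw [h0, sub_zero] at h1
    have hfield : ∑ u ∈ D, |fieldH G P D Y j u| ≤ ∑ l ∈ obsIx G D, 2 * |Gs Y l| := by
      calc ∑ u ∈ D, |fieldH G P D Y j u|
          ≤ ∑ u ∈ D, ∑ l ∈ obsIx G D, mult l u * |Gs Y l| := by
            refine Finset.sum_le_sum fun u _ => ?_
            unfold fieldH
            rw [Finset.sum_comm]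
            refine (Finset.abs_sum_le_sum_abs _ _).trans (le_of_eq (Finset.sum_congr rfl fun l _ => ?_))
            rw [show ∑ k ∈ range j, coef P.η P.N₁ k l * mult l u * Y k l = mult l u * Gs Y l by
              simp only [Gs, Finset.mul_sum]
              exact Finset.sum_congr rfl fun k hk => by rw [hcf k (Finset.mem_range.1 hk)]; ring,
              abs_mul, abs_of_nonneg (mult_nonneg l u)]
        _ = _ := by
            rw [Finset.sum_comm]
            refine Finset.sum_congr rfl fun l hl => ?_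
            obtain ⟨⟨l1, l2⟩, -⟩ := mem_obsIx.1 hl
            rw [sum_mult l1 l2 fun _ => |Gs Y l|]
            ring
    have hsum : |pmean G P D Y j o| < Real.sqrt ε := by
      refine lt_of_le_of_lt (h1.trans ?_) (show 2 * ((obsIx G D).card : ℝ) * a < Real.sqrt ε by
        rw [ha, mul_div_assoc', div_lt_iff₀ (by positivity)]
        have : 0 < Real.sqrt ε := by positivity
        nlinarith)
      calc ∑ u ∈ D, thetaJ P j ^ G.dist o u * |fieldH G P D Y j u - 0|
          ≤ ∑ u ∈ D, |fieldH G P D Y j u| := Finset.sum_le_sum fun u _ => by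
            rw [sub_zero]
            exact mul_le_of_le_one_left (abs_nonneg _)
              (pow_le_one₀ (hR.par j).1 (hR.par j).2.2.2.2.le)
        _ ≤ ∑ l ∈ obsIx G D, 2 * |Gs Y l| := hfield
        _ ≤ ∑ _l ∈ obsIx G D, 2 * a := Finset.sum_le_sum fun l hl => by linarith [hall l hl]
        _ = _ := by rw [Finset.sum_const, nsmul_eq_mul]; ring
    have : pmean G P D Y j o ^ 2 < ε := by
      rw [← sq_abs, ← Real.sq_sqrt hε.le]
      exact pow_lt_pow_left₀ hsum (abs_nonneg _) two_ne_zero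
    linarith
  set lam := a / (4 * t)
  have hlam : 0 ≤ lam := by positivity
  refine le_trans (E_mono (B := 1) (B' := ((obsIx G D).card : ℝ)) (measY_bigM hG hd hR hD ε j o)
    (Ψ := fun _ Y => ∑ l ∈ obsIx G D, if a ≤ |Gs Y l| then 1 else 0)
    (fun S β _ Y hY => Finset.measurable_sum _ fun l _ => Measurable.ite
      (measurableSet_le measurable_const (Measurable.abs
        (Finset.measurable_sum _ fun k _ => measurable_const.mul (hY k l))))
      measurable_const measurable_const)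
    (fun _ Y => by unfold bigM; split_ifs <;> norm_num)
    (fun _ Y => (Finset.abs_sum_le_sum_abs _ _).trans
      ((Finset.sum_le_sum fun l _ => show |(if a ≤ |Gs Y l| then (1:ℝ) else 0)| ≤ 1 by
        split_ifs <;> norm_num).trans_eq (by simp)))
    (fun S _ Y => hmbig Y)) ?_
  unfold E Gen.Epl
  set f := feat G P.η P.N₁ D
  set E₀ := Real.exp (-(a ^ 2 / (8 * t)))
  calc ∑ S, Gen.post (lpw G P.θ D) S * ∫ ξ, (∑ l ∈ obsIx G D,
        if a ≤ |Gs (tot G D (Gen.plant f P.h S ξ)) l| then (1:ℝ) else 0)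
          ∂(Gen.nl (ι := obsIx G D) P.h j)
      ≤ ∑ S, Gen.post (lpw G P.θ D) S * (2 * M * E₀) := by
        refine Finset.sum_le_sum fun S _ => mul_le_mul_of_nonneg_left ?_ (post_nonneg _ _)
        set W : obsIx G D → Gen.Noi j (obsIx G D) → ℝ := fun l ξ =>
          ∑ q : Fin j × obsIx G D, (if q.2 = l then cf l else 0) * ξ q
        have mW : ∀ l, Measurable (W l) := fun l => by simp only [W]; fun_prop
        set hi : (l : obsIx G D) → Gen.Noi j (obsIx G D) → ℝ := fun l ξ =>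
          Real.exp (-(lam * (3 * a / 4))) * (Real.exp (lam * W l ξ) + Real.exp (-lam * W l ξ))
        have hGs : ∀ (l : obsIx G D) ξ,
            (if a ≤ |Gs (tot G D (Gen.plant f P.h S ξ)) l.1| then (1:ℝ) else 0) ≤ hi l ξ := by
          intro l ξ
          refine le_trans ?_ (ind_le_exp hlam)
          have e : Gs (tot G D (Gen.plant f P.h S ξ)) l.1
              = (∑ k ∈ range j, cf l.1 * (P.h * f k l S)) + W l ξ := by
            have hW : W l ξ = ∑ k : Fin j, cf l.1 * ξ (k, l) := by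
              simp only [W, Fintype.sum_prod_type, ite_mul, zero_mul, Finset.sum_ite_eq',
                Finset.mem_univ, if_true]
            rw [hW, Finset.sum_range (fun k => cf l.1 * (P.h * f k l S)), ← Finset.sum_add_distrib]
            simp only [Gs]
            rw [Finset.sum_range fun k => cf l.1 * tot G D (Gen.plant f P.h S ξ) k l.1]
            refine Finset.sum_congr rfl fun k _ => ?_
            simp [tot, Gen.plant, l.2, mul_add]
          have hdrift : |∑ k ∈ range j, cf l.1 * (P.h * f k l S)| ≤ a / 4 := by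
            refine (Finset.abs_sum_le_sum_abs _ _).trans ?_
            calc ∑ k ∈ range j, |cf l.1 * (P.h * f k l S)| ≤ ∑ _k ∈ range j, (P.h : ℝ) * 2 := by
                  refine Finset.sum_le_sum fun k hk => ?_
                  have h2 : |f k l S| ≤ 2 := by
                    simp only [f, feat]
                    rw [abs_mul, hcf k (Finset.mem_range.1 hk)]
                    calc |cf l.1| * |spin S.1 l.1.1 + spin S.1 l.1.2| ≤ 1 * 2 := by
                          refine mul_le_mul (hcf1 _) ((abs_add_le _ _).trans ?_) (abs_nonneg _)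
                            zero_le_one
                          rw [abs_spin, abs_spin]; norm_num
                      _ = 2 := one_mul _
                  rw [abs_mul, abs_mul, abs_of_nonneg P.h.coe_nonneg]
                  calc |cf l.1| * ((P.h : ℝ) * |f k l S|) ≤ 1 * ((P.h : ℝ) * 2) := by
                        refine mul_le_mul (hcf1 _) (mul_le_mul_of_nonneg_left h2 P.h.coe_nonneg)
                          (by positivity) zero_le_one
                    _ = _ := one_mul _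
              _ ≤ _ := by
                  rw [Finset.sum_const, Finset.card_range, nsmul_eq_mul]
                  nlinarith
          split_ifs with h1 h2 h2
          · exact le_rfl
          · exfalso
            rw [e] at h1
            have := abs_add_le (∑ k ∈ range j, cf l.1 * (P.h * f k l S)) (W l ξ)
            linarith
          · norm_num
          · exact le_rfl
        haveI : IsProbabilityMeasure (Gen.nl (ι := obsIx G D) P.h j) := by
          unfold Gen.nl; infer_instance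
        have hint : ∀ (l : obsIx G D) (σ : ℝ),
            Integrable (fun ξ => Real.exp (σ * W l ξ)) (Gen.nl (ι := obsIx G D) P.h j) ∧
            (σ ^ 2 = lam ^ 2 →
              ∫ ξ, Real.exp (σ * W l ξ) ∂(Gen.nl (ι := obsIx G D) P.h j)
                ≤ Real.exp (lam ^ 2 * t / 2)) := by
          intro l σ
          set v : Fin j × obsIx G D → ℝ := fun q => σ * (if q.2 = l then cf l else 0)
          set Q := ∑ q : Fin j × obsIx G D, v q ^ 2
          have e : (fun ξ => Real.exp (σ * W l ξ))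
              = fun ξ => Real.exp (P.h * Q / 2) * tiltProd (P.h : ℝ) v ξ := by
            funext ξ
            unfold tiltProd tiltExp
            rw [← Real.exp_sum, ← Real.exp_add]
            congr 1
            simp only [W, Q, v, Finset.mul_sum, Finset.sum_div, ← Finset.sum_add_distrib]
            exact Finset.sum_congr rfl fun q _ => by ring
          have i1 : Integrable (tiltProd (P.h : ℝ) v) (Gen.nl (ι := obsIx G D) P.h j) := by
            unfold Gen.nl; exact integrable_tiltProd P.h v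
          refine ⟨e ▸ i1.const_mul _, fun hσ => ?_⟩
          have h1 : ∫ ξ, tiltProd (P.h : ℝ) v ξ ∂(Gen.nl (ι := obsIx G D) P.h j) = 1 := by
            have := Gen.integral_shift hh v (F := fun _ => 1) measurable_const
            unfold Gen.nl
            simpa using this.symm
          rw [e, integral_const_mul, h1, mul_one, Real.exp_le_exp]
          have hQ : Q ≤ (j : ℝ) * lam ^ 2 := by
            simp only [Q, v, Fintype.sum_prod_type]
            calc ∑ _k : Fin j, ∑ q : obsIx G D, (σ * if q = l then cf l else 0) ^ 2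
                = (j : ℝ) * (σ ^ 2 * cf l ^ 2) := by
                  simp [mul_pow, Finset.sum_ite_eq', mul_comm]
              _ ≤ _ := by
                  refine mul_le_mul_of_nonneg_left ?_ (Nat.cast_nonneg _)
                  rw [hσ]
                  refine mul_le_of_le_one_right (sq_nonneg _) ?_
                  rw [← sq_abs]
                  exact pow_le_one₀ (abs_nonneg _) (hcf1 _)
          rw [ht]
          nlinarith [mul_le_mul_of_nonneg_left hQ P.h.coe_nonneg]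
        have ihi : ∀ l, Integrable (hi l) (Gen.nl (ι := obsIx G D) P.h j) := fun l =>
          ((hint l lam).1.add (hint l (-lam)).1).const_mul _
        have hhi : ∀ l, ∫ ξ, hi l ξ ∂(Gen.nl (ι := obsIx G D) P.h j) ≤ 2 * E₀ := by
          intro l
          simp only [hi]
          rw [integral_const_mul, integral_add (hint l lam).1 (hint l (-lam)).1]
          calc Real.exp (-(lam * (3 * a / 4))) * _
              ≤ Real.exp (-(lam * (3 * a / 4))) *
                (Real.exp (lam ^ 2 * t / 2) + Real.exp (lam ^ 2 * t / 2)) :=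
                mul_le_mul_of_nonneg_left (add_le_add ((hint l lam).2 rfl)
                  ((hint l (-lam)).2 (by ring))) (Real.exp_pos _).le
            _ = 2 * Real.exp (-(lam * (3 * a / 4)) + lam ^ 2 * t / 2) := by rw [Real.exp_add]; ring
            _ ≤ _ := by
                refine mul_le_mul_of_nonneg_left (Real.exp_le_exp.2 ?_) zero_le_two
                have e : -(lam * (3 * a / 4)) + lam ^ 2 * t / 2 = -(5 * a ^ 2 / (32 * t)) := by
                  simp only [lam]; field_simp; ring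
                rw [e, neg_le_neg_iff, div_le_div_iff₀ (by positivity) (by positivity)]
                nlinarith [mul_nonneg (sq_nonneg a) ht0.le]
        calc ∫ ξ, (∑ l ∈ obsIx G D,
              if a ≤ |Gs (tot G D (Gen.plant f P.h S ξ)) l| then (1:ℝ) else 0)
                ∂(Gen.nl (ι := obsIx G D) P.h j)
            ≤ ∫ ξ, ∑ l : obsIx G D, hi l ξ ∂(Gen.nl (ι := obsIx G D) P.h j) := by
              refine integral_mono_of_nonneg (ae_of_all _ fun ξ => Finset.sum_nonneg fun l _ => by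
                  split_ifs <;> norm_num)
                (integrable_finsetSum _ fun l _ => ihi l) (ae_of_all _ fun ξ => ?_)
              simp only
              rw [← Finset.sum_attach (obsIx G D), Finset.attach_eq_univ]
              exact Finset.sum_le_sum fun l _ => hGs l ξ
          _ = ∑ l : obsIx G D, ∫ ξ, hi l ξ ∂(Gen.nl (ι := obsIx G D) P.h j) :=
              integral_finsetSum _ fun l _ => ihi l
          _ ≤ ∑ _l : obsIx G D, 2 * E₀ := Finset.sum_le_sum fun l _ => hhi l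
          _ ≤ _ := by
              rw [Finset.sum_const, Finset.card_univ, Fintype.card_coe, nsmul_eq_mul]
              have : (0:ℝ) ≤ E₀ := (Real.exp_pos _).le
              rw [hM]
              nlinarith
    _ = _ := by rw [← Finset.sum_mul, sum_post_cfg, one_mul]

end

/-! ### Assembly -/

noncomputable section

section assembly

variable {V : Type} {G : SimpleGraph V} {d : ℕ}

lemma feat_le (η : ℝ) (hη1 : η ≤ 1) (N₁ : ℕ) (D : Finset V) (j : ℕ) (l : obsIx G D) (S : Cfg D) :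
    |feat G η N₁ D j l S| ≤ 2 := by
  have hc : |coef η N₁ j l.1| ≤ 1 := by
    unfold coef
    split_ifs
    · norm_num
    · rw [abs_of_nonneg (Real.sqrt_nonneg _), Real.sqrt_le_one]; linarith
    · norm_num
  unfold feat
  rw [abs_mul]
  calc _ ≤ (1:ℝ) * 2 := mul_le_mul hc ((abs_add_le _ _).trans (by
        rw [abs_spin, abs_spin]; norm_num)) (abs_nonneg _) zero_le_one
    _ = 2 := one_mul _

/-- The first step of the moment recursion. -/
lemma first_arith {q Q κ h K' n δ Wq v X E₂ : ℝ} (hq : 0 ≤ q) (hqQ : q ≤ Q) (hκ : 0 ≤ κ)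
    (hh : 0 ≤ h) (hh1 : h ≤ 1) (hK' : 0 ≤ K') (hn : 0 ≤ n) (hE : E₂ ≤ n)
    (hδ : Real.sqrt h * (K' + 2 * Q ^ 2 * κ * n) ≤ δ) (hW : 1 ≤ Wq) (hv : 0 ≤ v) (hX : 0 ≤ X) :
    0 + 2 * q ^ 2 * κ * h * E₂ + K' * h * Real.sqrt h ≤ X + δ * Wq * (1 + v) := by
  have hs : 0 ≤ Real.sqrt h := Real.sqrt_nonneg h
  have hQ : 0 ≤ Q := hq.trans hqQ
  have hδ0 : 0 ≤ δ := le_trans (by positivity) hδ
  have hsq : h ≤ Real.sqrt h := by rw [Real.le_sqrt hh hh]; nlinarith
  have t1 : 2 * q ^ 2 * κ * h * E₂ ≤ 2 * Q ^ 2 * κ * Real.sqrt h * n :=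
    (mul_le_mul_of_nonneg_left hE (by positivity)).trans (by gcongr)
  have t2 : K' * h * Real.sqrt h ≤ K' * Real.sqrt h :=
    mul_le_mul_of_nonneg_right (mul_le_of_le_one_right hK' hh1) hs
  have t3 : δ ≤ δ * Wq * (1 + v) := by
    calc δ = δ * 1 * 1 := by ring
      _ ≤ _ := by gcongr; linarith
  rw [mul_add] at hδ
  linarith

lemma rec_arith {c E₁ E₂ c₀ Γ X₁ X₂ Y₁ Y₂ he U : ℝ} (hc : 0 ≤ c) (h1 : E₁ ≤ X₁ + X₂)
    (h2 : E₂ ≤ 2 * U * c₀ + U * Γ) (g1 : X₁ + c * (2 * U) * c₀ ≤ Y₁)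
    (g2 : X₂ + c * U * Γ + he ≤ Y₂) : E₁ + c * E₂ + he ≤ Y₁ + Y₂ := by
  nlinarith [mul_le_mul_of_nonneg_left h2 hc]

/-- A later step of the moment recursion. -/
lemma later_arith {A κ K K' W δ u v h L S₁ Bd E₁ M E₂ : ℝ} {q Pm : ℕ} (hκ : 0 ≤ κ) (hK : 0 ≤ K)
    (hu : 0 < u) (hu1 : u ≤ 1) (hv : 0 ≤ v) (hh : 0 ≤ h) (hv2 : v ^ 2 = u ^ 2 + h)
    (hhu : h ≤ u ^ 2) (hA : 36 * κ * K + 1 ≤ A) (hW : 36 * κ * K * (Pm : ℝ) ^ 2 + 3 ≤ W)
    (hδ0 : 0 ≤ δ) (hK' : 0 ≤ K') (he : K' * Real.sqrt h ≤ δ) (hq1 : 1 ≤ q) (hqP : q ≤ Pm)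
    (h1 : E₁ ≤ (A * q * u) ^ q + δ * W ^ q * (1 + u))
    (hM : M ≤ (A * ((q - 1 : ℕ) : ℝ) * u) ^ (q - 1) + δ * W ^ (q - 1) * (1 + u))
    (hM0 : 0 ≤ M) (hL : L ≤ 3 * K / u) (hw : E₂ ≤ L * M + S₁ * Bd)
    (hsmall : S₁ * Bd ≤ 3 * K / u * u ^ (q - 1)) :
    E₁ + 2 * (q : ℝ) ^ 2 * κ * h * E₂ + h * (K' * Real.sqrt h) ≤
      (A * q * v) ^ q + δ * W ^ q * (1 + v) := by
  have hA1 : 1 ≤ A := by nlinarith [mul_nonneg hκ hK]
  have hq : (1:ℝ) ≤ q := by exact_mod_cast hq1
  set c₀ := (A * q * u) ^ (q - 1) with hc₀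
  have e1 : (A * ((q - 1 : ℕ) : ℝ) * u) ^ (q - 1) ≤ c₀ := by
    refine pow_le_pow_left₀ (by positivity) ?_ _
    gcongr
    exact_mod_cast Nat.sub_le q 1
  have e2 : u ^ (q - 1) ≤ c₀ :=
    pow_le_pow_left₀ hu.le (le_mul_of_one_le_left hu.le (by nlinarith)) _
  have hU : 0 ≤ 3 * K / u := by positivity
  have e3 : E₂ ≤ 2 * (3 * K / u) * c₀ + 3 * K / u * (δ * W ^ (q - 1) * (1 + u)) := by
    have a1 : L * M ≤ 3 * K / u * (c₀ + δ * W ^ (q - 1) * (1 + u)) :=
      mul_le_mul hL (hM.trans (by linarith)) hM0 hU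
    have a2 : S₁ * Bd ≤ 3 * K / u * c₀ := hsmall.trans (mul_le_mul_of_nonneg_left e2 hU)
    linarith
  exact rec_arith (by positivity) h1 e3
    (main_gain hK hκ hu hv hh hv2 hhu hA q hq1)
    (err_gain (e := K' * Real.sqrt h) hκ hK hu hu1 hv hh hv2 hhu hδ0 he (by positivity) hq1 hqP hW)

variable {P : Prm} {D : Finset V}

lemma first_weight (hG : G.IsTree) (hd : Regular G d) (hR : Reg d P) (hD : Closed G D) {o : V}
    (ho : o ∈ D) (r : ℕ) :
    E G P D 0 (fun _ Y => pmean G P D Y 0 o ^ r * sqSJ G P D Y 0 o) ≤ D.card := by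
  have hb : ∀ Y, |pmean G P D Y 0 o ^ r * sqSJ G P D Y 0 o| ≤ D.card := fun Y => by
    obtain ⟨s0, s1⟩ := sqSJ_bounds treeStmt hG hd hR hD Y 0 ho
    rw [abs_mul, abs_of_nonneg s0, abs_pow]
    calc _ ≤ 1 * (D.card : ℝ) := mul_le_mul
          (pow_le_one₀ (abs_nonneg _) (abs_pmean_le hR Y 0 o)) s1 s0 zero_le_one
      _ = _ := one_mul _
  exact (E_mono (B := D.card) (B' := D.card) (Ψ := fun _ _ => (D.card : ℝ))
    (fun S β _ Y hY => ((measurable_pmean P D hY 0 o).pow_const _).mul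
      (measurable_sqSJ P D hY 0 o))
    (fun S β _ Y _ => measurable_const) (fun _ Y => hb Y) (fun _ _ => (Nat.abs_cast _).le)
    fun S _ Y => (le_abs_self _).trans (hb Y)).trans_eq (E_const _ _)

/-- The moments grow at most like `(A q √t) ^ q`, up to a vanishing error. -/
lemma moment_bound (hG : G.IsTree) (hd : Regular G d)
    (hR : Reg d P) (hD : Closed G D) {o : V} (ho : o ∈ D) (hh : P.h ≠ 0) (hh1 : (P.h : ℝ) ≤ 1)
    (hB : Bridge G P D) {Pmax j : ℕ} (hjt : (j : ℝ) * P.h ≤ 1) {A W K K' C δ : ℝ}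
    (hA : 36 * kap d P.η * K + 1 ≤ A) (hW : 36 * kap d P.η * K * (Pmax : ℝ) ^ 2 + 3 ≤ W)
    (hK : 0 < K) (hK' : 0 ≤ K')
    (hδ : Real.sqrt P.h * (K' + 2 * (Pmax : ℝ) ^ 2 * kap d P.η * D.card) ≤ δ) (hδ0 : 0 ≤ δ)
    (hstep : ∀ q, 1 ≤ q → q ≤ Pmax → ∀ i, ∀ ψ : Cfg D → ℝ,
      Gen.stepE (feat G P.η P.N₁ D) P.h i ψ (fun ψ' => Gen.ev ψ' (spinF D o) ^ (2 * q)) ≤
        Gen.ev ψ (spinF D o) ^ (2 * q) +
          P.h * (q * (2 * q - 1)) * Gen.ev ψ (spinF D o) ^ (2 * (q - 1)) *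
            ∑ l, Gen.cov ψ (spinF D o) (feat G P.η P.N₁ D i l) ^ 2 + K' * P.h * Real.sqrt P.h)
    (hbad : ∀ i, 0 < i → i < j → ∀ q : ℕ, (q : ℝ) ≤ C / Real.sqrt ((i : ℝ) * P.h) →
      ∃ L S₁ Bd : ℝ, 0 ≤ L ∧ L ≤ 3 * K / Real.sqrt ((i : ℝ) * P.h) ∧ 0 ≤ S₁ ∧
        (∀ Y, sqSJ G P D Y i o ≤ S₁) ∧
        E G P D i (fun _ Y => if L < sqSJ G P D Y i o then 1 else 0) ≤ Bd ∧
        S₁ * Bd ≤ 3 * K / Real.sqrt ((i : ℝ) * P.h) * Real.sqrt ((i : ℝ) * P.h) ^ q) :
    ∀ i, i ≤ j → ∀ q, q ≤ Pmax → (q : ℝ) ≤ C / Real.sqrt ((j : ℝ) * P.h) →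
      E G P D i (fun _ Y => pmean G P D Y i o ^ (2 * q)) ≤
        (A * q * Real.sqrt ((i : ℝ) * P.h)) ^ q + δ * W ^ q * (1 + Real.sqrt ((i : ℝ) * P.h)) := by
  have hκ : 0 ≤ kap d P.η := by have := hR.eta; unfold kap; positivity
  have hA1 : 1 ≤ A := by nlinarith [mul_nonneg hκ hK.le]
  have hW1 : 1 ≤ W := by nlinarith [mul_nonneg (mul_nonneg hκ hK.le) (sq_nonneg (Pmax : ℝ))]
  intro i
  induction i with
  | zero =>
    intro _ q _ _
    have e : ∀ Y, pmean G P D Y 0 o ^ (2 * q) = if q = 0 then 1 else 0 := fun Y => by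
      rw [pmean_zero ho]
      rcases Nat.eq_zero_or_pos q with rfl | hq
      · simp
      · rw [if_neg hq.ne', zero_pow (by omega)]
    simp only [e, E_const, Nat.cast_zero, zero_mul, Real.sqrt_zero, mul_zero, add_zero, mul_one]
    rcases Nat.eq_zero_or_pos q with rfl | hq
    · simp only [pow_zero, mul_one, if_true]; linarith
    · rw [if_neg hq.ne', zero_pow hq.ne', zero_add]; positivity
  | succ i ih =>
    intro hij q hq hqC
    rcases Nat.eq_zero_or_pos q with rfl | hq1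
    · simp only [Nat.mul_zero, pow_zero, E_const, mul_one]
      have : 0 ≤ δ * (1 + Real.sqrt (((i + 1 : ℕ) : ℝ) * P.h)) := by positivity
      linarith
    refine (moment_step treeStmt hG hd hR hD genLawStmt hh hB i ho
      (K := K') (q := q) (hstep q hq1 hq i)).trans ?_
    have hh0 : (0:ℝ) < P.h := by positivity
    rcases Nat.eq_zero_or_pos i with rfl | hi
    · -- the first step
      rw [show E G P D 0 (fun _ Y => pmean G P D Y 0 o ^ (2 * q)) = 0 by
        simp only [pmean_zero ho, zero_pow (show 2 * q ≠ 0 by omega), E_const]]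
      exact first_arith (Nat.cast_nonneg q) (by exact_mod_cast hq) hκ hh0.le hh1 hK'
        (Nat.cast_nonneg _) (first_weight hG hd hR hD ho _) hδ (one_le_pow₀ hW1)
        (Real.sqrt_nonneg _) (by positivity)
    -- a later step
    have hij' : (i : ℝ) * P.h ≤ 1 := le_trans (mul_le_mul_of_nonneg_right
      (by exact_mod_cast (Nat.le_of_succ_le hij)) hh0.le) hjt
    have hq0C : ((q - 1 : ℕ) : ℝ) ≤ C / Real.sqrt ((j : ℝ) * P.h) :=
      le_trans (by exact_mod_cast Nat.sub_le q 1) hqC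
    have hu0 : 0 < Real.sqrt ((i : ℝ) * P.h) := Real.sqrt_pos.2 (by positivity)
    have hu2 : Real.sqrt ((i : ℝ) * P.h) ^ 2 = (i : ℝ) * P.h := Real.sq_sqrt (by positivity)
    have hv2 : Real.sqrt (((i + 1 : ℕ) : ℝ) * P.h) ^ 2 = Real.sqrt ((i : ℝ) * P.h) ^ 2 + P.h := by
      rw [hu2, Real.sq_sqrt (by positivity)]
      push_cast
      ring
    have hhu : (P.h : ℝ) ≤ Real.sqrt ((i : ℝ) * P.h) ^ 2 := by
      rw [hu2]; exact le_mul_of_one_le_left hh0.le (by exact_mod_cast hi)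
    have hu1 : Real.sqrt ((i : ℝ) * P.h) ≤ 1 := Real.sqrt_le_one.2 hij'
    have hujt : Real.sqrt ((i : ℝ) * P.h) ≤ Real.sqrt ((j : ℝ) * P.h) := Real.sqrt_le_sqrt
      (mul_le_mul_of_nonneg_right (by exact_mod_cast (Nat.le_of_succ_le hij)) hh0.le)
    have hqu : ((q - 1 : ℕ) : ℝ) ≤ C / Real.sqrt ((i : ℝ) * P.h) := by
      refine le_trans hq0C (div_le_div_of_nonneg_left ?_ hu0 hujt)
      have hjp : 0 < Real.sqrt ((j : ℝ) * P.h) := hu0.trans_le hujt
      have := (le_div_iff₀ hjp).1 hqC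
      linarith [mul_nonneg (Nat.cast_nonneg q : (0:ℝ) ≤ q) hjp.le]
    obtain ⟨L, S₁, Bd, hL0, hL, hS, hmax, hBd, hsmall⟩ := hbad i hi (by omega) (q - 1) hqu
    have he : K' * Real.sqrt (P.h : ℝ) ≤ δ := by
      refine le_trans ?_ hδ
      rw [mul_add, mul_comm]
      exact le_add_of_nonneg_right (by positivity)
    rw [mul_comm K' (P.h : ℝ), mul_assoc (P.h : ℝ) K']
    exact later_arith hκ hK.le hu0 hu1 (Real.sqrt_nonneg _) hh0.le hv2 hhu hA hW hδ0 hK' he hq1 hq
      (ih (Nat.le_of_succ_le hij) q hq hqC)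
      (ih (Nat.le_of_succ_le hij) (q - 1) (by omega) hq0C)
      (E_nonneg fun S _ Y => by rw [pow_mul]; positivity) hL
      (weighted_le treeStmt hG hd hR hD i (q - 1) ho hL0 hS hmax hBd) hsmall

lemma exists_stepK (hStep : GenStepStmt) {η : ℝ} (hη1 : η ≤ 1) (D : Finset V) (o : V) (q : ℕ) :
    ∃ Kq : ℝ, 0 ≤ Kq ∧ ∀ (k i : ℕ) (ψ : Cfg D → ℝ), 1 ≤ q →
      Gen.stepE (feat G η (2 ^ k) D) (hlev k) i ψ (fun ψ' => Gen.ev ψ' (spinF D o) ^ (2 * q)) ≤
        Gen.ev ψ (spinF D o) ^ (2 * q) +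
          hlev k * (q * (2 * q - 1)) * Gen.ev ψ (spinF D o) ^ (2 * (q - 1)) *
            ∑ l, Gen.cov ψ (spinF D o) (feat G η (2 ^ k) D i l) ^ 2 +
          Kq * hlev k * Real.sqrt (hlev k) := by
  obtain ⟨Kq, hKq⟩ := hStep (obsIx G D).card 2 1 q
  refine ⟨|Kq|, abs_nonneg _, fun k i ψ hq => ?_⟩
  have h := (hKq (obsIx G D) (Cfg D) (feat G η (2 ^ k) D) (hlev k) i ψ (spinF D o) (spinF D o)
    (le_of_eq (Fintype.card_coe _)) (fun l S => feat_le η hη1 _ D i l S)
    (fun S => (abs_spin _ _).le) (fun S => (abs_spin _ _).le) (by simp [hlev])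
    (by rw [show ((hlev k : ℝ≥0) : ℝ) = ((2:ℝ) ^ k)⁻¹ by simp [hlev]]
        exact inv_le_one_of_one_le₀ (one_le_pow₀ one_le_two))).2 hq
  refine h.trans (add_le_add_right (mul_le_mul_of_nonneg_right
    (mul_le_mul_of_nonneg_right (le_abs_self Kq) (hlev k).coe_nonneg) (Real.sqrt_nonneg _)) _)

/-- Outside a doubly exponentially unlikely event the squared sum is of order `1 / √t`. -/
lemma bad_times (hG : G.IsTree) (hd : Regular G d) (hd3 : 3 ≤ d) {η θ K c u₀ C t₁ : ℝ} {k : ℕ}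
    {D : Finset V} (hD : Closed G D) {o : V} (ho : o ∈ D) (hη : 0 < η) (hη4 : η ≤ 1 / (4 * d))
    (hθ0 : (Real.sqrt ((d : ℝ) - 1))⁻¹ / 2 ≤ θ) (hθ1 : θ < (Real.sqrt ((d : ℝ) - 1))⁻¹)
    (hK : 0 < K) (hu₀ : 0 < u₀) (hu₀1 : u₀ ≤ 1) (ht₁ : t₁ ≤ 1)
    (hbadS : ∀ (u b : ℝ) (k q : ℕ), 0 < u → u ≤ u₀ → 2 ≤ b → 1 / u ≤ k → (q : ℝ) ≤ (C + 1) / u →
      Real.exp (-c * b ^ k * u ^ 2) ≤ 3 * η / (4 * d) * u ^ q)
    (hb : ∀ i : ℕ, 0 < i → (i : ℝ) * hlev k ≤ t₁ → ∀ kk : ℕ,
      E G ⟨θ, η, hlev k, 2 ^ k⟩ D i (fun _ Y =>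
          if K * (kk + 1 / Real.sqrt (i * hlev k)) < sqSJ G ⟨θ, η, hlev k, 2 ^ k⟩ D Y i o
          then 1 else 0) ≤
        K * Real.exp (-c * ((d : ℝ) - 1) ^ kk * (i * hlev k)))
    {i : ℕ} (hi : 0 < i) (hit : (i : ℝ) * hlev k ≤ t₁) (hiu : (i : ℝ) * hlev k ≤ u₀ ^ 2) (q : ℕ)
    (hq : (q : ℝ) ≤ C / Real.sqrt ((i : ℝ) * hlev k)) :
    ∃ L S₁ Bd : ℝ, 0 ≤ L ∧ L ≤ 3 * K / Real.sqrt ((i : ℝ) * hlev k) ∧ 0 ≤ S₁ ∧
      (∀ Y, sqSJ G ⟨θ, η, hlev k, 2 ^ k⟩ D Y i o ≤ S₁) ∧
      E G ⟨θ, η, hlev k, 2 ^ k⟩ D i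
        (fun _ Y => if L < sqSJ G ⟨θ, η, hlev k, 2 ^ k⟩ D Y i o then 1 else 0) ≤ Bd ∧
      S₁ * Bd ≤ 3 * K / Real.sqrt ((i : ℝ) * hlev k) * Real.sqrt ((i : ℝ) * hlev k) ^ q := by
  have hd3' : (3 : ℝ) ≤ d := by exact_mod_cast hd3
  have hh0 : (0:ℝ) < hlev k := by simp [hlev]
  set s := (i : ℝ) * hlev k
  set w := Real.sqrt s with hw_def
  have hs0 : 0 < s := mul_pos (by exact_mod_cast hi) hh0
  have hw : 0 < w := Real.sqrt_pos.2 hs0
  have hw2 : w ^ 2 = s := Real.sq_sqrt hs0.le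
  have hwu : w ≤ u₀ := by rw [hw_def, Real.sqrt_le_left hu₀.le]; exact hiu
  have hw1 : w ≤ 1 := hwu.trans hu₀1
  set kk := ⌈1 / w⌉₊
  have hkk : (kk : ℝ) ≤ 1 / w + 1 := (Nat.ceil_lt_add_one (by positivity)).le
  have hiN : i ≤ 2 ^ k := by
    have h1 : (i : ℝ) * hlev k ≤ ((2 ^ k : ℕ) : ℝ) * hlev k := by
      rw [hlev_count]; exact hit.trans ht₁
    exact_mod_cast le_of_mul_le_mul_right h1 hh0
  set b := (d : ℝ) - 1 with hb_def
  have hb2 : 2 ≤ b := by linarith
  have hb0 : 0 ≤ b := by linarith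
  have hθnn : 0 ≤ θ := le_trans (by positivity) hθ0
  have hsθ1 : Real.sqrt b * θ ≤ 1 := by
    calc _ ≤ Real.sqrt b * (Real.sqrt b)⁻¹ :=
          mul_le_mul_of_nonneg_left hθ1.le (Real.sqrt_nonneg _)
      _ = 1 := mul_inv_cancel₀ (Real.sqrt_ne_zero'.2 (by linarith))
  have hηθ : η ≤ θ := hη4.trans (le_trans (by
    rw [inv_eq_one_div, div_div]
    refine one_div_le_one_div_of_le (by positivity) ?_
    have := Real.sqrt_le_sqrt (show b ≤ (d:ℝ) ^ 2 by nlinarith)
    rw [Real.sqrt_sq (by linarith)] at this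
    linarith) hθ0)
  have hη1 : η ≤ 1 := hη4.trans (by rw [div_le_one (by positivity)]; linarith)
  obtain ⟨th0, -, th2⟩ := sqrt_mul_thetaJ_le (P := ⟨θ, η, hlev k, 2 ^ k⟩) hd3 hθnn hsθ1
    (hlev_count k) hη.le hηθ i
  have htcl : tcl (hlev k) (2 ^ k) i = s := by
    unfold tcl
    rw [min_eq_left hiN]
  simp only [htcl] at th2
  have hηs : η * s ≤ 1 := mul_le_one₀ hη1 hs0.le (hit.trans ht₁)
  have hbt : b * thetaJ ⟨θ, η, hlev k, 2 ^ k⟩ i ^ 2 ≤ 1 - η * s / 4 := by
    have h1 : Real.sqrt b * thetaJ ⟨θ, η, hlev k, 2 ^ k⟩ i ≤ 1 - η * s / 4 := by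
      linarith
    calc b * thetaJ ⟨θ, η, hlev k, 2 ^ k⟩ i ^ 2
        = (Real.sqrt b * thetaJ ⟨θ, η, hlev k, 2 ^ k⟩ i) ^ 2 := by
          rw [mul_pow, Real.sq_sqrt hb0]
      _ ≤ (1 - η * s / 4) ^ 2 := pow_le_pow_left₀ (by positivity) h1 2
      _ ≤ _ := by nlinarith [mul_pos hη hs0]
  have hηs0 : 0 < η * s / 4 := by positivity
  have hR : Reg d ⟨θ, η, hlev k, 2 ^ k⟩ := reg_of hd3 hη.le hη4 hθ0 hθ1.le k
  refine ⟨K * ((kk : ℝ) + 1 / w), d / (η * s / 4), K * Real.exp (-c * b ^ kk * s), by positivity,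
    ?_, by positivity, fun Y => ?_, hb i hi hit kk, ?_⟩
  · rw [le_div_iff₀ hw]
    have h1 : ((kk : ℝ) + 1 / w) * w ≤ 3 := by
      calc ((kk : ℝ) + 1 / w) * w ≤ (1 / w + 1 + 1 / w) * w := by gcongr
        _ = 2 + w := by field_simp; ring
        _ ≤ 3 := by linarith
    calc K * ((kk : ℝ) + 1 / w) * w = K * (((kk : ℝ) + 1 / w) * w) := mul_assoc _ _ _
      _ ≤ K * 3 := mul_le_mul_of_nonneg_left h1 hK.le
      _ = 3 * K := mul_comm _ _
  · refine (sqSJ_le_geom treeStmt hG hd hR hD i (lt_of_le_of_lt hbt (by linarith)) Y ho).trans ?_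
    exact div_le_div_of_nonneg_left (by positivity) hηs0 (by linarith)
  · have h1 := hbadS w b kk (q + 1) hw hwu hb2 (Nat.le_ceil _) (by
      rw [le_div_iff₀ hw] at hq ⊢
      push_cast
      linarith)
    rw [hw2] at h1
    calc (d : ℝ) / (η * s / 4) * (K * Real.exp (-c * b ^ kk * s))
        ≤ (d : ℝ) / (η * s / 4) * (K * (3 * η / (4 * d) * w ^ (q + 1))) := by gcongr
      _ = 3 * K / w * w ^ q := by
          rw [← hw2]
          field_simp
          ring

/-- The small time bound is below `exp (-c / √t)`. -/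
lemma small_arith {M a t c u : ℝ} (hM : 1 ≤ M) (hc : c ≤ 1) (hu : 0 < u) (hu1 : u ≤ 1)
    (hut : u * u = t) (h2 : u ≤ a ^ 2 / (8 * (1 + Real.log (2 * M)))) :
    2 * M * Real.exp (-(a ^ 2 / (8 * t))) ≤ Real.exp (-c / u) := by
  have hl : 0 ≤ Real.log (2 * M) := Real.log_nonneg (by linarith)
  rw [show 2 * M * Real.exp (-(a ^ 2 / (8 * t))) = Real.exp (Real.log (2 * M) - a ^ 2 / (8 * t)) by
    rw [sub_eq_add_neg, Real.exp_add, Real.exp_log (by linarith)], Real.exp_le_exp]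
  set T := 1 + Real.log (2 * M) with hT
  have h3 : T / u ≤ a ^ 2 / (8 * t) := by
    rw [le_div_iff₀ (by positivity)] at h2
    rw [← hut, div_le_div_iff₀ hu (by positivity)]
    linarith [mul_le_mul_of_nonneg_right h2 hu.le]
  have h4 : c / u + Real.log (2 * M) ≤ T / u := by
    rw [le_div_iff₀ hu, add_mul, div_mul_cancel₀ _ hu.ne', hT]
    linarith [mul_le_mul_of_nonneg_left hu1 hl]
  rw [neg_div]
  linarith

/-- Markov's inequality with the optimal moment. -/
lemma markov_arith {ε A W δ u X tot target Cδ h c' E₀ M₀ : ℝ} {p Pmax : ℕ} (hε : 0 < ε)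
    (hA : 0 ≤ A) (hW : 0 ≤ W) (hu : 0 < u) (hu1 : u ≤ 1) (hp : (p : ℝ) ≤ X) (hX : X < p + 1)
    (hXu : X * u * (Real.exp 1 * A) ≤ ε) (hpP : p ≤ Pmax) (hX4 : 4 ≤ X) (hc' : c' / u ≤ X / 2)
    (hδ : δ = h * Cδ) (hh : 0 ≤ h) (hCδ : 0 ≤ Cδ) (ht : (W / ε) ^ p ≤ tot) (htot : 0 ≤ tot)
    (hht : h ≤ target)
    (htar : target = Real.exp (-(Pmax : ℝ)) / (2 * (Cδ + 1) * (tot + 1)))
    (hmk : E₀ ≤ (ε ^ p)⁻¹ * M₀) (hmb : M₀ ≤ (A * p * u) ^ p + δ * W ^ p * (1 + u)) :
    E₀ ≤ Real.exp (-c' / u) := by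
  have hεp : 0 < ε ^ p := pow_pos hε p
  have h1 : (ε ^ p)⁻¹ * (A * p * u) ^ p ≤ Real.exp (-(p : ℝ)) := by
    rw [inv_mul_eq_div, ← div_pow,
      show Real.exp (-(p : ℝ)) = (Real.exp (-1)) ^ p by rw [← Real.exp_nat_mul]; ring_nf]
    refine pow_le_pow_left₀ (by positivity) ?_ p
    rw [Real.exp_neg, ← one_div, div_le_div_iff₀ hε (Real.exp_pos 1)]
    have : A * p * u * Real.exp 1 ≤ A * X * u * Real.exp 1 := by gcongr
    linarith
  have h2 : (ε ^ p)⁻¹ * (δ * W ^ p * (1 + u)) ≤ Real.exp (-(p : ℝ)) := by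
    have hδt : δ ≤ Real.exp (-(Pmax : ℝ)) / (2 * (tot + 1)) := by
      calc δ = h * Cδ := hδ
        _ ≤ target * (Cδ + 1) := mul_le_mul hht (by linarith) hCδ (hh.trans hht)
        _ = _ := by rw [htar]; field_simp
    calc (ε ^ p)⁻¹ * (δ * W ^ p * (1 + u)) = δ * (W / ε) ^ p * (1 + u) := by
          rw [div_pow, div_eq_mul_inv]; ring
      _ ≤ Real.exp (-(Pmax : ℝ)) / (2 * (tot + 1)) * (tot + 1) * 2 := by
          gcongr
          · linarith
          · linarith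
      _ = Real.exp (-(Pmax : ℝ)) := by field_simp
      _ ≤ _ := Real.exp_le_exp.2 (neg_le_neg (by exact_mod_cast hpP))
  refine hmk.trans ((mul_le_mul_of_nonneg_left hmb (inv_pos.2 hεp).le).trans ?_)
  rw [mul_add]
  refine (add_le_add h1 h2).trans ?_
  have h3 : 2 * Real.exp (-(p : ℝ)) ≤ Real.exp (1 - (p : ℝ)) := by
    rw [sub_eq_add_neg, Real.exp_add]
    exact mul_le_mul_of_nonneg_right (by linarith [Real.add_one_le_exp (1:ℝ)]) (Real.exp_pos _).le
  refine (le_of_eq (two_mul _).symm).trans (h3.trans (Real.exp_le_exp.2 ?_))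
  rw [neg_div]
  linarith

lemma markov_moment (hG : G.IsTree) (hd : Regular G d) (hR : Reg d P) (hD : Closed G D)
    {ε : ℝ} (hε : 0 < ε) (j p : ℕ) (o : V) :
    E G P D j (bigM G P D ε j o) ≤
      (ε ^ p)⁻¹ * E G P D j (fun _ Y => pmean G P D Y j o ^ (2 * p)) := by
  have hεp : 0 < ε ^ p := pow_pos hε p
  rw [← E_const_mul]
  refine E_mono (B := 1) (B' := (ε ^ p)⁻¹) (measY_bigM hG hd hR hD ε j o)
    (fun S β _ Y hY => ((measurable_pmean P D hY j o).pow_const _).const_mul _)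
    (fun _ Y => by unfold bigM; split_ifs <;> norm_num)
    (fun _ Y => by
      rw [abs_mul, abs_of_pos (inv_pos.2 hεp), abs_pow]
      exact mul_le_of_le_one_right (inv_pos.2 hεp).le
        (pow_le_one₀ (abs_nonneg _) (abs_pmean_le hR Y j o))) fun S _ Y => ?_
  rw [pow_mul]
  unfold bigM
  split_ifs with hbig
  · rw [inv_mul_eq_div, one_le_div hεp]
    exact pow_le_pow_left₀ hε.le hbig.le p
  · positivity

/-- The regime of the recursion. -/
lemma recursion_case (hG : G.IsTree) (hd : Regular G d) (hd3 : 3 ≤ d) (hR : Reg d P)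
    (hD : Closed G D) {o : V} (ho : o ∈ D) {ε : ℝ} (hε : 0 < ε) (hη1 : P.η ≤ 1)
    {K A C : ℝ} (hK : 0 < K) (hC0 : 0 < C) (hA : A = 36 * kap d P.η * K + 1)
    (hC : C = ε / (Real.exp 1 * A)) {j : ℕ} (hu : 0 < Real.sqrt ((j : ℝ) * P.h)) (hj : 0 < j)
    (ht1 : (j : ℝ) * P.h ≤ 1) (hu4 : Real.sqrt ((j : ℝ) * P.h) ≤ C / 4)
    {Pmax : ℕ} (hPmax : ⌈C / Real.sqrt ((j : ℝ) * P.h)⌉₊ ≤ Pmax) {W K' target c' : ℝ}
    (hW : 36 * kap d P.η * K * (Pmax : ℝ) ^ 2 + 3 ≤ W) (hK' : 0 ≤ K')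
    (hhs : Real.sqrt P.h ≤ target)
    (htar : target = Real.exp (-(Pmax : ℝ)) /
      (2 * (K' + 2 * (Pmax : ℝ) ^ 2 * kap d P.η * D.card + 1) *
        (∑ q ∈ range (Pmax + 1), (W / ε) ^ q + 1)))
    (hstep : ∀ q, 1 ≤ q → q ≤ Pmax → ∀ i, ∀ ψ : Cfg D → ℝ,
      Gen.stepE (feat G P.η P.N₁ D) P.h i ψ (fun ψ' => Gen.ev ψ' (spinF D o) ^ (2 * q)) ≤
        Gen.ev ψ (spinF D o) ^ (2 * q) +
          P.h * (q * (2 * q - 1)) * Gen.ev ψ (spinF D o) ^ (2 * (q - 1)) *
            ∑ l, Gen.cov ψ (spinF D o) (feat G P.η P.N₁ D i l) ^ 2 + K' * P.h * Real.sqrt P.h)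
    (hbad : ∀ i, 0 < i → i < j → ∀ q : ℕ, (q : ℝ) ≤ C / Real.sqrt ((i : ℝ) * P.h) →
      ∃ L S₁ Bd : ℝ, 0 ≤ L ∧ L ≤ 3 * K / Real.sqrt ((i : ℝ) * P.h) ∧ 0 ≤ S₁ ∧
        (∀ Y, sqSJ G P D Y i o ≤ S₁) ∧
        E G P D i (fun _ Y => if L < sqSJ G P D Y i o then 1 else 0) ≤ Bd ∧
        S₁ * Bd ≤ 3 * K / Real.sqrt ((i : ℝ) * P.h) * Real.sqrt ((i : ℝ) * P.h) ^ q)
    (hh0 : P.h ≠ 0) (hc' : c' ≤ C / 2) :
    E G P D j (bigM G P D ε j o) ≤ Real.exp (-c' / Real.sqrt ((j : ℝ) * P.h)) := by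
  have hκ : 0 ≤ kap d P.η := by have := hR.eta; unfold kap; positivity
  have hA0 : 0 < A := by rw [hA]; positivity
  have hW0 : 0 < W := lt_of_lt_of_le (by positivity) hW
  set u := Real.sqrt ((j : ℝ) * P.h) with hu_def
  set p := ⌊C / u⌋₊
  have hX4 : 4 ≤ C / u := by rw [le_div_iff₀ hu]; linarith
  have hpX : (p : ℝ) ≤ C / u := Nat.floor_le (by linarith)
  have hpP : p ≤ Pmax := (Nat.floor_le_ceil _).trans hPmax
  have hu1 : u ≤ 1 := Real.sqrt_le_one.2 ht1
  have hXu : C / u * u * (Real.exp 1 * A) ≤ ε := by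
    rw [div_mul_cancel₀ _ hu.ne', hC, div_mul_cancel₀ _ (by positivity)]
  have hcu : c' / u ≤ C / u / 2 := by
    rw [div_div, mul_comm u 2, ← div_div]
    exact div_le_div_of_nonneg_right hc' hu.le
  have hj1 : (1:ℝ) ≤ j := by exact_mod_cast hj
  have hh1 : (P.h : ℝ) ≤ 1 := le_trans (le_mul_of_one_le_left P.h.coe_nonneg hj1) ht1
  have hmb := moment_bound hG hd hR hD ho hh0 hh1
    (bridge_of_model modelStmt hG hd3 hd hR.nonneg hR.lt_one hh0 hR.eta hR.tau hD)
    (Pmax := Pmax) (A := A) (W := W) (K := K) (K' := K') (C := C) ht1 hA.ge hW hK hK' le_rfl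
    (by positivity) hstep hbad j le_rfl p hpP hpX
  exact markov_arith hε hA0.le hW0.le hu hu1 hpX (Nat.lt_floor_add_one _) hXu hpP hX4 hcu rfl
    (Real.sqrt_nonneg _) (by positivity)
    (Finset.single_le_sum (f := fun q => (W / ε) ^ q) (fun q _ => by positivity)
        (Finset.mem_range.2 (show p < Pmax + 1 by omega)))
    (by positivity) hhs htar (markov_moment hG hd hR hD hε j p o) hmb

end assembly

theorem momentStmt (hStep : GenStepStmt) (hProb : ProbStmt) : MomentStmt := by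
  intro d hd3
  obtain ⟨η₁, hη₁, hP⟩ := hProb d hd3
  refine ⟨min η₁ (1 / (4 * d)), lt_min hη₁ (by positivity), ?_⟩
  intro η hη hηle ε₀ hε
  obtain ⟨K, c, t₁, hK, hc, ht₁, ht₁1, hbadP⟩ := hP η hη (hηle.trans (min_le_left _ _))
  have hη4 : η ≤ 1 / (4 * d) := hηle.trans (min_le_right _ _)
  have hd3' : (3 : ℝ) ≤ d := by exact_mod_cast hd3
  have hη1 : η ≤ 1 := hη4.trans (by rw [div_le_one (by positivity)]; linarith)
  have hκ : 0 ≤ kap d η := by unfold kap; positivity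
  set A := 36 * kap d η * K + 1 with hA
  have hA0 : 0 < A := by positivity
  set C := ε₀ / (Real.exp 1 * A) with hC
  have hC0 : 0 < C := by positivity
  obtain ⟨u₀, hu₀, hu₀1, hbadS⟩ := small_bad hc (show 0 < 3 * η / (4 * d) by positivity) (C + 1)
  set c' := min 1 (C / 2)
  have hc'0 : 0 < c' := lt_min one_pos (by positivity)
  refine ⟨c', min (min t₁ (u₀ ^ 2)) ((C / 4) ^ 2), hc'0,
    lt_min (lt_min ht₁ (by positivity)) (by positivity),
    ((min_le_left _ _).trans (min_le_left _ _)).trans ht₁1, ?_⟩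
  intro V G hG hd _ o R θ hθ0 hθ1
  set D := ballF hG hd hd3 o R with hDdef
  have hD : Closed G D := closed_ballF o R
  have ho : o ∈ D := self_mem_ballF o R
  -- the radius of the small time regime
  set M : ℝ := ((obsIx G D).card : ℝ) + 1
  set a := Real.sqrt ε₀ / (2 * M)
  have hM : 1 ≤ M := le_add_of_nonneg_left (Nat.cast_nonneg _)
  have ha : 0 < a := by positivity
  have hlogM : 0 ≤ Real.log (2 * M) := Real.log_nonneg (by linarith)
  set τ := min (a / 8) ((a ^ 2 / (8 * (1 + Real.log (2 * M)))) ^ 2)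
  have hτ : 0 < τ := lt_min (by positivity) (by positivity)
  -- the finitely many exponents
  set Pmax := ⌈C / Real.sqrt τ⌉₊
  set W := 36 * kap d η * K * (Pmax : ℝ) ^ 2 + 3
  have hW0 : 0 < W := by positivity
  choose Kq hKq0 hKq using fun q : ℕ => exists_stepK (G := G) hStep hη1 D o q
  set K' := ∑ q ∈ range (Pmax + 1), Kq q
  have hK'0 : 0 ≤ K' := Finset.sum_nonneg fun q _ => hKq0 q
  set Cδ := K' + 2 * (Pmax : ℝ) ^ 2 * kap d η * D.card
  have hCδ : 0 ≤ Cδ := by positivity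
  set tot0 := ∑ q ∈ range (Pmax + 1), (W / ε₀) ^ q
  have htot0 : 0 ≤ tot0 := by positivity
  set target := Real.exp (-(Pmax : ℝ)) / (2 * (Cδ + 1) * (tot0 + 1)) with htar
  have htarget : 0 < target := by positivity
  obtain ⟨k₀, hk₀⟩ := exists_pow_lt_of_lt_one (show (0:ℝ) < target ^ 2 by positivity)
    (show ((1:ℝ) / 2) < 1 by norm_num)
  refine ⟨k₀, fun k hk j hj htj => ?_⟩
  have hh : (hlev k : ℝ) = ((1:ℝ) / 2) ^ k := by simp [hlev, one_div, inv_pow]
  have hh1 : (hlev k : ℝ) ≤ 1 := by rw [hh]; exact pow_le_one₀ (by norm_num) (by norm_num)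
  have hhs : Real.sqrt (hlev k : ℝ) ≤ target := by
    rw [Real.sqrt_le_left htarget.le, hh]
    exact (pow_le_pow_of_le_one (by norm_num) (by norm_num) hk).trans hk₀.le
  have hh0 : hlev k ≠ 0 := by simp [hlev]
  have hR : Reg d ⟨θ, η, hlev k, 2 ^ k⟩ := reg_of hd3 hη.le hη4 hθ0 hθ1.le k
  have hpok : PrmOK d η ⟨θ, η, hlev k, 2 ^ k⟩ := ⟨rfl, hlev_count k, hθ0, hθ1⟩
  have ht0 : (0:ℝ) < (j : ℝ) * hlev k := by positivity
  have ht01 : (j : ℝ) * hlev k ≤ 1 :=
    (htj.trans ((min_le_left _ _).trans (min_le_left _ _))).trans ht₁1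
  set u := Real.sqrt ((j : ℝ) * hlev k) with hu_def
  have hu : 0 < u := Real.sqrt_pos.2 ht0
  have hu1 : u ≤ 1 := Real.sqrt_le_one.2 ht01
  change E G ⟨θ, η, hlev k, 2 ^ k⟩ D j (bigM G ⟨θ, η, hlev k, 2 ^ k⟩ D ε₀ j o) ≤ _
  by_cases hsm : (j : ℝ) * hlev k ≤ τ
  · -- very small times
    have h8 : 8 * ((j : ℝ) * hlev k) ≤ a := by
      linarith [hsm.trans (min_le_left _ _)]
    refine (small_time hG hd hR hD ho hη1 (hlev_count k) hε hh0 hj ht01 h8).trans ?_
    refine small_arith hM (min_le_left _ _) hu hu1 (Real.mul_self_sqrt ht0.le) ?_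
    rw [hu_def, Real.sqrt_le_left (by positivity)]
    exact hsm.trans (min_le_right _ _)
  · -- the recursion
    push Not at hsm
    refine recursion_case hG hd hd3 hR hD ho hε hη1 hK hC0 hA (hC ▸ rfl) hu hj ht01 ?_ ?_
      (Pmax := Pmax) le_rfl hK'0 hhs htar ?_ ?_ hh0 (min_le_right _ _)
    · show Real.sqrt _ ≤ C / 4
      rw [Real.sqrt_le_left (by positivity)]
      exact htj.trans (min_le_right _ _)
    · exact Nat.ceil_le_ceil
        (div_le_div_of_nonneg_left hC0.le (Real.sqrt_pos.2 hτ) (Real.sqrt_le_sqrt hsm.le))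
    · intro q hq hqP i ψ
      exact (hKq q k i ψ hq).trans (add_le_add_right
        (mul_le_mul_of_nonneg_right (mul_le_mul_of_nonneg_right
          (Finset.single_le_sum (f := Kq) (fun q _ => hKq0 q) (Finset.mem_range.2 (by omega)))
          (hlev k).coe_nonneg) (Real.sqrt_nonneg _)) _)
    · intro i hi hij q hq
      have hit : (i : ℝ) * hlev k ≤ (j : ℝ) * hlev k :=
        mul_le_mul_of_nonneg_right (by exact_mod_cast hij.le) (hlev k).coe_nonneg
      have ht2 := hit.trans htj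
      exact bad_times hG hd hd3 hD ho hη hη4 hθ0 hθ1 hK hu₀ hu₀1 ht₁1 hbadS
        (fun i hi hi₁ kk => (hbadP V G hG hd hd3 o R ⟨θ, η, hlev k, 2 ^ k⟩ hpok D rfl i hi hi₁
          o ho).2 kk)
        hi (ht2.trans ((min_le_left _ _).trans (min_le_left _ _)))
        (ht2.trans ((min_le_left _ _).trans (min_le_right _ _))) q hq

end

end Vale.Agent.P161.Edge
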