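import Vale.Agent.P161.Edge.ProbStep

/-!
Mean and tail of the squared sums of regression coefficients.
-/

namespace Vale.Agent.P161.Edge

open MeasureTheory ProbabilityTheory Finset Function
open scoped NNReal Classical

noncomputable section

variable {V : Type} {G : SimpleGraph V} {d j : ℕ} {P : Prm}

lemma cast_pred (hd3 : 3 ≤ d) : ((d - 1 : ℕ) : ℝ) = (d : ℝ) - 1 := by
  rw [Nat.cast_sub (by omega), Nat.cast_one]

lemma Ctx.card_ch (C : Ctx G d P j) {D : Finset V} {w p : V} (h : G.Adj p w) :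
    ((ch G D w p).card : ℝ) ≤ (d : ℝ) - 1 := by
  rw [← cast_pred C.three]
  exact_mod_cast card_ch_le C.reg C.three h

/-- A uniform bound on the squared sums below the critical coupling. -/
lemma Ctx.det_bound (C : Ctx G d P j) {D : Finset V} (hD : Closed G D) {Λ : ℝ} (hΛ : 1 ≤ Λ)
    (hfix : 1 + ((d : ℝ) - 1) * thetaJ P j ^ 2 * Λ ≤ Λ) (Y : ℕ → V × V → ℝ) :
    ∀ (B : Finset V) {w p : V}, p ∈ D → w ∈ D → G.Adj p w → branch G D w p = B →
      dD G P D j Y w p ≤ Λ := by
  intro B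
  induction B using Finset.strongInduction with
  | H B ih =>
    intro w p hp hw ha hb
    rw [C.dD_eq hD hp hw ha]
    refine le_trans (add_le_add le_rfl ?_) hfix
    refine (Finset.sum_le_card_nsmul _ _ (thetaJ P j ^ 2 * Λ) fun z hz => ?_).trans ?_
    · obtain ⟨hzD, hwz, _⟩ := mem_ch.1 hz
      exact mul_le_mul (C.rD_sq_le Y z w)
        (ih _ (hb ▸ branch_ssubset C.tree hD hw ha hz) hw hzD hwz rfl)
        (sqD_nonneg _ _ _) (sq_nonneg _)
    · rw [nsmul_eq_mul, mul_assoc]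
      exact mul_le_mul_of_nonneg_right (C.card_ch ha) (mul_nonneg (sq_nonneg _) (by linarith))

/-- A branch pointing away from the centre of a ball is short. -/
lemma Ctx.down_bound (C : Ctx G d P j) {o : V} {R : ℕ} {hG : G.IsTree} {hd : Regular G d}
    {hd3 : 3 ≤ d} (hθ : ((d : ℝ) - 1) * thetaJ P j ^ 2 ≤ 1) (Y : ℕ → V × V → ℝ) :
    ∀ (n : ℕ) {w p : V}, p ∈ ballF hG hd hd3 o R → w ∈ ballF hG hd hd3 o R → G.Adj p w →
      G.dist o w = G.dist o p + 1 → R ≤ G.dist o w + n →
      dD G P (ballF hG hd hd3 o R) j Y w p ≤ (n : ℝ) + 1 := by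
  intro n
  induction n with
  | zero =>
    intro w p hp hw ha hdist hR
    rw [C.dD_eq (closed_ballF o R) hp hw ha, Finset.sum_eq_zero fun z hz => ?_]
    · simp
    · exfalso
      obtain ⟨hzD, hwz, hzp⟩ := mem_ch.1 hz
      have hzR := mem_ballF.1 hzD
      rcases C.tree.dist_eq_dist_add_one_of_adj o hwz with h | h
      · exact hzp (closer_unique C.tree hwz ha.symm h hdist)
      · omega
  | succ n ih =>
    intro w p hp hw ha hdist hR
    rw [C.dD_eq (closed_ballF o R) hp hw ha]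
    have hb : ∀ z ∈ ch G (ballF hG hd hd3 o R) w p,
        rD G P (ballF hG hd hd3 o R) j Y z w ^ 2 * dD G P (ballF hG hd hd3 o R) j Y z w ≤
          thetaJ P j ^ 2 * ((n : ℝ) + 1) := by
      intro z hz
      obtain ⟨hzD, hwz, hzp⟩ := mem_ch.1 hz
      have hzd : G.dist o z = G.dist o w + 1 := by
        rcases C.tree.dist_eq_dist_add_one_of_adj o hwz with h | h
        · exact absurd (closer_unique C.tree hwz ha.symm h hdist) hzp
        · exact h
      exact mul_le_mul (C.rD_sq_le Y z w) (ih hw hzD hwz hzd (by omega)) (sqD_nonneg _ _ _)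
        (sq_nonneg _)
    have hn : (0 : ℝ) ≤ (n : ℝ) + 1 := by positivity
    have hsum := (Finset.sum_le_card_nsmul _ _ _ hb).trans_eq (nsmul_eq_mul _ _)
    have : ((ch G (ballF hG hd hd3 o R) w p).card : ℝ) * (thetaJ P j ^ 2 * ((n : ℝ) + 1)) ≤
        (n : ℝ) + 1 := by
      calc _ ≤ ((d : ℝ) - 1) * (thetaJ P j ^ 2 * ((n : ℝ) + 1)) :=
            mul_le_mul_of_nonneg_right (C.card_ch ha) (mul_nonneg (sq_nonneg _) hn)
        _ = ((d : ℝ) - 1) * thetaJ P j ^ 2 * ((n : ℝ) + 1) := by ring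
        _ ≤ _ := mul_le_of_le_one_left hn hθ
    push_cast
    linarith

lemma PCtx.E_dD_eq (C : PCtx G d P j) {D : Finset V} (hD : Closed G D) {p w : V} (hp : p ∈ D)
    (hw : w ∈ D) (h : G.Adj p w) :
    E G P D j (fun _ Y => dD G P D j Y w p) =
      1 + ∑ z ∈ ch G D w p, E G P D j (fun _ Y => rD G P D j Y z w ^ 2 * dD G P D j Y z w) := by
  have hm : ∀ z ∈ ch G D w p,
      MeasY (fun (_ : Finset V) Y => rD G P D j Y z w ^ 2 * dD G P D j Y z w) :=
    fun z _ => (measY_rD P D j z w).sq.mul (measY_dD P D j z w)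
  have hb : ∀ z ∈ ch G D w p, ∀ (_ : Finset V) Y,
      |rD G P D j Y z w ^ 2 * dD G P D j Y z w| ≤ (D.card : ℝ) := fun z hz _ Y =>
    (C.term_bounds hD (mem_ch.1 hz).1 Y).2.1
  rw [E_congr (Ψ := fun _ Y => 1 + ∑ z ∈ ch G D w p, rD G P D j Y z w ^ 2 * dD G P D j Y z w)
      fun _ _ Y => C.dD_eq hD hp hw h Y,
    E_add (B := 1) (B' := (ch G D w p).card * (D.card : ℝ)) (MeasY.const 1) (MeasY.sum _ hm)
      (fun _ _ => by simp) (fun S Y => by
        refine (Finset.abs_sum_le_sum_abs _ _).trans ?_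
        refine (Finset.sum_le_card_nsmul _ _ _ fun z hz => hb z hz S Y).trans_eq ?_
        rw [nsmul_eq_mul]),
    E_const, E_sum _ hm (B := fun _ => (D.card : ℝ)) hb]

lemma PCtx.E_term_le (C : PCtx G d P j) {D : Finset V} (hD : Closed G D) {w z : V} (hz : z ∈ D) :
    E G P D j (fun _ Y => rD G P D j Y z w ^ 2 * dD G P D j Y z w) ≤
      thetaJ P j ^ 2 * E G P D j (fun _ Y => dD G P D j Y z w) := by
  rw [← E_const_mul]
  refine E_mono ((measY_rD P D j z w).sq.mul (measY_dD P D j z w))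
    ((MeasY.const _).mul (measY_dD P D j z w)) (B := (D.card : ℝ))
    (B' := thetaJ P j ^ 2 * (D.card : ℝ)) (fun _ Y => (C.term_bounds hD hz Y).2.1) (fun _ Y => ?_)
    fun _ _ Y => (C.term_bounds hD hz Y).2.2
  rw [abs_mul, abs_of_nonneg (sq_nonneg (thetaJ P j))]
  exact mul_le_mul_of_nonneg_left (C.dD_bounds hD hz Y) (sq_nonneg _)

/-- Numerical facts about one time step of the model. -/
structure Num (d : ℕ) (P : Prm) (j : ℕ) : Prop where
  eta_pos : 0 < P.η
  eta_le : P.η ≤ 1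
  sqrt_eta : Real.sqrt P.η ≤ corrC d / 24
  t_pos : 0 < (j : ℝ) * P.h
  t_le : (j : ℝ) * P.h ≤ 1
  theta_le : thetaJ P j ≤ P.θ
  crit : ((d : ℝ) - 1) * P.θ ^ 2 ≤ 1
  gap : ((d : ℝ) - 1) * thetaJ P j ^ 2 ≤ 1 - P.η * ((j : ℝ) * P.h) / 4

/-- The constant of the mean bound. -/
def meanK (d : ℕ) : ℝ := 10 + 4 / corrC d

lemma meanK_ge (hd3 : 3 ≤ d) : 10 ≤ meanK d ∧ 4 / corrC d ≤ meanK d := by
  have := div_nonneg (by norm_num : (0 : ℝ) ≤ 4) (corrC_pos hd3).le
  unfold meanK
  constructor <;> linarith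

/-- The mean squared sum into any branch of a ball. -/
lemma PCtx.mean_bound (C : PCtx G d P j) (hn : Num d P j) {o : V} {R : ℕ} {hG : G.IsTree}
    {hd : Regular G d} {hd3 : 3 ≤ d} :
    ∀ (B : Finset V) {w p : V}, p ∈ ballF hG hd hd3 o R → w ∈ ballF hG hd hd3 o R → G.Adj p w →
      branch G (ballF hG hd hd3 o R) w p = B →
      E G P (ballF hG hd hd3 o R) j (fun _ Y => dD G P (ballF hG hd hd3 o R) j Y w p) ≤
        meanK d / Real.sqrt ((j : ℝ) * P.h) := by
  set D := ballF hG hd hd3 o R with hDdef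
  have hD : Closed G D := closed_ballF o R
  set t : ℝ := (j : ℝ) * P.h with ht
  set s := Real.sqrt t with hsdef
  set M := meanK d / s with hM
  set θt := thetaJ P j with hθt
  obtain ⟨hK10, hKc⟩ := meanK_ge C.three
  have hspos : 0 < s := Real.sqrt_pos.2 hn.t_pos
  have hs1 : s ≤ 1 := Real.sqrt_le_one.mpr hn.t_le
  have hM0 : 0 ≤ M := div_nonneg (by linarith) hspos.le
  have hMs : M * s = meanK d := div_mul_cancel₀ _ hspos.ne'
  have hcp := corrC_pos C.three
  have hbθ : ((d : ℝ) - 1) * θt ^ 2 ≤ 1 := by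
    have := mul_nonneg hn.eta_pos.le hn.t_pos.le
    linarith [hn.gap]
  have hd' : (3 : ℝ) ≤ d := by exact_mod_cast C.three
  have hθhalf : θt ^ 2 ≤ 1 / 2 := by nlinarith [sq_nonneg θt]
  obtain ⟨hN1, hNlo, hNhi⟩ := depthN_bounds hn.t_pos hn.t_le
  set N := depthN t with hN
  have hNM : 2 * ((N : ℝ) + 1) ≤ M := by
    rw [hM, le_div_iff₀ hspos]
    nlinarith
  intro B
  induction B using Finset.strongInduction with
  | H B ih =>
    intro w p hp hw ha hb
    have hIH : ∀ z ∈ ch G D w p, E G P D j (fun _ Y => dD G P D j Y z w) ≤ M := fun z hz =>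
      ih _ (hb ▸ branch_ssubset C.tree hD hw ha hz) hw (mem_ch.1 hz).1 (mem_ch.1 hz).2.1 rfl
    have hrec : ∀ κ : ℝ, 0 ≤ κ → ((d : ℝ) - 1) * θt ^ 2 * κ * M + 1 ≤ M →
        (∀ z ∈ ch G D w p, E G P D j (fun _ Y => rD G P D j Y z w ^ 2 * dD G P D j Y z w) ≤
          θt ^ 2 * κ * E G P D j (fun _ Y => dD G P D j Y z w)) →
        E G P D j (fun _ Y => dD G P D j Y w p) ≤ M := by
      intro κ hκ hfix hterm
      rw [C.E_dD_eq hD hp hw ha]
      have : ∀ z ∈ ch G D w p,
          E G P D j (fun _ Y => rD G P D j Y z w ^ 2 * dD G P D j Y z w) ≤ θt ^ 2 * κ * M :=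
        fun z hz => (hterm z hz).trans
          (mul_le_mul_of_nonneg_left (hIH z hz) (mul_nonneg (sq_nonneg _) hκ))
      have h1 := (Finset.sum_le_card_nsmul _ _ _ this).trans_eq (nsmul_eq_mul _ _)
      have h2 : ((ch G D w p).card : ℝ) * (θt ^ 2 * κ * M) ≤
          ((d : ℝ) - 1) * (θt ^ 2 * κ * M) :=
        mul_le_mul_of_nonneg_right (C.card_ch ha)
          (mul_nonneg (mul_nonneg (sq_nonneg _) hκ) hM0)
      linarith
    by_cases hsmall : ((d : ℝ) - 1) * θt ^ 2 ≤ 1 - s / 4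
    · refine hrec 1 zero_le_one ?_ fun z hz => by
        rw [mul_one]; exact C.E_term_le hD (mem_ch.1 hz).1
      have : ((d : ℝ) - 1) * θt ^ 2 * M ≤ (1 - s / 4) * M :=
        mul_le_mul_of_nonneg_right hsmall hM0
      nlinarith
    push Not at hsmall
    by_cases hfar : G.dist o w + N + 1 ≤ R
    · refine hrec (1 - corrC d / 4 * s) ?_ ?_ fun z hz => ?_
      · have : corrC d ≤ 1 := by
          unfold corrC
          rw [div_le_one (by nlinarith)]
          nlinarith
        nlinarith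
      · have h1 : ((d : ℝ) - 1) * θt ^ 2 * (1 - corrC d / 4 * s) * M ≤
            1 * (1 - corrC d / 4 * s) * M := by
          refine mul_le_mul_of_nonneg_right (mul_le_mul_of_nonneg_right hbθ ?_) hM0
          have : corrC d ≤ 1 := by
            unfold corrC
            rw [div_le_one (by nlinarith)]
            nlinarith
          nlinarith
        have h2 : 1 ≤ corrC d / 4 * s * M := by
          rw [mul_assoc, mul_comm s M, hMs]
          calc (1 : ℝ) = corrC d / 4 * (4 / corrC d) := by field_simp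
            _ ≤ _ := mul_le_mul_of_nonneg_left hKc (by positivity)
        linarith
      · obtain ⟨hzD, hwz, _⟩ := mem_ch.1 hz
        refine C.contract hD hw hzD hwz hn.eta_pos hn.eta_le hn.sqrt_eta hn.t_pos hn.t_le
          (fun x hx => ?_) hn.theta_le hn.crit ?_
        · rw [hDdef, mem_ballF]
          have h1 := C.tree.connected.dist_triangle (u := o) (v := w) (w := z)
          have h2 := C.tree.connected.dist_triangle (u := o) (v := z) (w := x)
          rw [SimpleGraph.dist_eq_one_iff_adj.2 hwz] at h1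
          change G.dist z x ≤ N at hx
          omega
        · have : θt ^ 2 ≤ P.θ ^ 2 := pow_le_pow_left₀ C.par.1 hn.theta_le 2
          nlinarith
    push Not at hfar
    rcases C.tree.dist_eq_dist_add_one_of_adj o ha with hup | hdown
    · -- `w` is closer to the centre than `p`
      rw [C.E_dD_eq hD hp hw ha]
      have hone : ((ch G D w p).filter fun z => G.dist o w = G.dist o z + 1).card ≤ 1 := by
        rw [Finset.card_le_one]
        intro a ha' b hb'
        obtain ⟨ha1, ha2⟩ := Finset.mem_filter.1 ha'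
        obtain ⟨hb1, hb2⟩ := Finset.mem_filter.1 hb'
        exact closer_unique C.tree (mem_ch.1 ha1).2.1 (mem_ch.1 hb1).2.1 ha2 hb2
      have hterm : ∀ z ∈ ch G D w p,
          E G P D j (fun _ Y => rD G P D j Y z w ^ 2 * dD G P D j Y z w) ≤
            θt ^ 2 * ((N : ℝ) + if G.dist o w = G.dist o z + 1 then M else 0) := by
        intro z hz
        obtain ⟨hzD, hwz, _⟩ := mem_ch.1 hz
        refine (C.E_term_le hD hzD).trans (mul_le_mul_of_nonneg_left ?_ (sq_nonneg _))
        split_ifs with hc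
        · have : (0 : ℝ) ≤ N := Nat.cast_nonneg _
          linarith [hIH z hz]
        · have hzd : G.dist o z = G.dist o w + 1 :=
            (C.tree.dist_eq_dist_add_one_of_adj o hwz).resolve_left hc
          have hN' : ((N - 1 : ℕ) : ℝ) + 1 = N := by
            rw [Nat.cast_sub hN1, Nat.cast_one]; ring
          rw [add_zero, ← E_const (G := G) (P := P) (D := D) j (N : ℝ)]
          refine E_mono (measY_dD P D j z w) (MeasY.const _) (B := (D.card : ℝ)) (B' := (N : ℝ))
            (fun _ Y => C.dD_bounds hD hzD Y) (fun _ _ => by simp) fun _ _ Y => ?_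
          rw [← hN']
          exact C.down_bound hbθ Y (N - 1) hw hzD hwz hzd (by omega)
      have h1 := Finset.sum_le_sum hterm
      rw [← Finset.mul_sum, Finset.sum_add_distrib, Finset.sum_const, ← Finset.sum_filter,
        Finset.sum_const, nsmul_eq_mul, nsmul_eq_mul] at h1
      have hc1 : (((ch G D w p).filter fun z => G.dist o w = G.dist o z + 1).card : ℝ) * M ≤ M :=
        mul_le_of_le_one_left hM0 (by exact_mod_cast hone)
      have hc2 : θt ^ 2 * (((ch G D w p).card : ℝ) * N) ≤ N := by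
        calc θt ^ 2 * (((ch G D w p).card : ℝ) * N) ≤ θt ^ 2 * (((d : ℝ) - 1) * N) :=
              mul_le_mul_of_nonneg_left
                (mul_le_mul_of_nonneg_right (C.card_ch ha) (Nat.cast_nonneg _)) (sq_nonneg _)
          _ = ((d : ℝ) - 1) * θt ^ 2 * N := by ring
          _ ≤ N := mul_le_of_le_one_left (Nat.cast_nonneg _) hbθ
      have hc3 : θt ^ 2 * M ≤ M / 2 := by nlinarith
      nlinarith
    · -- `w` is farther from the centre than `p`
      refine le_trans ?_ (show ((N : ℝ) + 1) ≤ M by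
        have : (0 : ℝ) ≤ N := Nat.cast_nonneg _
        linarith)
      rw [← E_const (G := G) (P := P) (D := D) j ((N : ℝ) + 1)]
      refine E_mono (measY_dD P D j w p) (MeasY.const _) (B := (D.card : ℝ))
        (B' := |(N : ℝ) + 1|) (fun _ Y => C.dD_bounds hD hw Y) (fun _ _ => le_rfl)
        fun _ _ Y => ?_
      exact C.down_bound hbθ Y N hp hw ha hdown (by omega)

/-- Even functionals of different branches at a vertex multiply. -/
lemma PCtx.prod_factor (C : PCtx G d P j) {D : Finset V} (hD : Closed G D) {w : V} (hw : w ∈ D)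
    {f : V → (ℕ → V × V → ℝ) → ℝ} {Bd : ℝ} (_hBd : 1 ≤ Bd)
    (hm : ∀ z, MeasY (fun (_ : Finset V) Y => f z Y)) (hb : ∀ z Y, |f z Y| ≤ Bd)
    (heven : ∀ z ∈ D, G.Adj w z → ∀ Y, f z (fun k i => -Y k i) = f z Y)
    (hloc : ∀ z ∈ D, G.Adj w z → Loc G (part G D w {z}) {(w, w)} j (f z)) :
    ∀ Fs : Finset V, (∀ z ∈ Fs, z ∈ D ∧ G.Adj w z) →
      E G P D j (fun _ Y => ∏ z ∈ Fs, f z Y) = ∏ z ∈ Fs, E G P D j (fun _ Y => f z Y) := by
  intro Fs
  induction Fs using Finset.induction with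
  | empty => intro _; simp [E_const]
  | @insert a Fs ha ih =>
    intro hFs
    have hFs' : ∀ z ∈ Fs, z ∈ D ∧ G.Adj w z := fun z hz => hFs z (Finset.mem_insert_of_mem hz)
    obtain ⟨haD, hwa⟩ := hFs a (Finset.mem_insert_self a Fs)
    have hab : ∀ (Fs' : Finset V) Y, |∏ z ∈ Fs', f z Y| ≤ Bd ^ Fs'.card := fun Fs' Y => by
      rw [Finset.abs_prod]
      exact (Finset.prod_le_prod (fun z _ => abs_nonneg _) fun z _ => hb z Y).trans_eq
        (Finset.prod_const Bd)
    set A₁ := part G D w {a} with hA₁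
    set A₂ := part G D w Fs with hA₂
    set A := part G D w (insert a Fs) with hA
    have h1 : Closed G A₁ := closed_part C.tree hD hw fun z hz => by
      rw [Finset.mem_singleton.1 hz]; exact ⟨haD, hwa⟩
    have h2 : Closed G A₂ := closed_part C.tree hD hw hFs'
    have h3 : Closed G A := closed_part C.tree hD hw hFs
    have hsub : ∀ {F F' : Finset V}, F ⊆ F' → part G D w F ⊆ part G D w F' := fun hFF x hx => by
      rcases mem_part.1 hx with h | ⟨z, hz, hxz⟩
      · exact mem_part.2 (Or.inl h)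
      · exact mem_part.2 (Or.inr ⟨z, hFF hz, hxz⟩)
    have hi : A₁ ∩ A₂ = {w} := by
      ext x
      rw [Finset.mem_inter, Finset.mem_singleton, mem_part, mem_part]
      constructor
      · rintro ⟨h1', h2'⟩
        rcases h1' with h | ⟨z, hz, hxz⟩
        · exact h
        rcases h2' with h | ⟨z', hz', hxz'⟩
        · exact h
        rw [Finset.mem_singleton.1 hz] at hxz
        exact absurd (branch_disjoint C.tree hwa (hFs' z' hz').2 hxz hxz') (fun e => ha (e ▸ hz'))
      · rintro rfl; exact ⟨Or.inl rfl, Or.inl rfl⟩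
    have hun : A₁ ∪ A₂ = A := by
      ext x
      rw [Finset.mem_union, mem_part, mem_part, mem_part]
      constructor
      · rintro ((h | ⟨z, hz, hx⟩) | (h | ⟨z, hz, hx⟩))
        · exact Or.inl h
        · exact Or.inr ⟨z, by rw [Finset.mem_singleton.1 hz]; exact Finset.mem_insert_self a Fs, hx⟩
        · exact Or.inl h
        · exact Or.inr ⟨z, Finset.mem_insert_of_mem hz, hx⟩
      · rintro (h | ⟨z, hz, hx⟩)
        · exact Or.inl (Or.inl h)
        · rcases Finset.mem_insert.1 hz with rfl | hz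
          · exact Or.inl (Or.inr ⟨z, Finset.mem_singleton_self z, hx⟩)
          · exact Or.inr (Or.inr ⟨z, hz, hx⟩)
    have hlocp : ∀ Fs' : Finset V, (∀ z ∈ Fs', z ∈ D ∧ G.Adj w z) →
        Loc G (part G D w Fs') ∅ j (fun Y => ∏ z ∈ Fs', f z Y) := fun Fs' h Y Y' he =>
      Finset.prod_congr rfl fun z hz =>
        ((hloc z (h z hz).1 (h z hz).2).mono (hsub (Finset.singleton_subset_iff.2 hz))).forget Y Y' he
    have hwA : ∀ F : Finset V, w ∈ part G D w F := fun F => mem_part.2 (Or.inl rfl)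
    have hmp : ∀ Fs' : Finset V, MeasY (fun (_ : Finset V) Y => ∏ z ∈ Fs', f z Y) := fun Fs' =>
      MeasY.prod _ fun z _ => hm z
    rw [C.marg h3 ⟨w, hwA _⟩ hD (part_subset hw) (hmp _) (hab _) (hlocp _ hFs),
      Finset.prod_insert ha,
      E_congr (Ψ := fun _ Y => f a Y * ∏ z ∈ Fs, f z Y) fun _ _ Y => Finset.prod_insert ha,
      C.split_even h1 h2 h3 hi hun (hm a) (hmp Fs) (hb a) (fun _ Y => hab Fs Y)
        (hloc a haD hwa) (fun _ _ Y Y' _ he => hlocp Fs hFs' Y Y' he) (heven a haD hwa),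
      ← C.marg h1 ⟨w, hwA _⟩ hD (part_subset hw) (hm a) (hb a) (hloc a haD hwa).forget,
      ← C.marg h2 ⟨w, hwA _⟩ hD (part_subset hw) (hmp Fs) (hab Fs) (hlocp _ hFs'), ih hFs']

/-- The exponential functional of a branch. -/
def expD (G : SimpleGraph V) (P : Prm) (D : Finset V) (j : ℕ) (μ : ℝ) (w z : V)
    (Y : ℕ → V × V → ℝ) : ℝ :=
  if z ∈ D then Real.exp (μ * dD G P D j Y z w) else 1

lemma PCtx.expD_bound (C : PCtx G d P j) {D : Finset V} (hD : Closed G D) {μ : ℝ} (hμ : 0 ≤ μ)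
    (w z : V) (Y : ℕ → V × V → ℝ) :
    |expD G P D j μ w z Y| ≤ Real.exp (μ * D.card) := by
  unfold expD
  split_ifs with hz
  · rw [Real.abs_exp, Real.exp_le_exp]
    exact mul_le_mul_of_nonneg_left (le_of_abs_le (C.dD_bounds hD hz Y)) hμ
  · rw [abs_one]
    exact Real.one_le_exp (by positivity)

lemma measY_expD (P : Prm) (D : Finset V) (j : ℕ) (μ : ℝ) (w z : V) :
    MeasY (fun (_ : Finset V) Y => expD G P D j μ w z Y) := by
  unfold expD
  split_ifs
  · exact ((MeasY.const μ).mul (measY_dD P D j z w)).comp Real.measurable_exp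
  · exact MeasY.const 1

/-- A weighted sum over branches at `w` in an exponential. -/
lemma PCtx.exp_sum_le (C : PCtx G d P j) {D : Finset V} (hD : Closed G D) {w : V} (hw : w ∈ D)
    {Fs : Finset V} (hFs : ∀ z ∈ Fs, z ∈ D ∧ G.Adj w z) {μ x : ℝ} (hμ : 0 ≤ μ)
    (hx : 0 ≤ x) (hθ : thetaJ P j ^ 2 ≤ x) {S : (ℕ → V × V → ℝ) → ℝ}
    (hS : ∀ Y, S Y = 1 + ∑ z ∈ Fs, rD G P D j Y z w ^ 2 * dD G P D j Y z w)
    (hSm : MeasY (fun (_ : Finset V) Y => S Y)) {b' : ℝ} (_hb' : 0 ≤ b')
    (hex : ∀ z ∈ Fs, E G P D j (fun _ Y => expD G P D j (μ * x) w z Y) ≤ Real.exp b') :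
    E G P D j (fun _ Y => Real.exp (μ * S Y)) ≤ Real.exp (μ + Fs.card * b') := by
  set f := fun z Y => expD G P D j (μ * x) w z Y with hf
  have hμx : 0 ≤ μ * x := mul_nonneg hμ hx
  set Bd := Real.exp (μ * x * D.card)
  have hBd : 1 ≤ Bd := Real.one_le_exp (by positivity)
  have hfb : ∀ z Y, |f z Y| ≤ Bd := fun z Y => C.expD_bound hD hμx w z Y
  have hfm : ∀ z, MeasY (fun (_ : Finset V) Y => f z Y) := fun z => measY_expD P D j _ w z
  have hprodb : ∀ Y, |∏ z ∈ Fs, f z Y| ≤ Bd ^ Fs.card := fun Y => by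
    rw [Finset.abs_prod]
    exact (Finset.prod_le_prod (fun z _ => abs_nonneg _) fun z _ => hfb z Y).trans_eq
      (Finset.prod_const Bd)
  have hle : ∀ Y, Real.exp (μ * S Y) ≤ Real.exp μ * ∏ z ∈ Fs, f z Y := by
    intro Y
    rw [Finset.prod_congr rfl (g := fun z => Real.exp (μ * x * dD G P D j Y z w))
      (fun z hz => by simp only [hf, expD, if_pos (hFs z hz).1]),
      ← Real.exp_sum, ← Real.exp_add, Real.exp_le_exp, hS, mul_add, mul_one, Finset.mul_sum]
    refine add_le_add le_rfl (Finset.sum_le_sum fun z _ => ?_)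
    rw [mul_assoc]
    exact mul_le_mul_of_nonneg_left
      (mul_le_mul_of_nonneg_right ((C.rD_sq_le Y z w).trans hθ) (sqD_nonneg _ _ _)) hμ
  have hexpS : ∀ Y, |Real.exp (μ * S Y)| ≤ Real.exp μ * Bd ^ Fs.card := fun Y => by
    rw [Real.abs_exp]
    exact (hle Y).trans (mul_le_mul_of_nonneg_left (le_of_abs_le (hprodb Y)) (Real.exp_pos _).le)
  refine (E_mono (B := Real.exp μ * Bd ^ Fs.card) (B' := Real.exp μ * Bd ^ Fs.card)
    (((MeasY.const μ).mul hSm).comp Real.measurable_exp)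
    ((MeasY.const _).mul (MeasY.prod _ fun z _ => hfm z))
    (fun _ Y => hexpS Y) (fun _ Y => by
      rw [abs_mul, Real.abs_exp]
      exact mul_le_mul_of_nonneg_left (hprodb Y) (Real.exp_pos _).le)
    fun _ _ Y => hle Y).trans ?_
  rw [E_const_mul, C.prod_factor hD hw hBd hfm hfb ?_ ?_ Fs hFs, Real.exp_add, Real.exp_nat_mul]
  · refine mul_le_mul_of_nonneg_left ?_ (Real.exp_pos _).le
    rw [← Finset.prod_const]
    refine Finset.prod_le_prod (fun z hz => E_nonneg fun _ _ Y => ?_) hex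
    simp only [hf, expD, if_pos (hFs z hz).1]
    exact (Real.exp_pos _).le
  · intro z hz hwz Y
    simp only [hf, expD, if_pos hz, C.dD_neg hD hwz hw hz]
  · intro z hz hwz Y Y' he
    simp only [hf, expD, if_pos hz]
    have hA : Closed G (part G D w {z}) := closed_part C.tree hD hw fun u hu => by
      rw [Finset.mem_singleton.1 hu]; exact ⟨hz, hwz⟩
    have hb : branch G D z w ⊆ part G D w {z} := fun u hu =>
      mem_part.2 (Or.inr ⟨z, Finset.mem_singleton_self z, hu⟩)
    have hwA : w ∈ part G D w {z} := mem_part.2 (Or.inl rfl)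
    have hzA : z ∈ part G D w {z} := hb (self_mem_branch hz hwz)
    rw [C.dD_subset (part_subset hw) hA hD hwz hwA hzA hb,
      C.dD_subset (part_subset hw) hA hD hwz hwA hzA hb,
      C.dD_dep (c := w) hA hwz hwA hzA (fun h => absurd h (notMem_branch hwz))
        fun k hk i hi hne => he k hk i hi (by simpa using hne)]

/-- Exponential moments of the squared sums. -/
lemma PCtx.mgf (C : PCtx G d P j) {D : Finset V} (hD : Closed G D) {M Λ lam : ℝ} (hM : 0 ≤ M)
    (hlam : lam * Λ ≤ 1) (hb : thetaJ P j ^ 2 ≤ 1 / ((d : ℝ) - 1))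
    (hΛ : ∀ Y, ∀ w ∈ D, ∀ p ∈ D, G.Adj p w → dD G P D j Y w p ≤ Λ)
    (hmean : ∀ w ∈ D, ∀ p ∈ D, G.Adj p w → E G P D j (fun _ Y => dD G P D j Y w p) ≤ M) :
    ∀ (k : ℕ), ∀ p ∈ D, ∀ w ∈ D, G.Adj p w → ∀ μ : ℝ, 0 ≤ μ → μ ≤ ((d : ℝ) - 1) ^ k * lam →
      E G P D j (fun _ Y => expD G P D j μ p w Y) ≤ Real.exp (μ * (k + 2 * M)) := by
  have hd' : (3 : ℝ) ≤ d := by exact_mod_cast C.three
  have hbpos : (0 : ℝ) < (d : ℝ) - 1 := by linarith
  intro k
  induction k with
  | zero =>
    intro p hp w hw ha μ hμ hμl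
    rw [pow_zero, one_mul] at hμl
    have hle : ∀ Y, expD G P D j μ p w Y ≤ 1 + 2 * μ * dD G P D j Y w p := by
      intro Y
      simp only [expD, if_pos hw]
      have h0 : 0 ≤ μ * dD G P D j Y w p := mul_nonneg hμ (sqD_nonneg _ _ _)
      have h1 : μ * dD G P D j Y w p ≤ 1 :=
        le_trans (mul_le_mul hμl (hΛ Y w hw p hp ha) (sqD_nonneg _ _ _) (hμ.trans hμl)) hlam
      have := Real.abs_exp_sub_one_le (x := μ * dD G P D j Y w p) (by rwa [abs_of_nonneg h0])
      rw [abs_of_nonneg h0] at this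
      linarith [(abs_le.1 this).2]
    refine (E_mono (B := Real.exp (μ * D.card)) (B' := 1 + 2 * μ * (D.card : ℝ))
      (measY_expD P D j μ p w) ((MeasY.const 1).add ((MeasY.const (2 * μ)).mul (measY_dD P D j w p)))
      (fun _ Y => C.expD_bound hD hμ p w Y) (fun _ Y => ?_) fun _ _ Y => hle Y).trans ?_
    · refine (abs_add_le _ _).trans ?_
      rw [abs_one, abs_mul, abs_of_nonneg (by linarith : 0 ≤ 2 * μ)]
      gcongr
      exact C.dD_bounds hD hw Y
    · rw [E_add (B := 1) (B' := 2 * μ * (D.card : ℝ)) (MeasY.const 1)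
        ((MeasY.const _).mul (measY_dD P D j w p)) (fun _ _ => by simp) (fun _ Y => by
          rw [abs_mul, abs_of_nonneg (by linarith : 0 ≤ 2 * μ)]
          exact mul_le_mul_of_nonneg_left (C.dD_bounds hD hw Y) (by linarith)), E_const,
        E_const_mul]
      refine le_trans ?_ (Real.add_one_le_exp _)
      have := mul_le_mul_of_nonneg_left (hmean w hw p hp ha) (by linarith : 0 ≤ 2 * μ)
      push_cast
      linarith
  | succ k ih =>
    intro p hp w hw ha μ hμ hμl
    have hμb : μ * (1 / ((d : ℝ) - 1)) ≤ ((d : ℝ) - 1) ^ k * lam := by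
      rw [mul_one_div, div_le_iff₀ hbpos]
      calc μ ≤ ((d : ℝ) - 1) ^ (k + 1) * lam := hμl
        _ = _ := by ring
    have hμb0 : 0 ≤ μ * (1 / ((d : ℝ) - 1)) := by positivity
    rw [E_congr (Ψ := fun _ Y => Real.exp (μ * dD G P D j Y w p)) fun _ _ Y => by
      simp only [expD, if_pos hw]]
    refine (C.exp_sum_le hD hw (Fs := ch G D w p)
      (fun z hz => ⟨(mem_ch.1 hz).1, (mem_ch.1 hz).2.1⟩) hμ (by positivity) hb
      (fun Y => C.dD_eq hD hp hw ha Y) (measY_dD P D j w p)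
      (b' := μ * (1 / ((d : ℝ) - 1)) * (k + 2 * M)) (by positivity)
      fun z hz => ih w hw z (mem_ch.1 hz).1 (mem_ch.1 hz).2.1 _ hμb0 hμb).trans ?_
    rw [Real.exp_le_exp]
    have h2 : ((ch G D w p).card : ℝ) * (μ * (1 / ((d : ℝ) - 1)) * (k + 2 * M)) ≤
        ((d : ℝ) - 1) * (μ * (1 / ((d : ℝ) - 1)) * (k + 2 * M)) :=
      mul_le_mul_of_nonneg_right (C.card_ch ha) (by positivity)
    have h3 : ((d : ℝ) - 1) * (μ * (1 / ((d : ℝ) - 1)) * (k + 2 * M)) = μ * (k + 2 * M) := by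
      field_simp
    push_cast
    linarith

/-- `P`: the mean and the tail of the squared sums. -/
theorem prob (hT : TreeStmt) (hL : GenLawStmt) (hM : ModelStmt) : ProbStmt := by
  intro d hd3
  have hd' : (3 : ℝ) ≤ d := by exact_mod_cast hd3
  set θc : ℝ := (Real.sqrt ((d : ℝ) - 1))⁻¹ with hθc
  have hbpos : (0 : ℝ) < (d : ℝ) - 1 := by linarith
  have hθcpos : 0 < θc := inv_pos.2 (Real.sqrt_pos.2 hbpos)
  have hcp := corrC_pos hd3
  obtain ⟨hK10, _⟩ := meanK_ge hd3
  refine ⟨min 1 (min (θc / 2) ((corrC d / 24) ^ 2)), by positivity, fun η hη0 hη => ?_⟩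
  simp only [le_min_iff] at hη
  refine ⟨7 + 4 * meanK d, η / 8, 1, by linarith, by positivity, one_pos, le_rfl, ?_⟩
  intro V G hG hd hd3' o R P hP D hDdef j hj hjt v hv
  obtain ⟨hPη, hN1h, hθlo, hθhi⟩ := hP
  subst hDdef
  set D := ballF hG hd hd3' o R with hDdef
  have hD : Closed G D := closed_ballF o R
  have hθ0 : 0 ≤ P.θ := (half_pos hθcpos).le.trans hθlo
  have hsθ : Real.sqrt ((d : ℝ) - 1) * P.θ ≤ 1 := by
    have : Real.sqrt ((d : ℝ) - 1) * θc = 1 :=
      mul_inv_cancel₀ (Real.sqrt_pos.2 hbpos).ne'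
    calc _ ≤ Real.sqrt ((d : ℝ) - 1) * θc :=
          mul_le_mul_of_nonneg_left hθhi.le (Real.sqrt_nonneg _)
      _ = 1 := this
  have hcrit : ((d : ℝ) - 1) * P.θ ^ 2 ≤ 1 := by
    have := pow_le_one₀ (n := 2) (mul_nonneg (Real.sqrt_nonneg _) hθ0) hsθ
    rwa [mul_pow, Real.sq_sqrt hbpos.le] at this
  have hθ1 : P.θ < 1 := by nlinarith
  have hjN : j ≤ P.N₁ := by
    by_contra hc
    push Not at hc
    have hhpos : (0 : ℝ) < P.h := by
      rcases P.h.coe_nonneg.eq_or_lt with h | h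
      · rw [← h, mul_zero] at hN1h; norm_num at hN1h
      · exact h
    have : (P.N₁ : ℝ) * P.h < (j : ℝ) * P.h :=
      mul_lt_mul_of_pos_right (by exact_mod_cast hc) hhpos
    linarith
  have hh : P.h ≠ 0 := by
    intro h
    rw [h] at hN1h
    simp at hN1h
  set t : ℝ := (j : ℝ) * P.h with ht
  have htpos : 0 < t := mul_pos (by exact_mod_cast hj)
    (lt_of_le_of_ne P.h.coe_nonneg (by exact_mod_cast hh.symm))
  have htcl : tcl P.h P.N₁ j = t := by rw [tcl, min_eq_left hjN]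
  have hηθ : P.η ≤ P.θ := by rw [hPη]; exact hη.2.1.trans hθlo
  obtain ⟨hT0, hT1, hT2⟩ := sqrt_mul_thetaJ_le hd3 hθ0 hsθ hN1h (hPη ▸ hη0.le) hηθ j
  rw [htcl] at hT2
  have hgap : ((d : ℝ) - 1) * thetaJ P j ^ 2 ≤ 1 - P.η * t / 4 := by
    have h0 : 0 ≤ Real.sqrt ((d : ℝ) - 1) * thetaJ P j := mul_nonneg (Real.sqrt_nonneg _) hT0
    have h1 : Real.sqrt ((d : ℝ) - 1) * thetaJ P j ≤ 1 - P.η * t / 4 := by linarith
    have h2 : Real.sqrt ((d : ℝ) - 1) * thetaJ P j ≤ 1 := by
      have : 0 ≤ P.η * t := mul_nonneg (hPη ▸ hη0.le) htpos.le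
      linarith
    calc ((d : ℝ) - 1) * thetaJ P j ^ 2 = (Real.sqrt ((d : ℝ) - 1) * thetaJ P j) ^ 2 := by
          rw [mul_pow, Real.sq_sqrt hbpos.le]
      _ ≤ (Real.sqrt ((d : ℝ) - 1) * thetaJ P j) * 1 := by
          rw [sq]; exact mul_le_mul_of_nonneg_left h2 h0
      _ ≤ _ := by rw [mul_one]; exact h1
  have C : PCtx G d P j :=
    { tree := hG, three := hd3, reg := hd, treeStmt := hT
      par := ⟨hT0, lt_of_le_of_lt hT1 hθ1⟩, par₀ := ⟨hθ0, hθ1⟩, step := hjN
      model := hM, law := hL, h_ne := hh, eta_nonneg := hPη ▸ hη0.le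
      tanh_le := by rw [hN1h, mul_one]; exact (tanh_le_self' (hPη ▸ hη0.le)).trans hηθ }
  have hn : Num d P j :=
    { eta_pos := hPη ▸ hη0, eta_le := hPη ▸ hη.1
      sqrt_eta := by rw [hPη, Real.sqrt_le_iff]; exact ⟨by positivity, hη.2.2⟩
      t_pos := htpos, t_le := hjt, theta_le := hT1, crit := hcrit, gap := hgap }
  set M := meanK d / Real.sqrt t with hMdef
  have hspos : 0 < Real.sqrt t := Real.sqrt_pos.2 htpos
  have hs1 : Real.sqrt t ≤ 1 := Real.sqrt_le_one.mpr hjt
  have hM0 : 0 ≤ M := div_nonneg (by linarith) hspos.le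
  have hmean : ∀ w ∈ D, ∀ p ∈ D, G.Adj p w → E G P D j (fun _ Y => dD G P D j Y w p) ≤ M :=
    fun w hw p hp ha => C.mean_bound hn _ hp hw ha rfl
  have hbθ : thetaJ P j ^ 2 ≤ 1 / ((d : ℝ) - 1) := by
    rw [le_div_iff₀ hbpos, mul_comm]
    have : 0 ≤ P.η * t := mul_nonneg (hPη ▸ hη0.le) htpos.le
    linarith
  set lam : ℝ := η * t / 8 with hlam
  have hlampos : 0 < lam := by positivity
  have hlam1 : lam ≤ 1 := by
    have : η * t ≤ 1 * 1 := mul_le_mul hη.1 hjt htpos.le zero_le_one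
    linarith
  have hΛ : ∀ Y, ∀ w ∈ D, ∀ p ∈ D, G.Adj p w → dD G P D j Y w p ≤ 1 / lam := by
    intro Y w hw p hp ha
    refine C.det_bound hD ((one_le_div hlampos).2 hlam1) ?_ Y _ hp hw ha rfl
    have h1 : ((d : ℝ) - 1) * thetaJ P j ^ 2 ≤ 1 - 2 * lam := by
      rw [hPη] at hgap; linarith
    have := mul_le_mul_of_nonneg_right h1 (show (0 : ℝ) ≤ 1 / lam by positivity)
    rw [show (1 - 2 * lam) * (1 / lam) = 1 / lam - 2 by field_simp] at this
    linarith
  have hcard : ((D.filter (G.Adj v)).card : ℝ) ≤ d := by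
    exact_mod_cast card_nbrs_le hd hd3 D v
  constructor
  · have hm : ∀ z ∈ D.filter (G.Adj v),
        MeasY (fun (_ : Finset V) Y => rD G P D j Y z v ^ 2 * dD G P D j Y z v) :=
      fun z _ => (measY_rD P D j z v).sq.mul (measY_dD P D j z v)
    have hbb : ∀ z ∈ D.filter (G.Adj v), ∀ (_ : Finset V) Y,
        |rD G P D j Y z v ^ 2 * dD G P D j Y z v| ≤ (D.card : ℝ) := fun z hz _ Y =>
      (C.term_bounds hD (Finset.mem_filter.1 hz).1 Y).2.1
    rw [E_congr (Ψ := fun _ Y => 1 + ∑ z ∈ D.filter (G.Adj v),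
        rD G P D j Y z v ^ 2 * dD G P D j Y z v) fun _ _ Y => C.sqSJ_eq hD hv Y,
      E_add (B := 1) (B' := (D.filter (G.Adj v)).card * (D.card : ℝ)) (MeasY.const 1)
        (MeasY.sum _ hm) (fun _ _ => by simp) (fun S Y => by
          refine (Finset.abs_sum_le_sum_abs _ _).trans ?_
          refine (Finset.sum_le_card_nsmul _ _ _ fun z hz => hbb z hz S Y).trans_eq ?_
          rw [nsmul_eq_mul]),
      E_const, E_sum _ hm (B := fun _ => (D.card : ℝ)) hbb]
    have hle : ∀ z ∈ D.filter (G.Adj v),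
        E G P D j (fun _ Y => rD G P D j Y z v ^ 2 * dD G P D j Y z v) ≤
          1 / ((d : ℝ) - 1) * M := fun z hz => by
      obtain ⟨hzD, hvz⟩ := Finset.mem_filter.1 hz
      refine (C.E_term_le hD hzD).trans ?_
      exact mul_le_mul hbθ (hmean z hzD v hv hvz) (E_nonneg fun _ _ Y => sqD_nonneg _ _ _)
        (by positivity)
    have h1 := (Finset.sum_le_card_nsmul _ _ _ hle).trans_eq (nsmul_eq_mul _ _)
    have h2 : ((D.filter (G.Adj v)).card : ℝ) * (1 / ((d : ℝ) - 1) * M) ≤ 2 * M := by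
      calc _ ≤ (d : ℝ) * (1 / ((d : ℝ) - 1) * M) :=
            mul_le_mul_of_nonneg_right hcard (by positivity)
        _ = (d : ℝ) / ((d : ℝ) - 1) * M := by ring
        _ ≤ 2 * M := mul_le_mul_of_nonneg_right
            (by rw [div_le_iff₀ hbpos]; linarith) hM0
    have h3 : 1 + 2 * M ≤ (7 + 4 * meanK d) / Real.sqrt t := by
      rw [hMdef, le_div_iff₀ hspos, add_mul, mul_assoc, div_mul_cancel₀ _ hspos.ne']
      linarith
    linarith
  · intro k
    set μ := ((d : ℝ) - 1) ^ k * lam with hμdef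
    have hμ0 : 0 ≤ μ := by positivity
    set K := 7 + 4 * meanK d with hK
    set thr := K * ((k : ℝ) + 1 / Real.sqrt t) with hthr
    have hk0 : (0 : ℝ) ≤ k := Nat.cast_nonneg _
    have hK1 : 1 ≤ K := by linarith
    have hμb : μ * (1 / ((d : ℝ) - 1)) ≤ ((d : ℝ) - 1) ^ k * lam :=
      mul_le_of_le_one_right hμ0 (by rw [div_le_one hbpos]; linarith)
    have hexp := C.exp_sum_le hD hv (Fs := D.filter (G.Adj v))
      (fun z hz => Finset.mem_filter.1 hz) hμ0 (show (0 : ℝ) ≤ 1 / ((d : ℝ) - 1) by positivity) hbθ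
      (S := fun Y => sqSJ G P D Y j v) (fun Y => C.sqSJ_eq hD hv Y)
      (fun _ _ _ _ hY => measurable_sqSJ P D hY j v)
      (b' := μ * (1 / ((d : ℝ) - 1)) * (k + 2 * M)) (by positivity)
      fun z hz => C.mgf hD hM0 (mul_one_div_cancel hlampos.ne').le hbθ hΛ hmean k v hv z
        (Finset.mem_filter.1 hz).1 (Finset.mem_filter.1 hz).2 _ (by positivity) hμb
    have hmS : MeasY (fun (_ : Finset V) Y => sqSJ G P D Y j v) :=
      fun _ _ _ _ hY => measurable_sqSJ P D hY j v
    have hSb : ∀ Y, sqSJ G P D Y j v ≤ D.card := fun Y =>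
      (C.facts hD Y).sum_le C.par hv (Finset.Subset.refl D)
    have hmain : E G P D j (fun _ Y => if thr < sqSJ G P D Y j v then (1 : ℝ) else 0) ≤
        Real.exp (-(μ * thr)) * E G P D j (fun _ Y => Real.exp (μ * sqSJ G P D Y j v)) := by
      rw [← E_const_mul]
      refine E_mono (B := 1) (B' := Real.exp (-(μ * thr)) * Real.exp (μ * D.card))
        (hmS.comp (Measurable.ite measurableSet_Ioi measurable_const measurable_const))
        ((MeasY.const _).mul (((MeasY.const μ).mul hmS).comp Real.measurable_exp))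
        (fun _ Y => by split_ifs <;> simp) (fun _ Y => ?_) fun _ _ Y => ?_
      · rw [abs_mul, Real.abs_exp, Real.abs_exp]
        exact mul_le_mul_of_nonneg_left
          (Real.exp_le_exp.2 (mul_le_mul_of_nonneg_left (hSb Y) hμ0)) (Real.exp_pos _).le
      · split_ifs with hc
        · rw [← Real.exp_add]
          refine Real.one_le_exp ?_
          have := mul_le_mul_of_nonneg_left hc.le hμ0
          linarith
        · positivity
    refine hmain.trans (le_trans (mul_le_mul_of_nonneg_left hexp (Real.exp_pos _).le) ?_)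
    rw [← Real.exp_add]
    refine le_trans (Real.exp_le_exp.2 ?_) (le_mul_of_one_le_left (Real.exp_pos _).le hK1)
    have h1 : ((D.filter (G.Adj v)).card : ℝ) * (μ * (1 / ((d : ℝ) - 1)) * (k + 2 * M)) ≤
        2 * (μ * (k + 2 * M)) := by
      calc _ ≤ (d : ℝ) * (μ * (1 / ((d : ℝ) - 1)) * (k + 2 * M)) :=
            mul_le_mul_of_nonneg_right hcard (by positivity)
        _ = (d : ℝ) / ((d : ℝ) - 1) * (μ * (k + 2 * M)) := by ring
        _ ≤ _ := mul_le_mul_of_nonneg_right
            (by rw [div_le_iff₀ hbpos]; linarith) (by positivity)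
    have h2 : 1 + 2 * ((k : ℝ) + 2 * M) + 1 ≤ thr := by
      rw [hthr, hMdef, mul_add, mul_add K, mul_one_div]
      have e1 : (2 : ℝ) ≤ 2 / Real.sqrt t := by rw [le_div_iff₀ hspos]; linarith
      have e2 : 2 * (k : ℝ) ≤ K * k := mul_le_mul_of_nonneg_right (by linarith) hk0
      have e3 : 2 / Real.sqrt t + 2 * (2 * meanK d / Real.sqrt t) ≤ K / Real.sqrt t := by
        rw [← mul_div_assoc, ← add_div, div_le_div_iff_of_pos_right hspos, hK]
        linarith
      clear_value K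
      simp only [mul_div_assoc] at e3 ⊢
      linarith
    have h3 := mul_le_mul_of_nonneg_left h2 hμ0
    have h4 : η / 8 * ((d : ℝ) - 1) ^ k * t = μ := by rw [hμdef, hlam]; ring
    linarith

end

end Vale.Agent.P161.Edge
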