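import Vale.Agent.P161.Edge.Step
import Vale.Agent.P161.Edge.Model
import Vale.Agent.P161.Edge.Auto

/-!
Covariance of the scheme and of its law under automorphisms of the tree.
-/

namespace Vale.Agent.P161.Edge.Sym

open MeasureTheory ProbabilityTheory Finset Function
open scoped NNReal Classical

noncomputable section

variable {V : Type} {G : SimpleGraph V} (g : G ≃g G) (P : Prm) (D : Finset V)

/-- The automorphism acting on pairs. -/
def pmap (i : V × V) : V × V := (g i.1, g i.2)

/-- The observations carried along the automorphism. -/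
def relY (Y : ℕ → V × V → ℝ) (j : ℕ) (i : V × V) : ℝ := Y j (g.symm i.1, g.symm i.2)

lemma pmap_inj : Injective (pmap g) := fun a b h => by
  simp only [pmap, Prod.mk.injEq, EmbeddingLike.apply_eq_iff_eq] at h
  exact Prod.ext h.1 h.2

lemma obsIx_iso : obsIx G (imageIso g D) = (obsIx G D).map ⟨pmap g, pmap_inj g⟩ := by
  ext i
  simp only [Finset.mem_map, Embedding.coeFn_mk, mem_obsIx, mem_imageIso]
  constructor
  · rintro ⟨h, h'⟩
    refine ⟨(g.symm i.1, g.symm i.2), ⟨h, h'.imp (fun e => congrArg g.symm e)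
      (fun e => g.symm.map_rel_iff.2 e)⟩, by simp [pmap]⟩
  · rintro ⟨a, ⟨h, h'⟩, rfl⟩
    simp only [pmap, RelIso.symm_apply_apply]
    exact ⟨h, h'.imp (fun e => congrArg g e) (fun e => g.map_rel_iff.2 e)⟩

lemma sum_obsIx_iso (f : V × V → ℝ) :
    ∑ i ∈ obsIx G (imageIso g D), f i = ∑ i ∈ obsIx G D, f (g i.1, g i.2) := by
  rw [obsIx_iso, Finset.sum_map]
  rfl

lemma sum_iso (f : V → ℝ) : ∑ v ∈ imageIso g D, f v = ∑ v ∈ D, f (g v) := by
  unfold imageIso
  rw [Finset.sum_map]
  rfl

lemma coef_iso (η : ℝ) (N₁ k : ℕ) (i : V × V) :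
    coef η N₁ k ((g i.1, g i.2) : V × V) = coef η N₁ k i := by
  simp [coef]

lemma mult_iso (i : V × V) (v : V) : mult ((g i.1, g i.2) : V × V) (g v) = mult i v := by
  simp [mult]

lemma fieldH_iso (Y : ℕ → V × V → ℝ) (j : ℕ) (v : V) :
    fieldH G P (imageIso g D) (relY g Y) j (g v) = fieldH G P D Y j v := by
  unfold fieldH
  refine Finset.sum_congr rfl fun k _ => ?_
  rw [sum_obsIx_iso]
  simp [coef_iso, mult_iso, relY]

lemma avg_iso (θ : ℝ) (t : V → ℝ) (f : (V → ℝ) → ℝ) :
    avg G θ (imageIso g D) t f =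
      avg G θ D (fun v => t (g v)) (fun s => f fun v => s (g.symm v)) := by
  unfold avg
  rw [Sm_imageIso, Sm_imageIso]

lemma tilt_iso (Y : ℕ → V × V → ℝ) (j : ℕ) :
    (fun v => tilt G P (imageIso g D) (relY g Y) j (g v)) = tilt G P D Y j := by
  funext v
  unfold tilt
  rw [fieldH_iso]

lemma mean_iso (Y : ℕ → V × V → ℝ) (j : ℕ) (v : V) :
    mean G (thetaJ P j) (imageIso g D) (tilt G P (imageIso g D) (relY g Y) j) (g v) =
      mean G (thetaJ P j) D (tilt G P D Y j) v := by
  unfold mean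
  rw [avg_iso, tilt_iso]
  simp

lemma pcov_iso (Y : ℕ → V × V → ℝ) (j : ℕ) (v w : V) :
    pcov G P (imageIso g D) (relY g Y) j (g v) (g w) = pcov G P D Y j v w := by
  unfold pcov cv
  rw [mean_iso, mean_iso, avg_iso, tilt_iso]
  simp

lemma pmean_iso (Y : ℕ → V × V → ℝ) (j : ℕ) (v : V) :
    pmean G P (imageIso g D) (relY g Y) j (g v) = pmean G P D Y j v := by
  unfold pmean
  rw [mf_imageIso]
  congr 1
  funext u
  rw [fieldH_iso]

lemma sqSJ_iso (Y : ℕ → V × V → ℝ) (j : ℕ) (c : V) :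
    sqSJ G P (imageIso g D) (relY g Y) j (g c) = sqSJ G P D Y j c := by
  unfold sqSJ sqS reg
  rw [sum_iso]
  refine Finset.sum_congr rfl fun x _ => ?_
  have := pcov_iso g P D Y j c x
  unfold pcov at this
  rw [this, mean_iso]

lemma qop_iso (j : ℕ) (k : V → ℝ) (v : V) :
    qop G P (imageIso g D) j k (g v) = qop G P D j (fun u => k (g u)) v := by
  unfold qop
  rw [sum_obsIx_iso]
  simp [coef_iso, mult_iso]

lemma wvec_iso (Y : ℕ → V × V → ℝ) (j₀ : ℕ) (z : V) :
    ∀ (j : ℕ) (v : V), wvec G P (imageIso g D) (relY g Y) j₀ (g z) j (g v) =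
      wvec G P D Y j₀ z j v := by
  intro j
  induction j with
  | zero => intro v; rfl
  | succ j ih =>
    intro v
    simp only [wvec]
    split_ifs
    · simp [Pi.single_apply]
    · beta_reduce
      rw [qop_iso, ih]
      simp [sum_iso, pcov_iso, ih]

lemma resp_iso (Y : ℕ → V × V → ℝ) (j₀ j : ℕ) (o z : V) :
    resp G P (imageIso g D) (relY g Y) j₀ j (g o) (g z) = resp G P D Y j₀ j o z := by
  unfold resp
  rw [sum_iso]
  simp [pcov_iso, wvec_iso]

/-! ### The law -/

/-- The configurations carried along the automorphism. -/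
def cfgIso : Cfg D ≃ Cfg (imageIso g D) where
  toFun S := ⟨imageIso g S.1, Finset.mem_powerset.2
    (Finset.map_subset_map.2 (Finset.mem_powerset.1 S.2))⟩
  invFun S := ⟨imageIso g.symm S.1, Finset.mem_powerset.2 fun v hv => by
    have h := Finset.mem_powerset.1 S.2 (mem_imageIso.1 hv)
    rw [mem_imageIso] at h
    simpa using h⟩
  left_inv S := Subtype.ext (by ext v; simp [mem_imageIso])
  right_inv S := Subtype.ext (by ext v; simp [mem_imageIso])

lemma wt_iso (θ : ℝ) (S : Cfg D) :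
    wt G θ (imageIso g D) (spin (cfgIso g D S).1) = wt G θ D (spin S.1) := by
  rw [wt_imageIso]
  exact wt_congr fun v _ => spin_imageIso g S.1 v

/-- The law of the model is equivariant. -/
theorem E_relabel (h0 : 0 ≤ P.θ) (h1 : P.θ < 1) (N : ℕ)
    (Φ : Finset V → (ℕ → V × V → ℝ) → ℝ) (hm : MeasY Φ) :
    E G P (imageIso g D) N Φ = E G P D N (fun S Y => Φ (imageIso g S) (relY g Y)) := by
  rw [Mdl.E_eq P h0 h1, Mdl.E_eq P h0 h1]
  congr 1
  · symm
    refine Fintype.sum_equiv (cfgIso g D) _ _ fun S => ?_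
    rw [wt_iso]
    congr 1
    have hmem : ∀ {i : V × V}, i ∈ obsIx G (imageIso g D) →
        ((g.symm i.1, g.symm i.2) : V × V) ∈ obsIx G D := fun {i} hi => by
      rw [obsIx_iso, Finset.mem_map] at hi
      obtain ⟨a, ha, rfl⟩ := hi
      simpa [pmap] using ha
    have hmp : MeasurePreserving
        (fun (ξ : Gen.Noi N (obsIx G D)) (p : Fin N × obsIx G (imageIso g D)) =>
          ξ (p.1, ⟨(g.symm p.2.1.1, g.symm p.2.1.2), hmem p.2.2⟩))
        (Gen.nl P.h N) (Gen.nl (ι := obsIx G (imageIso g D)) P.h N) := by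
      refine pi_comp_inj (gl P.h) (e := fun p : Fin N × obsIx G (imageIso g D) =>
        (p.1, (⟨(g.symm p.2.1.1, g.symm p.2.1.2), hmem p.2.2⟩ : obsIx G D))) fun a b hab => ?_
      simp only [Prod.mk.injEq, Subtype.mk.injEq, EmbeddingLike.apply_eq_iff_eq] at hab
      exact Prod.ext hab.1 (Subtype.ext (Prod.ext hab.2.1 hab.2.2))
    rw [← Mdl.integral_map_mp hmp (hm _ _ _ (measurable_tot_plant (cfgIso g D S)))]
    refine integral_congr_ae (ae_of_all _ fun ξ => ?_)
    change Φ (imageIso g S.1) _ = Φ (imageIso g S.1) _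
    congr 1
    funext j i
    have hiff : ((g.symm i.1, g.symm i.2) : V × V) ∈ obsIx G D ↔
        i ∈ obsIx G (imageIso g D) := by
      refine ⟨fun h => ?_, hmem⟩
      rw [obsIx_iso, Finset.mem_map]
      exact ⟨_, h, by simp [pmap]⟩
    simp only [relY, tot]
    by_cases hi : i ∈ obsIx G (imageIso g D)
    · rw [dif_pos (hiff.2 hi), dif_pos hi]
      unfold Gen.plant
      split_ifs with hj
      · have c := coef_iso g.symm P.η P.N₁ j i
        have e1 : spin (imageIso g S.1) i.1 = spin S.1 (g.symm i.1) := by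
          rw [← spin_imageIso g S.1 (g.symm i.1)]; simp
        have e2 : spin (imageIso g S.1) i.2 = spin S.1 (g.symm i.2) := by
          rw [← spin_imageIso g S.1 (g.symm i.2)]; simp
        simp only [feat, cfgIso, Equiv.coe_fn_mk, e1, e2, c]
      · rfl
    · rw [dif_neg (mt hiff.1 hi), dif_neg hi]
  · exact (Fintype.sum_equiv (cfgIso g D) _ _ fun S => (wt_iso g D P.θ S).symm).symm

end

end Vale.Agent.P161.Edge.Sym
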