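import Vale.Agent.P161.Edge.SymPair
import Vale.Agent.P161.Edge.SymIso

/-!
At a fixed subcritical coupling, weighted sums over the column at the root agree with weighted
sums over the row at the root up to an error vanishing with the radius.
-/

namespace Vale.Agent.P161.Edge.Sym

open MeasureTheory ProbabilityTheory Finset Function Filter
open scoped NNReal Classical Topology

noncomputable section

variable {V : Type} {G : SimpleGraph V} {d : ℕ}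

lemma geo_small {q : ℝ} (h0 : 0 ≤ q) (h1 : q < 1) (c : ℝ) {ε : ℝ} (hε : 0 < ε) :
    ∀ᶠ n in atTop, c * q ^ n ≤ ε := by
  have h := (tendsto_pow_atTop_nhds_zero_of_lt_one h0 h1).const_mul c
  rw [mul_zero] at h
  exact (h.eventually (gt_mem_nhds hε)).mono fun n hn => hn.le

lemma abs_sum_tail {X : V → ℝ} {u : V → ℝ} {D : Finset V} {o : V} {ρ M Wd : ℝ} (hρ : 1 ≤ ρ)
    (hW : 0 ≤ Wd) (r : ℕ) (hX : ∀ c ∈ D, |X c| ≤ Wd * u c ^ 2) (hu : wnorm G D o ρ u ≤ M) :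
    |∑ c ∈ D, X c - ∑ c ∈ D.filter (fun c => G.dist o c ≤ r), X c| ≤
      Wd * M ^ 2 * ((ρ⁻¹) ^ 2) ^ r := by
  rw [← Finset.sum_filter_add_sum_filter_not D (fun c => G.dist o c ≤ r), add_sub_cancel_left]
  refine (Finset.abs_sum_le_sum_abs _ _).trans ?_
  calc ∑ c ∈ D.filter (fun c => ¬G.dist o c ≤ r), |X c|
      ≤ ∑ c ∈ D.filter (fun c => ¬G.dist o c ≤ r), Wd * u c ^ 2 :=
        Finset.sum_le_sum fun c hc => hX c (Finset.mem_filter.1 hc).1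
    _ = Wd * wnorm G D o 1 (fun x => if G.dist o x ≤ r then 0 else u x) ^ 2 := by
        rw [wnorm_sq, Finset.mul_sum, Finset.sum_filter]
        refine Finset.sum_congr rfl fun c _ => ?_
        split_ifs <;> simp
    _ ≤ Wd * ((ρ ^ r)⁻¹ * M) ^ 2 := by
        refine mul_le_mul_of_nonneg_left (pow_le_pow_left₀ (wnorm_nonneg _ _ _ _) ?_ 2) hW
        exact (wnorm_tail D o hρ r u).trans (mul_le_mul_of_nonneg_left hu
          (inv_nonneg.2 (pow_nonneg (zero_le_one.trans hρ) r)))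
    _ = _ := by
        rw [← pow_mul, mul_comm 2 r, pow_mul, inv_pow]
        ring

lemma Cst.of_level (hd3 : 3 ≤ d) {η θ : ℝ} (hη : 0 ≤ η) {T : ℕ} {ρ C : ℝ} (hρ : 1 ≤ ρ)
    (hgap : Real.sqrt ((d : ℝ) - 1) * (θ * ρ) < 1)
    (hC : C = (d : ℝ) / (1 - Real.sqrt ((d : ℝ) - 1) * (θ * ρ)) ^ 2) {k i : ℕ}
    (hi : i ≤ T * 2 ^ k) :
    (i : ℝ) * hlev k ≤ T ∧ Cst d ⟨θ, η, hlev k, 2 ^ k⟩ i ρ C
      (Real.exp ((T : ℝ) * (C * (kap d η * ρ)))) := by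
  have hiT : (i : ℝ) * hlev k ≤ T := by
    calc (i : ℝ) * hlev k ≤ ((T * 2 ^ k : ℕ) : ℝ) * hlev k :=
          mul_le_mul_of_nonneg_right (by exact_mod_cast hi) (hlev k).coe_nonneg
      _ = T := by rw [Nat.cast_mul, mul_assoc, hlev_count, mul_one]
  refine ⟨hiT, hρ, hgap, hC.ge, fun n hn => growth_le (mul_nonneg ?_ ?_) k
    ((mul_le_mul_of_nonneg_right (by exact_mod_cast hn) (hlev k).coe_nonneg).trans hiT)⟩
  · rw [hC]; positivity
  · unfold kap; positivity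

/-- Uniformly in the level, weighted responses of nearby pairs do not see the far boundary. -/
lemma exists_radius (hT : TreeStmt) (hG : G.IsTree) (hd : Regular G d) (hd3 : 3 ≤ d) {η θ : ℝ}
    (hη : 0 ≤ η) (hη1 : η ≤ 1 / (4 * d)) (hθ0 : (Real.sqrt ((d : ℝ) - 1))⁻¹ / 2 ≤ θ)
    (hθ1 : θ < (Real.sqrt ((d : ℝ) - 1))⁻¹) (o : V) (T : ℕ) {ρ C Wd : ℝ} (hρ1 : 1 < ρ)
    (hgap : Real.sqrt ((d : ℝ) - 1) * (θ * ρ) < 1)
    (hC : C = (d : ℝ) / (1 - Real.sqrt ((d : ℝ) - 1) * (θ * ρ)) ^ 2) (hWd : 0 ≤ Wd)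
    (hy1 : ((d : ℝ) - 1) * θ ^ 2 < 1) (r : ℕ) {η' : ℝ} (hη'0 : 0 < η') :
    ∃ R' : ℕ, r ≤ R' ∧ ∀ (k j₀ i : ℕ), j₀ < i → i ≤ T * 2 ^ k →
      ∀ F : ℝ → ℝ, FOk F (sB d θ ^ 2) Wd → ∀ c, G.dist o c ≤ r →
      ∀ B : Finset V, Closed G B → ballF hG hd hd3 o R' ⊆ B →
      |E G ⟨θ, η, hlev k, 2 ^ k⟩ B i (fun _ Y => fq G ⟨θ, η, hlev k, 2 ^ k⟩ F B Y j₀ i o c) -
        E G ⟨θ, η, hlev k, 2 ^ k⟩ (ballF hG hd hd3 o R') i (fun _ Y =>
          fq G ⟨θ, η, hlev k, 2 ^ k⟩ F (ballF hG hd hd3 o R') Y j₀ i o c)| ≤ η' := by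
  have hd3' : (3 : ℝ) ≤ d := by exact_mod_cast hd3
  have hθp : 0 < θ := lt_of_lt_of_le
    (by have : 0 < Real.sqrt ((d : ℝ) - 1) := Real.sqrt_pos.2 (by linarith); positivity) hθ0
  set y := ((d : ℝ) - 1) * θ ^ 2 with hy
  have hy0 : 0 ≤ y := mul_nonneg (by linarith) (sq_nonneg θ)
  have hρ0 : 0 < ρ := by linarith
  set κ := kap d η
  have hκ : 0 ≤ κ := by simp only [κ, kap]; positivity
  set Gg := Real.exp ((T : ℝ) * (C * (κ * ρ)))
  set M := C * Gg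
  have hC0 : 0 ≤ C := by rw [hC]; positivity
  have hρi0 : 0 ≤ ρ⁻¹ := inv_nonneg.2 hρ0.le
  have hρi1 : ρ⁻¹ < 1 := inv_lt_one_of_one_lt₀ hρ1
  set S := sB d θ
  -- the field cut-off
  set c₅ := M ^ 2 * (2 * S ^ 2) * fieldB d η T
  set Hm := |c₅| * 4 / η' + 1 with hHm
  have hHm1 : 1 ≤ Hm := le_add_of_nonneg_left (by positivity)
  have h5 : M ^ 2 * (2 * S ^ 2) * (fieldB d η T / Hm ^ 2) ≤ η' / 4 := by
    rw [← mul_div_assoc, div_le_iff₀ (by positivity)]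
    have e : |c₅| ≤ η' / 4 * Hm := by
      have h0 : η' / 4 * Hm = |c₅| + η' / 4 := by rw [hHm]; field_simp
      linarith
    calc c₅ ≤ η' / 4 * Hm := (le_abs_self _).trans e
      _ ≤ _ := mul_le_mul_of_nonneg_left (le_self_pow₀ hHm1 two_ne_zero) (by positivity)
  -- the radius of comparison
  set c₃ := 2 * Wd * M * ((M * κ * (Gg * ρ ^ r) * ((T : ℝ) * (4 * C)) + 2 * C * (Gg * ρ ^ r)))
  set c₄ := M ^ 2 * (4 * S) * ((d : ℝ) / (1 - y))
  obtain ⟨n₃, hrn, hn3, hn4⟩ := ((eventually_ge_atTop r).and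
    ((geo_small hρi0 hρi1 c₃ (by positivity : 0 < η' / 4)).and
      (geo_small hy0 hy1 c₄ (by positivity : 0 < η' / 4)))).exists
  set K := ballF hG hd hd3 o n₃
  obtain ⟨nk, hnk, hnk0⟩ : ∃ x : ℝ, (K.card : ℝ) = x ∧ 0 ≤ x := ⟨_, rfl, Nat.cast_nonneg _⟩
  -- the averaging parameter
  set a₁ := 2 * Wd * M * (M * κ * (Gg * ρ ^ r))
  set a₂ := 2 * Wd * M * (Gg * ρ ^ r) + M ^ 2 * (2 * S ^ 2 + 2 * S * (4 * nk *
    ((1 + ratK d θ) ^ 2 * Real.exp (2 * Hm))))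
  set a := (a₁ * T + a₂) * (3 * nk ^ 2)
  set δ := η' / 8 / (|a| + 1) with hδdef
  have hδ : 0 < δ := by positivity
  have haδ : a * δ ≤ η' / 8 := by
    refine (mul_le_mul_of_nonneg_right ((le_abs_self a).trans (lt_add_one _).le) hδ.le).trans
      (le_of_eq ?_)
    rw [hδdef]
    field_simp
  -- the outer radius
  obtain ⟨m, hm⟩ := (geo_small hy0 hy1 (a * (64 * (d : ℝ) ^ (n₃ + 3) / (1 - y) / (4 * δ)))
    (by positivity : 0 < η' / 8)).exists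
  refine ⟨n₃ + 1 + m, by omega, fun k j₀ i hj hi F hF c hcd B hB hAB => ?_⟩
  set R' := n₃ + 1 + m with hR'
  obtain ⟨hiT, hc⟩ := Cst.of_level hd3 hη hρ1.le hgap hC hi
  have hR : Reg d ⟨θ, η, hlev k, 2 ^ k⟩ := reg_of hd3 hη hη1 hθ0 hθ1.le k
  have hball : ∀ v, G.dist o v ≤ R' → v ∈ ballF hG hd hd3 o R' := fun v hv => mem_ballF.2 hv
  have geo : Geo G (ballF hG hd hd3 o R') B K o c r n₃ :=
    ⟨closed_ballF o R', hB, hAB, fun v => mem_ballF, fun v hv => hball v (by omega), hcd,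
      hball c (by omega)⟩
  refine (pair_bound hT hG hd hR hc hj hy1 hF (by simp [hlev]) geo (R := R') (by omega) hball hiT
    (zero_lt_one.trans_le hHm1) hδ).trans ?_
  rw [hnk]
  have hgB : gainB d θ n₃ R' ≤ 64 * (d : ℝ) ^ (n₃ + 3) / (1 - y) * y ^ m := by
    unfold gainB
    rw [← hy, ← mul_div_assoc, div_mul_eq_mul_div]
    refine div_le_div_of_nonneg_right (mul_le_mul_of_nonneg_left
      (pow_le_pow_of_le_one hy0 hy1.le (by omega)) (by positivity)) (by linarith)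
  have hSn : 0 ≤ S := div_nonneg (Nat.cast_nonneg d) (by linarith)
  have ha0 : 0 ≤ a := by
    have := one_le_ratK (d := d) hθp.le hR.lt_one
    positivity
  have e1 := mul_le_mul_of_nonneg_left (div_le_div_of_nonneg_right hgB
    (show (0:ℝ) ≤ 4 * δ by positivity)) ha0
  have e2 : a * (64 * (d : ℝ) ^ (n₃ + 3) / (1 - y) * y ^ m / (4 * δ)) ≤ η' / 8 :=
    le_of_eq_of_le (by ring) hm
  have e3 : c₃ * (ρ ^ n₃)⁻¹ ≤ η' / 4 := by rw [← inv_pow]; exact hn3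
  have e4 : M ^ 2 * (4 * S) * tauB d θ n₃ ≤ η' / 4 :=
    le_of_eq_of_le (by simp only [c₄, tauB, ← hy]; ring) hn4
  simp only [a, a₁, a₂, c₃, M, S, κ] at e1 e2 e3 e4 h5 haδ ⊢
  linarith

/-- Truncation of a sum to a ball, in expectation. -/
lemma E_tail {P : Prm} {D Br : Finset V} {i : ℕ} {ε : ℝ} {X : V → (ℕ → V × V → ℝ) → ℝ}
    (hX : ∀ c ∈ D, Good (X c)) (hBr : Br ⊆ D)
    (hb : ∀ Y, |∑ c ∈ D, X c Y - ∑ c ∈ Br, X c Y| ≤ ε) :
    |E G P D i (fun _ Y => ∑ c ∈ D, X c Y) - E G P D i (fun _ Y => ∑ c ∈ Br, X c Y)| ≤ ε := by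
  have g1 := Good.sum D hX
  have g2 := Good.sum Br fun c hc => hX c (hBr hc)
  rw [← g1.E_sub g2]
  refine ((g1.sub g2).E_abs_le (Good.const ε) hb).trans_eq ?_
  rw [E_const]

/-- The reflection exchanging `o` and `c`. -/
lemma E_swap (hG : G.IsTree) (hd : Regular G d) (hd3 : 3 ≤ d) {P : Prm} (h0 : 0 ≤ P.θ)
    (h1 : P.θ < 1) {F : ℝ → ℝ} (hF : Measurable F) (R j₀ i : ℕ) (o c : V) :
    E G P (ballF hG hd hd3 o R) i (fun _ Y => fq G P F (ballF hG hd hd3 o R) Y j₀ i c o) =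
      E G P (ballF hG hd hd3 c R) i (fun _ Y => fq G P F (ballF hG hd hd3 c R) Y j₀ i o c) := by
  obtain ⟨g, hgo, hgc⟩ := exists_iso_pair hG hd hd3 o c c o (SimpleGraph.dist_comm)
  have hball : ballF hG hd hd3 c R = imageIso g (ballF hG hd hd3 o R) := by
    rw [imageIso_ballF, hgo]
  rw [hball, E_relabel g P _ h0 h1 i _ (measY_fq hF _ j₀ i o c)]
  congr 1
  funext _ Y
  set D := ballF hG hd hd3 o R
  conv_rhs => rw [show fq G P F (imageIso g D) (relY g Y) j₀ i o c =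
    fq G P F (imageIso g D) (relY g Y) j₀ i (g c) (g o) by rw [hgc, hgo]]
  unfold fq wq
  rw [pmean_iso, sqSJ_iso, resp_iso]

theorem sym_core (hT : TreeStmt) (hG : G.IsTree) (hd : Regular G d) (hd3 : 3 ≤ d) {η θ : ℝ}
    (hη : 0 ≤ η) (hη1 : η ≤ 1 / (4 * d)) (hθ0 : (Real.sqrt ((d : ℝ) - 1))⁻¹ / 2 ≤ θ)
    (hθ1 : θ < (Real.sqrt ((d : ℝ) - 1))⁻¹) (o : V) (T : ℕ) {Wd : ℝ} (hWd : 0 ≤ Wd) {ε : ℝ}
    (hε : 0 < ε) :
    ∃ R₀ : ℕ, ∀ R ≥ R₀, ∀ (k j₀ i : ℕ), j₀ < i → i ≤ T * 2 ^ k →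
      ∀ F : ℝ → ℝ, FOk F (sB d θ ^ 2) Wd →
      |E G ⟨θ, η, hlev k, 2 ^ k⟩ (ballF hG hd hd3 o R) i (fun _ Y =>
          ∑ c ∈ ballF hG hd hd3 o R,
            fq G ⟨θ, η, hlev k, 2 ^ k⟩ F (ballF hG hd hd3 o R) Y j₀ i c o) -
        E G ⟨θ, η, hlev k, 2 ^ k⟩ (ballF hG hd hd3 o R) i (fun _ Y =>
          ∑ c ∈ ballF hG hd hd3 o R,
            fq G ⟨θ, η, hlev k, 2 ^ k⟩ F (ballF hG hd hd3 o R) Y j₀ i o c)| ≤ ε := by
  set s := Real.sqrt ((d : ℝ) - 1) with hs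
  obtain ⟨hs1, -⟩ := sqrt_deg_facts hd3
  rw [← hs] at hs1
  have hs0 : 0 < s := by linarith
  have hθp : 0 < θ := lt_of_lt_of_le (by positivity) hθ0
  have hsθ : s * θ < 1 := by
    have := mul_lt_mul_of_pos_left hθ1 hs0
    rwa [mul_inv_cancel₀ hs0.ne'] at this
  have hsθ0 : 0 < s * θ := mul_pos hs0 hθp
  have hy1 : ((d : ℝ) - 1) * θ ^ 2 < 1 := by
    rw [show (d : ℝ) - 1 = s * s from (Real.mul_self_sqrt (by
      have : (3 : ℝ) ≤ d := by exact_mod_cast hd3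
      linarith)).symm]
    nlinarith
  set ρ := (1 + s * θ) / (2 * (s * θ)) with hρdef
  have hρ1 : 1 < ρ := by rw [hρdef, one_lt_div (by positivity)]; linarith
  have hgap : s * (θ * ρ) < 1 := by
    rw [show s * (θ * ρ) = (1 + s * θ) / 2 by rw [hρdef]; field_simp]
    linarith
  set C := (d : ℝ) / (1 - s * (θ * ρ)) ^ 2
  set M := C * Real.exp ((T : ℝ) * (C * (kap d η * ρ)))
  have hρi0 : 0 ≤ ρ⁻¹ := inv_nonneg.2 (zero_le_one.trans hρ1.le)
  have hρi1 : ρ⁻¹ < 1 := inv_lt_one_of_one_lt₀ hρ1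
  obtain ⟨r, hr⟩ := (geo_small (sq_nonneg ρ⁻¹) (pow_lt_one₀ hρi0 hρi1 two_ne_zero)
    (Wd * M ^ 2) (by positivity : 0 < ε / 4)).exists
  set Br := ballF hG hd hd3 o r
  obtain ⟨nb, hnb, hnb0⟩ : ∃ x : ℝ, (Br.card : ℝ) = x ∧ 0 ≤ x := ⟨_, rfl, Nat.cast_nonneg _⟩
  set η' := ε / (4 * (nb + 1)) with hη'
  have hη'0 : 0 < η' := by positivity
  obtain ⟨R', hrR, hrad⟩ := exists_radius hT hG hd hd3 hη hη1 hθ0 hθ1 o T hρ1 hgap rfl hWd hy1 r
    hη'0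
  refine ⟨r + R', fun R hRge k j₀ i hj hi F hF => ?_⟩
  set P : Prm := ⟨θ, η, hlev k, 2 ^ k⟩
  have hR : Reg d P := reg_of hd3 hη hη1 hθ0 hθ1.le k
  have hc : Cst d P i ρ C (Real.exp ((T : ℝ) * (C * (kap d η * ρ)))) :=
    (Cst.of_level hd3 hη hρ1.le hgap rfl hi).2
  set D := ballF hG hd hd3 o R
  have hD : Closed G D := closed_ballF o R
  have hoD : o ∈ D := self_mem_ballF o R
  have hfilt : D.filter (fun c => G.dist o c ≤ r) = Br := by
    ext c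
    simp only [D, Br, Finset.mem_filter, mem_ballF]
    omega
  have gCol : ∀ c ∈ D, Good fun Y => fq G P F D Y j₀ i c o := fun c hcD =>
    good_fq hT hG hd hR hc hj hy1 hF hD hcD hoD
  have gRow : ∀ c ∈ D, Good fun Y => fq G P F D Y j₀ i o c := fun c hcD =>
    good_fq hT hG hd hR hc hj hy1 hF hD hoD hcD
  have hBrD : Br ⊆ D := hfilt ▸ Finset.filter_subset _ _
  have tRow := E_tail (G := G) (P := P) (i := i) gRow hBrD (ε := ε / 4) fun Y => by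
    rw [← hfilt]
    refine (abs_sum_tail (G := G) (u := fun c => resp G P D Y j₀ i o c) hρ1.le hWd r
      (fun c hcD => ?_) (wnorm_row hG hd hR hc hD hoD Y hj)).trans hr
    obtain ⟨w0, w1⟩ := wq_bounds hT hG hd hR hy1 hF (i := i) hD Y hoD
    rw [fq, abs_mul, abs_of_nonneg w0, abs_of_nonneg (sq_nonneg _)]
    exact mul_le_mul_of_nonneg_right w1 (sq_nonneg _)
  have tCol := E_tail (G := G) (P := P) (i := i) gCol hBrD (ε := ε / 4) fun Y => by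
    rw [← hfilt]
    refine (abs_sum_tail (G := G) (u := fun c => resp G P D Y j₀ i c o) (M := M) hρ1.le hWd r
      (fun c hcD => ?_) ((wnorm_col hG hd hR hc hD o Y j₀ hoD le_rfl).trans_eq
        (by simp [M]))).trans hr
    obtain ⟨w0, w1⟩ := wq_bounds hT hG hd hR hy1 hF (i := i) hD Y hcD
    rw [fq, abs_mul, abs_of_nonneg w0, abs_of_nonneg (sq_nonneg _)]
    exact mul_le_mul_of_nonneg_right w1 (sq_nonneg _)
  have main : ∀ c ∈ Br,
      |E G P D i (fun _ Y => fq G P F D Y j₀ i c o) -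
        E G P D i (fun _ Y => fq G P F D Y j₀ i o c)| ≤ 2 * η' := by
    intro c hc'
    have hcd : G.dist o c ≤ r := mem_ballF.1 hc'
    rw [E_swap hG hd hd3 hR.nonneg hR.lt_one hF.measurable]
    have p1 := hrad k j₀ i hj hi F hF c hcd (ballF hG hd hd3 c R) (closed_ballF c R)
      (ballF_mono (by rw [SimpleGraph.dist_comm]; omega))
    have p2 := hrad k j₀ i hj hi F hF c hcd D hD (ballF_mono (by simp; omega))
    rw [abs_le] at p1 p2 ⊢
    constructor <;> linarith [p1.1, p1.2, p2.1, p2.2]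
  have hmid : |E G P D i (fun _ Y => ∑ c ∈ Br, fq G P F D Y j₀ i c o) -
      E G P D i (fun _ Y => ∑ c ∈ Br, fq G P F D Y j₀ i o c)| ≤ ε / 2 := by
    rw [Good.E_sum Br fun c hc' => gCol c (hBrD hc'),
      Good.E_sum Br fun c hc' => gRow c (hBrD hc'), ← Finset.sum_sub_distrib]
    refine (Finset.abs_sum_le_sum_abs _ _).trans ((Finset.sum_le_card_nsmul _ _ _ main).trans ?_)
    rw [nsmul_eq_mul, hnb, hη', ← mul_assoc, ← mul_div_assoc, div_le_iff₀ (by positivity)]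
    nlinarith
  rw [abs_le] at tRow tCol hmid ⊢
  constructor <;> linarith [tRow.1, tRow.2, tCol.1, tCol.2, hmid.1, hmid.2]

end

end Vale.Agent.P161.Edge.Sym

namespace Vale.Agent.P161.Edge

open Finset
open scoped Classical

/-- Sums over the column at the root agree with sums over the row at the root. -/
theorem symStmt (hT : TreeStmt) : SymStmt := by
  intro d hd3
  refine ⟨1 / (4 * d), by positivity, fun η hη hη1 V G hG hd _ o T θ h0 h1 ε hε => ?_⟩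
  have hb : (0 : ℝ) ≤ Sym.sB d θ ^ 2 := sq_nonneg _
  obtain ⟨R₀, hR₀⟩ := Sym.sym_core hT hG hd hd3 hη.le hη1 h0 h1 o T
    (Wd := 1 + Sym.sB d θ ^ 2) (by linarith) hε
  refine ⟨R₀, fun R hR k j₀ i hj hi => ⟨?_, fun L hL => ?_⟩⟩
  · have := hR₀ R hR k j₀ i hj hi (fun _ => 1)
      ⟨fun x y => by simp, fun x _ _ => ⟨zero_le_one, by linarith⟩⟩
    simpa only [Sym.fq, Sym.wq, one_mul] using this
  · have := hR₀ R hR k j₀ i hj hi (fun x => max (x - L) 0)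
      ⟨fun x y => (abs_max_sub_max_le_abs _ _ _).trans (by rw [sub_sub_sub_cancel_right]),
        fun x _ hx => ⟨le_max_right _ _, max_le (by linarith) (by linarith)⟩⟩
    simpa only [Sym.fq, Sym.wq, ← Finset.mul_sum] using this

end Vale.Agent.P161.Edge
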