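import Vale.Agent.P161.Edge.Energy
import Vale.Agent.P161.Edge.Prob
import Vale.Agent.P161.Edge.Moment
import Vale.Agent.P161.Edge.Sym

/-!
The energy estimate with its inputs.
-/

namespace Vale.Agent.P161.Edge

/-- The energy estimate. -/
theorem energyStmt : EnergyStmt :=
  energy (prob treeStmt genLawStmt modelStmt)
    (momentStmt genStepStmt (prob treeStmt genLawStmt modelStmt)) (symStmt treeStmt)

end Vale.Agent.P161.Edge
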