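import Vale.Agent.P161.Defs
import Vale.Agent.P161.Marginal
import Vale.Agent.P161.Balls
import Mathlib.MeasureTheory.Constructions.ProjectiveFamilyContent

/-!
The free Ising state exists for every coupling in `[0, 1)` and is unique.
-/

namespace Vale.Agent.P161.Edge.FreeState

open MeasureTheory Finset
open scoped Classical ENNReal

noncomputable section

variable {V : Type} {G : SimpleGraph V} {d : ℕ} {θ : ℝ}

/-- The weight of a configuration as the untilted probability of its set of plus spins. -/
lemma isingWeight_eq_post (hG : G.IsTree) {D : Finset V} (hD : Closed G D) (hne : D.Nonempty)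
    (η : V → Bool) :
    isingWeight G θ D η = post G θ D 0 (D.filter fun v => η v = true) := by
  set S := D.filter fun v => η v = true with hS
  have hsp : ∀ v ∈ D, spin S v = spinVal (η v) := fun v hv => by
    unfold spin spinVal
    cases hη : η v <;> simp [hS, hv, hη]
  have hden : ∑ S' ∈ D.powerset, ew G θ D 0 S' = (2:ℝ) ^ D.card := by
    rw [← Sm_zero_one (θ := θ) hG hD hne]
    simp [Sm, ew]
  have he : ∏ e ∈ edgesIn G D, edgeFactor θ (spin S) e
      = 2 ^ (edgesIn G D).card * ∏ e ∈ edgesIn G D, edgeTerm θ η e := by
    rw [← Finset.prod_const, ← Finset.prod_mul_distrib]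
    refine Finset.prod_congr rfl fun e he => ?_
    induction e using Sym2.ind with
    | _ a b =>
      simp only [edgesIn, Finset.mem_filter, Finset.mk_mem_sym2_iff] at he
      rw [edgeFactor_mk, hsp a he.1.1, hsp b he.1.2]
      simp only [edgeTerm, Sym2.lift_mk]
      ring
  unfold post
  rw [hden]
  unfold ew isingWeight wt
  rw [he, ← card_edgesIn hG hD hne, pow_succ]
  simp only [Pi.zero_apply, mul_zero, Finset.sum_const_zero, Real.exp_zero, mul_one]
  unfold edgesIn
  field_simp

/-- The configuration with agreements `x` along the edges directed towards the root. -/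
def flipRec (o : V) (par : V → V) (x : V → Bool) : ℕ → V → Bool
  | 0, _ => x o
  | n + 1, v => x v == flipRec o par x n (par v)

/-- The configuration generated from the agreements `x`. -/
def flipMap (G : SimpleGraph V) (o : V) (par : V → V) (x : V → Bool) (v : V) : Bool :=
  flipRec o par x (G.dist o v) v

lemma measurable_flipMap (o : V) (par : V → V) : Measurable (flipMap G o par) := by
  have : ∀ n v, Measurable fun x : V → Bool => flipRec o par x n v := by
    intro n
    induction n with
    | zero => exact fun v => measurable_pi_apply o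
    | succ n ih =>
      intro v
      exact (measurable_of_finite (fun p : Bool × Bool => p.1 == p.2)).comp
        ((measurable_pi_apply v).prodMk (ih (par v)))
  exact measurable_pi_lambda _ fun v => this _ v

/-- The law of one agreement. -/
def coin (p : ℝ) : Measure Bool :=
  ENNReal.ofReal p • Measure.dirac true + ENNReal.ofReal (1 - p) • Measure.dirac false

lemma isProbabilityMeasure_coin {p : ℝ} (h0 : 0 ≤ p) (h1 : p ≤ 1) :
    IsProbabilityMeasure (coin p) := by
  constructor
  simp only [coin, Measure.coe_add, Measure.coe_smul, Pi.add_apply, Pi.smul_apply, measure_univ,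
    smul_eq_mul, mul_one]
  rw [← ENNReal.ofReal_add h0 (by linarith), add_sub_cancel, ENNReal.ofReal_one]

lemma coin_singleton (p : ℝ) (b : Bool) :
    coin p {b} = ENNReal.ofReal (if b then p else 1 - p) := by
  cases b <;> simp [coin]

variable (hG : G.IsTree) (hd : Regular G d) (hd3 : 3 ≤ d)
include hG hd hd3

/-- Existence of the free Ising state. -/
theorem exists_isFreeIsing (hθ : Par θ) : ∃ μ : Measure (V → Bool), IsFreeIsing G θ μ := by
  obtain ⟨o⟩ := hG.connected.nonempty
  set par : V → V := fun v => if h : v = o then o else (exists_closer hG h).choose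
  have hpar : ∀ v, v ≠ o → G.Adj v (par v) ∧ G.dist o v = G.dist o (par v) + 1 := fun v hv => by
    simp only [par, dif_neg hv]
    exact (exists_closer hG hv).choose_spec
  set ν : V → Measure Bool := fun v => coin (if v = o then 1 / 2 else (1 + θ) / 2)
  have hp : ∀ v, IsProbabilityMeasure (ν v) := fun v => by
    simp only [ν]
    obtain ⟨h0, h1⟩ := hθ
    split_ifs <;> exact isProbabilityMeasure_coin (by linarith) (by linarith)
  set μ := (Measure.infinitePi ν).map (flipMap G o par)
  have hmeas : ∀ (B : Finset V) (η : V → Bool),
      MeasurableSet {σ : V → Bool | ∀ v ∈ B, σ v = η v} := fun B η => by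
    have : {σ : V → Bool | ∀ v ∈ B, σ v = η v} = ⋂ v ∈ B, (fun σ => σ v) ⁻¹' {η v} := by
      ext σ; simp
    rw [this]
    exact B.measurableSet_biInter fun v _ => measurable_pi_apply v (measurableSet_singleton _)
  have hroot : ∀ (B : Finset V), Closed G B → o ∈ B → ∀ η : V → Bool,
      μ {σ | ∀ v ∈ B, σ v = η v} = ENNReal.ofReal (isingWeight G θ B η) := by
    intro B hB ho η
    set y : V → Bool := fun v => if v = o then η o else (η v == η (par v)) with hy
    have hparB : ∀ v ∈ B, v ≠ o → par v ∈ B := fun v hv hvo => by
      obtain ⟨p, hp, hadj, hdist⟩ := hB o ho v hv hvo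
      rwa [closer_unique hG (hpar v hvo).1 hadj (hpar v hvo).2 hdist]
    have hset : flipMap G o par ⁻¹' {σ | ∀ v ∈ B, σ v = η v} =
        Set.pi (↑B : Set V) fun v => {y v} := by
      ext x
      have hrec : ∀ v, v ≠ o → flipMap G o par x v = (x v == flipMap G o par x (par v)) :=
        fun v hv => by
          unfold flipMap
          rw [(hpar v hv).2, flipRec]
      have hzero : flipMap G o par x o = x o := by simp [flipMap, flipRec]
      simp only [Set.mem_preimage, Set.mem_ofPred_eq, Set.mem_pi, Finset.mem_coe,
        Set.mem_singleton_iff]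
      constructor
      · intro h v hv
        by_cases hvo : v = o
        · subst hvo
          simp only [hy, if_true]
          rw [← h v hv, hzero]
        · simp only [hy, if_neg hvo]
          rw [← h v hv, ← h _ (hparB v hv hvo), hrec v hvo]
          cases x v <;> cases flipMap G o par x (par v) <;> rfl
      · intro h
        have : ∀ n v, v ∈ B → G.dist o v = n → flipMap G o par x v = η v := by
          intro n
          induction n with
          | zero =>
            intro v hv hn
            obtain rfl : o = v := hG.connected.dist_eq_zero_iff.1 hn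
            rw [hzero, h o hv]
            simp [hy]
          | succ n ih =>
            intro v hv hn
            have hvo : v ≠ o := fun e => by simp [e] at hn
            rw [hrec v hvo, ih _ (hparB v hv hvo) (by have := (hpar v hvo).2; omega), h v hv]
            simp only [hy, if_neg hvo]
            cases η v <;> cases η (par v) <;> rfl
        exact fun v hv => this _ v hv rfl
    rw [Measure.map_apply (measurable_flipMap o par) (hmeas B η), hset,
      Measure.infinitePi_pi _ (fun v _ => measurableSet_singleton (y v)),
      ← Finset.mul_prod_erase B _ ho]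
    simp only [ν, coin_singleton, if_true]
    have h0 : (if y o then (1:ℝ) / 2 else 1 - 1 / 2) = 1 / 2 := by
      split_ifs <;> norm_num
    have hfac : ∀ v ∈ B.erase o,
        (if y v then (if v = o then (1:ℝ) / 2 else (1 + θ) / 2)
          else 1 - (if v = o then (1:ℝ) / 2 else (1 + θ) / 2)) = edgeTerm θ η s(v, par v) := by
      intro v hv
      have hvo := (Finset.mem_erase.1 hv).1
      simp only [hy, if_neg hvo, edgeTerm, Sym2.lift_mk, spinVal]
      cases η v <;> cases η (par v) <;>
        simp only [beq_self_eq_true, if_true, if_false, Bool.false_eq_true, Bool.true_eq_false,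
          beq_iff_eq] <;> ring
    rw [h0, Finset.prod_congr rfl fun v hv => congrArg ENNReal.ofReal (hfac v hv),
      ← ENNReal.ofReal_prod_of_nonneg, ← ENNReal.ofReal_mul (by norm_num)]
    · congr 1
      unfold isingWeight
      congr 1
      refine Finset.prod_bij (fun v _ => s(v, par v)) ?_ ?_ ?_ (fun v _ => rfl)
      · intro v hv
        obtain ⟨hvo, hvB⟩ := Finset.mem_erase.1 hv
        simp only [Finset.mem_filter, Finset.mk_mem_sym2_iff, SimpleGraph.mem_edgeSet]
        exact ⟨⟨hvB, hparB v hvB hvo⟩, (hpar v hvo).1⟩
      · intro v hv w hw he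
        rcases Sym2.eq_iff.1 he with ⟨h1, -⟩ | ⟨h1, h2⟩
        · exact h1
        · have := (hpar v (Finset.mem_erase.1 hv).1).2
          have := (hpar w (Finset.mem_erase.1 hw).1).2
          rw [h2] at *
          rw [← h1] at *
          omega
      · intro e he
        induction e using Sym2.ind with
        | _ a b =>
          simp only [Finset.mem_filter, Finset.mk_mem_sym2_iff, SimpleGraph.mem_edgeSet] at he
          rcases hG.dist_eq_dist_add_one_of_adj o he.2 with h | h
          · have hao : a ≠ o := fun e => by simp [e] at h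
            refine ⟨a, Finset.mem_erase.2 ⟨hao, he.1.1⟩, ?_⟩
            rw [closer_unique hG (hpar a hao).1 he.2 (hpar a hao).2 h]
          · have hbo : b ≠ o := fun e => by simp [e] at h
            refine ⟨b, Finset.mem_erase.2 ⟨hbo, he.1.2⟩, ?_⟩
            rw [closer_unique hG (hpar b hbo).1 he.2.symm (hpar b hbo).2 h, Sym2.eq_swap]
    · intro v _
      simp only [edgeTerm, Sym2.lift_mk, spinVal]
      obtain ⟨h0, h1⟩ := hθ
      split_ifs <;> linarith
  refine ⟨μ, Measure.isProbabilityMeasure_map (measurable_flipMap o par).aemeasurable,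
    fun D hDc η => ?_⟩
  have hD : Closed G D := closed_of_connected hG hDc
  have hne : D.Nonempty := by
    obtain ⟨⟨x, hx⟩⟩ := hDc.nonempty
    exact ⟨x, hx⟩
  set B := ballF hG hd hd3 o (D.sup fun v => G.dist o v)
  have hDB : D ⊆ B := fun v hv => mem_ballF.2 (Finset.le_sup (f := fun v => G.dist o v) hv)
  have hB : Closed G B := closed_ballF o _
  set S₁ := D.filter fun v => η v = true
  set T := B.powerset.filter fun S => S ∩ D = S₁
  have hsplit : {σ : V → Bool | ∀ v ∈ D, σ v = η v} =
      ⋃ S ∈ T, {σ | ∀ v ∈ B, σ v = decide (v ∈ S)} := by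
    ext σ
    simp only [T, Set.mem_ofPred_eq, Set.mem_iUnion, Finset.mem_filter, Finset.mem_powerset,
      exists_prop]
    constructor
    · intro h
      refine ⟨B.filter fun v => σ v = true, ⟨Finset.filter_subset _ _, ?_⟩, fun v hv => by
        simp [hv]⟩
      ext v
      simp only [Finset.mem_inter, Finset.mem_filter, S₁]
      exact ⟨fun ⟨⟨_, h2⟩, h3⟩ => ⟨h3, h v h3 ▸ h2⟩,
        fun ⟨h3, h2⟩ => ⟨⟨hDB h3, (h v h3).trans h2⟩, h3⟩⟩
    · rintro ⟨S, ⟨-, hS⟩, h⟩ v hv
      rw [h v (hDB hv), Bool.eq_iff_iff, decide_eq_true_iff]
      have := Finset.ext_iff.1 hS v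
      simp only [Finset.mem_inter, Finset.mem_filter, S₁, hv, and_true, true_and] at this
      exact this
  rw [hsplit, measure_biUnion_finset ?_ fun S _ => hmeas B _]
  · rw [Finset.sum_congr rfl fun S _ => hroot B hB (self_mem_ballF o _) fun v => decide (v ∈ S),
      ← ENNReal.ofReal_sum_of_nonneg]
    · congr 1
      rw [isingWeight_eq_post hG hD hne]
      have hm := sum_post_marginal hG hθ hD hne hB hDB fun S => if S = S₁ then (1:ℝ) else 0
      simp only [mul_ite, mul_one, mul_zero, Finset.sum_ite_eq', ← Finset.sum_filter] at hm
      rw [if_pos (Finset.mem_powerset.2 (Finset.filter_subset _ _))] at hm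
      refine Eq.trans (Finset.sum_congr rfl fun S hS => ?_) hm
      rw [isingWeight_eq_post hG hB ⟨o, self_mem_ballF o _⟩]
      congr 1
      ext v
      have hSB := Finset.mem_powerset.1 (Finset.mem_filter.1 hS).1
      simp only [Finset.mem_filter, decide_eq_true_eq]
      exact ⟨fun h => h.2, fun h => ⟨hSB h, h⟩⟩
    · intro S _
      rw [isingWeight_eq_post hG hB ⟨o, self_mem_ballF o _⟩]
      exact post_nonneg hθ _ _ _
  · intro S hS S' hS' hne'
    refine Set.disjoint_left.2 fun σ h h' => hne' ?_
    obtain ⟨hSB, -⟩ := Finset.mem_filter.1 hS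
    obtain ⟨hSB', -⟩ := Finset.mem_filter.1 hS'
    ext v
    by_cases hv : v ∈ B
    · have := (h v hv).symm.trans (h' v hv)
      simpa using this
    · exact ⟨fun hm => absurd (Finset.mem_powerset.1 hSB hm) hv,
        fun hm => absurd (Finset.mem_powerset.1 hSB' hm) hv⟩

/-- Uniqueness of the free Ising state. -/
theorem isFreeIsing_unique {μ ν : Measure (V → Bool)} (hμ : IsFreeIsing G θ μ)
    (hν : IsFreeIsing G θ ν) : μ = ν := by
  have := hμ.1
  have := hν.1
  obtain ⟨o⟩ := hG.connected.nonempty
  set P : (J : Finset V) → Measure (J → Bool) := fun J => μ.map J.restrict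
  have : ∀ J, IsFiniteMeasure (P J) := fun J => Measure.isFiniteMeasure_map μ _
  refine IsProjectiveLimit.unique (P := P) (fun J => rfl) fun J => ?_
  set R := J.sup (fun v => G.dist o v)
  set B := ballF hG hd hd3 o R
  have hJB : J ⊆ B := fun v hv => mem_ballF.2 (Finset.le_sup (f := fun v => G.dist o v) hv)
  have hB : ν.map B.restrict = μ.map B.restrict := by
    refine Measure.ext_of_singleton fun a => ?_
    rw [Measure.map_apply (by fun_prop) (measurableSet_singleton a),
      Measure.map_apply (by fun_prop) (measurableSet_singleton a)]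
    have : (B.restrict : (V → Bool) → (B → Bool)) ⁻¹' {a}
        = {σ : V → Bool | ∀ v ∈ B, σ v = if h : v ∈ B then a ⟨v, h⟩ else false} := by
      ext σ
      simp only [Set.mem_preimage, Set.mem_singleton_iff, Set.mem_ofPred_eq, funext_iff]
      exact ⟨fun h v hv => by rw [dif_pos hv]; exact h ⟨v, hv⟩,
        fun h v => by simpa using h v.1 v.2⟩
    rw [this, hν.2 B (connected_ballF o R), hμ.2 B (connected_ballF o R)]
  have e : (J.restrict : (V → Bool) → (J → Bool))
      = Finset.restrict₂ (π := fun _ : V => Bool) hJB ∘ B.restrict := rfl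
  change ν.map J.restrict = μ.map J.restrict
  rw [e, ← Measure.map_map (by fun_prop) (by fun_prop), hB,
    Measure.map_map (by fun_prop) (by fun_prop)]

end

end Vale.Agent.P161.Edge.FreeState
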