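import Vale.Agent.P161.Edge.Basic
import Vale.Agent.P161.Balls
import Vale.Agent.P161.Scale
import Vale.Agent.P161.Defs
import Vale.Agent.P161.Limit
import Vale.Agent.P161.Edge.FreeState

/-!
A converging family of local approximate spins gives a factor of IID.
-/

namespace Vale.Agent.P161.Edge

open MeasureTheory Finset Filter
open scoped NNReal ENNReal Classical Topology

noncomputable section

/-- Approximate spins with summable steps and the right approximate laws give the free Ising
state as a factor of IID. -/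
theorem exists_factor_of_approx {V : Type} {G : SimpleGraph V} {d : ℕ} {θ : ℝ} (hG : G.IsTree)
    (hd : Regular G d) (hd3 : 3 ≤ d) (hθ : Par θ) (X : ℕ → V → (V → unitInterval) → ℝ)
    (hm : ∀ n v, Measurable (X n v)) (hb : ∀ n v U, |X n v U| ≤ 1)
    (heq : ∀ (g : G ≃g G) (n : ℕ) (v : V) (U : V → unitInterval),
      X n (g v) (fun w => U (g.symm w)) = X n v U)
    (e : ℕ → ℝ) (he : Summable e)
    (hstep : ∀ n v, ∫ U, |X n v U - X (n + 1) v U| ∂(ilaw V) ≤ e n)
    (hlaw : ∀ D₀ : Finset V, Closed G D₀ → D₀.Nonempty → ∃ C : ℝ, ∀ f : (V → ℝ) → ℝ,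
      Continuous f → DepOn f D₀ → (∀ x : V → ℝ, (∀ v, |x v| ≤ 1) → |f x| ≤ 2) →
      (∀ x y : V → ℝ, (∀ v, |x v| ≤ 1) → (∀ v, |y v| ≤ 1) →
        |f x - f y| ≤ 2 * ∑ v ∈ D₀, |x v - y v|) →
      ∀ n, |∫ U, f (fun v => X n v U) ∂(ilaw V) - avg G θ D₀ (fun _ => 0) f| ≤ C * e n) :
    ∃ μ : Measure (V → Bool), IsFreeIsing G θ μ ∧ IsFactorOfIID G μ := by
  have mY : ∀ n, Measurable fun U v => X n v U := fun n => measurable_pi_lambda _ fun v => hm n v
  set Φ : (V → unitInterval) → V → Bool := fun U v =>
    decide (∀ m : ℕ, ∃ n ≥ m, 0 < X n v U) with hΦ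
  have mΦ : Measurable Φ := by
    refine measurable_pi_lambda _ fun v => measurable_to_bool ?_
    have : (fun U => Φ U v) ⁻¹' {true} = ⋂ m : ℕ, ⋃ n ≥ m, {U | 0 < X n v U} := by
      ext U
      simp [hΦ]
    rw [this]
    exact MeasurableSet.iInter fun m => MeasurableSet.iUnion fun n => MeasurableSet.iUnion fun _ =>
      measurableSet_lt measurable_const (hm n v)
  have hconv : ∀ v, ∀ᵐ U ∂(ilaw V), ∃ l : ℝ, Tendsto (fun n => X n v U) atTop (𝓝 l) := by
    intro v
    set Δ := fun n U => |X n v U - X (n + 1) v U| with hΔ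
    have mΔ : ∀ n, Measurable (Δ n) := fun n => ((hm n v).sub (hm (n + 1) v)).abs
    have iΔ : ∀ n, Integrable (Δ n) (ilaw V) := fun n =>
      integrable_of_bdd (B := 2) (mΔ n) fun U => by
        simp only [hΔ, abs_abs]
        exact (abs_sub _ _).trans (by linarith [hb n v U, hb (n + 1) v U])
    have hfin : ∫⁻ U, ∑' n, ENNReal.ofReal (Δ n U) ∂(ilaw V) ≠ ⊤ := by
      rw [lintegral_tsum fun n => (mΔ n).ennreal_ofReal.aemeasurable]
      refine ne_top_of_le_ne_top he.tsum_ofReal_ne_top (ENNReal.tsum_le_tsum fun n => ?_)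
      rw [← ofReal_integral_eq_lintegral_ofReal (iΔ n) (ae_of_all _ fun U => abs_nonneg _)]
      exact ENNReal.ofReal_le_ofReal (hstep n v)
    filter_upwards [ae_lt_top (Measurable.tsum (fun n => (mΔ n).ennreal_ofReal)) hfin] with U hU
    have hs : Summable fun n => Δ n U := by
      have := ENNReal.summable_toReal hU.ne
      exact this.congr fun n => ENNReal.toReal_ofReal (abs_nonneg _)
    exact cauchySeq_tendsto_of_complete (cauchySeq_of_summable_dist hs)
  refine ⟨(ilaw V).map Φ, ⟨Measure.isProbabilityMeasure_map mΦ.aemeasurable, ?_⟩,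
    Φ, mΦ, fun g => ae_of_all _ fun U => ?_, rfl⟩
  swap
  · funext v
    have h : ∀ n, X n v (fun w => U (g.symm w)) = X n (g.symm v) U := fun n => by
      simpa using heq g n (g.symm v) U
    simp [hΦ, h]
  intro D₀ hD₀ η
  have hcl : Closed G D₀ := closed_of_connected hG hD₀
  obtain ⟨o, ho⟩ : D₀.Nonempty := by
    obtain ⟨⟨x, hx⟩⟩ := hD₀.nonempty
    exact ⟨x, hx⟩
  obtain ⟨C, hC⟩ := hlaw D₀ hcl ⟨o, ho⟩
  set Z := fun n U v => X n v U
  have bX : ∀ n U v, |Z n U v| ≤ 1 := fun n U v => hb n v U
  set lim := fun U v => limUnder atTop (fun n => Z n U v)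
  have hconv : ∀ᵐ U ∂(ilaw V), ∀ v ∈ D₀, Tendsto (fun n => Z n U v) atTop (𝓝 (lim U v)) := by
    rw [Filter.eventually_all_finset]
    intro v _
    filter_upwards [hconv v] with U hU
    exact tendsto_nhds_limUnder hU
  have key : ∀ (g : (V → ℝ) → ℝ), Continuous g → DepOn g D₀ →
      (∀ x : V → ℝ, (∀ v, |x v| ≤ 1) → |g x| ≤ 2) →
      (∀ x y : V → ℝ, (∀ v, |x v| ≤ 1) → (∀ v, |y v| ≤ 1) →
        |g x - g y| ≤ 2 * ∑ v ∈ D₀, |x v - y v|) →
      ∀ f : (V → unitInterval) → ℝ,
      (∀ᵐ U ∂(ilaw V), Tendsto (fun n => g (Z n U)) atTop (𝓝 (f U))) →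
      ∫ U, f U ∂(ilaw V) = ∑ S ∈ D₀.powerset, post G θ D₀ 0 S * g (spin S) := by
    intro g h1 h2 h3 h4 f hf
    have t1 : Tendsto (fun n => ∫ U, g (Z n U) ∂(ilaw V)) atTop (𝓝 (∫ U, f U ∂(ilaw V))) :=
      tendsto_integral_of_dominated_convergence (fun _ => 2)
        (fun n => (measurable_depOn h1 h2 (mY n)).aestronglyMeasurable) (integrable_const _)
        (fun n => ae_of_all _ fun U => h3 _ (bX n U)) hf
    have t2 : Tendsto (fun n => ∫ U, g (Z n U) ∂(ilaw V)) atTop
        (𝓝 (avg G θ D₀ (fun _ => 0) g)) := by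
      rw [tendsto_iff_norm_sub_tendsto_zero]
      refine squeeze_zero (fun n => norm_nonneg _) (fun n => hC g h1 h2 h3 h4 n) ?_
      simpa using he.tendsto_atTop_zero.const_mul C
    have e := avg_eq_sum_post (G := G) hθ D₀ (0 : V → ℝ) g
    simp only [Pi.zero_apply, Real.tanh_zero] at e
    rw [tendsto_nhds_unique t1 t2, e]
  -- the limits are signs
  have hsq : ∀ᵐ U ∂(ilaw V), ∀ v ∈ D₀, lim U v ^ 2 = 1 := by
    rw [Filter.eventually_all_finset]
    intro v hv
    have hv' : v ∈ D₀ := hv
    have hb : ∀ᵐ U ∂(ilaw V), |lim U v| ≤ 1 := by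
      filter_upwards [hconv] with U hU
      exact le_of_tendsto' (hU v hv').abs fun n => bX n U v
    set f := fun U => lim U v ^ 2
    have hint := key (fun x => x v ^ 2) ((continuous_apply v).pow 2)
      (fun s t h => by simp only [h v hv'])
      (fun x hx => by
        rw [abs_pow]
        linarith [pow_le_one₀ (n := 2) (abs_nonneg (x v)) (hx v)])
      (fun x y hx hy => by
        have : |x v ^ 2 - y v ^ 2| ≤ 2 * |x v - y v| := by
          rw [sq_sub_sq, abs_mul]
          refine mul_le_mul_of_nonneg_right ((abs_add_le _ _).trans ?_) (abs_nonneg _)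
          linarith [hx v, hy v]
        refine this.trans (mul_le_mul_of_nonneg_left ?_ zero_le_two)
        exact Finset.single_le_sum (f := fun u => |x u - y u|) (fun u _ => abs_nonneg _) hv')
      f (by filter_upwards [hconv] with U hU; exact (hU v hv').pow 2)
    have hs : ∀ S : Finset V, spin S v ^ 2 = 1 := fun S => by rw [sq]; exact spin_sq S v
    simp only [hs, mul_one, sum_post hθ] at hint
    have hfm : AEStronglyMeasurable f (ilaw V) :=
      aestronglyMeasurable_of_tendsto_ae atTop (f := fun n U => Z n U v ^ 2)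
        (fun n => ((measurable_pi_apply v).comp (mY n)).pow_const 2 |>.aestronglyMeasurable)
        (by filter_upwards [hconv] with U hU; exact (hU v hv').pow 2)
    have hfi : Integrable f (ilaw V) := Integrable.of_bound hfm 1 (by
      filter_upwards [hb] with U hU
      rw [Real.norm_eq_abs, abs_pow]
      exact pow_le_one₀ (abs_nonneg _) hU)
    have hnn : 0 ≤ᵐ[ilaw V] fun U => 1 - f U := by
      filter_upwards [hb] with U hU
      simp only [Pi.zero_apply, sub_nonneg, f]
      exact (sq_le_one_iff_abs_le_one _).2 hU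
    have hz : ∫ U, (1 - f U) ∂(ilaw V) = 0 := by
      rw [integral_sub (integrable_const _) hfi, hint]; simp
    filter_upwards [(integral_eq_zero_iff_of_nonneg_ae hnn ((integrable_const _).sub hfi)).1 hz]
      with U hU
    simp only [Pi.zero_apply, f] at hU
    linarith
  -- indicator of the pattern
  set A := {U | ∀ v ∈ D₀, Φ U v = η v} with hA
  have hAm : MeasurableSet A := by
    have : A = ⋂ v ∈ D₀, (fun U => Φ U v) ⁻¹' {η v} := by
      ext U; simp [hA]
    rw [this]
    exact D₀.measurableSet_biInter fun v _ =>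
      (measurable_pi_apply v).comp mΦ (measurableSet_singleton _)
  set g := fun x : V → ℝ => ∏ v ∈ D₀, (1 + spinVal (η v) * x v) / 2
  have hη : ∀ v, |spinVal (η v)| = 1 := fun v => by unfold spinVal; cases η v <;> simp
  have hfac : ∀ x : V → ℝ, (∀ v, |x v| ≤ 1) → ∀ v, |(1 + spinVal (η v) * x v) / 2| ≤ 1 := by
    intro x hx v
    rw [abs_div, abs_two, div_le_one two_pos]
    refine (abs_add_le _ _).trans ?_
    rw [abs_mul, hη, one_mul, abs_one]
    linarith [hx v]
  have hint := key g (continuous_finsetProd _ fun v _ =>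
      (continuous_const.add (continuous_const.mul (continuous_apply v))).div_const 2)
    (fun s t h => Finset.prod_congr rfl fun v hv => by rw [h v hv])
    (fun x hx => by
      rw [Finset.abs_prod]
      exact (Finset.prod_le_one (fun v _ => abs_nonneg _) fun v _ => hfac x hx v).trans one_le_two)
    (fun x y hx hy => by
      refine (abs_prod_sub_prod_le D₀ _ _ (hfac x hx) (hfac y hy)).trans ?_
      rw [Finset.mul_sum]
      refine Finset.sum_le_sum fun v _ => ?_
      rw [← sub_div, abs_div, abs_two, add_sub_add_left_eq_sub, ← mul_sub, abs_mul, hη, one_mul]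
      linarith [abs_nonneg (x v - y v)])
    (fun U => A.indicator (fun _ => (1:ℝ)) U) (by
      filter_upwards [hconv, hsq] with U hU h1
      have hdec : ∀ v ∈ D₀, lim U v = spinVal (Φ U v) := by
        intro v hv
        rcases sq_eq_one_iff.1 (h1 v hv) with h | h
        · have : ∀ m : ℕ, ∃ n ≥ m, 0 < X n v U := fun m => by
            have := (hU v hv).eventually (eventually_gt_nhds (show (0:ℝ) < lim U v by linarith))
            obtain ⟨n, hn1, hn2⟩ := ((eventually_ge_atTop m).and this).exists
            exact ⟨n, hn1, hn2⟩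
          rw [h, show Φ U v = true from decide_eq_true this]
          simp [spinVal]
        · have : ¬ ∀ m : ℕ, ∃ n ≥ m, 0 < X n v U := fun hall => by
            have := (hU v hv).eventually (eventually_lt_nhds (show lim U v < (0:ℝ) by linarith))
            obtain ⟨m, hm⟩ := eventually_atTop.1 this
            obtain ⟨n, hn1, hn2⟩ := hall m
            exact absurd (hm n hn1) (by simp only [Z]; linarith)
          rw [h, show Φ U v = false from decide_eq_false this]
          simp [spinVal]
      have hlim : Tendsto (fun n => g (Z n U)) atTop (𝓝 (g (lim U))) :=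
        tendsto_finsetProd _ fun v hv =>
          (((hU v hv).const_mul _).const_add 1).div_const 2
      have : g (lim U) = A.indicator (fun _ => (1:ℝ)) U := by
        by_cases hUA : U ∈ A
        · rw [Set.indicator_of_mem hUA]
          refine Finset.prod_eq_one fun v hv => ?_
          rw [hdec v hv, hUA v hv]
          unfold spinVal; cases η v <;> norm_num
        · rw [Set.indicator_of_notMem hUA]
          simp only [hA, Set.mem_ofPred_eq] at hUA
          push Not at hUA
          obtain ⟨v, hv, hne⟩ := hUA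
          refine Finset.prod_eq_zero hv ?_
          rw [hdec v hv]
          unfold spinVal
          cases hv1 : η v <;> cases hv2 : Φ U v <;>
            simp [hv1, hv2] at hne ⊢
      rw [← this]
      exact hlim)
  rw [integral_indicator hAm, setIntegral_const] at hint
  set S₁ := D₀.filter fun v => η v = true
  have hS₁ : ∀ v ∈ D₀, spin S₁ v = spinVal (η v) := fun v hv => by
    unfold spin spinVal
    cases hη : η v <;> simp [S₁, hv, hη]
  have hval : ∑ S ∈ D₀.powerset, post G θ D₀ 0 S * g (spin S) = isingWeight G θ D₀ η := by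
    rw [Finset.sum_eq_single_of_mem S₁ (Finset.mem_powerset.2 (Finset.filter_subset _ _))]
    · have hg1 : g (spin S₁) = 1 := Finset.prod_eq_one fun v hv => by
        rw [hS₁ v hv]; unfold spinVal; cases η v <;> norm_num
      rw [hg1, mul_one]
      have hden : ∑ S' ∈ D₀.powerset, ew G θ D₀ 0 S' = (2:ℝ) ^ D₀.card := by
        rw [← Sm_zero_one (θ := θ) hG hcl ⟨o, ho⟩]
        simp [Sm, ew]
      unfold post
      rw [hden]
      unfold ew isingWeight wt
      have he : ∏ e ∈ edgesIn G D₀, edgeFactor θ (spin S₁) e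
          = 2 ^ (edgesIn G D₀).card * ∏ e ∈ edgesIn G D₀, edgeTerm θ η e := by
        rw [← Finset.prod_const, ← Finset.prod_mul_distrib]
        refine Finset.prod_congr rfl fun e he => ?_
        induction e using Sym2.ind with
        | _ a b =>
          simp only [edgesIn, Finset.mem_filter, Finset.mk_mem_sym2_iff] at he
          rw [edgeFactor_mk, hS₁ a he.1.1, hS₁ b he.1.2]
          simp only [edgeTerm, Sym2.lift_mk]
          ring
      rw [he, ← card_edgesIn hG hcl ⟨o, ho⟩, pow_succ]
      simp only [Pi.zero_apply, mul_zero, Finset.sum_const_zero, Real.exp_zero, mul_one]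
      unfold edgesIn
      field_simp
    · intro S hS hne
      have : ∃ v ∈ D₀, ¬ (v ∈ S ↔ v ∈ S₁) := by
        by_contra hcon
        push Not at hcon
        refine hne (Finset.ext fun v => ?_)
        by_cases hv : v ∈ D₀
        · exact hcon v hv
        · exact ⟨fun h => absurd (Finset.mem_powerset.1 hS h) hv,
            fun h => absurd (Finset.filter_subset _ _ h) hv⟩
      obtain ⟨v, hv, hiff⟩ := this
      refine mul_eq_zero_of_right _ (Finset.prod_eq_zero hv ?_)
      unfold spin spinVal
      simp only [S₁, Finset.mem_filter, hv, true_and] at hiff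
      cases hη : η v <;> by_cases hvS : v ∈ S <;> simp_all
  rw [hval, smul_eq_mul, mul_one] at hint
  rw [Measure.map_apply mΦ ?_]
  · change ilaw V A = _
    rw [← hint, ofReal_measureReal]
  · have : {σ : V → Bool | ∀ v ∈ D₀, σ v = η v} = ⋂ v ∈ D₀, (fun σ => σ v) ⁻¹' {η v} := by
      ext σ; simp
    rw [this]
    exact D₀.measurableSet_biInter fun v _ => measurable_pi_apply v (measurableSet_singleton _)

end

end Vale.Agent.P161.Edge
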