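import Vale.Agent.P161.Edge.GenTaylor
import Vale.Agent.P161.Edge.Statements

/-!
The first order expansion of the scheme in the noise of one observation.
-/

namespace Vale.Agent.P161.Gen

open scoped NNReal Classical

noncomputable section

variable {ι Ω : Type*} [Fintype ι] [Fintype Ω] [Nonempty Ω]

/-- A discrete Grönwall bound. -/
lemma gron {a : ℕ → ℝ} {h A B B₀ : ℝ} {j₀ n : ℕ} (hh : 0 ≤ h) (hA : 0 ≤ A) (hB : 0 ≤ B)
    (hB₀ : 0 ≤ B₀) (h0 : a 0 = 0) (hj : a (j₀ + 1) ≤ B₀)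
    (hs : ∀ k < n, k ≠ j₀ → a (k + 1) ≤ (1 + h * A) * a k + h * B) :
    ∀ k ≤ n, a k ≤ (B₀ + k * h * B) * Real.exp (A * (k * h)) := by
  intro k hk
  induction k with
  | zero => simp [h0, hB₀]
  | succ k ih =>
    have e1 : (1 : ℝ) ≤ Real.exp (A * (((k + 1 : ℕ) : ℝ) * h)) := Real.one_le_exp (by positivity)
    have hnn : 0 ≤ B₀ + ((k + 1 : ℕ) : ℝ) * h * B := by positivity
    by_cases hkj : k = j₀
    · subst hkj
      refine hj.trans ?_
      have : 0 ≤ ((k + 1 : ℕ) : ℝ) * h * B := by positivity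
      nlinarith
    refine (hs k (by omega) hkj).trans ?_
    have h2 : 1 + h * A ≤ Real.exp (A * h) := by
      rw [mul_comm h A, add_comm]
      exact Real.add_one_le_exp _
    have h3 : Real.exp (A * (((k + 1 : ℕ) : ℝ) * h)) =
        Real.exp (A * h) * Real.exp (A * ((k : ℝ) * h)) := by
      rw [← Real.exp_add]
      congr 1
      push_cast
      ring
    have h4 := mul_le_mul h2 le_rfl (by positivity : (0 : ℝ) ≤ (B₀ + k * h * B) *
      Real.exp (A * ((k : ℝ) * h))) (Real.exp_pos _).le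
    have h5 := mul_le_mul_of_nonneg_left (ih (by omega)) (by positivity : 0 ≤ 1 + h * A)
    have h6 : h * B ≤ h * B * Real.exp (A * (((k + 1 : ℕ) : ℝ) * h)) :=
      le_mul_of_one_le_right (by positivity) e1
    push_cast at h3 h4 h5 h6 ⊢
    rw [h3] at h6 ⊢
    nlinarith

/-- The usual form of the Grönwall bound on a time horizon. -/
lemma gron_le {a : ℕ → ℝ} {h A B B₀ T : ℝ} {j₀ n : ℕ} (hh : 0 ≤ h) (hA : 0 ≤ A) (hB : 0 ≤ B)
    (hB₀ : 0 ≤ B₀) (h0 : a 0 = 0) (hj : a (j₀ + 1) ≤ B₀) (hn : (n : ℝ) * h ≤ T)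
    (hs : ∀ k < n, k ≠ j₀ → a (k + 1) ≤ (1 + h * A) * a k + h * B) :
    ∀ k ≤ n, a k ≤ (B₀ + T * B) * Real.exp (A * T) := by
  intro k hk
  have hkT : (k : ℝ) * h ≤ T :=
    le_trans (mul_le_mul_of_nonneg_right (Nat.cast_le.2 hk) hh) hn
  have hT : 0 ≤ T := le_trans (by positivity) hkT
  refine (gron hh hA hB hB₀ h0 hj hs k hk).trans ?_
  refine mul_le_mul (by nlinarith) (Real.exp_le_exp.2 (mul_le_mul_of_nonneg_left hkT hA))
    (Real.exp_pos _).le (by positivity)

variable (f : ℕ → ι → Ω → ℝ) (h : ℝ≥0) (ψ₀ : Ω → ℝ)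

/-- The perturbed noise. -/
def bump (z : ℕ → ι → ℝ) (j₀ : ℕ) (i₀ : ι) (x : ℝ) : ℕ → ι → ℝ :=
  fun k l => if k = j₀ ∧ l = i₀ then z k l + x else z k l

omit [Nonempty Ω] in
lemma state_bump_of_le (z : ℕ → ι → ℝ) (j₀ : ℕ) (i₀ : ι) (x : ℝ) {k : ℕ} (hk : k ≤ j₀) :
    state f h ψ₀ (bump z j₀ i₀ x) k = state f h ψ₀ z k :=
  state_congr f h ψ₀ fun l hl => funext fun i => if_neg fun hh => by omega

omit [Nonempty Ω] in
lemma state_diff (z : ℕ → ι → ℝ) (j₀ : ℕ) (i₀ : ι) (x : ℝ) (k : ℕ) (S : Ω) :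
    state f h ψ₀ (bump z j₀ i₀ x) (k + 1) S - state f h ψ₀ z (k + 1) S =
      (state f h ψ₀ (bump z j₀ i₀ x) k S - state f h ψ₀ z k S) +
        ((if k = j₀ then x * f k i₀ S else 0) +
          h * ∑ i, f k i S *
            (ev (state f h ψ₀ (bump z j₀ i₀ x) k) (f k i) - ev (state f h ψ₀ z k) (f k i))) := by
  simp only [state, inc]
  rw [Finset.mul_sum, show (if k = j₀ then x * f k i₀ S else 0) =
      ∑ i, (if k = j₀ ∧ i = i₀ then x * f k i S else 0) by
    by_cases hk : k = j₀ <;> simp [hk]]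
  rw [add_sub_add_comm, ← Finset.sum_sub_distrib, ← Finset.sum_add_distrib]
  congr 1
  refine Finset.sum_congr rfl fun i _ => ?_
  simp only [bump]
  split_ifs <;> ring

theorem first_bounds {C : ℕ} {F T : ℝ} (hF : ∀ j i S, |f j i S| ≤ F) (hF0 : 0 ≤ F)
    (hC : Fintype.card ι ≤ C) (z : ℕ → ι → ℝ) (j₀ : ℕ) (i₀ : ι) (x : ℝ) {k : ℕ}
    (hk : (k : ℝ) * h ≤ T) (i : ι) :
    let st := state f h ψ₀ z
    let st' := state f h ψ₀ (bump z j₀ i₀ x)
    let A := 22 * C * F ^ 2
    let E := Real.exp (A * T)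
    let L := F * E
    let L₁ := 20 * C * F ^ 2 * L ^ 2 * T * E
    let L₂ := 66 * C * F ^ 2 * L ^ 2 * T * E
    |ev (st' k) (f k i) - ev (st k) (f k i) - x * cov (st k) (f k i) (prop f h st j₀ i₀ k)| ≤
        (20 * F * L ^ 2 + 2 * F * L₁) * x ^ 2 ∧
      |cov (st' k) (f k i) (prop f h st' j₀ i₀ k) - cov (st k) (f k i) (prop f h st j₀ i₀ k)| ≤
        (66 * F * L ^ 2 + 2 * F * L₂) * |x| := by
  intro st st' A E L L₁ L₂
  have hh : (0 : ℝ) ≤ h := h.2
  have hA : 0 ≤ A := by positivity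
  have hcard : ∀ (g : ι → ℝ) (M : ℝ), 0 ≤ M → (∀ i, |g i| ≤ M) → |∑ i, g i| ≤ C * M := by
    intro g M hM hg
    refine (Finset.abs_sum_le_sum_abs _ _).trans ((Finset.sum_le_sum fun i _ => hg i).trans ?_)
    rw [Finset.sum_const, Finset.card_univ, nsmul_eq_mul]
    exact mul_le_mul_of_nonneg_right (Nat.cast_le.2 hC) hM
  -- difference of the states
  set Δ : ℕ → Ω → ℝ := fun k S => st' k S - st k S with hΔ
  have hst' : ∀ k, st' k = fun S => st k S + Δ k S := fun k => by
    funext S; simp [Δ]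
  have hrec : ∀ k, k ≠ j₀ → ∀ S, Δ (k + 1) S =
      Δ k S + h * ∑ i, f k i S * (ev (st' k) (f k i) - ev (st k) (f k i)) := fun k hk S => by
    simp only [Δ, st, st']
    rw [state_diff, if_neg hk, zero_add]
  have hΔj : ∀ S, Δ (j₀ + 1) S = x * f j₀ i₀ S := fun S => by
    simp only [Δ, st, st']
    rw [state_diff, if_pos rfl, state_bump_of_le f h ψ₀ z j₀ i₀ x le_rfl]
    simp
  have hΔ0 : ∀ S, Δ 0 S = 0 := fun S => by simp [Δ, st, st', state]
  have hW0 : ∀ s : ℕ → Ω → ℝ, prop f h s j₀ i₀ 0 = 0 := fun s => rfl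
  have hWj : ∀ s : ℕ → Ω → ℝ, prop f h s j₀ i₀ (j₀ + 1) = f j₀ i₀ := fun s => by simp [prop]
  have hWr : ∀ (s : ℕ → Ω → ℝ) k, k ≠ j₀ → ∀ S, prop f h s j₀ i₀ (k + 1) S =
      prop f h s j₀ i₀ k S + h * ∑ i, f k i S * cov (s k) (f k i) (prop f h s j₀ i₀ k) := by
    intro s k hk S
    simp only [prop, if_neg hk, propStep]
    simp only [mul_comm (f k _ S)]
  -- bound on the difference of the states
  have bΔ' : ∀ m ≤ k, ∀ S, |Δ m S| ≤ |x| * L := by
    intro m hm
    have hg := gron_le (a := fun m => ‖Δ m‖) (B := 0) (B₀ := |x| * F) (j₀ := j₀) (n := k) hh hA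
      le_rfl (by positivity) (by simp [show Δ 0 = 0 from funext hΔ0])
      ((pi_norm_le_iff_of_nonneg (by positivity)).2 fun S => by
        rw [hΔj, Real.norm_eq_abs, abs_mul]
        exact mul_le_mul_of_nonneg_left (hF _ _ _) (abs_nonneg x)) hk
      (fun m _ hm => by
        rw [mul_zero, add_zero]
        refine (pi_norm_le_iff_of_nonneg (by positivity)).2 fun S => ?_
        rw [hrec m hm, Real.norm_eq_abs, one_add_mul, mul_assoc]
        refine (abs_add_le _ _).trans (add_le_add (norm_le_pi_norm (Δ m) S) ?_)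
        rw [abs_mul, abs_of_nonneg hh]
        refine mul_le_mul_of_nonneg_left ?_ hh
        refine (hcard _ (F * (22 * F * ‖Δ m‖)) (by positivity) fun i => abs_mul_le_mul (hF _ _ _)
          ?_).trans_eq (by simp only [A]; ring)
        rw [hst' m]
        exact abs_ev_sub_le (st m) (fun S => hF m i S) fun S => norm_le_pi_norm (Δ m) S) m hm
    intro S
    refine ((norm_le_pi_norm (Δ m) S).trans hg).trans_eq ?_
    simp only [L, E]
    ring
  -- bound on the linearisation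
  have bW : ∀ (s : ℕ → Ω → ℝ), ∀ m ≤ k, ∀ S, |prop f h s j₀ i₀ m S| ≤ L := by
    intro s m hm
    have hg := gron_le (a := fun m => ‖prop f h s j₀ i₀ m‖) (B := 0) (B₀ := F) (j₀ := j₀) (n := k)
      hh hA le_rfl hF0 (by simp [hW0])
      ((pi_norm_le_iff_of_nonneg hF0).2 fun S => by
        rw [hWj, Real.norm_eq_abs]; exact hF _ _ _) hk
      (fun m _ hm => by
        rw [mul_zero, add_zero]
        refine (pi_norm_le_iff_of_nonneg (by positivity)).2 fun S => ?_
        rw [hWr s m hm, Real.norm_eq_abs, one_add_mul, mul_assoc]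
        refine (abs_add_le _ _).trans (add_le_add (norm_le_pi_norm (prop f h s j₀ i₀ m) S) ?_)
        rw [abs_mul, abs_of_nonneg hh]
        refine mul_le_mul_of_nonneg_left ?_ hh
        refine (hcard _ (F * (2 * F * ‖prop f h s j₀ i₀ m‖)) (by positivity) fun i =>
          abs_mul_le_mul (hF _ _ _) (abs_cov_le _ (fun S => hF m i S) fun S =>
            norm_le_pi_norm (prop f h s j₀ i₀ m) S)).trans ?_
        have : (0 : ℝ) ≤ C * F ^ 2 * ‖prop f h s j₀ i₀ m‖ := by positivity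
        simp only [A]
        nlinarith) m hm
    intro S
    refine ((norm_le_pi_norm (prop f h s j₀ i₀ m) S).trans hg).trans_eq ?_
    simp only [L, E]
    ring
  -- second order error of the states
  set W := prop f h st j₀ i₀ with hW
  set err : ℕ → Ω → ℝ := fun m S => Δ m S - x * W m S with herr
  have taylor : ∀ m ≤ k, ∀ i,
      |ev (st' m) (f m i) - ev (st m) (f m i) - x * cov (st m) (f m i) (W m)| ≤
        20 * F * L ^ 2 * x ^ 2 + 2 * F * ‖err m‖ := by
    intro m hm i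
    have h1 := abs_ev_taylor (st m) (fun S => hF m i S) (bΔ' m hm)
    have h2 := abs_cov_le (st m) (fun S => hF m i S) fun S => norm_le_pi_norm (err m) S
    have e : cov (st m) (f m i) (err m) =
        cov (st m) (f m i) (Δ m) - x * cov (st m) (f m i) (W m) := by
      simp only [err]
      rw [cov_sub, cov_const_mul]
    rw [← hst' m] at h1
    rw [mul_pow, sq_abs] at h1
    have h3 := abs_add_le (ev (st' m) (f m i) - ev (st m) (f m i) - cov (st m) (f m i) (Δ m))
      (cov (st m) (f m i) (err m))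
    rw [e, sub_add_sub_cancel] at h3
    rw [e] at h2
    linarith
  have berr : ‖err k‖ ≤ L₁ * x ^ 2 := by
    refine le_trans (gron_le (a := fun m => ‖err m‖) (B := 20 * C * F ^ 2 * L ^ 2 * x ^ 2) (B₀ := 0)
      (j₀ := j₀) (n := k) hh hA (by positivity) le_rfl
      (by simp [err, show Δ 0 = 0 from funext hΔ0, hW, hW0])
      ((pi_norm_le_iff_of_nonneg le_rfl).2 fun S => by
        simp [err, hΔj, hW, hWj]) hk ?_ k le_rfl) (le_of_eq ?_)
    · intro m hm1 hm
      refine (pi_norm_le_iff_of_nonneg (by positivity)).2 fun S => ?_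
      have e : err (m + 1) S = err m S + h * ∑ i, f m i S *
          (ev (st' m) (f m i) - ev (st m) (f m i) - x * cov (st m) (f m i) (W m)) := by
        simp only [err, hrec m hm, hW, hWr st m hm, mul_sub, Finset.sum_sub_distrib]
        simp only [← hW, Finset.mul_sum, mul_add]
        simp only [mul_left_comm x]
        ring
      rw [e, Real.norm_eq_abs]
      refine (abs_add_le _ _).trans ?_
      have h1 : |err m S| ≤ ‖err m‖ := norm_le_pi_norm (err m) S
      have h2 := hcard _ (F * (20 * F * L ^ 2 * x ^ 2 + 2 * F * ‖err m‖)) (by positivity)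
        fun i => abs_mul_le_mul (hF m i S) (taylor m hm1.le i)
      rw [abs_mul, abs_of_nonneg hh]
      have h3 := mul_le_mul_of_nonneg_left h2 hh
      have : (0 : ℝ) ≤ h * (C * F ^ 2 * ‖err m‖) := by positivity
      simp only [A]
      nlinarith
    · simp only [L₁, E]
      ring
  -- difference of the linearisations
  set W' := prop f h st' j₀ i₀ with hW'
  set dW : ℕ → Ω → ℝ := fun m S => W' m S - W m S with hdW
  have covdiff : ∀ m ≤ k, ∀ i, |cov (st' m) (f m i) (W' m) - cov (st m) (f m i) (W m)| ≤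
      66 * F * L ^ 2 * |x| + 2 * F * ‖dW m‖ := by
    intro m hm i
    have h1 := abs_cov_sub_le (st m) (fun S => hF m i S) (bW st' m hm) (bΔ' m hm)
    have h2 := abs_cov_le (st m) (fun S => hF m i S) fun S => norm_le_pi_norm (dW m) S
    have e : cov (st m) (f m i) (dW m) = cov (st m) (f m i) (W' m) - cov (st m) (f m i) (W m) := by
      simp only [dW]
      rw [cov_sub]
    rw [← hst' m, ← hW'] at h1
    have h3 := abs_add_le (cov (st' m) (f m i) (W' m) - cov (st m) (f m i) (W' m))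
      (cov (st m) (f m i) (dW m))
    rw [e, sub_add_sub_cancel] at h3
    rw [e] at h2
    linarith
  have bdW : ‖dW k‖ ≤ L₂ * |x| := by
    refine le_trans (gron_le (a := fun m => ‖dW m‖) (B := 66 * C * F ^ 2 * L ^ 2 * |x|) (B₀ := 0)
      (j₀ := j₀) (n := k) hh hA (by positivity) le_rfl
      (by simp [dW, hW, hW', hW0])
      ((pi_norm_le_iff_of_nonneg le_rfl).2 fun S => by
        simp [dW, hW, hW', hWj]) hk ?_ k le_rfl) (le_of_eq ?_)
    · intro m hm1 hm
      refine (pi_norm_le_iff_of_nonneg (by positivity)).2 fun S => ?_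
      have e : dW (m + 1) S = dW m S + h * ∑ i, f m i S *
          (cov (st' m) (f m i) (W' m) - cov (st m) (f m i) (W m)) := by
        simp only [dW, hW, hW', hWr st m hm, hWr st' m hm, mul_sub, Finset.sum_sub_distrib]
        ring
      rw [e, Real.norm_eq_abs]
      refine (abs_add_le _ _).trans ?_
      have h1 : |dW m S| ≤ ‖dW m‖ := norm_le_pi_norm (dW m) S
      have h2 := hcard _ (F * (66 * F * L ^ 2 * |x| + 2 * F * ‖dW m‖)) (by positivity)
        fun i => abs_mul_le_mul (hF m i S) (covdiff m hm1.le i)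
      rw [abs_mul, abs_of_nonneg hh]
      have h3 := mul_le_mul_of_nonneg_left h2 hh
      have : (0 : ℝ) ≤ h * (C * F ^ 2 * ‖dW m‖) := by positivity
      simp only [A]
      nlinarith
    · simp only [L₂, E]
      ring
  refine ⟨(taylor k le_rfl i).trans ?_, (covdiff k le_rfl i).trans ?_⟩
  · have := mul_le_mul_of_nonneg_left berr (by positivity : (0 : ℝ) ≤ 2 * F)
    linarith
  · have := mul_le_mul_of_nonneg_left bdW (by positivity : (0 : ℝ) ≤ 2 * F)
    linarith

end

end Vale.Agent.P161.Gen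

namespace Vale.Agent.P161.Edge

open scoped NNReal Classical

theorem genFirstStmt : GenFirstStmt := by
  intro C F T
  set A := 22 * (C : ℝ) * |F| ^ 2
  set E := Real.exp (A * T)
  set L := |F| * E
  set L₁ := 20 * (C : ℝ) * |F| ^ 2 * L ^ 2 * T * E
  set L₂ := 66 * (C : ℝ) * |F| ^ 2 * L ^ 2 * T * E
  set K₁ := 20 * |F| * L ^ 2 + 2 * |F| * L₁
  set K₂ := 66 * |F| * L ^ 2 + 2 * |F| * L₂
  refine ⟨max K₁ K₂, ?_⟩
  intro ι Ω _ _ _ f h ψ₀ hC hF _ j₀ i₀ z x j i hj _
  obtain ⟨b1, b2⟩ := Gen.first_bounds f h ψ₀ (fun j i S => (hF j i S).trans (le_abs_self F))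
    (abs_nonneg F) hC z j₀ i₀ x hj i
  refine ⟨?_, b2.trans (mul_le_mul_of_nonneg_right (le_max_right _ _) (abs_nonneg x))⟩
  have e : Gen.ypath f h ψ₀ (Gen.bump z j₀ i₀ x) j i - Gen.ypath f h ψ₀ z j i -
      ((if j = j₀ ∧ i = i₀ then x else 0) + x * h * Gen.cov (Gen.state f h ψ₀ z j) (f j i)
        (Gen.prop f h (Gen.state f h ψ₀ z) j₀ i₀ j)) =
      h * (Gen.ev (Gen.state f h ψ₀ (Gen.bump z j₀ i₀ x) j) (f j i) -
        Gen.ev (Gen.state f h ψ₀ z j) (f j i) -
        x * Gen.cov (Gen.state f h ψ₀ z j) (f j i)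
          (Gen.prop f h (Gen.state f h ψ₀ z) j₀ i₀ j)) := by
    simp only [Gen.ypath, Gen.bump]
    split_ifs <;> ring
  refine (le_of_eq (congrArg abs e)).trans ?_
  have hh : (0 : ℝ) ≤ h := h.2
  rw [abs_mul, abs_of_nonneg hh]
  refine (mul_le_mul_of_nonneg_left b1 hh).trans ?_
  rw [show max K₁ K₂ * (h : ℝ) * x ^ 2 = h * (max K₁ K₂ * x ^ 2) by ring]
  exact mul_le_mul_of_nonneg_left
    (mul_le_mul_of_nonneg_right (le_max_left _ _) (sq_nonneg x)) hh

end Vale.Agent.P161.Edge
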