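import Vale.Agent.P161.Edge.GenFirst
import Vale.Agent.P161.Edge.Statements
import Vale.Agent.P161.Shift
import Mathlib.Algebra.Order.Chebyshev

/-!
One step of the square of a covariance and of an even power of a mean along the posterior chain.
-/

namespace Vale.Agent.P161.Gen

open MeasureTheory ProbabilityTheory Finset
open scoped NNReal Classical

noncomputable section

variable {ι Ω : Type*} [Fintype ι] [Fintype Ω]

/-- The noise of one step. -/
abbrev nz (h : ℝ≥0) : Measure (ι → ℝ) := Measure.pi fun _ => gl h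

/-! ### Gaussian integrals -/

lemma integrable_pow_four_gl (h : ℝ≥0) : Integrable (fun x : ℝ => x ^ 4) (gl h) := by
  have := ((memLp_id_gaussianReal' (μ := 0) (v := h) 4 (by simp)).integrable_norm_pow
    (p := 4) (by norm_num))
  simpa [Real.norm_eq_abs, Even.pow_abs (by decide : Even 4)] using this

lemma integral_pow_four_gl_le {h : ℝ≥0} (hh : h ≠ 0) : ∫ x, x ^ 4 ∂(gl h) ≤ 96 * (h : ℝ) ^ 2 := by
  have hpos : (0 : ℝ) < h := by
    have := pos_iff_ne_zero.2 hh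
    exact_mod_cast this
  set s := (Real.sqrt h)⁻¹ with hs
  have hs2 : s ^ 2 * h = 1 := by
    rw [hs, inv_pow, Real.sq_sqrt hpos.le, inv_mul_cancel₀ hpos.ne']
  have hpt : ∀ x : ℝ, x ^ 4 ≤ 24 * (h : ℝ) ^ 2 * (Real.exp (s * x) + Real.exp (-s * x)) := by
    intro x
    have h1 := Real.pow_div_factorial_le_exp (x := |s * x|) (abs_nonneg _) 4
    rw [div_le_iff₀ (by positivity), pow_abs, abs_of_nonneg (by positivity)] at h1
    rw [show ((Nat.factorial 4 : ℕ) : ℝ) = 24 by norm_num [Nat.factorial]] at h1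
    have h2 : Real.exp |s * x| ≤ Real.exp (s * x) + Real.exp (-s * x) := by
      rcases abs_choice (s * x) with e | e <;> rw [e]
      · linarith [Real.exp_pos (-s * x)]
      · rw [neg_mul]
        linarith [Real.exp_pos (s * x)]
    have h3 := mul_le_mul_of_nonneg_left (h1.trans (mul_le_mul_of_nonneg_right h2 (by norm_num)))
      (sq_nonneg (h : ℝ))
    have h4 : (h : ℝ) ^ 2 * (s * x) ^ 4 = x ^ 4 := by
      linear_combination x ^ 4 * (s ^ 2 * h + 1) * hs2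
    rw [h4] at h3
    linarith
  have ie : ∀ t : ℝ, Integrable (fun x => Real.exp (t * x)) (gl h) :=
    fun t => integrable_exp_mul_gaussianReal t
  have iI : Integrable (fun x => 24 * (h : ℝ) ^ 2 * (Real.exp (s * x) + Real.exp (-s * x)))
      (gl h) := Integrable.const_mul ((ie s).add (ie (-s))) _
  refine (integral_mono (integrable_pow_four_gl h) iI hpt).trans ?_
  rw [integral_const_mul, integral_add (ie s) (ie (-s)), integral_exp_mul_gl,
    integral_exp_mul_gl, neg_sq, mul_comm (h : ℝ) (s ^ 2), hs2]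
  have h5 : Real.exp (1 / 2) ≤ 2 := by
    refine (Real.exp_bound_div_one_sub_of_interval (x := 1 / 2) (by norm_num) (by norm_num)).trans ?_
    norm_num
  nlinarith [mul_le_mul_of_nonneg_left h5 (sq_nonneg (h : ℝ))]

lemma integrable_eval_mul (h : ℝ≥0) (i k : ι) :
    Integrable (fun ξ : ι → ℝ => ξ i * ξ k) (nz h) := by
  have e : ∀ i, Integrable (fun ξ : ι → ℝ => ξ i ^ 2) (nz h) := fun i =>
    integrable_comp_eval (μ := fun _ => gl h) (integrable_sq_gl h)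
  refine Integrable.mono' ((e i).add (e k)) (by fun_prop) (ae_of_all _ fun ξ => ?_)
  rw [Real.norm_eq_abs, abs_mul]
  simp only [Pi.add_apply]
  nlinarith [sq_abs (ξ i), sq_abs (ξ k), abs_nonneg (ξ i), abs_nonneg (ξ k),
    sq_nonneg (|ξ i| - |ξ k|)]

lemma integral_eval_mul (h : ℝ≥0) (i k : ι) :
    ∫ ξ : ι → ℝ, ξ i * ξ k ∂(nz h) = if i = k then (h : ℝ) else 0 := by
  split_ifs with hik
  · subst hik
    rw [← integral_sq_gl h]
    refine Eq.trans ?_ (integral_comp_eval (μ := fun _ : ι => gl h) (i := i)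
      (integrable_sq_gl h).aestronglyMeasurable)
    simp [sq]
  · have hind : IndepFun (fun ξ : ι → ℝ => ξ i) (fun ξ => ξ k) (nz h) :=
      (iIndepFun_pi (μ := fun _ : ι => gl h) (X := fun _ => id)
        fun _ => aemeasurable_id).indepFun hik
    rw [hind.integral_fun_mul_eq_mul_integral (measurable_pi_apply i).aestronglyMeasurable
      (measurable_pi_apply k).aestronglyMeasurable]
    rw [show ∫ ξ : ι → ℝ, ξ i ∂(nz h) = 0 from
      (integral_comp_eval (μ := fun _ : ι => gl h) (i := i)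
        (integrable_id_gl h).aestronglyMeasurable).trans integral_id_gaussianReal, zero_mul]

/-- The linear form with coefficients `a`. -/
def lin (a : ι → ℝ) (ξ : ι → ℝ) : ℝ := ∑ i, a i * ξ i

lemma integrable_lin_mul (h : ℝ≥0) (a b : ι → ℝ) :
    Integrable (fun ξ : ι → ℝ => lin a ξ * lin b ξ) (nz h) := by
  simp only [lin, sum_mul_sum]
  refine integrable_finsetSum _ fun i _ => integrable_finsetSum _ fun k _ => ?_
  simp only [mul_mul_mul_comm _ _ (b k)]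
  exact (integrable_eval_mul h i k).const_mul _

lemma integral_lin_mul (h : ℝ≥0) (a b : ι → ℝ) :
    ∫ ξ : ι → ℝ, lin a ξ * lin b ξ ∂(nz h) = h * ∑ i, a i * b i := by
  simp only [lin, sum_mul_sum, mul_mul_mul_comm _ _ (b _)]
  rw [integral_finsetSum _ fun i _ =>
    integrable_finsetSum _ fun k _ => (integrable_eval_mul h i k).const_mul _, mul_sum]
  refine sum_congr rfl fun i _ => ?_
  rw [integral_finsetSum _ fun k _ => (integrable_eval_mul h i k).const_mul _, sum_eq_single i]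
  · rw [integral_const_mul, integral_eval_mul, if_pos rfl]
    ring
  · intro k _ hk
    rw [integral_const_mul, integral_eval_mul, if_neg (Ne.symm hk), mul_zero]
  · exact fun hi => absurd (mem_univ i) hi

/-- A polynomial majorant of the error terms. -/
def qerr (C : ℕ) (h : ℝ≥0) (ξ : ι → ℝ) : ℝ :=
  Real.sqrt h * (2 * C * (∑ i, ξ i ^ 2) + 2 * (h : ℝ) ^ 2) +
    (8 * (C : ℝ) ^ 3 * (∑ i, ξ i ^ 4) + 8 * (h : ℝ) ^ 4) / Real.sqrt h + h * Real.sqrt h

lemma integrable_qerr (C : ℕ) (h : ℝ≥0) : Integrable (qerr (ι := ι) C h) (nz h) := by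
  have e2 : Integrable (fun ξ : ι → ℝ => ∑ i, ξ i ^ 2) (nz h) :=
    integrable_finsetSum _ fun i _ => integrable_comp_eval (μ := fun _ => gl h) (integrable_sq_gl h)
  have e4 : Integrable (fun ξ : ι → ℝ => ∑ i, ξ i ^ 4) (nz h) :=
    integrable_finsetSum _ fun i _ =>
      integrable_comp_eval (μ := fun _ => gl h) (integrable_pow_four_gl h)
  unfold qerr
  exact ((((e2.const_mul _).add (integrable_const _)).const_mul _).add
    (((e4.const_mul _).add (integrable_const _)).div_const _)).add (integrable_const _)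

lemma integral_qerr_le {C : ℕ} {h : ℝ≥0} (hh : h ≠ 0) (h1 : (h : ℝ) ≤ 1)
    (hC : Fintype.card ι ≤ C) :
    ∫ ξ : ι → ℝ, qerr C h ξ ∂(nz h) ≤
      (2 * (C : ℝ) ^ 2 + 768 * (C : ℝ) ^ 4 + 11) * (h * Real.sqrt h) := by
  have hpos : (0 : ℝ) < h := by
    have := pos_iff_ne_zero.2 hh
    exact_mod_cast this
  have hs := Real.sqrt_pos.2 hpos
  have e2 : ∀ i, Integrable (fun ξ : ι → ℝ => ξ i ^ 2) (nz h) := fun i =>
    integrable_comp_eval (μ := fun _ => gl h) (integrable_sq_gl h)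
  have e4 : ∀ i, Integrable (fun ξ : ι → ℝ => ξ i ^ 4) (nz h) := fun i =>
    integrable_comp_eval (μ := fun _ => gl h) (integrable_pow_four_gl h)
  have i2 : ∫ ξ : ι → ℝ, ∑ i, ξ i ^ 2 ∂(nz h) ≤ C * (h : ℝ) := by
    rw [integral_finsetSum _ fun i _ => e2 i]
    calc ∑ i : ι, ∫ ξ : ι → ℝ, ξ i ^ 2 ∂(nz h) = ∑ _i : ι, (h : ℝ) := sum_congr rfl fun i _ => by
          rw [← integral_sq_gl h]
          exact integral_comp_eval (μ := fun _ : ι => gl h) (i := i)
            (integrable_sq_gl h).aestronglyMeasurable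
      _ ≤ C * (h : ℝ) := by
          rw [sum_const, card_univ, nsmul_eq_mul]
          exact mul_le_mul_of_nonneg_right (Nat.cast_le.2 hC) hpos.le
  have i4 : ∫ ξ : ι → ℝ, ∑ i, ξ i ^ 4 ∂(nz h) ≤ C * (96 * (h : ℝ) ^ 2) := by
    rw [integral_finsetSum _ fun i _ => e4 i]
    calc ∑ i : ι, ∫ ξ : ι → ℝ, ξ i ^ 4 ∂(nz h) ≤ ∑ _i : ι, 96 * (h : ℝ) ^ 2 :=
          sum_le_sum fun i _ => (integral_comp_eval (μ := fun _ : ι => gl h) (i := i)
            (integrable_pow_four_gl h).aestronglyMeasurable).trans_le (integral_pow_four_gl_le hh)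
      _ ≤ C * (96 * (h : ℝ) ^ 2) := by
          rw [sum_const, card_univ, nsmul_eq_mul]
          exact mul_le_mul_of_nonneg_right (Nat.cast_le.2 hC) (by positivity)
  have s2 : Integrable (fun ξ : ι → ℝ => ∑ i, ξ i ^ 2) (nz h) := integrable_finsetSum _ fun i _ => e2 i
  have s4 : Integrable (fun ξ : ι → ℝ => ∑ i, ξ i ^ 4) (nz h) := integrable_finsetSum _ fun i _ => e4 i
  have iA : Integrable (fun ξ : ι → ℝ =>
      Real.sqrt h * (2 * C * (∑ i, ξ i ^ 2) + 2 * (h : ℝ) ^ 2)) (nz h) :=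
    ((s2.const_mul _).add (integrable_const _)).const_mul _
  have iB : Integrable (fun ξ : ι → ℝ =>
      (8 * (C : ℝ) ^ 3 * (∑ i, ξ i ^ 4) + 8 * (h : ℝ) ^ 4) / Real.sqrt h) (nz h) :=
    ((s4.const_mul _).add (integrable_const _)).div_const _
  have hA : ∫ ξ : ι → ℝ, Real.sqrt h * (2 * C * (∑ i, ξ i ^ 2) + 2 * (h : ℝ) ^ 2) ∂(nz h) ≤
      (2 * (C : ℝ) ^ 2 + 2) * (h * Real.sqrt h) := by
    rw [integral_const_mul, integral_add (s2.const_mul _) (integrable_const _), integral_const_mul,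
      integral_const, probReal_univ, one_smul]
    have : (h : ℝ) ^ 2 ≤ h := by nlinarith
    have := mul_le_mul_of_nonneg_left i2 (by positivity : (0 : ℝ) ≤ 2 * C)
    nlinarith
  have hB : ∫ ξ : ι → ℝ, (8 * (C : ℝ) ^ 3 * (∑ i, ξ i ^ 4) + 8 * (h : ℝ) ^ 4) / Real.sqrt h
      ∂(nz h) ≤ (768 * (C : ℝ) ^ 4 + 8) * (h * Real.sqrt h) := by
    rw [integral_div, integral_add (s4.const_mul _) (integrable_const _), integral_const_mul,
      integral_const, probReal_univ, one_smul, div_le_iff₀ hs,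
      show (768 * (C : ℝ) ^ 4 + 8) * (h * Real.sqrt h) * Real.sqrt h =
        (768 * (C : ℝ) ^ 4 + 8) * (h * h) by
          rw [mul_assoc _ _ (Real.sqrt h), mul_assoc (h : ℝ), Real.mul_self_sqrt hpos.le]]
    have : (h : ℝ) ^ 4 ≤ h * h := by
      have : (h : ℝ) ^ 2 ≤ 1 := by nlinarith
      nlinarith [mul_le_mul_of_nonneg_left this (sq_nonneg (h : ℝ))]
    have := mul_le_mul_of_nonneg_left i4 (by positivity : (0 : ℝ) ≤ 8 * (C : ℝ) ^ 3)
    nlinarith
  have hsum : ∫ ξ : ι → ℝ, qerr C h ξ ∂(nz h) =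
      (∫ ξ : ι → ℝ, Real.sqrt h * (2 * C * (∑ i, ξ i ^ 2) + 2 * (h : ℝ) ^ 2) ∂(nz h)) +
        (∫ ξ : ι → ℝ, (8 * (C : ℝ) ^ 3 * (∑ i, ξ i ^ 4) + 8 * (h : ℝ) ^ 4) / Real.sqrt h ∂(nz h)) +
        h * Real.sqrt h := by
    unfold qerr
    have j := integral_add (iA.add iB) (integrable_const ((h : ℝ) * Real.sqrt h))
    simp only [Pi.add_apply] at j
    rw [j, integral_add iA iB, integral_const, probReal_univ, one_smul]
  rw [hsum]
  nlinarith

/-- The size of the noise and the mesh. -/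
def rsize (h : ℝ≥0) (ξ : ι → ℝ) : ℝ := ∑ i, |ξ i| + h

lemma rsize_nonneg (h : ℝ≥0) (ξ : ι → ℝ) : 0 ≤ rsize h ξ :=
  add_nonneg (sum_nonneg fun _ _ => abs_nonneg _) h.2

lemma absorb {C : ℕ} {h : ℝ≥0} (hh : h ≠ 0) (h1 : (h : ℝ) ≤ 1) (hC : Fintype.card ι ≤ C)
    (ξ : ι → ℝ) :
    h * rsize h ξ ≤ qerr C h ξ ∧ rsize h ξ ^ 3 ≤ qerr C h ξ ∧ rsize h ξ ^ 4 ≤ qerr C h ξ ∧
      h * rsize h ξ ^ 2 ≤ qerr C h ξ ∧ (h : ℝ) ^ 2 ≤ qerr C h ξ := by
  have hpos : (0 : ℝ) < h := by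
    have := pos_iff_ne_zero.2 hh
    exact_mod_cast this
  set r := rsize h ξ with hr
  set a := ∑ i, |ξ i| with ha
  have hr0 : 0 ≤ r := rsize_nonneg h ξ
  have hcard : (Fintype.card ι : ℝ) ≤ C := Nat.cast_le.2 hC
  have a2 : a ^ 2 ≤ C * ∑ i, ξ i ^ 2 := by
    refine sq_sum_le_card_mul_sum_sq.trans ?_
    simp only [sq_abs, card_univ]
    exact mul_le_mul_of_nonneg_right hcard (sum_nonneg fun _ _ => sq_nonneg _)
  have a4 : a ^ 4 ≤ (C : ℝ) ^ 3 * ∑ i, ξ i ^ 4 := by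
    have h2 : (∑ i, ξ i ^ 2) ^ 2 ≤ C * ∑ i, ξ i ^ 4 := by
      refine sq_sum_le_card_mul_sum_sq.trans ?_
      simp only [card_univ, ← pow_mul]
      exact mul_le_mul_of_nonneg_right hcard (sum_nonneg fun i _ => Even.pow_nonneg (by decide) (ξ i))
    calc a ^ 4 = (a ^ 2) ^ 2 := by ring
      _ ≤ (C * ∑ i, ξ i ^ 2) ^ 2 := pow_le_pow_left₀ (sq_nonneg a) a2 2
      _ ≤ (C : ℝ) ^ 3 * ∑ i, ξ i ^ 4 := by
          nlinarith [mul_le_mul_of_nonneg_left h2 (sq_nonneg (C : ℝ))]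
  have e2 : r ^ 2 ≤ 2 * C * (∑ i, ξ i ^ 2) + 2 * (h : ℝ) ^ 2 := by
    simp only [hr, rsize, ← ha]
    nlinarith [sq_nonneg (a - h)]
  have e4 : r ^ 4 ≤ 8 * (C : ℝ) ^ 3 * (∑ i, ξ i ^ 4) + 8 * (h : ℝ) ^ 4 := by
    simp only [hr, rsize, ← ha]
    nlinarith [sq_nonneg (a - h), sq_nonneg (a + h), sq_nonneg (a ^ 2 - (h : ℝ) ^ 2),
      mul_self_nonneg ((a - h) * (a + h)), mul_self_nonneg ((a - h) ^ 2)]
  set s := Real.sqrt h with hs
  have hs0 : 0 < s := Real.sqrt_pos.2 hpos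
  have hs2 : s ^ 2 = h := Real.sq_sqrt hpos.le
  have hs1 : s ≤ 1 := Real.sqrt_le_one.2 h1
  set u := r ^ 4 / s with hu
  have hu0 : 0 ≤ u := by positivity
  have hQ : s * r ^ 2 + u + h * s ≤ qerr C h ξ := by
    unfold qerr
    rw [← hs]
    gcongr
    rw [hu]
    exact div_le_div_of_nonneg_right e4 hs0.le
  have hus : u * s = r ^ 4 := div_mul_cancel₀ _ hs0.ne'
  refine ⟨?_, ?_, ?_, ?_, ?_⟩
  · nlinarith [mul_nonneg hs0.le (sq_nonneg (r - s)), mul_nonneg hs0.le (sq_nonneg r)]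
  · have : r ^ 3 * s ≤ (s * r ^ 2 + u) * s := by
      rw [add_mul, hus]
      nlinarith [sq_nonneg (r * (r - s)), mul_nonneg (sq_nonneg r) (sq_nonneg (r + s))]
    have := le_of_mul_le_mul_right this hs0
    nlinarith [mul_nonneg hpos.le hs0.le]
  · nlinarith [mul_le_mul_of_nonneg_left hs1 hu0, mul_nonneg hpos.le hs0.le,
      mul_nonneg hs0.le (sq_nonneg r)]
  · nlinarith [mul_le_mul_of_nonneg_right hs1 (mul_nonneg hs0.le (sq_nonneg r)),
      mul_nonneg hpos.le hs0.le]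
  · nlinarith [mul_nonneg hs0.le (sq_nonneg r), mul_le_mul_of_nonneg_left hs1 (mul_nonneg hpos.le hs0.le)]

/-! ### One step -/

variable [Nonempty Ω] (f : ℕ → ι → Ω → ℝ) (h : ℝ≥0) (j : ℕ) (ψ : Ω → ℝ)

/-- The increment of the log weights in state `S` with noise `ξ`. -/
def dl (S : Ω) (ξ : ι → ℝ) : Ω → ℝ := fun T => inc f h j (fun i => h * f j i S + ξ i) T

/-- The change of the expectation of `g`. -/
def dev (g : Ω → ℝ) (S : Ω) (ξ : ι → ℝ) : ℝ :=
  ev (fun T => ψ T + dl f h j S ξ T) g - ev ψ g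

/-- The coefficients of the linear part of `dev g`. -/
def cf (g : Ω → ℝ) (i : ι) : ℝ := cov ψ g (f j i)

omit [Nonempty Ω] in
lemma continuous_dl (S : Ω) : Continuous fun ξ : ι → ℝ => fun T => ψ T + dl f h j S ξ T := by
  unfold dl inc
  fun_prop

lemma integrable_dev (g : Ω → ℝ) (S : Ω) : Integrable (dev f h j ψ g S) (nz h) := by
  obtain ⟨B, hB⟩ : ∃ B, ∀ T, |g T| ≤ B := ⟨‖g‖, fun T => norm_le_pi_norm g T⟩
  have hc : Continuous (dev f h j ψ g S) :=
    ((continuous_ev g).comp (continuous_dl f h j ψ S)).sub continuous_const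
  refine integrable_of_bdd (B := 2 * B) hc.measurable fun ξ => (abs_sub _ _).trans ?_
  linarith [abs_ev_le (fun T => ψ T + dl f h j S ξ T) hB, abs_ev_le ψ hB]

omit [Fintype Ω] [Nonempty Ω] in
lemma integral_shift_left {h : ℝ≥0} (hh : h ≠ 0) (a : ι → ℝ) {Φ : (ι → ℝ) → ℝ}
    (hΦ : Measurable Φ) :
    ∫ z, Φ (fun i => h * a i + z i) ∂(nz h) = ∫ z, tiltProd h a z * Φ z ∂(nz h) := by
  simp only [add_comm ((h : ℝ) * a _)]
  exact integral_shift hh a hΦ

/-- The posterior expectation is a martingale. -/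
theorem dev_mean (hh : h ≠ 0) (g : Ω → ℝ) :
    ∑ S, post ψ S * ∫ ξ, dev f h j ψ g S ξ ∂(nz h) = 0 := by
  obtain ⟨B, hB⟩ : ∃ B, ∀ T, |g T| ≤ B := ⟨‖g‖, fun T => norm_le_pi_norm g T⟩
  set Φ : (ι → ℝ) → ℝ := fun y => ev (fun T => ψ T + inc f h j y T) g with hΦ
  have hcΦ : Continuous Φ := (continuous_ev g).comp (by unfold inc; fun_prop)
  have htilt : ∀ (S : Ω) (y : ι → ℝ),
      tiltProd h (fun i => f j i S) y = Real.exp (inc f h j y S) := fun S y => by
    simp only [tiltProd, tiltExp, inc, Real.exp_sum]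
  have hI : ∀ S, Integrable (fun y => tiltProd h (fun i => f j i S) y * Φ y) (nz h) := fun S =>
    (integrable_tiltProd h _).mul_bdd hcΦ.measurable.aestronglyMeasurable
      (ae_of_all _ fun y => show ‖Φ y‖ ≤ B from abs_ev_le _ hB)
  have hone : ∀ S, ∫ y, tiltProd h (fun i => f j i S) y ∂(nz h) = 1 := fun S => by
    have := integral_shift_left hh (fun i => f j i S) (Φ := fun _ => (1 : ℝ)) measurable_const
    simpa using this.symm
  have key : ∑ S, post ψ S * ∫ ξ, Φ (fun i => h * f j i S + ξ i) ∂(nz h) = ev ψ g := by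
    simp only [integral_shift_left hh _ hcΦ.measurable, ← integral_const_mul]
    rw [← integral_finsetSum _ fun S _ => (hI S).const_mul _]
    have e : ∀ y : ι → ℝ, ∑ S, post ψ S * (tiltProd h (fun i => f j i S) y * Φ y) =
        ∑ S, post ψ S * g S * tiltProd h (fun i => f j i S) y := by
      intro y
      have hZ : (ev ψ fun S => Real.exp (inc f h j y S)) ≠ 0 :=
        (Finset.sum_pos (fun S _ => mul_pos (post_pos ψ S) (Real.exp_pos _))
          Finset.univ_nonempty).ne'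
      have h2 : (ev ψ fun S => Real.exp (inc f h j y S)) * Φ y =
          ev ψ fun S => Real.exp (inc f h j y S) * g S := by
        rw [hΦ]
        simp only
        rw [ev_tilt, mul_div_cancel₀ _ hZ]
      simp only [htilt]
      refine Eq.trans ?_ (h2.trans ?_)
      · simp only [ev, sum_mul, mul_assoc]
      · simp only [ev]
        exact sum_congr rfl fun S _ => by ring
    simp only [e]
    rw [integral_finsetSum _ fun S _ => (integrable_tiltProd h _).const_mul _]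
    simp only [integral_const_mul, hone, mul_one]
    rfl
  have hi : ∀ S, Integrable (fun ξ : ι → ℝ => Φ fun i => h * f j i S + ξ i) (nz h) := fun S =>
    integrable_of_bdd (hcΦ.comp (by fun_prop)).measurable fun ξ => abs_ev_le _ hB
  have e : ∀ S, ∫ ξ, dev f h j ψ g S ξ ∂(nz h) =
      (∫ ξ, Φ (fun i => h * f j i S + ξ i) ∂(nz h)) - ev ψ g := fun S => by
    simp only [dev, dl]
    rw [integral_sub (hi S) (integrable_const _), integral_const, probReal_univ, one_smul]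
  simp only [e, mul_sub, sum_sub_distrib, key, ← sum_mul, sum_post, one_mul, sub_self]

/-- The general one-step bound. -/
theorem stepE_le {C : ℕ} (hh : h ≠ 0) (h1 : (h : ℝ) ≤ 1) (hC : Fintype.card ι ≤ C)
    {Φ : (Ω → ℝ) → ℝ} (hΦ : Continuous Φ) {B : ℝ} (hΦb : ∀ ψ, |Φ ψ| ≤ B) (g : Ω → ℝ)
    (α β γ : ι → ℝ) {a b c d K : ℝ} (hK : 0 ≤ K)
    (hle : ∀ S ξ, Φ (fun T => ψ T + dl f h j S ξ T) ≤
      a + b * dev f h j ψ g S ξ + c * (lin α ξ * lin β ξ) + d * lin γ ξ ^ 2 + K * qerr C h ξ) :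
    stepE f h j ψ Φ ≤ a + c * (h * ∑ i, α i * β i) + d * (h * ∑ i, γ i ^ 2) +
      K * (2 * (C : ℝ) ^ 2 + 768 * (C : ℝ) ^ 4 + 11) * (h * Real.sqrt h) := by
  set Kq := K * (2 * (C : ℝ) ^ 2 + 768 * (C : ℝ) ^ 4 + 11) * (h * Real.sqrt h) with hKq
  set m := c * (h * ∑ i, α i * β i) + d * (h * ∑ i, γ i ^ 2) with hm
  have i3 : Integrable (fun ξ : ι → ℝ => d * lin γ ξ ^ 2) (nz h) := by
    simp only [sq]
    exact (integrable_lin_mul h γ γ).const_mul d
  have hS : ∀ S, ∫ ξ, Φ (fun T => ψ T + dl f h j S ξ T) ∂(nz h) ≤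
      (a + m + Kq) + b * ∫ ξ, dev f h j ψ g S ξ ∂(nz h) := by
    intro S
    have iL : Integrable (fun ξ => Φ (fun T => ψ T + dl f h j S ξ T)) (nz h) :=
      integrable_of_bdd (hΦ.comp (continuous_dl f h j ψ S)).measurable fun ξ => hΦb _
    have i1 : Integrable (fun ξ : ι → ℝ => a + b * dev f h j ψ g S ξ) (nz h) :=
      (integrable_const a).add ((integrable_dev f h j ψ g S).const_mul b)
    have i2 : Integrable (fun ξ : ι → ℝ => c * (lin α ξ * lin β ξ)) (nz h) :=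
      (integrable_lin_mul h α β).const_mul c
    have iQ : Integrable (fun ξ : ι → ℝ => K * qerr C h ξ) (nz h) :=
      (integrable_qerr C h).const_mul K
    refine (integral_mono iL (((i1.add i2).add i3).add iQ) (hle S)).trans ?_
    simp only [Pi.add_apply]
    have j12 := integral_add i1 i2
    have j123 := integral_add (i1.add i2) i3
    have jall := integral_add ((i1.add i2).add i3) iQ
    simp only [Pi.add_apply] at j12 j123 jall
    rw [jall, j123, j12, integral_add (integrable_const a) ((integrable_dev f h j ψ g S).const_mul b),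
      integral_const, probReal_univ, one_smul, integral_const_mul, integral_const_mul,
      integral_lin_mul, integral_const_mul, integral_const_mul]
    have hγ : ∫ ξ : ι → ℝ, lin γ ξ ^ 2 ∂(nz h) = h * ∑ i, γ i ^ 2 := by
      simp only [sq]
      exact integral_lin_mul h γ γ
    rw [hγ]
    have := mul_le_mul_of_nonneg_left (integral_qerr_le (ι := ι) hh h1 hC) hK
    simp only [hm, hKq]
    linarith
  have h2 : stepE f h j ψ Φ ≤
      ∑ S, post ψ S * ((a + m + Kq) + b * ∫ ξ, dev f h j ψ g S ξ ∂(nz h)) := by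
    unfold stepE
    exact sum_le_sum fun S _ => mul_le_mul_of_nonneg_left (hS S) (post_pos ψ S).le
  simp only [mul_add (post ψ _), sum_add_distrib, ← sum_mul, sum_post, one_mul,
    mul_left_comm _ b, ← mul_sum, dev_mean f h j ψ hh g, mul_zero, add_zero] at h2
  simp only [hm] at h2
  linarith

/-! ### Linearisation -/

/-- The Lipschitz constant of the increment. -/
def lipK (C : ℕ) (F : ℝ) : ℝ := F + 2 * C * F ^ 2

/-- The constant of the second order term. -/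
def secK (C : ℕ) (F : ℝ) : ℝ := 20 * lipK C F ^ 2 + 4 * C * F ^ 2

/-- The constant in the first order bound for the covariance. -/
def k3c (C : ℕ) (F A : ℝ) : ℝ :=
  3 * A * secK C F + (22 * lipK C F) ^ 2 * A + 4 * C * F ^ 2 * A

/-- The constant in the second order bound for the covariance. -/
def ktc (C : ℕ) (F A : ℝ) : ℝ :=
  2 * secK C F * (22 * lipK C F + 2 * F) * A + 2 * C * F ^ 2 * A * (22 * lipK C F) ^ 2

/-- The constant for one step of a squared covariance. -/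
def sqc (C : ℕ) (F A : ℝ) : ℝ :=
  (4 * A * ktc C F A + 24 * k3c C F A * A * F + 4 * k3c C F A ^ 2) *
    (2 * (C : ℝ) ^ 2 + 768 * (C : ℝ) ^ 4 + 11)

/-- The constant for one step of an even power of a mean. -/
def powc (C : ℕ) (F : ℝ) (m : ℕ) : ℝ :=
  (((m : ℝ) + 1) * ((m : ℝ) + 2) * secK C F * (22 * lipK C F + 2 * F) +
      ((m : ℝ) + 2) ^ 3 * (22 * lipK C F) ^ 3) *
    (2 * (C : ℝ) ^ 2 + 768 * (C : ℝ) ^ 4 + 11)

lemma lipK_nonneg (C : ℕ) {F : ℝ} (hF : 0 ≤ F) : 0 ≤ lipK C F := by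
  unfold lipK; positivity

lemma secK_nonneg (C : ℕ) (F : ℝ) : 0 ≤ secK C F := by
  unfold secK; positivity

lemma ktc_nonneg (C : ℕ) {F A : ℝ} (hF : 0 ≤ F) (hA : 0 ≤ A) : 0 ≤ ktc C F A := by
  have := lipK_nonneg C hF
  have := secK_nonneg C F
  unfold ktc; positivity

lemma k3c_nonneg (C : ℕ) {F A : ℝ} (hF : 0 ≤ F) (hA : 0 ≤ A) : 0 ≤ k3c C F A := by
  have := lipK_nonneg C hF
  have := secK_nonneg C F
  unfold k3c; positivity

variable {C : ℕ} {F : ℝ} (hF : ∀ i S, |f j i S| ≤ F) (hF0 : 0 ≤ F) (hC : Fintype.card ι ≤ C)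

include hF hF0 hC

omit [Nonempty Ω] in
lemma abs_dl_le (S : Ω) (ξ : ι → ℝ) :
    (∀ T, |dl f h j S ξ T| ≤ lipK C F * rsize h ξ) ∧
      ∀ T, |dl f h j S ξ T - ∑ i, ξ i * f j i T| ≤ 2 * C * F ^ 2 * h := by
  have hh : (0 : ℝ) ≤ h := h.2
  have main : ∀ T, |dl f h j S ξ T - ∑ i, ξ i * f j i T| ≤ 2 * C * F ^ 2 * h := fun T => by
    simp only [dl, inc, ← sum_sub_distrib]
    refine (abs_sum_le_sum_abs _ _).trans ?_
    calc ∑ i, |f j i T * (h * f j i S + ξ i) - h * f j i T ^ 2 / 2 - ξ i * f j i T|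
        ≤ ∑ _i : ι, 2 * F ^ 2 * h := sum_le_sum fun i _ => by
          have e : f j i T * (h * f j i S + ξ i) - h * f j i T ^ 2 / 2 - ξ i * f j i T =
              h * (f j i T * f j i S - f j i T ^ 2 / 2) := by ring
          rw [e, abs_mul, abs_of_nonneg hh, mul_comm _ (h : ℝ)]
          refine mul_le_mul_of_nonneg_left ((abs_sub _ _).trans ?_) hh
          have h1 : |f j i T * f j i S| ≤ F * F := abs_mul_le_mul (hF i T) (hF i S)
          have h2 : |f j i T ^ 2 / 2| ≤ F * F := by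
            rw [abs_div, abs_pow, abs_of_pos (two_pos : (0 : ℝ) < 2)]
            nlinarith [hF i T, abs_nonneg (f j i T)]
          nlinarith
      _ ≤ 2 * C * F ^ 2 * h := by
          rw [sum_const, card_univ, nsmul_eq_mul]
          have := mul_le_mul_of_nonneg_right (Nat.cast_le (α := ℝ).2 hC)
            (by positivity : (0 : ℝ) ≤ 2 * F ^ 2 * h)
          linarith
  refine ⟨fun T => ?_, main⟩
  have h3 : |∑ i, ξ i * f j i T| ≤ (∑ i, |ξ i|) * F := by
    rw [sum_mul]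
    refine (abs_sum_le_sum_abs _ _).trans (sum_le_sum fun i _ => ?_)
    rw [abs_mul]
    exact mul_le_mul_of_nonneg_left (hF i T) (abs_nonneg _)
  have h4 := abs_add_le (dl f h j S ξ T - ∑ i, ξ i * f j i T) (∑ i, ξ i * f j i T)
  rw [sub_add_cancel] at h4
  refine h4.trans ?_
  unfold lipK
  have h5 : (h : ℝ) ≤ rsize h ξ := le_add_of_nonneg_left (sum_nonneg fun _ _ => abs_nonneg _)
  have h6 : ∑ i, |ξ i| ≤ rsize h ξ := le_add_of_nonneg_right hh
  have := main T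
  nlinarith [mul_le_mul_of_nonneg_left h5 (by positivity : (0 : ℝ) ≤ 2 * C * F ^ 2),
    mul_le_mul_of_nonneg_right h6 hF0]

/-- The bounds on `dev g`. -/
theorem dev_bounds {g : Ω → ℝ} {B : ℝ} (hg : ∀ S, |g S| ≤ B) (S : Ω) (ξ : ι → ℝ) :
    |dev f h j ψ g S ξ| ≤ 22 * lipK C F * B * rsize h ξ ∧
      |lin (cf f j ψ g) ξ| ≤ 2 * F * B * rsize h ξ ∧
      |dev f h j ψ g S ξ - lin (cf f j ψ g) ξ| ≤
        secK C F * B * (rsize h ξ ^ 2 + h) := by
  have hh : (0 : ℝ) ≤ h := h.2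
  have hB := bdd_nonneg hg
  obtain ⟨hd1, hd2⟩ := abs_dl_le f h j hF hF0 hC S ξ
  have hr := rsize_nonneg h ξ
  refine ⟨?_, ?_, ?_⟩
  · refine (abs_ev_sub_le ψ hg hd1).trans (le_of_eq ?_)
    ring
  · have h6 : ∑ i, |ξ i| ≤ rsize h ξ := le_add_of_nonneg_right hh
    refine le_trans ?_ (mul_le_mul_of_nonneg_left h6 (by positivity))
    rw [mul_sum]
    refine (abs_sum_le_sum_abs _ _).trans (sum_le_sum fun i _ => ?_)
    rw [abs_mul]
    refine mul_le_mul_of_nonneg_right ((abs_cov_le ψ hg (hF i)).trans_eq ?_) (abs_nonneg _)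
    ring
  · have h1 := abs_ev_taylor ψ hg hd1
    have h2 : |cov ψ g (dl f h j S ξ) - lin (cf f j ψ g) ξ| ≤ 2 * B * (2 * C * F ^ 2 * h) := by
      have e : lin (cf f j ψ g) ξ = cov ψ g (fun T => ∑ i, ξ i * f j i T) := by
        simp only [cov_sum, cov_const_mul, lin, cf]
        exact sum_congr rfl fun i _ => mul_comm _ _
      rw [e, ← cov_sub]
      exact abs_cov_le ψ hg hd2
    have h3 := abs_add_le (dev f h j ψ g S ξ - cov ψ g (dl f h j S ξ))
      (cov ψ g (dl f h j S ξ) - lin (cf f j ψ g) ξ)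
    rw [sub_add_sub_cancel] at h3
    refine h3.trans (le_trans (add_le_add h1 h2) ?_)
    have hp : 0 ≤ (20 * lipK C F ^ 2) * B * (h : ℝ) + 4 * C * F ^ 2 * B * rsize h ξ ^ 2 := by
      positivity
    unfold secK
    linear_combination hp

theorem dev_mul_bound (hh : h ≠ 0) (h1 : (h : ℝ) ≤ 1) {g k : Ω → ℝ} {B B' : ℝ}
    (hg : ∀ S, |g S| ≤ B) (hk : ∀ S, |k S| ≤ B') (S : Ω) (ξ : ι → ℝ) :
    |dev f h j ψ g S ξ * dev f h j ψ k S ξ - lin (cf f j ψ g) ξ * lin (cf f j ψ k) ξ| ≤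
      2 * secK C F * (22 * lipK C F + 2 * F) * B * B' * qerr C h ξ := by
  have hL := lipK_nonneg C hF0
  have hM := secK_nonneg C F
  obtain ⟨a1, a2, a3⟩ := dev_bounds f h j ψ hF hF0 hC hg S ξ
  obtain ⟨b1, b2, b3⟩ := dev_bounds f h j ψ hF hF0 hC hk S ξ
  have hB := bdd_nonneg hg
  have hB' := bdd_nonneg hk
  have p1 := abs_mul_le_mul a3 b1
  have p2 := abs_mul_le_mul a2 b3
  have e : dev f h j ψ g S ξ * dev f h j ψ k S ξ - lin (cf f j ψ g) ξ * lin (cf f j ψ k) ξ =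
      (dev f h j ψ g S ξ - lin (cf f j ψ g) ξ) * dev f h j ψ k S ξ +
        lin (cf f j ψ g) ξ * (dev f h j ψ k S ξ - lin (cf f j ψ k) ξ) := by ring
  rw [e]
  refine (abs_add_le _ _).trans ((add_le_add p1 p2).trans ?_)
  obtain ⟨q1, q2, _, _, _⟩ := absorb (C := C) hh h1 hC ξ
  have hcoef : 0 ≤ secK C F * (22 * lipK C F + 2 * F) * B * B' := by positivity
  have := mul_le_mul_of_nonneg_left (add_le_add q2 q1) hcoef
  linear_combination this

omit hF hF0 hC in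
/-- The covariance after the step. -/
theorem cov_step (φ χ : Ω → ℝ) (S : Ω) (ξ : ι → ℝ) :
    cov (fun T => ψ T + dl f h j S ξ T) φ χ = cov ψ φ χ + dev f h j ψ (fun T => φ T * χ T) S ξ -
      ev ψ φ * dev f h j ψ χ S ξ - ev ψ χ * dev f h j ψ φ S ξ -
      dev f h j ψ φ S ξ * dev f h j ψ χ S ξ := by
  simp only [cov, dev]
  ring

omit hF hF0 hC in
lemma dev_lin {κ : Type*} (s : Finset κ) (g : κ → Ω → ℝ) (c : κ → ℝ) (S : Ω) (ξ : ι → ℝ) :
    dev f h j ψ (fun T => ∑ x ∈ s, c x * g x T) S ξ = ∑ x ∈ s, c x * dev f h j ψ (g x) S ξ := by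
  simp only [dev, ev_sum, ev_const_mul, mul_sub, sum_sub_distrib]

/-- The first order bound for the covariance. -/
theorem cov_first {φ W : Ω → ℝ} {A : ℝ} (hφ : ∀ S, |φ S| ≤ 1) (hW : ∀ S, |W S| ≤ A)
    {γ : ι → ℝ} (hγ : ∀ i, γ i = cum3 ψ φ W (f j i)) (S : Ω) (ξ : ι → ℝ) :
    |cov (fun T => ψ T + dl f h j S ξ T) φ (propStep f h j ψ W) - cov ψ φ W - lin γ ξ| ≤
        k3c C F A * (rsize h ξ ^ 2 + h) ∧
      |lin γ ξ| ≤ 6 * A * F * rsize h ξ := by
  have hhp : (0 : ℝ) ≤ h := h.2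
  have hA := bdd_nonneg hW
  obtain ⟨a1, a2, a3⟩ := dev_bounds f h j ψ hF hF0 hC hφ S ξ
  obtain ⟨w1, w2, w3⟩ := dev_bounds f h j ψ hF hF0 hC hW S ξ
  obtain ⟨_, g2, g3⟩ := dev_bounds f h j ψ hF hF0 hC (g := fun T => φ T * W T) (B := 1 * A)
    (fun T => abs_mul_le_mul (hφ T) (hW T)) S ξ
  have hmφ : |ev ψ φ| ≤ 1 := abs_ev_le ψ hφ
  have hmW : |ev ψ W| ≤ A := abs_ev_le ψ hW
  have hgam : lin γ ξ = lin (cf f j ψ fun T => φ T * W T) ξ -
      ev ψ φ * lin (cf f j ψ W) ξ - ev ψ W * lin (cf f j ψ φ) ξ := by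
    simp only [lin, mul_sum, ← sum_sub_distrib]
    refine sum_congr rfl fun i _ => ?_
    simp only [hγ, cum3_eq, cf]
    ring
  refine ⟨?_, ?_⟩
  swap
  · rw [hgam]
    refine ((abs_sub _ _).trans (add_le_add ((abs_sub _ _).trans
      (add_le_add g2 (abs_mul_le_mul hmφ w2))) (abs_mul_le_mul hmW a2))).trans (le_of_eq ?_)
    ring
  have e : cov (fun T => ψ T + dl f h j S ξ T) φ (propStep f h j ψ W) - cov ψ φ W - lin γ ξ =
      (dev f h j ψ (fun T => φ T * W T) S ξ - lin (cf f j ψ fun T => φ T * W T) ξ) -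
        ev ψ φ * (dev f h j ψ W S ξ - lin (cf f j ψ W) ξ) -
        ev ψ W * (dev f h j ψ φ S ξ - lin (cf f j ψ φ) ξ) -
        dev f h j ψ φ S ξ * dev f h j ψ W S ξ +
        h * ∑ i, cov ψ (f j i) W * cov (fun T => ψ T + dl f h j S ξ T) φ (f j i) := by
    rw [show propStep f h j ψ W = fun T => W T + h * ∑ i, cov ψ (f j i) W * f j i T from rfl,
      cov_add, cov_const_mul, cov_sum]
    simp only [cov_const_mul, hgam]
    rw [cov_step f h j ψ φ W]
    ring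
  have s1 := abs_mul_le_mul hmφ w3
  have s2 := abs_mul_le_mul hmW a3
  have s3 := abs_mul_le_mul a1 w1
  have s4 : |h * ∑ i, cov ψ (f j i) W * cov (fun T => ψ T + dl f h j S ξ T) φ (f j i)| ≤
      4 * C * F ^ 2 * A * h := by
    rw [abs_mul, abs_of_nonneg hhp]
    refine (mul_le_mul_of_nonneg_left (abs_sum_le_sum_abs _ _) hhp).trans ?_
    have hsum : ∑ i, |cov ψ (f j i) W * cov (fun T => ψ T + dl f h j S ξ T) φ (f j i)| ≤
        C * (2 * F * A * (2 * 1 * F)) := by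
      refine (sum_le_sum fun i _ =>
        abs_mul_le_mul (abs_cov_le ψ (hF i) hW) (abs_cov_le _ hφ (hF i))).trans ?_
      rw [sum_const, card_univ, nsmul_eq_mul]
      exact mul_le_mul_of_nonneg_right (Nat.cast_le.2 hC) (by positivity)
    refine (mul_le_mul_of_nonneg_left hsum hhp).trans (le_of_eq ?_)
    ring
  rw [e]
  refine ((abs_add_le _ _).trans (add_le_add ((abs_sub _ _).trans (add_le_add ((abs_sub _ _).trans
    (add_le_add ((abs_sub _ _).trans (add_le_add g3 s1)) s2)) s3)) s4)).trans ?_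
  have p1 : 0 ≤ (22 * lipK C F) ^ 2 * A * (h : ℝ) := by positivity
  have p2 : 0 ≤ 4 * C * F ^ 2 * A * rsize h ξ ^ 2 := by positivity
  unfold k3c
  linear_combination p1 + p2

/-- The second order identity for the covariance. -/
theorem cov_second (hh : h ≠ 0) (h1 : (h : ℝ) ≤ 1) {φ W : Ω → ℝ} {A : ℝ}
    (hφ : ∀ S, |φ S| ≤ 1) (hW : ∀ S, |W S| ≤ A) :
    ∃ g : Ω → ℝ, ∀ S ξ,
      |cov (fun T => ψ T + dl f h j S ξ T) φ (propStep f h j ψ W) - cov ψ φ W -
          (dev f h j ψ g S ξ + h * (∑ i, cov ψ (f j i) W * cov ψ φ (f j i)) -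
            lin (cf f j ψ φ) ξ * lin (cf f j ψ W) ξ)| ≤ ktc C F A * qerr C h ξ := by
  have hhp : (0 : ℝ) ≤ h := h.2
  have hA := bdd_nonneg hW
  refine ⟨fun T => φ T * W T - ev ψ φ * W T - ev ψ W * φ T + ∑ i, (h * cov ψ (f j i) W) *
      (φ T * f j i T - ev ψ φ * f j i T - ev ψ (f j i) * φ T), fun S ξ => ?_⟩
  have e : cov (fun T => ψ T + dl f h j S ξ T) φ (propStep f h j ψ W) - cov ψ φ W -
      (dev f h j ψ (fun T => φ T * W T - ev ψ φ * W T - ev ψ W * φ T +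
          ∑ i, (h * cov ψ (f j i) W) *
            (φ T * f j i T - ev ψ φ * f j i T - ev ψ (f j i) * φ T)) S ξ +
          h * (∑ i, cov ψ (f j i) W * cov ψ φ (f j i)) -
          lin (cf f j ψ φ) ξ * lin (cf f j ψ W) ξ) =
      -(dev f h j ψ φ S ξ * dev f h j ψ W S ξ - lin (cf f j ψ φ) ξ * lin (cf f j ψ W) ξ) -
        h * ∑ i, cov ψ (f j i) W * (dev f h j ψ φ S ξ * dev f h j ψ (f j i) S ξ) := by
    rw [show propStep f h j ψ W = fun T => W T + h * ∑ i, cov ψ (f j i) W * f j i T from rfl,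
      cov_add, cov_const_mul, cov_sum]
    simp only [cov_const_mul, cov_step, dev, ev_add, ev_sub, ev_const_mul, ev_sum, mul_sum,
      mul_add, mul_sub, sub_mul, sum_add_distrib, sum_sub_distrib]
    simp only [mul_assoc]
    ring
  rw [e]
  refine (abs_sub _ _).trans ?_
  rw [abs_neg]
  obtain ⟨_, _, _, q4, _⟩ := absorb (C := C) hh h1 hC ξ
  have ht1 := dev_mul_bound f h j ψ hF hF0 hC hh h1 hφ hW S ξ
  have ht2 : |h * ∑ i, cov ψ (f j i) W * (dev f h j ψ φ S ξ * dev f h j ψ (f j i) S ξ)| ≤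
      2 * C * F ^ 2 * A * (22 * lipK C F) ^ 2 * qerr C h ξ := by
    rw [abs_mul, abs_of_nonneg hhp]
    refine (mul_le_mul_of_nonneg_left (abs_sum_le_sum_abs _ _) hhp).trans ?_
    have hr := rsize_nonneg h ξ
    have hL : 0 ≤ lipK C F := lipK_nonneg C hF0
    have hsum : ∑ i, |cov ψ (f j i) W * (dev f h j ψ φ S ξ * dev f h j ψ (f j i) S ξ)| ≤
        C * (2 * F * A * ((22 * lipK C F * 1 * rsize h ξ) * (22 * lipK C F * F * rsize h ξ))) := by
      refine (sum_le_sum fun i _ => abs_mul_le_mul (abs_cov_le ψ (hF i) hW)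
        (abs_mul_le_mul (dev_bounds f h j ψ hF hF0 hC hφ S ξ).1
          (dev_bounds f h j ψ hF hF0 hC (hF i) S ξ).1)).trans ?_
      rw [sum_const, card_univ, nsmul_eq_mul]
      exact mul_le_mul_of_nonneg_right (Nat.cast_le.2 hC) (by positivity)
    refine (mul_le_mul_of_nonneg_left hsum hhp).trans ?_
    have := mul_le_mul_of_nonneg_left q4 (by positivity :
      (0 : ℝ) ≤ 2 * C * F ^ 2 * A * (22 * lipK C F) ^ 2)
    linarith
  refine (add_le_add ht1 ht2).trans (le_of_eq ?_)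
  unfold ktc
  ring

/-- One step of the square of a covariance. -/
theorem cov_sq_step (hh : h ≠ 0) (h1 : (h : ℝ) ≤ 1) {φ W : Ω → ℝ} {A : ℝ} (hφ : ∀ S, |φ S| ≤ 1)
    (hW : ∀ S, |W S| ≤ A) :
    stepE f h j ψ (fun ψ' => cov ψ' φ (propStep f h j ψ W) ^ 2) ≤
      cov ψ φ W ^ 2 + h * ∑ i, cum3 ψ φ W (f j i) ^ 2 + sqc C F A * (h * Real.sqrt h) := by
  have hhp : (0 : ℝ) ≤ h := h.2
  have hA := bdd_nonneg hW
  have hKt : 0 ≤ ktc C F A := ktc_nonneg C hF0 hA
  have hK₃ : 0 ≤ k3c C F A := k3c_nonneg C hF0 hA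
  obtain ⟨g, hg⟩ := cov_second f h j ψ hF hF0 hC hh h1 hφ hW
  obtain ⟨γ, hγ⟩ : ∃ γ : ι → ℝ, ∀ i, γ i = cum3 ψ φ W (f j i) := ⟨_, fun _ => rfl⟩
  obtain ⟨B', hB'⟩ : ∃ B', ∀ T, |propStep f h j ψ W T| ≤ B' :=
    ⟨_, fun T => norm_le_pi_norm (propStep f h j ψ W) T⟩
  set u := cov ψ φ W with hu
  set s := ∑ i, cov ψ (f j i) W * cov ψ φ (f j i) with hs
  have hαβ : ∑ i, cf f j ψ φ i * cf f j ψ W i = s := by
    refine sum_congr rfl fun i _ => ?_
    simp only [cf, cov_comm ψ (f j i) W]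
    ring
  have hub : |2 * u| ≤ 4 * A := by
    rw [abs_mul, abs_two]
    have := abs_cov_le ψ hφ hW
    rw [← hu] at this
    linarith
  refine (stepE_le f h j ψ hh h1 hC (Φ := fun ψ' => cov ψ' φ (propStep f h j ψ W) ^ 2)
    ((continuous_cov _ _).pow 2) (B := (2 * B') ^ 2) (fun ψ' => ?_) g (cf f j ψ φ) (cf f j ψ W) γ
    (a := u ^ 2 + 2 * u * (h * s)) (b := 2 * u) (c := -(2 * u)) (d := 1)
    (K := 4 * A * ktc C F A + 24 * k3c C F A * A * F + 4 * k3c C F A ^ 2) (by positivity)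
    fun S ξ => ?_).trans (le_of_eq ?_)
  · rw [abs_pow]
    refine pow_le_pow_left₀ (abs_nonneg _) ?_ 2
    exact (abs_cov_le ψ' hφ hB').trans_eq (by ring)
  swap
  · rw [hαβ]
    simp only [hγ, sqc]
    ring
  have hb := hg S ξ
  obtain ⟨hd, hgb⟩ := cov_first f h j ψ hF hF0 hC hφ hW hγ S ξ
  set X := cov (fun T => ψ T + dl f h j S ξ T) φ (propStep f h j ψ W)
  obtain ⟨q1, q2, q3, q4, q5⟩ := absorb (C := C) hh h1 hC ξ
  have b1 := (le_abs_self _).trans (abs_mul_le_mul hd hgb)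
  have b2 := (le_abs_self _).trans (abs_mul_le_mul hd hd)
  have b3 := mul_le_mul_of_nonneg_left (add_le_add q2 q1)
    (by positivity : (0 : ℝ) ≤ 12 * k3c C F A * A * F)
  have b4 := mul_le_mul_of_nonneg_left (add_le_add q3 (add_le_add (add_le_add q4 q4) q5))
    (sq_nonneg (k3c C F A))
  have hq0 : 0 ≤ qerr C h ξ := le_trans (sq_nonneg _) q5
  have b5 : 0 ≤ k3c C F A * A * F * qerr C h ξ := by positivity
  have b6 := (le_abs_self _).trans (abs_mul_le_mul hub hb)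
  linear_combination 2 * b1 + b2 + b3 + b4 + b6

omit hF hF0 hC [Fintype ι] [Fintype Ω] [Nonempty Ω] in
lemma abs_pow_taylor {a b : ℝ} (ha : |a| ≤ 1) (hb : |b| ≤ 1) (m : ℕ) :
    |b ^ (m + 2) - a ^ (m + 2) - ((m : ℝ) + 2) * a ^ (m + 1) * (b - a) -
        ((m : ℝ) + 1) * ((m : ℝ) + 2) / 2 * a ^ m * (b - a) ^ 2| ≤
      ((m : ℝ) + 2) ^ 3 * |b - a| ^ 3 := by
  induction m with
  | zero =>
    rw [show b ^ (0 + 2) - a ^ (0 + 2) - (((0 : ℕ) : ℝ) + 2) * a ^ (0 + 1) * (b - a) -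
      (((0 : ℕ) : ℝ) + 1) * (((0 : ℕ) : ℝ) + 2) / 2 * a ^ 0 * (b - a) ^ 2 = 0 by simp; ring,
      abs_zero]
    positivity
  | succ m ih =>
    have e : b ^ (m + 1 + 2) - a ^ (m + 1 + 2) -
        (((m + 1 : ℕ) : ℝ) + 2) * a ^ (m + 1 + 1) * (b - a) -
        (((m + 1 : ℕ) : ℝ) + 1) * (((m + 1 : ℕ) : ℝ) + 2) / 2 * a ^ (m + 1) * (b - a) ^ 2 =
        b * (b ^ (m + 2) - a ^ (m + 2) - ((m : ℝ) + 2) * a ^ (m + 1) * (b - a) -
          ((m : ℝ) + 1) * ((m : ℝ) + 2) / 2 * a ^ m * (b - a) ^ 2) +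
          ((m : ℝ) + 1) * ((m : ℝ) + 2) / 2 * (a ^ m * (b - a) ^ 3) := by
      push_cast
      ring
    rw [e]
    refine ((abs_add_le _ _).trans (add_le_add (abs_mul_le_mul hb ih) (abs_mul_le_mul
      (le_of_eq (abs_of_nonneg (by positivity)))
      (abs_mul_le_mul (show |a ^ m| ≤ 1 by rw [abs_pow]; exact pow_le_one₀ (abs_nonneg a) ha)
        (le_of_eq (abs_pow _ 3)))))).trans ?_
    have hm : (0 : ℝ) ≤ m := Nat.cast_nonneg m
    have h3 : 0 ≤ |b - a| ^ 3 := by positivity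
    push_cast
    nlinarith [mul_nonneg (mul_nonneg hm hm) h3, mul_nonneg hm h3]

/-- One step of an even power of a mean. -/
theorem pow_step (hh : h ≠ 0) (h1 : (h : ℝ) ≤ 1) {φ : Ω → ℝ} (hφ : ∀ S, |φ S| ≤ 1) (m : ℕ)
    (hm : Even m) :
    stepE f h j ψ (fun ψ' => ev ψ' φ ^ (m + 2)) ≤
      ev ψ φ ^ (m + 2) + h * (((m : ℝ) + 1) * ((m : ℝ) + 2) / 2) * ev ψ φ ^ m *
          ∑ i, cov ψ φ (f j i) ^ 2 +
        powc C F m * (h * Real.sqrt h) := by
  have hL := lipK_nonneg C hF0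
  have hM := secK_nonneg C F
  set a := ev ψ φ
  set P := ((m : ℝ) + 1) * ((m : ℝ) + 2) / 2 with hP
  refine (stepE_le f h j ψ hh h1 hC (Φ := fun ψ' => ev ψ' φ ^ (m + 2))
    ((continuous_ev φ).pow _) (B := 1) (fun ψ' => ?_) φ (cf f j ψ φ) (cf f j ψ φ) (fun _ => 0)
    (a := a ^ (m + 2)) (b := ((m : ℝ) + 2) * a ^ (m + 1)) (c := P * a ^ m) (d := 0)
    (K := ((m : ℝ) + 1) * ((m : ℝ) + 2) * secK C F * (22 * lipK C F + 2 * F) +
      ((m : ℝ) + 2) ^ 3 * (22 * lipK C F) ^ 3) (by positivity) fun S ξ => ?_).trans (le_of_eq ?_)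
  · rw [abs_pow]
    exact pow_le_one₀ (abs_nonneg _) (abs_ev_le ψ' hφ)
  swap
  · simp only [cf, ← sq, powc]
    ring
  obtain ⟨a1, a2, a3⟩ := dev_bounds f h j ψ hF hF0 hC hφ S ξ
  obtain ⟨_, q2, _, _, _⟩ := absorb (C := C) hh h1 hC ξ
  have ha : |a| ≤ 1 := abs_ev_le ψ hφ
  have ht := le_of_abs_le (abs_pow_taylor ha (abs_ev_le (fun T => ψ T + dl f h j S ξ T) hφ) m)
  have hdev : dev f h j ψ φ S ξ = ev (fun T => ψ T + dl f h j S ξ T) φ - a := rfl
  rw [← hdev] at ht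
  have hP0 : 0 ≤ P * a ^ m := mul_nonneg (by positivity) (hm.pow_nonneg a)
  have hsq := dev_mul_bound f h j ψ hF hF0 hC hh h1 hφ hφ S ξ
  have hPb : |P * a ^ m| ≤ P * 1 := abs_mul_le_mul (le_of_eq (abs_of_nonneg (by positivity)))
    (by rw [abs_pow]; exact pow_le_one₀ (abs_nonneg a) ha)
  have b1 := (le_abs_self _).trans (abs_mul_le_mul hPb hsq)
  have b2 := mul_le_mul_of_nonneg_left ((pow_le_pow_left₀ (abs_nonneg _) a1 3).trans_eq
    (show (22 * lipK C F * 1 * rsize h ξ) ^ 3 = (22 * lipK C F) ^ 3 * rsize h ξ ^ 3 by ring))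
    (by positivity : (0 : ℝ) ≤ ((m : ℝ) + 2) ^ 3)
  have b3 := mul_le_mul_of_nonneg_left q2 (by positivity : (0 : ℝ) ≤
    ((m : ℝ) + 2) ^ 3 * (22 * lipK C F) ^ 3)
  rw [hP] at *
  linarith

end

end Vale.Agent.P161.Gen

namespace Vale.Agent.P161.Edge

open scoped NNReal Classical

theorem genStepStmt : GenStepStmt := by
  intro C F A p
  set m := 2 * (p - 1) with hm
  refine ⟨max (Gen.sqc C |F| A) (Gen.powc C |F| m), ?_⟩
  intro ι Ω _ _ _ f h j ψ φ W hC hF hφ hW hh h1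
  have hF' : ∀ i S, |f j i S| ≤ |F| := fun i S => (hF i S).trans (le_abs_self F)
  have hhs : 0 ≤ (h : ℝ) * Real.sqrt h := mul_nonneg h.2 (Real.sqrt_nonneg _)
  refine ⟨?_, fun hp => ?_⟩
  · refine (Gen.cov_sq_step f h j ψ hF' (abs_nonneg F) hC hh h1 hφ hW).trans ?_
    have := mul_le_mul_of_nonneg_right (le_max_left (Gen.sqc C |F| A) (Gen.powc C |F| m)) hhs
    linarith
  · have hmp : 2 * p = m + 2 := by omega
    have hcast : (p : ℝ) * (2 * p - 1) = ((m : ℝ) + 1) * ((m : ℝ) + 2) / 2 := by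
      have : 2 * (p : ℝ) = (m : ℝ) + 2 := by exact_mod_cast hmp
      rw [show (m : ℝ) = 2 * p - 2 by linarith]
      ring
    rw [hmp, hcast]
    refine (Gen.pow_step f h j ψ hF' (abs_nonneg F) hC hh h1 hφ m (even_two_mul _)).trans ?_
    have := mul_le_mul_of_nonneg_right (le_max_right (Gen.sqc C |F| A) (Gen.powc C |F| m)) hhs
    linarith

end Vale.Agent.P161.Edge
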