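import Vale.Agent.P161.Edge.Scheme
import Vale.Agent.P161.Edge.GenFirst
import Vale.Agent.P161.Edge.GenStep
import Vale.Agent.P161.Edge.Step

/-!
The output of a scheme is close to its smoothing: rotation Efron–Stein, first order expansion of
the scheme in one coordinate of the noise, and the bounds on the responses.
-/

namespace Vale.Agent.P161.Edge

open MeasureTheory ProbabilityTheory Finset Function
open scoped NNReal Classical

noncomputable section

variable {V : Type} {G : SimpleGraph V} {D : Finset V} {d : ℕ}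

/-! ### The derivative in one coordinate -/

lemma prop_eq_lin (P : Prm) (hB : Bridge G P D) (hη : 0 ≤ P.η) (z : ℕ → obsIx G D → ℝ) (j₀ : ℕ)
    (i : obsIx G D) : ∀ j,
    Gen.prop (feat G P.η P.N₁ D) P.h (Gen.state (feat G P.η P.N₁ D) P.h (lpw G P.θ D) z) j₀ i j =
      lin D (fun x => coef P.η P.N₁ j₀ i.1 *
        (wvec G P D (yobs G P D z) j₀ i.1.1 j x + wvec G P D (yobs G P D z) j₀ i.1.2 j x)) := by
  intro j
  induction j with
  | zero => funext R; simp [Gen.prop, wvec, lin]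
  | succ j ih =>
    simp only [Gen.prop, wvec]
    split_ifs with hj
    · subst hj
      rw [feat_eq_lin]
      funext R
      refine Finset.sum_congr rfl fun x _ => ?_
      simp only [mult, Pi.single_apply]
      simp only [eq_comm (a := x)]
    · rw [ih, state_eq_llk, propStep_lin hB _ _ hη]
      funext R
      refine Finset.sum_congr rfl fun x _ => ?_
      simp only [qop, yobs, Finset.mul_sum, mul_add, Finset.sum_add_distrib]
      ring_nf

/-- The response of the observation at `v` to the noise of one observation. -/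
lemma cov_prop (P : Prm) (hB : Bridge G P D) (hη : 0 ≤ P.η) (z : ℕ → obsIx G D → ℝ) (j₀ j : ℕ)
    (i : obsIx G D) {v : V} (hv : (v, v) ∈ obsIx G D) :
    Gen.cov (Gen.state (feat G P.η P.N₁ D) P.h (lpw G P.θ D) z j)
        (feat G P.η P.N₁ D j ⟨(v, v), hv⟩)
        (Gen.prop (feat G P.η P.N₁ D) P.h (Gen.state (feat G P.η P.N₁ D) P.h (lpw G P.θ D) z)
          j₀ i j) =
      coef P.η P.N₁ j₀ i.1 *
        (resp G P D (yobs G P D z) j₀ j v i.1.1 + resp G P D (yobs G P D z) j₀ j v i.1.2) := by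
  have e : feat G P.η P.N₁ D j ⟨(v, v), hv⟩ = spinF D v := by
    funext R
    simp [feat, coef, spinF]
    ring
  rw [prop_eq_lin P hB hη, e, state_eq_llk, cov_spin_lin hB]
  unfold resp yobs
  rw [← Finset.sum_add_distrib, Finset.mul_sum]
  exact Finset.sum_congr rfl fun x _ => by ring

lemma resp_eq_zero (P : Prm) (Y : ℕ → V × V → ℝ) {j₀ j : ℕ} (hj : j ≤ j₀) (v w : V) :
    resp G P D Y j₀ j v w = 0 := by
  have : ∀ m ≤ j₀, ∀ x, wvec G P D Y j₀ w m x = 0 := by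
    intro m
    induction m with
    | zero => intro _ x; rfl
    | succ m ih =>
      intro hm x
      simp [wvec, if_neg (by omega : m ≠ j₀), ih (by omega), qop]
  simp [resp, this j hj]

lemma resp_congr (P : Prm) {Y Y' : ℕ → V × V → ℝ} (j₀ : ℕ) {j : ℕ}
    (h : ∀ m < j, ∀ i ∈ obsIx G D, Y m i = Y' m i) (v w : V) :
    resp G P D Y j₀ j v w = resp G P D Y' j₀ j v w := by
  unfold resp
  rw [wvec_congr j₀ w (fun m hm => h m (by omega)), pcov_congr h]

/-- The first order expansion of the scheme, with constant `K`. -/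
def FirstK (G : SimpleGraph V) (S : Sch) (D : Finset V) (K : ℝ) : Prop :=
  ∀ (j₀ : ℕ) (i₀ : obsIx G D) (z : ℕ → obsIx G D → ℝ) (x : ℝ) (j : ℕ) (i : obsIx G D),
    (j : ℝ) * hlev S.k ≤ S.T → (j₀ : ℝ) * hlev S.k ≤ S.T →
    let f := feat G S.P.η S.P.N₁ D
    let ψ := lpw G S.P.θ D
    |Gen.ypath f S.P.h ψ (Gen.bump z j₀ i₀ x) j i - Gen.ypath f S.P.h ψ z j i -
        ((if j = j₀ ∧ i = i₀ then x else 0) + x * S.P.h *
          Gen.cov (Gen.state f S.P.h ψ z j) (f j i)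
            (Gen.prop f S.P.h (Gen.state f S.P.h ψ z) j₀ i₀ j))| ≤ K * S.P.h * x ^ 2 ∧
    |Gen.cov (Gen.state f S.P.h ψ (Gen.bump z j₀ i₀ x) j) (f j i)
          (Gen.prop f S.P.h (Gen.state f S.P.h ψ (Gen.bump z j₀ i₀ x)) j₀ i₀ j) -
        Gen.cov (Gen.state f S.P.h ψ z j) (f j i)
          (Gen.prop f S.P.h (Gen.state f S.P.h ψ z) j₀ i₀ j)| ≤ K * |x|

lemma feat_bound {η : ℝ} (hη : 0 ≤ η) (hη2 : η ≤ 2) (N₁ j : ℕ) (i : obsIx G D) (R : Cfg D) :
    |feat G η N₁ D j i R| ≤ 2 := by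
  unfold feat
  rw [abs_mul]
  have hc : |coef η N₁ j i.1| ≤ 1 :=
    abs_le_one_iff_mul_self_le_one.2 (by
      have := coef_sq_le hη hη2 N₁ j i.1
      rwa [← sq])
  have hs : |spin R.1 i.1.1 + spin R.1 i.1.2| ≤ 2 :=
    (abs_add_le _ _).trans (by rw [abs_spin, abs_spin]; norm_num)
  calc _ ≤ 1 * 2 := mul_le_mul hc hs (abs_nonneg _) zero_le_one
    _ = 2 := one_mul _

/-- A constant for the first order expansion, uniform in the level and the domain's position. -/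
theorem exists_firstK (C T : ℕ) : ∃ K : ℝ, ∀ (V : Type) (G : SimpleGraph V) (S : Sch) (D : Finset V),
    0 ≤ S.η → S.η ≤ 2 → S.T = T → (obsIx G D).card ≤ C → FirstK G S D K := by
  obtain ⟨K, hK⟩ := genFirstStmt C 2 T
  refine ⟨K, fun V G S D hη hη2 hT hC j₀ i₀ z x j i hj hj₀ => ?_⟩
  have hh : (S.P.h : ℝ) ≤ 1 := by
    rw [coe_hlev]; exact inv_le_one_of_one_le₀ (one_le_pow₀ one_le_two)
  intro f ψ
  have := hK (obsIx G D) (Cfg D) (feat G S.P.η S.P.N₁ D) S.P.h (lpw G S.P.θ D) (by simpa using hC)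
    (fun j i R => feat_bound hη hη2 _ j i R) hh j₀ i₀ z x j i (hT ▸ hj) (hT ▸ hj₀)
  unfold Gen.bump
  convert this

variable {S : Sch} {v : V}

/-- The weight of the noise of one observation in the average. -/
def eW (S : Sch) (v : V) (q : Fin S.N × obsIx G D) : ℝ :=
  if q.2.1 = (v, v) ∧ 2 ^ S.k ≤ (q.1 : ℕ) then 1 / ((S.T : ℝ) - 1) else 0

/-- The first order response of the output to the noise of one observation. -/
def gW (G : SimpleGraph V) (S : Sch) (D : Finset V) (v : V) (q : Fin S.N × obsIx G D)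
    (z : Gen.Noi S.N (obsIx G D)) : ℝ :=
  hlev S.k / ((S.T : ℝ) - 1) * (coef S.η (2 ^ S.k) q.1 q.2.1 * ∑ j ∈ S.win,
    (resp G S.P D (yobs G S.P D (Gen.ext z)) q.1 j v q.2.1.1 +
      resp G S.P D (yobs G S.P D (Gen.ext z)) q.1 j v q.2.1.2))

lemma ext_update {ι : Type} {N : ℕ} [DecidableEq (Fin N × ι)] (z : Gen.Noi N ι) (q : Fin N × ι) (y : ℝ) :
    Gen.ext (update z q y) = Gen.bump (Gen.ext z) q.1 q.2 (y - z q) := by
  funext m l
  simp only [Gen.ext, Gen.bump]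
  by_cases hm : m < N
  · simp only [dif_pos hm]
    by_cases h : m = (q.1 : ℕ) ∧ l = q.2
    · have e : ((⟨m, hm⟩, l) : Fin N × ι) = q := Prod.ext (Fin.ext h.1) h.2
      rw [if_pos h, e, update_self]
      ring
    · rw [if_neg h, update_of_ne]
      exact fun e => h ⟨by simp [← e], by simp [← e]⟩
  · simp only [dif_neg hm]
    rw [if_neg]
    exact fun h => hm (h.1 ▸ q.1.2)

lemma time_le {j : ℕ} (hj : j < S.N) : (j : ℝ) * hlev S.k ≤ S.T := by
  rw [← mul_hlev S.k S.T]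
  exact mul_le_mul_of_nonneg_right (by exact_mod_cast hj.le) (hlev S.k).coe_nonneg

/-- The change of the output when one coordinate of the noise changes. -/
lemma Fo_update_le [hdec : DecidableEq (Fin S.N × obsIx G D)] (hB : Bridge G S.P D) (hη : 0 ≤ S.η) (hv : v ∈ D) (hT : 2 ≤ S.T) {K : ℝ}
    (hK : FirstK G S D K) (z : Gen.Noi S.N (obsIx G D)) (q : Fin S.N × obsIx G D) (y0 y1 : ℝ) :
    |Fo G S D v (update z q y1) - Fo G S D v (update z q y0)| ≤
      |y1 - y0| * (|eW S v q + gW G S D v q z| + K * |y0 - z q|) + K * (y1 - y0) ^ 2 := by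
  have hvv : (v, v) ∈ obsIx G D := mem_obsIx.2 ⟨⟨hv, hv⟩, Or.inl rfl⟩
  set z0 := update z q y0 with hz0
  set x := y1 - y0 with hx
  set oo : obsIx G D := ⟨(v, v), hvv⟩
  set f := feat G S.P.η S.P.N₁ D
  set ψ := lpw G S.P.θ D
  have hτ : (0 : ℝ) < (S.T : ℝ) - 1 := by
    have : (2 : ℝ) ≤ S.T := by exact_mod_cast hT
    linarith
  set τ := (S.T : ℝ) - 1 with hτdef
  have hK0 : 0 ≤ K := by
    have h := (hK 0 oo (fun _ _ => 0) 1 0 oo (by simp) (by simp)).2
    exact le_trans (abs_nonneg _) (h.trans_eq (by simp))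
  have ez1 : Gen.ext (update z q y1) = Gen.bump (Gen.ext z0) q.1 q.2 x := by
    rw [show update z q y1 = update z0 q y1 by rw [hz0, update_idem], ext_update]
    simp [hz0, hx]
  have ez0 : Gen.ext z0 = Gen.bump (Gen.ext z) q.1 q.2 (y0 - z q) := by rw [hz0, ext_update]
  have hq := time_le (S := S) q.1.2
  set cv0 := fun j => Gen.cov (Gen.state f S.P.h ψ (Gen.ext z0) j) (f j oo)
    (Gen.prop f S.P.h (Gen.state f S.P.h ψ (Gen.ext z0)) q.1 q.2 j)
  set cv := fun j => Gen.cov (Gen.state f S.P.h ψ (Gen.ext z) j) (f j oo)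
    (Gen.prop f S.P.h (Gen.state f S.P.h ψ (Gen.ext z)) q.1 q.2 j)
  have hg : gW G S D v q z = hlev S.k / τ * ∑ j ∈ S.win, cv j := by
    unfold gW
    rw [Finset.mul_sum (a := coef S.η (2 ^ S.k) q.1 q.2.1)]
    congr 1
    exact Finset.sum_congr rfl fun j _ => (cov_prop S.P hB hη (Gen.ext z) q.1 j q.2 hvv).symm
  have he : ∑ j ∈ S.win, (if j = (q.1 : ℕ) ∧ oo = q.2 then x else 0) = τ * (x * eW S v q) := by
    unfold eW
    by_cases hi : q.2.1 = (v, v)
    · have : oo = q.2 := Subtype.ext hi.symm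
      simp only [this, and_true, hi, true_and, Finset.sum_ite_eq']
      by_cases hk : 2 ^ S.k ≤ (q.1 : ℕ)
      · rw [if_pos (Finset.mem_Ico.2 ⟨hk, q.1.2⟩), if_pos hk, ← hτdef]
        field_simp
      · rw [if_neg (fun h => hk (Finset.mem_Ico.1 h).1), if_neg hk]
        ring
    · have : oo ≠ q.2 := fun h => hi (by rw [← h])
      simp [this, hi]
  have hw := card_win S (by omega)
  rw [← hτdef] at hw
  set dlt := fun j => yobs G S.P D (Gen.ext (update z q y1)) j (v, v) -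
    yobs G S.P D (Gen.ext z0) j (v, v) with hdlt
  have h1 : |(∑ j ∈ S.win, dlt j) -
      (τ * (x * eW S v q) + x * hlev S.k * ∑ j ∈ S.win, cv0 j)| ≤ τ * (K * x ^ 2) := by
    rw [← he, Finset.mul_sum, ← Finset.sum_add_distrib, ← Finset.sum_sub_distrib]
    refine (Finset.abs_sum_le_sum_abs _ _).trans ((Finset.sum_le_sum
      (g := fun _ => K * (hlev S.k : ℝ) * x ^ 2) fun j hj => ?_).trans_eq ?_)
    · have hj' := (Finset.mem_Ico.1 hj).2
      have := (hK q.1 q.2 (Gen.ext z0) x j oo (time_le hj') hq).1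
      simp only [hdlt, yobs, tot, dif_pos hvv, ez1]
      exact this
    · rw [Finset.sum_const, nsmul_eq_mul, ← hw]
      ring
  have h2 : |hlev S.k * ∑ j ∈ S.win, cv0 j - hlev S.k * ∑ j ∈ S.win, cv j| ≤
      τ * (K * |y0 - z q|) := by
    rw [← mul_sub, ← Finset.sum_sub_distrib, abs_mul, abs_of_nonneg (hlev S.k).coe_nonneg]
    refine (mul_le_mul_of_nonneg_left ((Finset.abs_sum_le_sum_abs _ _).trans (Finset.sum_le_sum
      (g := fun _ => K * |y0 - z q|) fun j hj => ?_)) (hlev S.k).coe_nonneg).trans_eq ?_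
    · have := (hK q.1 q.2 (Gen.ext z) (y0 - z q) j oo
        (time_le (Finset.mem_Ico.1 hj).2) hq).2
      simp only [cv0, cv, ez0]
      exact this
    · rw [Finset.sum_const, nsmul_eq_mul, ← hw]
      ring
  unfold Fo outY
  refine (cl_lipschitz _ _).trans ?_
  rw [← sub_div, ← Finset.sum_sub_distrib, abs_div, ← hτdef, abs_of_pos hτ, div_le_iff₀ hτ]
  change |∑ j ∈ S.win, dlt j| ≤ _
  have hmain : τ * (x * eW S v q) + x * hlev S.k * ∑ j ∈ S.win, cv j =
      τ * x * (eW S v q + gW G S D v q z) := by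
    rw [hg]; field_simp
  have e : ∑ j ∈ S.win, dlt j = ((∑ j ∈ S.win, dlt j) -
      (τ * (x * eW S v q) + x * hlev S.k * ∑ j ∈ S.win, cv0 j)) +
      (x * (hlev S.k * ∑ j ∈ S.win, cv0 j - hlev S.k * ∑ j ∈ S.win, cv j) +
        τ * x * (eW S v q + gW G S D v q z)) := by
    rw [← hmain]; ring
  rw [e]
  refine (abs_add_le _ _).trans ((add_le_add h1 ((abs_add_le _ _).trans
    (add_le_add_left (le_of_eq (abs_mul _ _)) _))).trans ?_)
  rw [abs_mul (τ * x), abs_mul τ x, abs_of_pos hτ]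
  have := mul_le_mul_of_nonneg_left h2 (abs_nonneg x)
  linarith

/-! ### Moments -/

lemma sq_expand_le {D0 a b K G0 u w w' zq s c : ℝ} (hs : 0 ≤ s) (hs1 : s ≤ 1)
    (hc : |c| ≤ 1) (ha : a = s * (w' - w)) (hb : b = c * u + s * w - zq)
    (h : |D0| ≤ |a| * (|G0| + K * |b|) + K * a ^ 2) :
    D0 ^ 2 ≤ 6 * s ^ 2 * G0 ^ 2 * (w ^ 2 + w' ^ 2) +
      78 * K ^ 2 * (u ^ 4 + w ^ 4 + w' ^ 4 + zq ^ 4) := by
  have hc2 : c ^ 2 ≤ 1 := (sq_le_one_iff_abs_le_one _).2 hc
  have hs2 : s ^ 2 ≤ 1 := pow_le_one₀ hs hs1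
  have e1 : D0 ^ 2 ≤ (|a| * |G0| + K * |a| * |b| + K * a ^ 2) ^ 2 := by
    rw [← sq_abs D0]
    exact pow_le_pow_left₀ (abs_nonneg _) (h.trans_eq (by ring)) 2
  have e2 : (|a| * |G0| + K * |a| * |b| + K * a ^ 2) ^ 2 ≤
      3 * (a ^ 2 * G0 ^ 2 + K ^ 2 * (a ^ 2 * b ^ 2) + K ^ 2 * (a ^ 2) ^ 2) := by
    have key : ∀ p r t : ℝ, (p + r + t) ^ 2 ≤ 3 * (p ^ 2 + r ^ 2 + t ^ 2) := fun p r t => by
      linarith [sq_nonneg (p - r), sq_nonneg (p - t), sq_nonneg (r - t)]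
    refine (key _ _ _).trans_eq ?_
    simp only [mul_pow, sq_abs]
    ring
  have ea : a ^ 2 ≤ 2 * s ^ 2 * (w ^ 2 + w' ^ 2) := by
    subst ha; nlinarith [mul_nonneg (sq_nonneg s) (sq_nonneg (w' + w))]
  have hw0 : 0 ≤ w ^ 2 + w' ^ 2 := by positivity
  have ea' : a ^ 2 ≤ 2 * (w ^ 2 + w' ^ 2) := ea.trans (by nlinarith)
  have eb : b ^ 2 ≤ 3 * (u ^ 2 + w ^ 2 + zq ^ 2) := by
    subst hb
    nlinarith [sq_nonneg (c * u - s * w), sq_nonneg (c * u + zq), sq_nonneg (s * w + zq),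
      mul_le_mul_of_nonneg_right hc2 (sq_nonneg u), mul_le_mul_of_nonneg_right hs2 (sq_nonneg w)]
  have ea4 : (a ^ 2) ^ 2 ≤ 8 * (w ^ 4 + w' ^ 4) := by
    refine (pow_le_pow_left₀ (sq_nonneg a) ea' 2).trans ?_
    nlinarith [sq_nonneg (w ^ 2 - w' ^ 2)]
  have eb4 : (b ^ 2) ^ 2 ≤ 27 * (u ^ 4 + w ^ 4 + zq ^ 4) := by
    refine (pow_le_pow_left₀ (sq_nonneg b) eb 2).trans ?_
    nlinarith [sq_nonneg (u ^ 2 - w ^ 2), sq_nonneg (u ^ 2 - zq ^ 2), sq_nonneg (w ^ 2 - zq ^ 2)]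
  have hab : a ^ 2 * b ^ 2 ≤ ((a ^ 2) ^ 2 + (b ^ 2) ^ 2) / 2 := by
    nlinarith [sq_nonneg (a ^ 2 - b ^ 2)]
  have hG : a ^ 2 * G0 ^ 2 ≤ 2 * s ^ 2 * (w ^ 2 + w' ^ 2) * G0 ^ 2 :=
    mul_le_mul_of_nonneg_right ea (sq_nonneg _)
  have hrest : a ^ 2 * b ^ 2 + (a ^ 2) ^ 2 ≤ 26 * (u ^ 4 + w ^ 4 + w' ^ 4 + zq ^ 4) := by
    have h1 : 0 ≤ u ^ 4 := by positivity
    have h2 : 0 ≤ w' ^ 4 := by positivity
    have h3 : 0 ≤ zq ^ 4 := by positivity
    have h4 : 0 ≤ w ^ 4 := by positivity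
    linarith
  have hK2 := mul_le_mul_of_nonneg_left hrest (sq_nonneg K)
  linarith

lemma gl_sq (h : ℝ≥0) :
    Integrable (fun x : ℝ => x ^ 2) (gl h) ∧ ∫ x, x ^ 2 ∂(gl h) = h := by
  have hm : MemLp (fun x : ℝ => x) 2 (gl h) := memLp_id_gaussianReal' 2 (by simp)
  refine ⟨hm.integrable_sq, ?_⟩
  have hv := variance_eq_sub hm
  simp only [Pi.pow_apply, integral_id_gaussianReal, zero_pow two_ne_zero, sub_zero] at hv
  rw [← hv]
  exact variance_id_gaussianReal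

lemma triple_le {h : ℝ≥0} (hh : h ≠ 0) {f : ℝ → ℝ → ℝ → ℝ} (hf : ∀ u w w', 0 ≤ f u w w')
    {A B c : ℝ} (hB : 0 ≤ B)
    (hle : ∀ u w w', f u w w' ≤ A * (w ^ 2 + w' ^ 2) + B * (u ^ 4 + w ^ 4 + w' ^ 4 + c)) :
    ∫ u, ∫ w, ∫ w', f u w w' ∂(gl h) ∂(gl h) ∂(gl h) ≤
      2 * h * A + B * (288 * (h : ℝ) ^ 2 + c) := by
  obtain ⟨i2, v2⟩ := gl_sq h
  have i4 := Gen.integrable_pow_four_gl h
  set M := ∫ x, x ^ 4 ∂(gl h) with hM
  have c1 : ∀ a : ℝ, Integrable (fun _ : ℝ => a) (gl h) := fun a => integrable_const a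
  have s1 : ∀ u w, ∫ w', f u w w' ∂(gl h) ≤ A * (w ^ 2 + h) + B * (u ^ 4 + w ^ 4 + M + c) := by
    intro u w
    have j1 : Integrable (fun w' : ℝ => A * (w ^ 2 + w' ^ 2)) (gl h) :=
      ((c1 _).add i2).const_mul A
    have j2 : Integrable (fun w' : ℝ => B * (u ^ 4 + w ^ 4 + w' ^ 4 + c)) (gl h) :=
      (((c1 _).add i4).add (c1 c)).const_mul B
    refine (integral_mono_of_nonneg (ae_of_all _ fun _ => hf _ _ _) (j1.add j2)
      (ae_of_all _ (hle u w))).trans_eq ?_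
    have q1 : Integrable (fun w' : ℝ => u ^ 4 + w ^ 4 + w' ^ 4) (gl h) := (c1 _).add i4
    simp only [Pi.add_apply]
    rw [integral_add j1 j2, integral_const_mul, integral_const_mul, integral_add (c1 _) i2,
      integral_add q1 (c1 c), integral_add (c1 _) i4, v2]
    simp [M]
  have s2 : ∀ u, ∫ w, ∫ w', f u w w' ∂(gl h) ∂(gl h) ≤ 2 * h * A + B * (u ^ 4 + 2 * M + c) := by
    intro u
    have j1 : Integrable (fun w : ℝ => A * (w ^ 2 + h)) (gl h) := (i2.add (c1 _)).const_mul A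
    have q1 : Integrable (fun w : ℝ => u ^ 4 + w ^ 4) (gl h) := (c1 _).add i4
    have q2 : Integrable (fun w : ℝ => u ^ 4 + w ^ 4 + M) (gl h) := q1.add (c1 _)
    have j2 : Integrable (fun w : ℝ => B * (u ^ 4 + w ^ 4 + M + c)) (gl h) :=
      (q2.add (c1 _)).const_mul B
    refine (integral_mono_of_nonneg (ae_of_all _ fun _ => integral_nonneg fun _ => hf _ _ _)
      (j1.add j2) (ae_of_all _ (s1 u))).trans_eq ?_
    simp only [Pi.add_apply]
    rw [integral_add j1 j2, integral_const_mul, integral_const_mul, integral_add i2 (c1 _),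
      integral_add q2 (c1 c), integral_add q1 (c1 M), integral_add (c1 _) i4, v2]
    simp [M]
    ring
  have q1 : Integrable (fun u : ℝ => u ^ 4 + 2 * M) (gl h) := i4.add (c1 _)
  have j2 : Integrable (fun u : ℝ => B * (u ^ 4 + 2 * M + c)) (gl h) :=
    (q1.add (c1 _)).const_mul B
  refine (integral_mono_of_nonneg (ae_of_all _ fun _ => integral_nonneg fun _ =>
    integral_nonneg fun _ => hf _ _ _) ((c1 _).add j2) (ae_of_all _ s2)).trans ?_
  simp only [Pi.add_apply]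
  rw [integral_add (c1 _) j2, integral_const_mul B, integral_add q1 (c1 c),
    integral_add i4 (c1 _)]
  simp only [integral_const, probReal_univ, smul_eq_mul, one_mul, ← hM]
  have hM4 : M ≤ 96 * (h : ℝ) ^ 2 := Gen.integral_pow_four_gl_le hh
  have := mul_le_mul_of_nonneg_left (by linarith : M + 2 * M + c ≤ 288 * (h : ℝ) ^ 2 + c) hB
  linarith

/-- The crude bound on the responses. -/
def respB (d : ℕ) (η T : ℝ) (D : Finset V) : ℝ := Real.exp (T * (kap d η * D.card))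

lemma abs_resp_le' (hG : G.IsTree) (hd : Regular G d) (hR : Reg d S.P) (hD : Closed G D)
    (hv : v ∈ D) (Y : ℕ → V × V → ℝ) (j₀ : ℕ) {j : ℕ} (hj : j ≤ S.N) (w : V) :
    |resp G S.P D Y j₀ j v w| ≤ respB d S.η S.T D := by
  refine (abs_resp_le hG hd hR hD Y j₀ j hv w).trans (growth_le ?_ S.k ?_)
  · have : 0 ≤ kap d S.η := by have := hR.eta; unfold kap; positivity
    positivity
  · rw [← mul_hlev S.k S.T]
    exact mul_le_mul_of_nonneg_right (by exact_mod_cast hj) (hlev S.k).coe_nonneg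

lemma measurable_gW (q : Fin S.N × obsIx G D) : Measurable (gW G S D v q) := by
  unfold gW
  refine measurable_const.mul (measurable_const.mul (Finset.measurable_sum _ fun j _ => ?_))
  exact (measurable_resp _ _ (measurable_yobs _ D fun j i => Gen.measurable_ext j i) _ _ _ _).add
    (measurable_resp _ _ (measurable_yobs _ D fun j i => Gen.measurable_ext j i) _ _ _ _)

lemma abs_gW_le (hG : G.IsTree) (hd : Regular G d) (hR : Reg d S.P) (hη2 : S.η ≤ 2)
    (hD : Closed G D) (hv : v ∈ D) (hT : 2 ≤ S.T) (q : Fin S.N × obsIx G D)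
    (z : Gen.Noi S.N (obsIx G D)) : |gW G S D v q z| ≤ 2 * respB d S.η S.T D := by
  have hτ : (0 : ℝ) < (S.T : ℝ) - 1 := by
    have : (2 : ℝ) ≤ S.T := by exact_mod_cast hT
    linarith
  unfold gW
  rw [abs_mul, abs_mul, abs_of_nonneg (show (0:ℝ) ≤ hlev S.k / ((S.T : ℝ) - 1) by positivity)]
  have hc : |coef S.η (2 ^ S.k) q.1 q.2.1| ≤ 1 :=
    abs_le_one_iff_mul_self_le_one.2 (by
      have := coef_sq_le hR.eta hη2 (2 ^ S.k) q.1 q.2.1
      rwa [← sq])
  calc _ ≤ hlev S.k / ((S.T : ℝ) - 1) * (1 * (S.win.card * (2 * respB d S.η S.T D))) := by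
        refine mul_le_mul_of_nonneg_left (mul_le_mul hc ((Finset.abs_sum_le_sum_abs _ _).trans
          ((Finset.sum_le_card_nsmul _ _ _ fun j hj => ?_).trans_eq (nsmul_eq_mul _ _)))
          (abs_nonneg _) zero_le_one) (by positivity)
        have hj' := (Finset.mem_Ico.1 hj).2.le
        exact (abs_add_le _ _).trans (by
          linarith [abs_resp_le' hG hd hR hD hv (yobs G S.P D (Gen.ext z)) q.1 hj' q.2.1.1,
            abs_resp_le' hG hd hR hD hv (yobs G S.P D (Gen.ext z)) q.1 hj' q.2.1.2])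
    _ = _ := by
        have hw := card_win S (by omega)
        field_simp
        linear_combination respB d S.η S.T D * hw

lemma update_bound [hdec : DecidableEq (Fin S.N × obsIx G D)] (hB : Bridge G S.P D) (hG : G.IsTree) (hd : Regular G d) (hR : Reg d S.P)
    (hη2 : S.η ≤ 2) (hD : Closed G D) (hv : v ∈ D) (hT : 2 ≤ S.T) {K : ℝ}
    (hK : FirstK G S D K) (q : Fin S.N × obsIx G D) {c s : ℝ} (hs : 0 ≤ s)
    (hcs : c ^ 2 + s ^ 2 = 1) :
    ∫ z : Fin S.N × obsIx G D → ℝ, ∫ u, ∫ w, ∫ w', (Fo G S D v (update z q (c * u + s * w')) -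
        Fo G S D v (update z q (c * u + s * w))) ^ 2
          ∂(gl (hlev S.k)) ∂(gl (hlev S.k)) ∂(gl (hlev S.k))
          ∂(Measure.pi fun _ : Fin S.N × obsIx G D => gl (hlev S.k)) ≤
      12 * hlev S.k * s ^ 2 * ∫ z, (eW S v q + gW G S D v q z) ^ 2
          ∂(Gen.nl (ι := obsIx G D) (hlev S.k) S.N) +
        29952 * K ^ 2 * (hlev S.k : ℝ) ^ 2 := by
  set h := hlev S.k with hh
  set ν := Gen.nl (ι := obsIx G D) h S.N with hν
  have hs1 : s ≤ 1 := abs_le.1 ((sq_le_one_iff_abs_le_one _).1 (by nlinarith [sq_nonneg c])) |>.2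
  have hc : |c| ≤ 1 := (sq_le_one_iff_abs_le_one _).1 (by nlinarith [sq_nonneg s])
  have : IsProbabilityMeasure ν := by rw [hν]; unfold Gen.nl; infer_instance
  have hK0 : 0 ≤ K := by
    have hvv : (v, v) ∈ obsIx G D := mem_obsIx.2 ⟨⟨hv, hv⟩, Or.inl rfl⟩
    have h := (hK 0 ⟨_, hvv⟩ (fun _ _ => 0) 1 0 ⟨_, hvv⟩ (by simp) (by simp)).2
    exact le_trans (abs_nonneg _) (h.trans_eq (by simp))
  have pt : ∀ z u w w', (Fo G S D v (update z q (c * u + s * w')) -
      Fo G S D v (update z q (c * u + s * w))) ^ 2 ≤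
      6 * s ^ 2 * (eW S v q + gW G S D v q z) ^ 2 * (w ^ 2 + w' ^ 2) +
        78 * K ^ 2 * (u ^ 4 + w ^ 4 + w' ^ 4 + z q ^ 4) := fun z u w w' =>
    sq_expand_le hs hs1 hc (a := c * u + s * w' - (c * u + s * w))
      (b := c * u + s * w - z q) (by ring) rfl
      (Fo_update_le hB hR.eta hv hT hK z q (c * u + s * w) (c * u + s * w'))
  have i4 : Integrable (fun z : Gen.Noi S.N (obsIx G D) => z q ^ 4) ν :=
    integrable_comp_eval (μ := fun _ : Fin S.N × obsIx G D => gl h)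
      (Gen.integrable_pow_four_gl h)
  have iG : Integrable (fun z => (eW S v q + gW G S D v q z) ^ 2) ν := by
    refine integrable_of_bdd ((measurable_const.add (measurable_gW q)).pow_const 2)
      (B := (|eW S v q| + 2 * respB d S.η S.T D) ^ 2) fun z => ?_
    rw [abs_pow]
    exact pow_le_pow_left₀ (abs_nonneg _) ((abs_add_le _ _).trans
      (add_le_add_right (abs_gW_le hG hd hR hη2 hD hv hT q z) _)) 2
  have j1 : Integrable (fun z => 2 * (h : ℝ) * (6 * s ^ 2 * (eW S v q + gW G S D v q z) ^ 2)) ν :=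
    (iG.const_mul _).const_mul _
  have j2 : Integrable (fun z : Gen.Noi S.N (obsIx G D) =>
      78 * K ^ 2 * (288 * (h : ℝ) ^ 2 + z q ^ 4)) ν :=
    ((integrable_const _).add i4).const_mul _
  refine (integral_mono_of_nonneg (ae_of_all _ fun z => integral_nonneg fun u =>
    integral_nonneg fun w => integral_nonneg fun w' => sq_nonneg _) (j1.add j2)
    (ae_of_all _ fun z => triple_le (hlev_ne_zero S.k)
      (fun u w w' => sq_nonneg _) (by positivity) (pt z))).trans ?_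
  simp only [Pi.add_apply]
  rw [integral_add j1 j2, integral_const_mul, integral_const_mul, integral_const_mul,
    integral_add (integrable_const _) i4]
  have e4 : ∫ z : Gen.Noi S.N (obsIx G D), z q ^ 4 ∂ν = ∫ x, x ^ 4 ∂(gl h) :=
    integral_comp_eval (μ := fun _ : Fin S.N × obsIx G D => gl h) (f := fun x : ℝ => x ^ 4)
      (Gen.integrable_pow_four_gl h).aestronglyMeasurable
  rw [e4, integral_const]
  simp only [probReal_univ, smul_eq_mul, one_mul]
  have hM : ∫ x, x ^ 4 ∂(gl h) ≤ 96 * (h : ℝ) ^ 2 := Gen.integral_pow_four_gl_le (hlev_ne_zero S.k)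
  have := mul_le_mul_of_nonneg_left hM (sq_nonneg K)
  linarith

/-! ### Summing over the coordinates -/

lemma sum_pairs_le (hd : Regular G d) (hd3 : 3 ≤ d) (D : Finset V) {φ : V → ℝ}
    (hφ : ∀ x, 0 ≤ φ x) :
    ∑ i ∈ obsIx G D, (φ i.1 + φ i.2) ≤ 2 * ((d : ℝ) + 1) * ∑ x ∈ D, φ x := by
  have hcard : ∀ x, (D.filter fun y => x = y ∨ G.Adj x y).card ≤ d + 1 := by
    intro x
    refine (Finset.card_le_card (t := insert x (hd.finite_nbr hd3 x).toFinset) ?_).trans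
      ((Finset.card_insert_le _ _).trans ?_)
    · intro y hy
      rcases (Finset.mem_filter.1 hy).2 with e | e
      · simp [e]
      · simp [e]
    · rw [← Set.ncard_eq_toFinset_card _ (hd.finite_nbr hd3 x), hd x]
  have h1 : ∑ i ∈ obsIx G D, φ i.1 ≤ ((d : ℝ) + 1) * ∑ x ∈ D, φ x := by
    rw [obsIx, Finset.sum_filter, Finset.sum_product, Finset.mul_sum]
    refine Finset.sum_le_sum fun x _ => ?_
    rw [← Finset.sum_filter]
    dsimp only
    rw [Finset.sum_const, nsmul_eq_mul]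
    exact mul_le_mul_of_nonneg_right (by exact_mod_cast hcard x) (hφ x)
  have h2 : ∑ i ∈ obsIx G D, φ i.2 ≤ ((d : ℝ) + 1) * ∑ x ∈ D, φ x := by
    rw [obsIx, Finset.sum_filter, Finset.sum_product_right, Finset.mul_sum]
    refine Finset.sum_le_sum fun x _ => ?_
    rw [← Finset.sum_filter]
    dsimp only
    rw [Finset.sum_const, nsmul_eq_mul]
    refine mul_le_mul_of_nonneg_right ?_ (hφ x)
    refine le_trans ?_ (show ((D.filter fun y => x = y ∨ G.Adj x y).card : ℝ) ≤ _ from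
      by exact_mod_cast hcard x)
    refine le_of_eq ?_
    congr 2
    exact Finset.filter_congr fun y _ => by
      constructor <;> rintro (e | e) <;> first | exact Or.inl e.symm | exact Or.inr e.symm
  rw [Finset.sum_add_distrib]
  linarith

/-- All responses of `v`. -/
def fullS (G : SimpleGraph V) (S : Sch) (D : Finset V) (v : V) (j₀ j : ℕ)
    (Y : ℕ → V × V → ℝ) : ℝ :=
  ∑ x ∈ D, resp G S.P D Y j₀ j v x ^ 2

/-- The responses of `v` to distant vertices. -/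
def farS (G : SimpleGraph V) (S : Sch) (D : Finset V) (v : V) (r j₀ j : ℕ)
    (Y : ℕ → V × V → ℝ) : ℝ :=
  ∑ x ∈ D.filter (fun x => r ≤ G.dist v x), resp G S.P D Y j₀ j v x ^ 2

lemma sum_rot_le (hd : Regular G d) (hd3 : 3 ≤ d) {α : ℝ} (hα : 0 ≤ α) (hα2 : α ^ 2 ≤ 1 / 2)
    {B : Finset (V × V)} {r : ℕ}
    (hB : ∀ i ∈ obsIx G D, i ∉ B → r ≤ G.dist v i.1 ∧ r ≤ G.dist v i.2)
    {φ : V → ℝ} (hφ : ∀ x, 0 ≤ φ x) :
    ∑ i ∈ obsIx G D, rsin α B i ^ 2 * (φ i.1 + φ i.2) ≤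
      2 * ((d : ℝ) + 1) *
        (α ^ 2 * ∑ x ∈ D, φ x + ∑ x ∈ D.filter (fun x => r ≤ G.dist v x), φ x) := by
  set ψ := fun x => if r ≤ G.dist v x then φ x else 0 with hψ
  have hψ0 : ∀ x, 0 ≤ ψ x := fun x => by simp only [hψ]; split_ifs <;> simp [hφ]
  calc _ ≤ ∑ i ∈ obsIx G D, (α ^ 2 * (φ i.1 + φ i.2) + (ψ i.1 + ψ i.2)) := by
        refine Finset.sum_le_sum fun i hi => ?_
        have hp : 0 ≤ φ i.1 + φ i.2 := add_nonneg (hφ _) (hφ _)
        by_cases hiB : i ∈ B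
        · rw [rsin, if_pos hiB]
          linarith [hψ0 i.1, hψ0 i.2]
        · obtain ⟨ha, hb⟩ := hB i hi hiB
          simp only [hψ, if_pos ha, if_pos hb]
          have := mul_le_mul_of_nonneg_right (rsin_sq_le B hα hα2 i).2 hp
          nlinarith [mul_nonneg (sq_nonneg α) hp]
    _ ≤ _ := by
        rw [Finset.sum_add_distrib, ← Finset.mul_sum, Finset.sum_filter, mul_add,
          mul_left_comm (2 * ((d : ℝ) + 1))]
        exact add_le_add (mul_le_mul_of_nonneg_left (sum_pairs_le hd hd3 D hφ) (sq_nonneg _))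
          (sum_pairs_le hd hd3 D hψ0)

lemma gW_sq_le (hR : Reg d S.P) (hη2 : S.η ≤ 2) (hT : 2 ≤ S.T) (q : Fin S.N × obsIx G D)
    (z : Gen.Noi S.N (obsIx G D)) :
    gW G S D v q z ^ 2 ≤ hlev S.k / ((S.T : ℝ) - 1) * (2 * ∑ j ∈ S.win,
      (resp G S.P D (yobs G S.P D (Gen.ext z)) q.1 j v q.2.1.1 ^ 2 +
        resp G S.P D (yobs G S.P D (Gen.ext z)) q.1 j v q.2.1.2 ^ 2)) := by
  have hτ : (0 : ℝ) < (S.T : ℝ) - 1 := by
    have : (2 : ℝ) ≤ S.T := by exact_mod_cast hT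
    linarith
  set Y := yobs G S.P D (Gen.ext z)
  set a := fun j => resp G S.P D Y q.1 j v q.2.1.1 + resp G S.P D Y q.1 j v q.2.1.2
  have h1 : (∑ j ∈ S.win, a j) ^ 2 ≤ (S.win.card : ℝ) * ∑ j ∈ S.win, a j ^ 2 :=
    sq_sum_le_card_mul_sum_sq
  have h2 : ∑ j ∈ S.win, a j ^ 2 ≤ 2 * ∑ j ∈ S.win,
      (resp G S.P D Y q.1 j v q.2.1.1 ^ 2 + resp G S.P D Y q.1 j v q.2.1.2 ^ 2) := by
    rw [Finset.mul_sum]
    exact Finset.sum_le_sum fun j _ => by
      simp only [a]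
      nlinarith [sq_nonneg (resp G S.P D Y q.1 j v q.2.1.1 - resp G S.P D Y q.1 j v q.2.1.2)]
  calc gW G S D v q z ^ 2
      = (hlev S.k / ((S.T : ℝ) - 1)) ^ 2 *
          (coef S.η (2 ^ S.k) q.1 q.2.1 ^ 2 * (∑ j ∈ S.win, a j) ^ 2) := by
        unfold gW; ring
    _ ≤ (hlev S.k / ((S.T : ℝ) - 1)) ^ 2 * (1 * ((S.win.card : ℝ) * ∑ j ∈ S.win, a j ^ 2)) :=
        mul_le_mul_of_nonneg_left (mul_le_mul (coef_sq_le hR.eta hη2 _ _ _) h1 (sq_nonneg _)
          zero_le_one) (sq_nonneg _)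
    _ = hlev S.k / ((S.T : ℝ) - 1) * ∑ j ∈ S.win, a j ^ 2 := by
        have hw := card_win S (by omega)
        field_simp
        linear_combination (hlev S.k : ℝ) * (∑ j ∈ S.win, a j ^ 2) * hw
    _ ≤ _ := mul_le_mul_of_nonneg_left h2 (by positivity)

lemma sum_eW_le (hT : 2 ≤ S.T) (hv : v ∈ D) {B : Finset (V × V)} (hvB : (v, v) ∈ B) :
    (hlev S.k : ℝ) * ∑ q : Fin S.N × obsIx G D, rsin S.α B q.2.1 ^ 2 * eW S v q ^ 2 ≤
      S.α ^ 2 := by
  set h := hlev S.k with hh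
  have hτ : (1 : ℝ) ≤ (S.T : ℝ) - 1 := by
    have : (2 : ℝ) ≤ S.T := by exact_mod_cast hT
    linarith
  set τ := (S.T : ℝ) - 1 with hτdef
  have hvv : (v, v) ∈ obsIx G D := mem_obsIx.2 ⟨⟨hv, hv⟩, Or.inl rfl⟩
  set s := fun q : Fin S.N × obsIx G D => rsin S.α B q.2.1
  have : ∑ q : Fin S.N × obsIx G D, rsin S.α B q.2.1 ^ 2 * eW S v q ^ 2 = S.win.card * (S.α ^ 2 * (1 / τ) ^ 2) := by
    rw [Fintype.sum_prod_type, show (S.win : Finset ℕ) =
      (range S.N).filter (fun j => 2 ^ S.k ≤ j) by ext j; simp [and_comm], Finset.card_filter,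
      Nat.cast_sum, Finset.sum_mul, Finset.sum_range]
    refine Finset.sum_congr rfl fun j _ => ?_
    rw [Finset.sum_eq_single (⟨(v, v), hvv⟩ : obsIx G D) (fun i _ hi => by
      rw [eW, if_neg fun hh => hi (Subtype.ext hh.1)]; ring) (by simp)]
    simp only [eW, rsin, if_pos hvB, true_and, hτdef]
    split_ifs <;> simp
  rw [this, ← mul_assoc, mul_comm (h : ℝ), hh, card_win S (by omega), ← hτdef,
    show τ * (S.α ^ 2 * (1 / τ) ^ 2) = S.α ^ 2 / τ by field_simp]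
  exact div_le_self (sq_nonneg _) hτ

lemma sum_gW_le (hG : G.IsTree) (hd : Regular G d) (hR : Reg d S.P) (hη2 : S.η ≤ 2)
    (hD : Closed G D) (hv : v ∈ D) (hT : 2 ≤ S.T) (hα : 0 ≤ S.α) (hα2 : S.α ^ 2 ≤ 1 / 2)
    {B : Finset (V × V)} {r : ℕ}
    (hfar : ∀ i ∈ obsIx G D, i ∉ B → r ≤ G.dist v i.1 ∧ r ≤ G.dist v i.2) :
    ∑ q : Fin S.N × obsIx G D, rsin S.α B q.2.1 ^ 2 *
        ∫ z, gW G S D v q z ^ 2 ∂(Gen.nl (ι := obsIx G D) (hlev S.k) S.N) ≤
      4 * ((d : ℝ) + 1) * ((hlev S.k : ℝ) / ((S.T : ℝ) - 1) * ∑ j₀ : Fin S.N, ∑ j ∈ S.win,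
        ∫ z, (S.α ^ 2 * fullS G S D v j₀ j (yobs G S.P D (Gen.ext z)) +
          farS G S D v r j₀ j (yobs G S.P D (Gen.ext z)))
          ∂(Gen.nl (ι := obsIx G D) (hlev S.k) S.N)) := by
  have hd3 := hR.deg
  set h := hlev S.k with hh
  set ν := Gen.nl (ι := obsIx G D) h S.N with hν
  have : IsProbabilityMeasure ν := by rw [hν]; unfold Gen.nl; infer_instance
  have hτ : (1 : ℝ) ≤ (S.T : ℝ) - 1 := by
    have : (2 : ℝ) ≤ S.T := by exact_mod_cast hT
    linarith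
  set τ := (S.T : ℝ) - 1 with hτdef
  have ig : ∀ q : Fin S.N × obsIx G D, Integrable (fun z => gW G S D v q z ^ 2) ν := fun q =>
    integrable_of_bdd ((measurable_gW q).pow_const 2) (B := (2 * respB d S.η S.T D) ^ 2) fun z => by
      rw [abs_pow]
      exact pow_le_pow_left₀ (abs_nonneg _) (abs_gW_le hG hd hR hη2 hD hv hT q z) 2
  have mS : ∀ (j₀ j : ℕ) (x : V), Measurable fun z : Gen.Noi S.N (obsIx G D) =>
      resp G S.P D (yobs G S.P D (Gen.ext z)) j₀ j v x ^ 2 := fun j₀ j x =>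
    (measurable_resp _ _ (measurable_yobs _ D fun j i => Gen.measurable_ext j i)
      _ _ _ _).pow_const 2
  have iS : ∀ (j₀ : ℕ), ∀ j ∈ S.win, Integrable (fun z => S.α ^ 2 * fullS G S D v j₀ j
      (yobs G S.P D (Gen.ext z)) + farS G S D v r j₀ j (yobs G S.P D (Gen.ext z))) ν := by
    intro j₀ j hj
    have hb : ∀ x (z : Gen.Noi S.N (obsIx G D)),
        |resp G S.P D (yobs G S.P D (Gen.ext z)) j₀ j v x ^ 2| ≤ respB d S.η S.T D ^ 2 :=
      fun x z => by
        rw [abs_pow]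
        exact pow_le_pow_left₀ (abs_nonneg _)
          (abs_resp_le' hG hd hR hD hv _ j₀ (Finset.mem_Ico.1 hj).2.le x) 2
    exact ((integrable_finsetSum _ fun x _ => integrable_of_bdd (mS j₀ j x) (hb x)).const_mul
      _).add (integrable_finsetSum _ fun x _ => integrable_of_bdd (mS j₀ j x) (hb x))
  have iT : ∀ j₀ : Fin S.N, Integrable (fun z => ∑ j ∈ S.win, (S.α ^ 2 * fullS G S D v j₀ j
      (yobs G S.P D (Gen.ext z)) + farS G S D v r j₀ j (yobs G S.P D (Gen.ext z)))) ν :=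
    fun j₀ => integrable_finsetSum _ (iS j₀)
  simp only [← integral_const_mul]
  rw [← integral_finsetSum _ fun q _ => (ig q).const_mul (rsin S.α B q.2.1 ^ 2)]
  rw [show ∑ j₀ : Fin S.N, ∑ j ∈ S.win, ∫ z, (S.α ^ 2 * fullS G S D v j₀ j
        (yobs G S.P D (Gen.ext z)) + farS G S D v r j₀ j (yobs G S.P D (Gen.ext z))) ∂ν =
      ∫ z, ∑ j₀ : Fin S.N, ∑ j ∈ S.win, (S.α ^ 2 * fullS G S D v j₀ j
        (yobs G S.P D (Gen.ext z)) + farS G S D v r j₀ j (yobs G S.P D (Gen.ext z))) ∂ν by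
    rw [integral_finsetSum _ fun j₀ _ => iT j₀]
    exact Finset.sum_congr rfl fun j₀ _ => (integral_finsetSum _ (iS j₀)).symm]
  simp only [← integral_const_mul]
  refine integral_mono (integrable_finsetSum _ fun q _ => (ig q).const_mul _)
    (((integrable_finsetSum _ fun j₀ _ => iT j₀).const_mul _).const_mul _) fun z => ?_
  set Y := yobs G S.P D (Gen.ext z)
  calc ∑ q, rsin S.α B q.2.1 ^ 2 * gW G S D v q z ^ 2
      ≤ ∑ q : Fin S.N × obsIx G D, rsin S.α B q.2.1 ^ 2 * ((h : ℝ) / τ * (2 * ∑ j ∈ S.win,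
        (resp G S.P D Y q.1 j v q.2.1.1 ^ 2 + resp G S.P D Y q.1 j v q.2.1.2 ^ 2))) :=
        Finset.sum_le_sum fun q _ =>
          mul_le_mul_of_nonneg_left (gW_sq_le hR hη2 hT q z) (sq_nonneg _)
    _ = (h : ℝ) / τ * ∑ j₀ : Fin S.N, ∑ j ∈ S.win, 2 * ∑ i ∈ obsIx G D, rsin S.α B i ^ 2 *
        (resp G S.P D Y j₀ j v i.1 ^ 2 + resp G S.P D Y j₀ j v i.2 ^ 2) := by
        simp only [Fintype.sum_prod_type, Finset.mul_sum]
        refine Finset.sum_congr rfl fun j₀ _ => ?_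
        rw [Finset.sum_comm (s := S.win), ← Finset.sum_coe_sort (obsIx G D)]
        exact Finset.sum_congr rfl fun i _ => Finset.sum_congr rfl fun j _ => by
          ring
    _ ≤ (h : ℝ) / τ * ∑ j₀ : Fin S.N, ∑ j ∈ S.win, 2 * (2 * ((d : ℝ) + 1) *
        (S.α ^ 2 * fullS G S D v j₀ j Y + farS G S D v r j₀ j Y)) := by
        refine mul_le_mul_of_nonneg_left (Finset.sum_le_sum fun j₀ _ =>
          Finset.sum_le_sum fun j _ => mul_le_mul_of_nonneg_left ?_ zero_le_two) (by positivity)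
        exact sum_rot_le hd hd3 hα hα2 hfar fun x => sq_nonneg _
    _ = _ := by
        simp only [Finset.mul_sum]
        exact Finset.sum_congr rfl fun _ _ => Finset.sum_congr rfl fun _ _ => by ring

/-- The output against its smoothing, through integrated responses. -/
theorem sq_bound (hB : Bridge G S.P D) (hG : G.IsTree) (hd : Regular G d) (hR : Reg d S.P)
    (hη2 : S.η ≤ 2) (hD : Closed G D) (hv : v ∈ D) (hT : 2 ≤ S.T) (hα : 0 ≤ S.α)
    (hα2 : S.α ^ 2 ≤ 1 / 2) {K : ℝ} (hK : FirstK G S D K) {B : Finset (V × V)} {r : ℕ}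
    (hvB : (v, v) ∈ B)
    (hfar : ∀ i ∈ obsIx G D, i ∉ B → r ≤ G.dist v i.1 ∧ r ≤ G.dist v i.2) :
    ∫ z, (Fo G S D v z - Hs G S D B v (tot G D (Gen.ext z))) ^ 2
        ∂(Gen.nl (ι := obsIx G D) (hlev S.k) S.N) ≤
      48 * S.α ^ 2 + 192 * ((d : ℝ) + 1) * ((hlev S.k : ℝ) / ((S.T : ℝ) - 1) * (hlev S.k *
        ∑ j₀ : Fin S.N, ∑ j ∈ S.win, ∫ z, (S.α ^ 2 * fullS G S D v j₀ j
            (yobs G S.P D (Gen.ext z)) + farS G S D v r j₀ j (yobs G S.P D (Gen.ext z)))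
          ∂(Gen.nl (ι := obsIx G D) (hlev S.k) S.N))) +
        59904 * K ^ 2 * (obsIx G D).card * S.T * hlev S.k := by
  have hd3 := hR.deg
  set h := hlev S.k with hh
  set ν := Gen.nl (ι := obsIx G D) h S.N with hν
  have : IsProbabilityMeasure ν := by rw [hν]; unfold Gen.nl; infer_instance
  have hτ : (1 : ℝ) ≤ (S.T : ℝ) - 1 := by
    have : (2 : ℝ) ≤ S.T := by exact_mod_cast hT
    linarith
  set τ := (S.T : ℝ) - 1 with hτdef
  have hvv : (v, v) ∈ obsIx G D := mem_obsIx.2 ⟨⟨hv, hv⟩, Or.inl rfl⟩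
  set s := fun q : Fin S.N × obsIx G D => rsin S.α B q.2.1
  set c := fun q : Fin S.N × obsIx G D => rcos S.α B q.2.1
  have hrot := (gaussStmt (Fin S.N × obsIx G D) h (Fo G S D v) 1 (hlev_ne_zero S.k)
    (measurable_Fo S D v) (abs_Fo_le S D v)).1 c s fun q => rot_sum B hα hα2 q.2.1
  have e0 : ∀ z : Gen.Noi S.N (obsIx G D), Hs G S D B v (tot G D (Gen.ext z)) =
      smooth h (Fo G S D v) (fun q => c q ^ 2 - s q ^ 2) (fun q => 2 * c q * s q) z := by
    intro z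
    unfold Hs
    congr 1
    funext q
    simp [tot, Gen.ext]
  simp only [e0]
  have hq := fun (q : Fin S.N × obsIx G D) =>
    update_bound (hdec := Classical.decEq _) hB hG hd hR hη2 hD hv hT hK q (c := c q) (s := s q)
      (rsin_sq_le B hα hα2 q.2.1).1 (rot_sum B hα hα2 q.2.1)
  refine hrot.trans ((mul_le_mul_of_nonneg_left (Finset.sum_le_sum fun q _ => hq q)
    zero_le_two).trans ?_)
  rw [Finset.sum_add_distrib, Finset.sum_const, Finset.card_univ, Fintype.card_prod,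
    Fintype.card_fin, Fintype.card_coe, nsmul_eq_mul]
  set g2 := fun q z => gW G S D v q z ^ 2
  have ig : ∀ q, Integrable (g2 q) ν := fun q =>
    integrable_of_bdd ((measurable_gW q).pow_const 2) (B := (2 * respB d S.η S.T D) ^ 2) fun z => by
      rw [abs_pow]
      exact pow_le_pow_left₀ (abs_nonneg _) (abs_gW_le hG hd hR hη2 hD hv hT q z) 2
  have hsplit : ∀ q, ∫ z, (eW S v q + gW G S D v q z) ^ 2 ∂ν ≤
      2 * eW S v q ^ 2 + 2 * ∫ z, g2 q z ∂ν := by
    intro q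
    refine (integral_mono_of_nonneg (ae_of_all _ fun _ => sq_nonneg _)
      ((integrable_const (2 * eW S v q ^ 2)).add ((ig q).const_mul 2))
      (ae_of_all _ fun z => by
        simp only [g2, Pi.add_apply]
        nlinarith [sq_nonneg (eW S v q - gW G S D v q z)])).trans_eq ?_
    simp only [Pi.add_apply]
    rw [integral_add (integrable_const _) ((ig q).const_mul 2), integral_const]
    simp [integral_const_mul]
  have hEsum := sum_eW_le (G := G) (D := D) (B := B) hT hv hvB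
  have hGsum := sum_gW_le (B := B) hG hd hR hη2 hD hv hT hα hα2 hfar
  have hsum := Finset.sum_le_sum fun q (_ : q ∈ (univ : Finset (Fin S.N × obsIx G D))) =>
    mul_le_mul_of_nonneg_left (hsplit q) (show (0 : ℝ) ≤ 12 * h * s q ^ 2 by positivity)
  have e1 : ∑ q, 12 * (h : ℝ) * s q ^ 2 * (2 * eW S v q ^ 2 + 2 * ∫ z, g2 q z ∂ν) =
      24 * ((h : ℝ) * ∑ q, s q ^ 2 * eW S v q ^ 2) +
        24 * ((h : ℝ) * ∑ q, s q ^ 2 * ∫ z, g2 q z ∂ν) := by
    simp only [Finset.mul_sum, ← Finset.sum_add_distrib]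
    exact Finset.sum_congr rfl fun q _ => by ring
  have hG' := mul_le_mul_of_nonneg_left hGsum (show (0 : ℝ) ≤ h by positivity)
  have hN : ((S.N * (obsIx G D).card : ℕ) : ℝ) * (29952 * K ^ 2 * (h : ℝ) ^ 2) =
      29952 * K ^ 2 * (obsIx G D).card * S.T * h := by
    rw [← mul_hlev S.k S.T, ← hh]
    push_cast
    ring
  rw [hN]
  rw [e1] at hsum
  linarith

end

end Vale.Agent.P161.Edge
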