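import Vale.Agent.P161.Edge.Parts
import Vale.Agent.P161.Edge.LocalBound
import Vale.Agent.P161.Edge.Decay

/-!
The output of a scheme is close to its smoothing, given the energy bound.

The squared distance is bounded by integrated responses (`sq_bound`). These are carried from fresh
noise to the planted model (`close_inn`), where the energy bound makes the early times integrable
and the decay bound removes the distant vertices at all later times.
-/

namespace Vale.Agent.P161.Edge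

open MeasureTheory Finset Filter
open scoped NNReal Classical Topology

noncomputable section

/-- One step of the comparison of `t ^ (-3/4)` with the increments of `4 t ^ (1/4)`. -/
lemma step_quarter {s h : ℝ} (hs : 0 ≤ s) (hh : 0 < h) :
    h * (s + h) ^ (-(3 : ℝ) / 4) ≤ 4 * ((s + h) ^ ((1 : ℝ) / 4) - s ^ ((1 : ℝ) / 4)) := by
  have ht : 0 < s + h := by linarith
  set a := (s + h) ^ ((1 : ℝ) / 4)
  set b := s ^ ((1 : ℝ) / 4)
  have ha : 0 < a := Real.rpow_pos_of_pos ht _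
  have hb : 0 ≤ b := Real.rpow_nonneg hs _
  have hba : b ≤ a := Real.rpow_le_rpow hs (by linarith) (by norm_num)
  have hpow : ∀ x : ℝ, 0 ≤ x → (x ^ ((1 : ℝ) / 4)) ^ 4 = x := fun x hx => by
    rw [← Real.rpow_natCast, ← Real.rpow_mul hx]; norm_num
  have e3 : (s + h) ^ (-(3 : ℝ) / 4) = (a ^ 3)⁻¹ := by
    rw [← Real.rpow_natCast, ← Real.rpow_mul ht.le, ← Real.rpow_neg ht.le]
    norm_num
  rw [e3, ← div_eq_mul_inv, div_le_iff₀ (pow_pos ha 3)]
  have e : h = a ^ 4 - b ^ 4 := by rw [hpow _ ht.le, hpow _ hs]; ring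
  rw [e]
  nlinarith [mul_le_mul_of_nonneg_left (pow_le_pow_left₀ hb hba 3) (sub_nonneg.2 hba),
    mul_nonneg (sub_nonneg.2 hba) (mul_nonneg ha.le (mul_nonneg hb (sub_nonneg.2 hba))),
    mul_nonneg (sub_nonneg.2 hba) (mul_nonneg ha.le (mul_nonneg ha.le (sub_nonneg.2 hba)))]

/-- The integral of `t ^ (-3/4)`, discretised. -/
lemma sum_quarter_le {h : ℝ} (hh : 0 < h) (M : ℕ) :
    ∑ j ∈ range M, h * (((j : ℝ) + 1) * h) ^ (-(3 : ℝ) / 4) ≤ 4 * ((M : ℝ) * h) ^ ((1 : ℝ) / 4) := by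
  induction M with
  | zero => simp
  | succ M ih =>
    rw [Finset.sum_range_succ]
    have := step_quarter (s := (M : ℝ) * h) (by positivity) hh
    rw [show (M : ℝ) * h + h = ((M : ℝ) + 1) * h by ring] at this
    push_cast
    linarith

variable {V : Type} {G : SimpleGraph V} {d : ℕ} {S : Sch} {D : Finset V} {v : V}

/-- An edge leaving the ball of radius `r` is at distance at least `r` from its centre. -/
lemma far_of_not_mem (hG : G.IsTree) (hd : Regular G d) (hd3 : 3 ≤ d) {r : ℕ} {i : V × V}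
    (hi : i ∈ obsIx G D) (hiB : i ∉ ballB hG hd hd3 v r) :
    r ≤ G.dist v i.1 ∧ r ≤ G.dist v i.2 := by
  obtain ⟨-, hadj⟩ := mem_obsIx.1 hi
  rcases hadj with e | e
  · rw [← e, and_self]
    by_contra hc
    refine hiB (mem_obsIx.2 ⟨⟨mem_ballF.2 (by omega), mem_ballF.2 ?_⟩, Or.inl e⟩)
    rw [← e]; omega
  · have h1 := hG.dist_eq_dist_add_one_of_adj v e
    by_contra hc
    refine hiB (mem_obsIx.2 ⟨⟨mem_ballF.2 ?_, mem_ballF.2 ?_⟩, Or.inr e⟩)
    all_goals omega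

/-- The weighted responses of `v`. -/
def wS (G : SimpleGraph V) (S : Sch) (D : Finset V) (v : V) (r j₀ j : ℕ)
    (Y : ℕ → V × V → ℝ) : ℝ :=
  S.α ^ 2 * fullS G S D v j₀ j Y + farS G S D v r j₀ j Y

lemma measY_fullS (j₀ j : ℕ) : MeasY fun _ Y => fullS G S D v j₀ j Y := fun _ _ _ _ hY =>
  Finset.measurable_sum _ fun _ _ => (measurable_resp _ _ hY _ _ _ _).pow_const 2

lemma measY_farS (r j₀ j : ℕ) : MeasY fun _ Y => farS G S D v r j₀ j Y := fun _ _ _ _ hY =>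
  Finset.measurable_sum _ fun _ _ => (measurable_resp _ _ hY _ _ _ _).pow_const 2

lemma measY_wS (r j₀ j : ℕ) : MeasY fun _ Y => wS G S D v r j₀ j Y := fun R _ _ _ hY =>
  ((measY_fullS j₀ j R _ _ hY).const_mul _).add (measY_farS r j₀ j R _ _ hY)

lemma farS_le_fullS (r j₀ j : ℕ) (Y : ℕ → V × V → ℝ) :
    farS G S D v r j₀ j Y ≤ fullS G S D v j₀ j Y :=
  Finset.sum_le_sum_of_subset_of_nonneg (Finset.filter_subset _ _) fun _ _ _ => sq_nonneg _

section bounds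

variable (hG : G.IsTree) (hd : Regular G d) (hR : Reg d S.P) (hD : Closed G D) (hv : v ∈ D)
include hG hd hR hD hv

lemma abs_fullS_le {j₀ j : ℕ} (hj : j ≤ S.N) (Y : ℕ → V × V → ℝ) :
    |fullS G S D v j₀ j Y| ≤ D.card * respB d S.η S.T D ^ 2 := by
  unfold fullS
  rw [abs_of_nonneg (Finset.sum_nonneg fun x _ => sq_nonneg _)]
  refine (Finset.sum_le_card_nsmul D _ _ fun x _ => ?_).trans_eq (nsmul_eq_mul _ _)
  rw [← sq_abs]
  exact pow_le_pow_left₀ (abs_nonneg _) (abs_resp_le' hG hd hR hD hv Y j₀ hj x) 2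

lemma abs_farS_le {r j₀ j : ℕ} (hj : j ≤ S.N) (Y : ℕ → V × V → ℝ) :
    |farS G S D v r j₀ j Y| ≤ D.card * respB d S.η S.T D ^ 2 := by
  have h0 : 0 ≤ farS G S D v r j₀ j Y := Finset.sum_nonneg fun x _ => sq_nonneg _
  rw [abs_of_nonneg h0]
  exact (farS_le_fullS r j₀ j Y).trans ((le_abs_self _).trans (abs_fullS_le hG hd hR hD hv hj Y))

lemma abs_wS_le (hα2 : S.α ^ 2 ≤ 1) {r j₀ j : ℕ} (hj : j ≤ S.N) (Y : ℕ → V × V → ℝ) :
    |wS G S D v r j₀ j Y| ≤ 2 * (D.card * respB d S.η S.T D ^ 2) := by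
  refine (abs_add_le _ _).trans ?_
  rw [abs_mul, abs_of_nonneg (sq_nonneg S.α), two_mul]
  exact add_le_add ((mul_le_of_le_one_left (abs_nonneg _) hα2).trans
    (abs_fullS_le hG hd hR hD hv hj Y)) (abs_farS_le hG hd hR hD hv hj Y)

/-- From fresh noise to the planted model. -/
lemma integral_wS_le (hα2 : S.α ^ 2 ≤ 1) {δc : ℝ}
    (hclose : ∀ (Bd : ℝ) (Ψ : Gen.Noi S.N (obsIx G D) → ℝ), Measurable Ψ → (∀ z, |Ψ z| ≤ Bd) →
      |E G S.P D S.N (fun _ Y => Ψ fun q => innY G S.P D Y q.1 q.2.1)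
          - ∫ z, Ψ z ∂(Gen.nl (ι := obsIx G D) (hlev S.k) S.N)| ≤ Bd * δc)
    {r j₀ j : ℕ} (hj : j ≤ S.N) :
    ∫ z, wS G S D v r j₀ j (yobs G S.P D (Gen.ext z))
        ∂(Gen.nl (ι := obsIx G D) (hlev S.k) S.N) ≤
      E G S.P D j (fun _ Y => wS G S D v r j₀ j Y) +
        2 * (D.card * respB d S.η S.T D ^ 2) * δc := by
  set Bd := 2 * ((D.card : ℝ) * respB d S.η S.T D ^ 2)
  have hb : ∀ Y, |wS G S D v r j₀ j Y| ≤ Bd := abs_wS_le hG hd hR hD hv hα2 hj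
  have hdep : ∀ Y Y' : ℕ → V × V → ℝ, (∀ m < j, ∀ i ∈ obsIx G D, Y m i = Y' m i) →
      wS G S D v r j₀ j Y = wS G S D v r j₀ j Y' := fun Y Y' h => by
    simp only [wS, fullS, farS, resp_congr S.P j₀ h]
  have h1 := hclose Bd (fun z => wS G S D v r j₀ j (yobs G S.P D (Gen.ext z)))
    (measY_wS (G := G) (S := S) (D := D) (v := v) r j₀ j ∅ _ _
      (measurable_yobs _ D fun j i => Gen.measurable_ext j i)) fun z => hb _
  have h2 : E G S.P D S.N (fun _ Y => wS G S D v r j₀ j (yobs G S.P D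
      (Gen.ext fun q : Fin S.N × obsIx G D => innY G S.P D Y q.1 q.2.1))) =
      E G S.P D S.N (fun _ Y => wS G S D v r j₀ j Y) :=
    E_congr fun R _ Y => hdep _ _ fun m hm i hi =>
      yobs_inn S.P hR.nonneg hR.lt_one hR.eta Y (lt_of_lt_of_le hm hj) hi
  have h3 : E G S.P D S.N (fun _ Y => wS G S D v r j₀ j Y) =
      E G S.P D j (fun _ Y => wS G S D v r j₀ j Y) :=
    E_time hG S.P hR.nonneg hR.lt_one hD ⟨v, hv⟩ hj (measY_wS r j₀ j) (fun _ Y => hb Y)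
      fun _ _ Y Y' _ h => hdep Y Y' fun m hm i hi => h m hm i hi (Finset.notMem_empty i)
  rw [h2, h3] at h1
  linarith [(abs_le.1 h1).1]

/-- The planted responses at one pair of times. -/
lemma E_wS_le (hα2 : S.α ^ 2 ≤ 1) {r j₀ j : ℕ} (hj : j ≤ S.N) {A DK δ : ℝ} (_hA : 0 ≤ A) (hDK : 0 ≤ DK)
    (hfull : E G S.P D j (fun _ Y => fullS G S D v j₀ j Y) ≤ A)
    (hfar : δ ≤ ((j₀ : ℝ) + 1) * hlev S.k → ∀ Y, farS G S D v r j₀ j Y ≤ DK) :
    E G S.P D j (fun _ Y => wS G S D v r j₀ j Y) ≤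
      S.α ^ 2 * A + (if ((j₀ : ℝ) + 1) * hlev S.k < δ then A else 0) + DK := by
  set Bd := (D.card : ℝ) * respB d S.η S.T D ^ 2
  have bf : ∀ (_ : Finset V) Y, |fullS G S D v j₀ j Y| ≤ Bd := fun _ Y =>
    abs_fullS_le hG hd hR hD hv hj Y
  have mα : MeasY fun _ Y => S.α ^ 2 * fullS G S D v j₀ j Y := fun R _ _ _ hY =>
    (measY_fullS j₀ j R _ _ hY).const_mul _
  have bα : ∀ (_ : Finset V) Y, |S.α ^ 2 * fullS G S D v j₀ j Y| ≤ Bd := fun R Y => by
    rw [abs_mul, abs_of_nonneg (sq_nonneg S.α)]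
    exact (mul_le_of_le_one_left (abs_nonneg _) hα2).trans (bf R Y)
  have hb : ∀ (_ : Finset V) Y, |wS G S D v r j₀ j Y| ≤ 2 * Bd := fun _ Y =>
    abs_wS_le hG hd hR hD hv hα2 hj Y
  by_cases hnear : ((j₀ : ℝ) + 1) * hlev S.k < δ
  · rw [if_pos hnear]
    refine (E_mono (Ψ := fun _ Y => S.α ^ 2 * fullS G S D v j₀ j Y + fullS G S D v j₀ j Y)
      (measY_wS r j₀ j) (fun R _ _ _ hY => (mα R _ _ hY).add (measY_fullS j₀ j R _ _ hY)) hb
      (fun R Y => (abs_add_le _ _).trans (add_le_add (bα R Y) (bf R Y)))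
      fun R _ Y => add_le_add le_rfl (farS_le_fullS r j₀ j Y)).trans ?_
    rw [E_add mα (measY_fullS j₀ j) bα bf, E_const_mul]
    nlinarith [mul_le_mul_of_nonneg_left hfull (sq_nonneg S.α)]
  · rw [if_neg hnear, add_zero]
    have mc : MeasY (V := V) fun _ _ => DK := fun _ _ _ _ _ => measurable_const
    refine (E_mono (Ψ := fun _ Y => S.α ^ 2 * fullS G S D v j₀ j Y + DK)
      (measY_wS r j₀ j) (fun R _ _ _ hY => (mα R _ _ hY).add measurable_const) hb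
      (fun R Y => (abs_add_le _ _).trans (add_le_add (bα R Y) (le_rfl (a := |DK|))))
      fun R _ Y => add_le_add le_rfl (hfar (not_lt.1 hnear) Y)).trans ?_
    rw [E_add mα mc bα (B' := |DK|) (fun _ _ => le_rfl), E_const_mul, E_const]
    nlinarith [mul_le_mul_of_nonneg_left hfull (sq_nonneg S.α)]

end bounds

/-- The squared distance of the output to its smoothing at one level. -/
lemma sq_local_le (hG : G.IsTree) (hd : Regular G d) (hd3 : 3 ≤ d) (hR : Reg d S.P)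
    (hη2 : S.η ≤ 2) (hD : Closed G D) (hv : v ∈ D) (hT : 2 ≤ S.T) (hα : 0 ≤ S.α)
    (hα2 : S.α ^ 2 ≤ 1 / 2) {K : ℝ} (hK : FirstK G S D K) {r : ℕ} {K' e₀ δ δc : ℝ}
    (hK' : 0 ≤ K') (he₀ : 0 ≤ e₀) (hδ : 0 < δ) (hδc : 0 ≤ δc)
    (hclose : ∀ (Bd : ℝ) (Ψ : Gen.Noi S.N (obsIx G D) → ℝ), Measurable Ψ → (∀ z, |Ψ z| ≤ Bd) →
      |E G S.P D S.N (fun _ Y => Ψ fun q => innY G S.P D Y q.1 q.2.1)
          - ∫ z, Ψ z ∂(Gen.nl (ι := obsIx G D) (hlev S.k) S.N)| ≤ Bd * δc)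
    (hfull : ∀ j₀ j : ℕ, j₀ < j → j ≤ S.N → E G S.P D j (fun _ Y => fullS G S D v j₀ j Y) ≤
      K' * (((j₀ : ℝ) + 1) * hlev S.k) ^ (-(3 : ℝ) / 4))
    (hfar : ∀ j₀ j : ℕ, j₀ < j → j ≤ S.N → δ ≤ ((j₀ : ℝ) + 1) * hlev S.k →
      ∀ Y, farS G S D v r j₀ j Y ≤ e₀) :
    ∫ z, (Fo G S D v z - Hs G S D (ballB hG hd hd3 v r) v (tot G D (Gen.ext z))) ^ 2
        ∂(Gen.nl (ι := obsIx G D) (hlev S.k) S.N) ≤
      48 * S.α ^ 2 + 192 * ((d : ℝ) + 1) * (S.α ^ 2 * K' * (4 * S.T) +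
          K' * (4 * δ ^ ((1 : ℝ) / 4)) + S.T * e₀ +
          S.T * (2 * (D.card * respB d S.η S.T D ^ 2) * δc)) +
        59904 * K ^ 2 * (obsIx G D).card * S.T * hlev S.k := by
  have hTr : (2 : ℝ) ≤ S.T := by exact_mod_cast hT
  have hα1 : S.α ^ 2 ≤ 1 := hα2.trans (by norm_num)
  have hh : (0 : ℝ) < hlev S.k := hlev_pos S.k
  set h : ℝ := (hlev S.k : ℝ) with hhdef
  set w : ℕ → ℝ := fun j₀ => (((j₀ : ℝ) + 1) * h) ^ (-(3 : ℝ) / 4) with hw
  have hw0 : ∀ j₀, 0 ≤ w j₀ := fun j₀ => Real.rpow_nonneg (by positivity) _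
  set Bd := 2 * ((D.card : ℝ) * respB d S.η S.T D ^ 2) with hBd
  have hBd0 : 0 ≤ Bd := by positivity
  set b : ℕ → ℝ := fun j₀ => S.α ^ 2 * (K' * w j₀) +
    (if ((j₀ : ℝ) + 1) * h < δ then K' * w j₀ else 0) + e₀ + Bd * δc with hb
  -- one pair of times
  have hterm : ∀ j₀ : Fin S.N, ∀ j ∈ S.win,
      ∫ z, wS G S D v r j₀ j (yobs G S.P D (Gen.ext z))
        ∂(Gen.nl (ι := obsIx G D) (hlev S.k) S.N) ≤ b j₀ := by
    intro j₀ j hj
    have hjN : j ≤ S.N := (Finset.mem_Ico.1 hj).2.le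
    rcases Nat.lt_or_ge (j₀ : ℕ) j with hlt | hge
    · exact (integral_wS_le hG hd hR hD hv hα1 hclose hjN).trans
        (add_le_add (E_wS_le hG hd hR hD hv hα1 hjN (mul_nonneg hK' (hw0 j₀)) he₀
          (hfull j₀ j hlt hjN) (hfar j₀ j hlt hjN)) le_rfl)
    · have : ∀ z : Gen.Noi S.N (obsIx G D),
          wS G S D v r j₀ j (yobs G S.P D (Gen.ext z)) = 0 := fun z => by
        simp [wS, fullS, farS, resp_eq_zero S.P _ hge]
      simp only [this, integral_zero, hb]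
      have := hw0 (j₀ : ℕ)
      split_ifs <;> positivity
  have hτ : (0 : ℝ) < (S.T : ℝ) - 1 := by linarith
  have hcard : (S.win.card : ℝ) * h = (S.T : ℝ) - 1 := card_win S (by omega)
  have hX : h / ((S.T : ℝ) - 1) * (h * ∑ j₀ : Fin S.N, ∑ j ∈ S.win,
      ∫ z, wS G S D v r j₀ j (yobs G S.P D (Gen.ext z))
        ∂(Gen.nl (ι := obsIx G D) (hlev S.k) S.N)) ≤ ∑ j₀ ∈ range S.N, h * b j₀ := by
    refine (mul_le_mul_of_nonneg_left (mul_le_mul_of_nonneg_left (Finset.sum_le_sum fun j₀ _ =>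
      (Finset.sum_le_card_nsmul _ _ _ (hterm j₀)).trans_eq (nsmul_eq_mul _ _)) hh.le)
      (by positivity)).trans_eq ?_
    rw [Finset.sum_range, ← Finset.mul_sum, ← Finset.mul_sum]
    field_simp
    linear_combination (∑ j₀ : Fin S.N, b j₀) * hcard
  have hNh : (S.N : ℝ) * h = S.T := mul_hlev S.k S.T
  have hq1 : ∑ j₀ ∈ range S.N, h * w j₀ ≤ 4 * S.T := by
    refine (sum_quarter_le hh S.N).trans (mul_le_mul_of_nonneg_left ?_ (by norm_num))
    rw [hNh]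
    exact (Real.rpow_le_rpow_of_exponent_le (by linarith) (by norm_num)).trans_eq
      (Real.rpow_one _)
  have hq2 : ∑ j₀ ∈ range S.N, (if ((j₀ : ℝ) + 1) * h < δ then h * w j₀ else 0) ≤
      4 * δ ^ ((1 : ℝ) / 4) := by
    rw [← Finset.sum_filter]
    set M := ⌊δ / h⌋₊
    have hMh : (M : ℝ) * h ≤ δ := by
      rw [← le_div_iff₀ hh]
      exact Nat.floor_le (by positivity)
    refine (Finset.sum_le_sum_of_subset_of_nonneg (t := range M) (fun j hj => ?_)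
      fun j _ _ => mul_nonneg hh.le (hw0 j)).trans ((sum_quarter_le hh M).trans
        (mul_le_mul_of_nonneg_left
          (Real.rpow_le_rpow (by positivity) hMh (by norm_num)) (by norm_num)))
    rw [Finset.mem_filter] at hj
    have : ((j + 1 : ℕ) : ℝ) ≤ δ / h := by
      rw [le_div_iff₀ hh]; push_cast; linarith [hj.2]
    have := Nat.le_floor this
    exact Finset.mem_range.2 (by omega)
  have hsum : ∑ j₀ ∈ range S.N, h * b j₀ ≤ S.α ^ 2 * K' * (4 * S.T) +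
      K' * (4 * δ ^ ((1 : ℝ) / 4)) + S.T * e₀ + S.T * (Bd * δc) := by
    have e : ∀ j₀ : ℕ, h * b j₀ = S.α ^ 2 * K' * (h * w j₀) +
        K' * (if ((j₀ : ℝ) + 1) * h < δ then h * w j₀ else 0) + h * e₀ + h * (Bd * δc) := by
      intro j₀
      simp only [hb]
      split_ifs <;> ring
    rw [Finset.sum_congr rfl fun j₀ _ => e j₀, Finset.sum_add_distrib, Finset.sum_add_distrib,
      Finset.sum_add_distrib, Finset.sum_const, Finset.sum_const, Finset.card_range,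
      nsmul_eq_mul, nsmul_eq_mul, ← mul_assoc (S.N : ℝ) h, ← mul_assoc (S.N : ℝ) h, hNh,
      ← Finset.mul_sum (a := S.α ^ 2 * K'), ← Finset.mul_sum (a := K')]
    linarith [mul_le_mul_of_nonneg_left hq1 (mul_nonneg (sq_nonneg S.α) hK'),
      mul_le_mul_of_nonneg_left hq2 hK']
  refine (sq_bound (bridge S.P hR.nonneg hR.lt_one hR.eta D) hG hd hR hη2 hD hv hT hα hα2 hK
    (r := r) (self_mem_ballB hG hd hd3 v r)
    fun i hi hiB => far_of_not_mem hG hd hd3 hi hiB).trans ?_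
  exact add_le_add (add_le_add le_rfl
    (mul_le_mul_of_nonneg_left (hX.trans hsum) (by positivity))) le_rfl

/-- From second to first moments. -/
lemma l1_le_of_sq {β : Type} [MeasurableSpace β] {ν : Measure β} [IsProbabilityMeasure ν]
    {F : β → ℝ} (hF : Measurable F) {B : ℝ} (hb : ∀ z, |F z| ≤ B) {ε : ℝ} (hε : 0 < ε)
    (h2 : ∫ z, F z ^ 2 ∂ν ≤ ε ^ 2) : ∫ z, |F z| ∂ν ≤ ε := by
  have iF : Integrable (fun z => |F z|) ν :=
    integrable_of_bdd hF.abs (B := B) fun z => by rw [abs_abs]; exact hb z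
  have iF2 : Integrable (fun z => F z ^ 2 / (2 * ε)) ν :=
    (integrable_of_bdd (hF.pow_const 2) (B := B ^ 2) fun z => by
      rw [abs_pow]
      exact pow_le_pow_left₀ (abs_nonneg _) (hb z) 2).div_const _
  calc ∫ z, |F z| ∂ν ≤ ∫ z, (F z ^ 2 / (2 * ε) + ε / 2) ∂ν :=
        integral_mono iF (iF2.add (integrable_const _)) fun z => by
          have := sq_nonneg (|F z| - ε)
          rw [sub_sq, sq_abs] at this
          simp only
          rw [show F z ^ 2 / (2 * ε) + ε / 2 = (F z ^ 2 + ε ^ 2) / (2 * ε) by field_simp,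
            le_div_iff₀ (by positivity)]
          linarith
    _ = (∫ z, F z ^ 2 ∂ν) / (2 * ε) + ε / 2 := by
        rw [integral_add iF2 (integrable_const _), integral_div, integral_const]
        simp
    _ ≤ ε ^ 2 / (2 * ε) + ε / 2 :=
        add_le_add (div_le_div_of_nonneg_right h2 (by positivity)) le_rfl
    _ = ε := by field_simp; ring

/-- The rotation and radius can be chosen so that smoothing costs little, uniformly below the
critical coupling. -/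
theorem local_small (hE : EnergyStmt) : ∀ d : ℕ, 3 ≤ d → ∃ η₀ : ℝ, 0 < η₀ ∧ η₀ ≤ 1 / (4 * d) ∧
    ∀ η : ℝ, 0 < η → η ≤ η₀ → ∀ T : ℕ, 2 ≤ T → ∀ ε : ℝ, 0 < ε →
    ∃ (α : ℝ) (r : ℕ), 0 < α ∧ α ^ 2 ≤ 1 / 2 ∧
    ∀ (V : Type) (G : SimpleGraph V) (hG : G.IsTree) (hd : Regular G d) (hd3 : 3 ≤ d) (o : V)
      (θ : ℝ), (Real.sqrt ((d : ℝ) - 1))⁻¹ / 2 ≤ θ → θ < (Real.sqrt ((d : ℝ) - 1))⁻¹ →
    ∃ R₀ : ℕ, ∀ R ≥ R₀, ∃ k₀ : ℕ, ∀ k ≥ k₀,
      locErr hG hd hd3 ⟨θ, η, α, k, T⟩ R r o ≤ ε := by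
  intro d hd3
  obtain ⟨ηE, hηE, hE'⟩ := hE d hd3
  refine ⟨min ηE (1 / (4 * d)), lt_min hηE (by positivity), min_le_right _ _, ?_⟩
  intro η hη hη0 T hT ε hε
  obtain ⟨KE, hKE⟩ := hE' η hη (hη0.trans (min_le_left _ _)) T
  have hη4 : η ≤ 1 / (4 * d) := hη0.trans (min_le_right _ _)
  have hη2 : η ≤ 2 := hη4.trans (le_trans ((div_le_one (by positivity)).2 (by
    have : (3 : ℝ) ≤ d := by exact_mod_cast hd3
    linarith)) one_le_two)
  have hTr : (2 : ℝ) ≤ T := by exact_mod_cast hT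
  set K' := max (KE + 1) 0 with hK'
  have hK'0 : 0 ≤ K' := le_max_right _ _
  set u := ε ^ 2 / 5 with hu
  have hu0 : 0 < u := by positivity
  set c₁ := 192 * ((d : ℝ) + 1) with hc₁
  have hc₁0 : 0 < c₁ := by positivity
  -- the rotation
  set A := 48 + c₁ * K' * 4 * T with hA
  have hA0 : 0 < A := by positivity
  set α := Real.sqrt (min (1 / 2) (u / A)) with hαdef
  have hm0 : 0 < min (1 / 2 : ℝ) (u / A) := lt_min (by norm_num) (by positivity)
  have hα0 : 0 < α := Real.sqrt_pos.2 hm0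
  have hαsq : α ^ 2 = min (1 / 2 : ℝ) (u / A) := Real.sq_sqrt hm0.le
  have hα2 : α ^ 2 ≤ 1 / 2 := hαsq.trans_le (min_le_left _ _)
  have hαA : A * α ^ 2 ≤ u := by
    have := mul_le_mul_of_nonneg_left (hαsq.trans_le (min_le_right _ _)) hA0.le
    rwa [mul_div_cancel₀ _ hA0.ne'] at this
  -- the time below which decay is not used
  set p := u / (c₁ * K' * 4 + 1) with hp
  have hp0 : 0 < p := by positivity
  set δ := p ^ 4 with hδ
  have hδ0 : 0 < δ := by positivity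
  have hδp : δ ^ ((1 : ℝ) / 4) = p := by
    rw [hδ, ← Real.rpow_natCast, ← Real.rpow_mul hp0.le]; norm_num
  have hpu : c₁ * K' * 4 * p ≤ u := by
    rw [hp, ← mul_div_assoc, div_le_iff₀ (by positivity)]
    nlinarith
  -- the radius
  set DK := decayK d η δ T with hDKdef
  set cc := 2 * Real.log (1 + decayγ η δ) with hcc
  have hcc0 : 0 < cc :=
    mul_pos two_pos (Real.log_pos (lt_add_of_pos_right 1 (by unfold decayγ; positivity)))
  have hDK0 : 0 ≤ DK := by rw [hDKdef, decayK]; positivity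
  have hlim : Tendsto (fun r : ℕ => c₁ * T * DK * Real.exp (-cc * r)) atTop (𝓝 0) := by
    have h1 : Tendsto (fun r : ℕ => -cc * (r : ℝ)) atTop atBot :=
      tendsto_natCast_atTop_atTop.const_mul_atTop_of_neg (neg_lt_zero.2 hcc0)
    simpa using (Real.tendsto_exp_atBot.comp h1).const_mul (c₁ * T * DK)
  obtain ⟨r, hr⟩ := (hlim.eventually (eventually_le_nhds hu0)).exists
  refine ⟨α, r, hα0, hα2, ?_⟩
  intro V G hG hd _ o θ hθ0 hθ1
  obtain ⟨R₀, hR₀⟩ := hKE V G hG hd hd3 o θ hθ0 hθ1 1 one_pos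
  refine ⟨R₀, fun R hR => ?_⟩
  obtain ⟨kE, hkE⟩ := hR₀ R hR
  set D := ballF hG hd hd3 o R with hDdef
  set C := (obsIx G D).card
  obtain ⟨K, hK⟩ := exists_firstK C T
  set Bd := 2 * ((D.card : ℝ) * respB d η T D ^ 2) with hBd
  have hBd0 : 0 ≤ Bd := by positivity
  set δc := u / (c₁ * T * Bd + 1) with hδc
  have hδc0 : 0 < δc := by positivity
  have hδcu : c₁ * T * Bd * δc ≤ u := by
    rw [hδc, ← mul_div_assoc, div_le_iff₀ (by positivity)]
    nlinarith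
  obtain ⟨kc, hkc⟩ := close_inn C T hδc0
  obtain ⟨ks, hks⟩ := exists_small (59904 * K ^ 2 * C * T) hu0
  refine ⟨max kE (max kc ks), fun k hk => ?_⟩
  simp only [ge_iff_le, max_le_iff] at hk
  have hReg : Reg d (⟨θ, η, α, k, T⟩ : Sch).P := reg_of hd3 hη.le hη4 hθ0 hθ1.le k
  have hDc : Closed G D := closed_ballF o R
  have ho : o ∈ D := self_mem_ballF o R
  have h2 := sq_local_le (S := ⟨θ, η, α, k, T⟩) (D := D) (v := o) hG hd hd3 hReg hη2 hDc ho hT
    hα0.le hα2 (hK V G _ D hη.le hη2 rfl le_rfl) (r := r) (K' := K') (e₀ := DK * Real.exp (-cc * r))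
    (δ := δ) (δc := δc) hK'0 (by positivity) hδ0 hδc0.le
    (fun B Ψ hm hB => hkc k hk.2.1 V G θ η D hReg.nonneg hReg.lt_one hη.le hη2 le_rfl (T * 2 ^ k)
      (by rw [mul_hlev]) B Ψ hm hB)
    (fun j₀ j hlt hjN => (hkE k hk.1 j₀ j hlt hjN).trans
      (mul_le_mul_of_nonneg_right (le_max_left _ _) (Real.rpow_nonneg (by positivity) _)))
    (fun j₀ j hlt hjN hs Y =>
      resp_decay hG hd hd3 hη hη4 hδ0 T o θ hθ0 hθ1.le D k r j₀ j Y hDc ho hs hlt hjN)
  have hks' : 59904 * K ^ 2 * C * T * hlev k ≤ u := hks k hk.2.2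
  have hfin : 48 * α ^ 2 + c₁ * (α ^ 2 * K' * (4 * T) + K' * (4 * δ ^ ((1 : ℝ) / 4)) +
      T * (DK * Real.exp (-cc * r)) + T * (Bd * δc)) + 59904 * K ^ 2 * C * T * hlev k
      ≤ ε ^ 2 := by
    rw [hδp]
    rw [hA] at hαA
    linarith
  have : IsProbabilityMeasure (Gen.nl (ι := obsIx G D) (hlev k) (T * 2 ^ k)) := by
    unfold Gen.nl; infer_instance
  exact l1_le_of_sq ((measurable_Fo _ D o).sub
    (measurable_Hs _ D _ o (measurable_tot_ext D))) (B := 1 + 1)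
    (fun z => (abs_sub _ _).trans (add_le_add (abs_Fo_le _ D o z) (abs_Hs_le _ D _ o _))) hε
    (h2.trans hfin)

end

end Vale.Agent.P161.Edge
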