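import Vale.Agent.P143.EdgeNoise
import Vale.Agent.P161.Scale
import Vale.Agent.P161.Edge.Statements

/-!
Noise for the observations, read off one uniform label per vertex: every vertex label is split
into an order label and a sequence of seeds; the observation `(v, v)` takes the first seed of `v`,
the observation `(v, w)` of neighbours takes the seed of `v` numbered by the rank of `w` among the
neighbours of `v`.
-/

namespace Vale.Agent.P161.Edge

open MeasureTheory ProbabilityTheory Finset Function
open scoped NNReal Classical unitInterval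

noncomputable section

variable {V : Type} (G : SimpleGraph V)

lemma countable_of_tree {d : ℕ} (hG : G.IsTree) (hd : Regular G d) (hd3 : 3 ≤ d) : Countable V := by
  obtain ⟨o⟩ := hG.connected.nonempty
  refine Set.countable_univ_iff.1 ?_
  refine Set.Countable.mono (s₂ := ⋃ n : ℕ, (ballF hG hd hd3 o n : Set V)) (fun v _ => ?_)
    (Set.countable_iUnion fun n => (ballF hG hd hd3 o n).countable_toSet)
  exact Set.mem_iUnion.2 ⟨G.dist o v, mem_ballF.2 le_rfl⟩

/-- The index of the seed of an observation. -/
def seedIx (L : V → unitInterval) (i : V × V) : V × ℕ :=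
  (i.1, if i.1 = i.2 then 0 else P143.nbrRank (P143.edgeCode G) L i.1 i.2 + 1)

/-- The seed of an observation. -/
def seed (U : V → unitInterval) (i : V × V) : unitInterval :=
  P143.splitLabel (U i.1) ((seedIx G (fun v => P143.splitLabel (U v) 0) i).2 + 1)

/-- The level-`k` noise of all observations. -/
def pnz (k : ℕ) (U : V → unitInterval) (j : ℕ) (i : V × V) : ℝ := noise k (seed G U i) j

lemma measurable_seedIx [Countable V] (i : V × V) :
    Measurable fun L : V → unitInterval => (seedIx G L i).2 := by
  unfold seedIx
  simp only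
  split_ifs
  · exact measurable_const
  · exact measurable_from_top.comp
      ((P143.measurable_nbrRank i.1 i.2).comp (measurable_const.prodMk measurable_id))

lemma measurable_seed [Countable V] (i : V × V) : Measurable fun U => seed G U i := by
  have hord : Measurable fun U : V → unitInterval => fun v => P143.splitLabel (U v) 0 :=
    measurable_pi_lambda _ fun v => (measurable_pi_apply 0).comp
      (P143.measurable_splitLabel.comp (measurable_pi_apply v))
  have h : Measurable fun p : ℕ × (V → unitInterval) => P143.splitLabel (p.2 i.1) (p.1 + 1) :=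
    measurable_from_prod_countable_right fun k => (measurable_pi_apply (k + 1)).comp
      (P143.measurable_splitLabel.comp (measurable_pi_apply i.1))
  exact h.comp (((measurable_seedIx G i).comp hord).prodMk measurable_id)

lemma measurable_pnz [Countable V] (k j : ℕ) (i : V × V) :
    Measurable fun U => pnz G k U j i :=
  (measurable_noise_apply k j).comp (measurable_seed G i)

lemma locFin_edgeCode {d : ℕ} (hd : Regular G d) (hd3 : 3 ≤ d) :
    P143.LocFin (P143.edgeCode G) := by
  intro v
  refine ((hd.finite_nbr hd3 v).image fun w => s(v, w)).subset ?_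
  intro e he
  obtain ⟨he, hv⟩ := he
  obtain ⟨w, rfl⟩ := Sym2.mem_iff_exists.1 hv
  exact ⟨w, (P143.edgeCode_eq_true G).1 he, rfl⟩

lemma seedIx_injOn {d : ℕ} (hd : Regular G d) (hd3 : 3 ≤ d) {L : V → unitInterval}
    (hL : Function.Injective L) {D : Finset V} {i i' : V × V} (hi : i ∈ obsIx G D)
    (hi' : i' ∈ obsIx G D) (h : seedIx G L i = seedIx G L i') : i = i' := by
  simp only [obsIx, Finset.mem_filter, Finset.mem_product] at hi hi'
  simp only [seedIx, Prod.ext_iff] at h
  obtain ⟨h1, h2⟩ := h
  refine Prod.ext h1 ?_
  by_cases e : i.1 = i.2 <;> by_cases e' : i'.1 = i'.2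
  · rw [← e, ← e', h1]
  · rw [if_pos e, if_neg e'] at h2; omega
  · rw [if_neg e, if_pos e'] at h2; omega
  · rw [if_neg e, if_neg e', Nat.add_right_cancel_iff, ← h1] at h2
    refine P143.nbrRank_inj (locFin_edgeCode G hd hd3) hL ?_ ?_ h2
    · exact (P143.edgeCode_eq_true G).2 (hi.2.resolve_left e)
    · rw [h1]; exact (P143.edgeCode_eq_true G).2 (hi'.2.resolve_left e')

/-- The seeds of the observations of a finite set are independent uniform. -/
theorem seed_preserving {d : ℕ} (hG : G.IsTree) (hd : Regular G d) (hd3 : 3 ≤ d) (D : Finset V) :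
    MeasurePreserving (fun (U : V → unitInterval) (i : obsIx G D) => seed G U i.1) (ilaw V)
      (Measure.infinitePi fun _ : obsIx G D => (volume : Measure unitInterval)) := by
  have := countable_of_tree G hG hd hd3
  set P0 := Measure.infinitePi fun _ : V => (volume : Measure unitInterval)
  set P1 := Measure.infinitePi fun _ : V × ℕ => (volume : Measure unitInterval)
  set split : (V → unitInterval) → (V → unitInterval) × (V × ℕ → unitInterval) := fun U =>
    ((fun v => P143.splitLabel (U v) 0), fun q : V × ℕ => P143.splitLabel (U q.1) (q.2 + 1))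
    with hsplit
  set Ψ : (V → unitInterval) × (V × ℕ → unitInterval) → (obsIx G D → unitInterval) :=
    fun q i => q.2 (seedIx G q.1 i.1) with hΨ
  have hm : Measurable fun (U : V → unitInterval) (i : obsIx G D) => seed G U i.1 :=
    measurable_pi_lambda _ fun i => measurable_seed G i.1
  have hΨm : Measurable Ψ := by
    refine measurable_pi_lambda _ fun i => ?_
    have h : Measurable fun p : ℕ × (V × ℕ → unitInterval) => p.2 (i.1.1, p.1) :=
      measurable_from_prod_countable_right fun k => measurable_pi_apply (i.1.1, k)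
    exact h.comp (((measurable_seedIx G i.1).comp measurable_fst).prodMk measurable_snd)
  have hsplitm : Measurable split :=
    (measurable_pi_lambda _ fun v => (measurable_pi_apply 0).comp
      (P143.measurable_splitLabel.comp (measurable_pi_apply v))).prodMk
    (measurable_pi_lambda _ fun i => (measurable_pi_apply (i.2 + 1)).comp
      (P143.measurable_splitLabel.comp (measurable_pi_apply i.1)))
  refine ⟨hm, ?_⟩
  have hfun : (fun (U : V → unitInterval) (i : obsIx G D) => seed G U i.1) = Ψ ∘ split := by
    funext U i
    simp [hΨ, hsplit, seed, seedIx]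
  have hmap : (ilaw V).map split = P0.prod P1 := P143.map_split_labels
  rw [hfun, ← Measure.map_map hΨm hsplitm, hmap]
  have hae : ∀ᵐ L ∂P0, P1.map (fun R => Ψ (L, R)) =
      Measure.infinitePi fun _ : obsIx G D => (volume : Measure unitInterval) := by
    filter_upwards [P143.ae_injective_labels] with L hL
    exact Measure.map_infinitePi_infinitePi_of_inj (f := fun i : obsIx G D => seedIx G L i.1)
      fun i i' h => Subtype.ext (seedIx_injOn G hd hd3 hL i.2 i'.2 h)
  refine Measure.ext fun B hB => ?_
  rw [Measure.map_apply hΨm hB, Measure.prod_apply (hΨm hB)]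
  calc ∫⁻ L, P1 (Prod.mk L ⁻¹' (Ψ ⁻¹' B)) ∂P0
      = ∫⁻ _L, (Measure.infinitePi fun _ : obsIx G D => (volume : Measure unitInterval)) B ∂P0 := by
        refine lintegral_congr_ae ?_
        filter_upwards [hae] with L hL
        rw [← hL]
        exact (Measure.map_apply (hΨm.comp measurable_prodMk_left) hB).symm
    _ = _ := by simp

/-- Independent uniform seeds give the noise of the model. -/
lemma noi_preserving {ι : Type} [Fintype ι] (k N : ℕ) :
    MeasurePreserving (fun (W : ι → unitInterval) (q : Fin N × ι) => noise k (W q.2) q.1)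
      (Measure.infinitePi fun _ : ι => (volume : Measure unitInterval))
      (Gen.nl (ι := ι) (hlev k) N) := by
  have h1 := noise_preserving (V := ι) k N Finset.univ
  have hm : Measurable fun (z : Fin N → ↥(Finset.univ : Finset ι) → ℝ) (q : Fin N × ι) =>
      z q.1 ⟨q.2, Finset.mem_univ _⟩ := by fun_prop
  have h2 : MeasurePreserving (fun (z : Fin N → ↥(Finset.univ : Finset ι) → ℝ) (q : Fin N × ι) =>
      z q.1 ⟨q.2, Finset.mem_univ _⟩) (nlaw (hlev k) N Finset.univ)
      (Gen.nl (ι := ι) (hlev k) N) := by
    refine ⟨hm, (Measure.pi_eq fun s hs => ?_).symm⟩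
    rw [Measure.map_apply hm (MeasurableSet.univ_pi hs)]
    have e : (fun (z : Fin N → ↥(Finset.univ : Finset ι) → ℝ) (q : Fin N × ι) =>
        z q.1 ⟨q.2, Finset.mem_univ _⟩) ⁻¹' Set.univ.pi s =
        Set.univ.pi fun j : Fin N => Set.univ.pi fun u : ↥(Finset.univ : Finset ι) => s (j, u.1) := by
      ext z
      simp only [Set.mem_preimage, Set.mem_univ_pi, Prod.forall]
      exact ⟨fun h j u => h j u.1, fun h j i => h j ⟨i, Finset.mem_univ i⟩⟩
    rw [e, nlaw, Measure.pi_pi, Fintype.prod_prod_type]
    refine Finset.prod_congr rfl fun j _ => ?_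
    rw [Measure.pi_pi]
    exact Fintype.prod_equiv (Equiv.subtypeUnivEquiv fun x => Finset.mem_univ x) _ _ fun _ => rfl
  exact h2.comp h1

/-- The observation noise of a finite set has the law of the model noise. -/
theorem pnz_preserving {d : ℕ} (hG : G.IsTree) (hd : Regular G d) (hd3 : 3 ≤ d) (k N : ℕ)
    (D : Finset V) :
    MeasurePreserving (fun (U : V → unitInterval) (q : Fin N × obsIx G D) => pnz G k U q.1 q.2.1)
      (ilaw V) (Gen.nl (ι := obsIx G D) (hlev k) N) :=
  (noi_preserving k N).comp (seed_preserving G hG hd hd3 D)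

/-- Sums over blocks. -/
def aggY {α : Type*} (M : ℕ) (Y : ℕ → α → ℝ) (j : ℕ) (i : α) : ℝ :=
  ∑ l ∈ range M, Y (j * M + l) i

lemma aggY_pnz {k k' : ℕ} (hk : k ≤ k') (U : V → unitInterval) :
    aggY (2 ^ (k' - k)) (pnz G k' U) = pnz G k U := by
  funext j i
  exact (noise_refine hk (seed G U i) j).symm

lemma nbrRank_map (g : G ≃g G) (L : V → unitInterval) (u v : V) :
    P143.nbrRank (P143.edgeCode G) (fun w => L (g.symm w)) (g u) (g v) =
      P143.nbrRank (P143.edgeCode G) L u v := by
  unfold P143.nbrRank
  rw [← Set.ncard_image_of_injective {w | P143.edgeCode G s(u, w) = true ∧ L w < L v} g.injective]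
  congr 1
  ext w
  simp only [Set.mem_image, P143.edgeCode_eq_true, SimpleGraph.mem_edgeSet, Set.mem_ofPred_eq,
    RelIso.symm_apply_apply]
  constructor
  · rintro ⟨h1, h2⟩
    refine ⟨g.symm w, ⟨?_, h2⟩, g.apply_symm_apply w⟩
    rw [← g.map_rel_iff, g.apply_symm_apply]; exact h1
  · rintro ⟨x, ⟨h1, h2⟩, rfl⟩
    exact ⟨g.map_rel_iff.2 h1, by simpa using h2⟩

/-- Relabelling the vertices relabels the noise. -/
lemma pnz_map (g : G ≃g G) (k : ℕ) (U : V → unitInterval) (j : ℕ) (a b : V) :
    pnz G k (fun v => U (g.symm v)) j (g a, g b) = pnz G k U j (a, b) := by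
  have e : seedIx G (fun v => P143.splitLabel (U (g.symm v)) 0) (g a, g b) =
      (g a, (seedIx G (fun v => P143.splitLabel (U v) 0) (a, b)).2) := by
    simp only [seedIx]
    refine Prod.ext rfl ?_
    by_cases h : a = b
    · simp [h]
    · rw [if_neg h, if_neg (fun h' => h (g.injective h')),
        nbrRank_map G g (fun v => P143.splitLabel (U v) 0) a b]
  simp only [pnz, seed, e, RelIso.symm_apply_apply]

end

end Vale.Agent.P161.Edge
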