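import Vale.Agent.P161.Edge.Parts
import Vale.Agent.P161.Edge.SymIso

/-!
Relabelling the vertices relabels the schemes.
-/

namespace Vale.Agent.P161.Edge

open MeasureTheory Finset
open scoped NNReal Classical

noncomputable section

namespace Relab

/-! ### The scheme under a bijection of indices and states -/

section gen

variable {ι ι' Ω Ω' : Type*} [Fintype ι] [Fintype ι'] [Fintype Ω] [Fintype Ω']
  (a : ι ≃ ι') (b : Ω ≃ Ω')

omit [Fintype ι] [Fintype ι'] in
lemma ev_equiv {ψ φ : Ω → ℝ} {ψ' φ' : Ω' → ℝ} (hψ : ∀ x, ψ' (b x) = ψ x)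
    (hφ : ∀ x, φ' (b x) = φ x) : Gen.ev ψ' φ' = Gen.ev ψ φ := by
  unfold Gen.ev Gen.post
  rw [← b.sum_comp, ← b.sum_comp]
  simp only [hψ, hφ]

variable {f : ℕ → ι → Ω → ℝ} {f' : ℕ → ι' → Ω' → ℝ} (h : ℝ≥0) {ψ₀ : Ω → ℝ} {ψ₀' : Ω' → ℝ}
  {z : ℕ → ι → ℝ} {z' : ℕ → ι' → ℝ}

lemma state_equiv (hf : ∀ j i x, f' j (a i) (b x) = f j i x) (h0 : ∀ x, ψ₀' (b x) = ψ₀ x)
    (hz : ∀ j i, z' j (a i) = z j i) :
    ∀ j x, Gen.state f' h ψ₀' z' j (b x) = Gen.state f h ψ₀ z j x := by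
  intro j
  induction j with
  | zero => exact h0
  | succ j ih =>
    intro x
    have hev : ∀ i, Gen.ev (Gen.state f' h ψ₀' z' j) (f' j (a i)) =
        Gen.ev (Gen.state f h ψ₀ z j) (f j i) := fun i => ev_equiv b ih (hf j i)
    simp only [Gen.state, Gen.inc, ih x]
    congr 1
    rw [← a.sum_comp]
    simp only [hf, hz, hev]

lemma ypath_equiv (hf : ∀ j i x, f' j (a i) (b x) = f j i x) (h0 : ∀ x, ψ₀' (b x) = ψ₀ x)
    (hz : ∀ j i, z' j (a i) = z j i) (j : ℕ) (i : ι) :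
    Gen.ypath f' h ψ₀' z' j (a i) = Gen.ypath f h ψ₀ z j i := by
  unfold Gen.ypath
  rw [hz, ev_equiv b (state_equiv a b h hf h0 hz j) (hf j i)]

end gen

variable {V : Type} {G : SimpleGraph V} (g : G ≃g G) (D : Finset V)

lemma mem_obsIx_iso {i : V × V} :
    ((g i.1, g i.2) : V × V) ∈ obsIx G (imageIso g D) ↔ i ∈ obsIx G D := by
  simp [mem_obsIx, map_mem_imageIso, g.map_rel_iff]

lemma symm_mem_obsIx {i : V × V} (hi : i ∈ obsIx G (imageIso g D)) :
    ((g.symm i.1, g.symm i.2) : V × V) ∈ obsIx G D :=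
  (mem_obsIx_iso g D).1 (by simpa using hi)

/-- The indices carried along the automorphism. -/
def obsEquiv : obsIx G D ≃ obsIx G (imageIso g D) where
  toFun i := ⟨(g i.1.1, g i.1.2), (mem_obsIx_iso g D).2 i.2⟩
  invFun i := ⟨(g.symm i.1.1, g.symm i.1.2), symm_mem_obsIx g D i.2⟩
  left_inv i := by ext <;> simp
  right_inv i := by ext <;> simp

/-- The noise carried along the automorphism. -/
def noiMap {N : ℕ} (z : Gen.Noi N (obsIx G D)) : Gen.Noi N (obsIx G (imageIso g D)) :=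
  fun p => z (p.1, (obsEquiv g D).symm p.2)

lemma noiMap_preserving (h : ℝ≥0) (N : ℕ) :
    MeasurePreserving (noiMap g D (N := N)) (Gen.nl (ι := obsIx G D) h N)
      (Gen.nl (ι := obsIx G (imageIso g D)) h N) := by
  refine pi_comp_inj (gl h) (e := fun p : Fin N × obsIx G (imageIso g D) =>
    (p.1, (obsEquiv g D).symm p.2)) fun a b hab => ?_
  simp only [Prod.mk.injEq, EmbeddingLike.apply_eq_iff_eq] at hab
  exact Prod.ext hab.1 hab.2

variable (S : Sch) (v : V) {B B' : Finset (V × V)}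

lemma Fo_map (z : Gen.Noi S.N (obsIx G D)) :
    Fo G S (imageIso g D) (g v) (noiMap g D z) = Fo G S D v z := by
  unfold Fo outY
  congr 2
  refine Finset.sum_congr rfl fun j _ => ?_
  unfold yobs tot
  by_cases hi : (v, v) ∈ obsIx G D
  · rw [dif_pos hi, dif_pos ((mem_obsIx_iso g D (i := (v, v))).2 hi)]
    refine ypath_equiv (obsEquiv g D) (Sym.cfgIso g D) _ (fun j i x => ?_) (fun x => ?_)
      (fun j i => ?_) j ⟨(v, v), hi⟩
    · simp only [feat, obsEquiv, Sym.cfgIso, Equiv.coe_fn_mk, spin_imageIso, Sym.coef_iso]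
    · simp only [lpw, Sym.wt_iso]
    · simp only [Gen.ext, noiMap, Equiv.symm_apply_apply]
  · rw [dif_neg hi, dif_neg (mt (mem_obsIx_iso g D (i := (v, v))).1 hi)]

lemma rot_map (hB : ∀ i : V × V, ((g i.1, g i.2) : V × V) ∈ B' ↔ i ∈ B) (i : V × V) :
    rotA S.α B' (g i.1, g i.2) = rotA S.α B i ∧ rotB S.α B' (g i.1, g i.2) = rotB S.α B i := by
  constructor <;> simp only [rotA, rotB, rcos, rsin, hB i]

lemma Hs_map (hB : ∀ i : V × V, ((g i.1, g i.2) : V × V) ∈ B' ↔ i ∈ B) (Z : ℕ → V × V → ℝ) :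
    Hs G S (imageIso g D) B' (g v) (Sym.relY g Z) = Hs G S D B v Z := by
  unfold Hs smooth
  have hm := noiMap_preserving g D (hlev S.k) S.N
  simp only [Gen.nl] at hm
  beta_reduce
  refine (Mdl.integral_map_mp hm ?_).symm.trans ?_
  · exact (measurable_Fo S (imageIso g D) (g v)).comp (measurable_pi_lambda _ fun q =>
      ((measurable_pi_apply q).const_mul _).const_add _)
  congr 1
  funext w
  rw [← Fo_map g D S v]
  congr 1
  funext p
  obtain ⟨j, i⟩ := p
  obtain ⟨l, rfl⟩ := (obsEquiv g D).surjective i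
  simp only [noiMap, Equiv.symm_apply_apply]
  obtain ⟨ha, hb⟩ := rot_map g S hB l.1
  simp only [obsEquiv, Equiv.coe_fn_mk, ha, hb, Sym.relY, RelIso.symm_apply_apply]

lemma relY_tot {N : ℕ} (z : Gen.Noi N (obsIx G D)) :
    tot G (imageIso g D) (Gen.ext (noiMap g D z)) = Sym.relY g (tot G D (Gen.ext z)) := by
  funext j i
  simp only [Sym.relY, tot]
  by_cases hi : i ∈ obsIx G (imageIso g D)
  · rw [dif_pos hi, dif_pos (symm_mem_obsIx g D hi)]
    simp only [Gen.ext, noiMap]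
    rfl
  · rw [dif_neg hi, dif_neg fun h => hi (by simpa using (mem_obsIx_iso g D).2 h)]

lemma measurable_gap {D : Finset V} {B : Finset (V × V)} :
    Measurable fun z : Gen.Noi S.N (obsIx G D) =>
      |Fo G S D v z - Hs G S D B v (tot G D (Gen.ext z))| :=
  ((measurable_Fo S D v).sub (measurable_Hs S D B v fun j i =>
    measurable_tot D (fun j i => Gen.measurable_ext j i) j i)).abs

lemma gap_map (hB : ∀ i : V × V, ((g i.1, g i.2) : V × V) ∈ B' ↔ i ∈ B) :
    ∫ z, |Fo G S (imageIso g D) (g v) z -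
        Hs G S (imageIso g D) B' (g v) (tot G (imageIso g D) (Gen.ext z))|
      ∂(Gen.nl (ι := obsIx G (imageIso g D)) (hlev S.k) S.N) =
    ∫ z, |Fo G S D v z - Hs G S D B v (tot G D (Gen.ext z))|
      ∂(Gen.nl (ι := obsIx G D) (hlev S.k) S.N) := by
  rw [← Mdl.integral_map_mp (noiMap_preserving g D (hlev S.k) S.N) (measurable_gap S (g v))]
  simp only [relY_tot, Fo_map, Hs_map g D S v hB]

end Relab

variable {V : Type} {G : SimpleGraph V} {d : ℕ} (hG : G.IsTree) (hd : Regular G d) (hd3 : 3 ≤ d)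

lemma mem_ballB_map (g : G ≃g G) (v : V) (r : ℕ) (i : V × V) :
    ((g i.1, g i.2) : V × V) ∈ ballB hG hd hd3 (g v) r ↔ i ∈ ballB hG hd hd3 v r := by
  unfold ballB
  rw [← imageIso_ballF g v r]
  exact Relab.mem_obsIx_iso g _

/-- The smoothed outputs are equivariant. -/
theorem Hb_map (g : G ≃g G) (S : Sch) (R r : ℕ) (v : V) (Z : ℕ → V × V → ℝ) :
    Hb hG hd hd3 S R r (g v) (fun j i => Z j (g.symm i.1, g.symm i.2)) =
      Hb hG hd hd3 S R r v Z := by
  unfold Hb
  rw [← imageIso_ballF g v R]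
  exact Relab.Hs_map g _ S v (mem_ballB_map hG hd hd3 g v r) Z

/-- The cost of smoothing does not depend on the vertex. -/
theorem locErr_eq (S : Sch) (R r : ℕ) (v w : V) :
    locErr hG hd hd3 S R r v = locErr hG hd hd3 S R r w := by
  obtain ⟨g, hg, -⟩ := exists_iso_pair hG hd hd3 v v w w (by simp)
  subst hg
  unfold locErr Hb
  rw [← imageIso_ballF g v R]
  exact (Relab.gap_map g _ S v (mem_ballB_map hG hd hd3 g v r)).symm

end

end Vale.Agent.P161.Edge
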