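import Vale.Agent.P161.Limit
import Vale.Agent.P161.Edge.Local
import Vale.Agent.P161.Edge.Relabel
import Vale.Agent.P161.Edge.DriftRefine
import Vale.Agent.P161.Edge.DriftGain
import Vale.Agent.P161.Edge.DriftTheta
import Vale.Agent.P161.Edge.FactorLimit
import Vale.Agent.P161.Edge.PairNoise
import Vale.Agent.P161.Edge.EnergyFull

/-!
Assembly at the critical coupling: the parameters of the schemes, their comparison on a common
domain at the critical coupling, and the resulting factor of IID.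
-/

namespace Vale.Agent.P161.Edge

open MeasureTheory ProbabilityTheory Finset Function
open scoped NNReal Classical

noncomputable section

variable {V : Type} {G : SimpleGraph V} {d : ℕ} {hG : G.IsTree} {hd : Regular G d} {hd3 : 3 ≤ d}

lemma abs_Hb_le (S : Sch) (R r : ℕ) (v : V) (Z : ℕ → V × V → ℝ) :
    |Hb hG hd hd3 S R r v Z| ≤ 1 := abs_Hs_le _ _ _ _ _

lemma measurable_Hb (S : Sch) (R r : ℕ) (v : V) {α : Type*} [MeasurableSpace α]
    {Z : α → ℕ → V × V → ℝ} (hZ : ∀ j i, Measurable fun a => Z a j i) :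
    Measurable fun a => Hb hG hd hd3 S R r v (Z a) := measurable_Hs _ _ _ _ hZ

lemma abs_dfn_le (S : Sch) (R r : ℕ) (v : V) (θ : ℝ) (K : ℕ) (A σ : Finset V)
    (Y : ℕ → V × V → ℝ) : |dfn hG hd hd3 S R r v θ K A σ Y| ≤ 2 := by
  unfold dfn
  rw [abs_abs]
  refine (abs_sub _ _).trans ?_
  rw [abs_spin]
  linarith [abs_Hb_le (hG := hG) (hd := hd) (hd3 := hd3) S R r v
    (aggY (2 ^ (K - S.k)) (innY G (prm θ S.η K) A Y))]

lemma measurable_agg_inn (θ η : ℝ) (K M : ℕ) (A : Finset V) {α : Type*} [MeasurableSpace α]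
    {Y : α → ℕ → V × V → ℝ} (hY : ∀ j i, Measurable fun a => Y a j i) (j : ℕ) (i : V × V) :
    Measurable fun a => aggY M (innY G (prm θ η K) A (Y a)) j i :=
  measurable_aggY M (fun j i => measurable_innY (prm θ η K) A hY j i) j i

lemma measY_dfn (S : Sch) (R r : ℕ) (v : V) (θ : ℝ) (K : ℕ) (A : Finset V) :
    MeasY (dfn hG hd hd3 S R r v θ K A) := fun _ _ _ _ hY =>
  (((measurable_Hb (hG := hG) (hd := hd) (hd3 := hd3) S R r v
    (fun j i => measurable_agg_inn θ S.η K _ A hY j i)).sub measurable_const).abs)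

lemma ball_sub (v : V) {m n : ℕ} (h : m ≤ n) : ballF hG hd hd3 v m ⊆ ballF hG hd hd3 v n :=
  ballF_mono (by simpa using h)

lemma card_obsIx_ball (v : V) (R : ℕ) :
    (obsIx G (ballF hG hd hd3 v R)).card ≤ d ^ (R + 2) * d ^ (R + 2) := by
  have h : (ballF hG hd hd3 v R).card ≤ d ^ (R + 2) := by
    have := card_ballF (hG := hG) (hd := hd) (hd3 := hd3) v R
    exact_mod_cast this
  exact (Finset.card_filter_le _ _).trans
    (by rw [Finset.card_product]; exact Nat.mul_le_mul h h)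

/-- The aggregated smoothed output depends only on the fine noise near the vertex. -/
lemma Hb_agg_congr (S : Sch) (hα : 0 ≤ S.α) (hα2 : S.α ^ 2 ≤ 1 / 2) (R r : ℕ) (v : V) {K : ℕ}
    (hK : S.k ≤ K) {A : Finset V} (hA : ballF hG hd hd3 v r ⊆ A) {Z Z' : ℕ → V × V → ℝ}
    (h : ∀ j < S.T * 2 ^ K, ∀ i ∈ obsIx G A, Z j i = Z' j i) :
    Hb hG hd hd3 S R r v (aggY (2 ^ (K - S.k)) Z) =
      Hb hG hd hd3 S R r v (aggY (2 ^ (K - S.k)) Z') := by
  refine Hs_congr S _ v hα hα2 fun j hj i hi => Finset.sum_congr rfl fun l hl => ?_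
  have hl' := Finset.mem_range.1 hl
  have hq : (j + 1) * 2 ^ (K - S.k) ≤ S.N * 2 ^ (K - S.k) := Nat.mul_le_mul_right _ hj
  have e : S.N * 2 ^ (K - S.k) = S.T * 2 ^ K := by
    rw [Sch.N, mul_assoc, ← pow_add, Nat.add_sub_cancel' hK]
  rw [Nat.succ_mul] at hq
  exact h _ (by omega) i (ballB_subset hG hd hd3 hA hi)

/-- The cost of smoothing bounds the distance to the spin at the scheme's own level. -/
lemma start_le {S : Sch} {R r : ℕ} {v : V} (h0 : 0 ≤ S.θ) (h1 : S.θ < 1) (hη : 0 ≤ S.η)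
    (hα : 0 ≤ S.α) (hα2 : S.α ^ 2 ≤ 1 / 2) (hT : 2 ≤ S.T) (hrR : r ≤ R) {δ : ℝ}
    (hclose : ∀ Ψ : Gen.Noi S.N (obsIx G (ballF hG hd hd3 v R)) → ℝ, Measurable Ψ →
      (∀ z, |Ψ z| ≤ 2) → |E G S.P (ballF hG hd hd3 v R) S.N
          (fun _ Y => Ψ fun q => innY G S.P (ballF hG hd hd3 v R) Y q.1 q.2.1) -
        ∫ z, Ψ z ∂(Gen.nl (ι := obsIx G (ballF hG hd hd3 v R)) (hlev S.k) S.N)| ≤ 2 * δ) :
    E G S.P (ballF hG hd hd3 v R) S.N (fun σ Y =>
        |Hb hG hd hd3 S R r v (innY G S.P (ballF hG hd hd3 v R) Y) - spin σ v|) ≤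
      locErr hG hd hd3 S R r v + 2 * δ + 1 / Real.sqrt ((S.T : ℝ) - 1) := by
  set D := ballF hG hd hd3 v R
  have hv : v ∈ D := self_mem_ballF v R
  set Ψ := fun z : Gen.Noi S.N (obsIx G D) =>
    |Fo G S D v z - Hb hG hd hd3 S R r v (tot G D (Gen.ext z))|
  have mΨ : Measurable Ψ :=
    ((measurable_Fo S D v).sub (measurable_Hb S R r v
      fun j i => measurable_tot D (fun j i => Gen.measurable_ext j i) j i)).abs
  have bΨ : ∀ z, |Ψ z| ≤ 2 := fun z => by
    simp only [Ψ, abs_abs]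
    exact (abs_sub _ _).trans (by
      linarith [abs_Fo_le S D v z,
        abs_Hb_le (hG := hG) (hd := hd) (hd3 := hd3) S R r v (tot G D (Gen.ext z))])
  have key : ∀ Y, Ψ (fun q => innY G S.P D Y q.1 q.2.1) =
      |outY S Y v - Hb hG hd hd3 S R r v (innY G S.P D Y)| := by
    intro Y
    simp only [Ψ, Fo_inn h0 h1 hη hv Y]
    congr 2
    refine Hs_congr S _ v hα hα2 fun j hj i hi => ?_
    have hi' := ballB_subset hG hd hd3 (ball_sub v hrR) hi
    simp [tot, Gen.ext, hj, hi', D]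
  have hc := hclose Ψ mΨ bΨ
  rw [show (fun (_ : Finset V) Y => Ψ fun q => innY G S.P D Y q.1 q.2.1) =
    fun (_ : Finset V) Y => |outY S Y v - Hb hG hd hd3 S R r v (innY G S.P D Y)| from
      funext fun _ => funext key] at hc
  have hout := E_out_err (G := G) (S := S) (D := D) hT hv
  have m1 : MeasY fun (_ : Finset V) Y => |outY S Y v - Hb hG hd hd3 S R r v (innY G S.P D Y)| :=
    fun _ _ _ _ hY => ((measurable_outY S hY v).sub (measurable_Hb S R r v
      fun j i => measurable_innY S.P D hY j i)).abs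
  have m2 : MeasY fun σ Y => |outY S Y v - spin σ v| :=
    fun _ _ _ _ hY => ((measurable_outY S hY v).sub measurable_const).abs
  have b1 : ∀ (_σ : Finset V) Y,
      |(|outY S Y v - Hb hG hd hd3 S R r v (innY G S.P D Y)|)| ≤ 2 := fun _ Y => by
    rw [abs_abs]
    exact (abs_sub _ _).trans (by
      linarith [abs_outY_le S Y v,
        abs_Hb_le (hG := hG) (hd := hd) (hd3 := hd3) S R r v (innY G S.P D Y)])
  have b2 : ∀ σ Y, |(|outY S Y v - spin σ v|)| ≤ 2 := fun σ Y => by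
    rw [abs_abs]
    exact (abs_sub _ _).trans (by rw [abs_spin]; linarith [abs_outY_le S Y v])
  refine (E_mono (Ψ := fun σ Y => |outY S Y v - Hb hG hd hd3 S R r v (innY G S.P D Y)| +
      |outY S Y v - spin σ v|)
    (fun _ _ _ _ hY => ((measurable_Hb S R r v fun j i => measurable_innY S.P D hY j i).sub
      measurable_const).abs) (fun σ _ _ _ hY => (m1 σ _ _ hY).add (m2 σ _ _ hY))
    (B := 2) (fun σ Y => by
      rw [abs_abs]
      exact (abs_sub _ _).trans (by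
        rw [abs_spin]
        linarith [abs_Hb_le (hG := hG) (hd := hd) (hd3 := hd3) S R r v (innY G S.P D Y)]))
    (B' := 4) (fun σ Y => (abs_add_le _ _).trans (by linarith [b1 σ Y, b2 σ Y]))
    fun σ _ Y => (abs_sub_le _ (outY S Y v) _).trans_eq (by rw [abs_sub_comm _ (outY S Y v)])).trans ?_
  rw [E_add m1 m2 b1 b2]
  have := (abs_le.1 hc).2
  unfold locErr
  linarith

/-- The error scale. -/
def epsE (n : ℕ) : ℝ := (1 / 2 : ℝ) ^ n

lemma epsE_pos (n : ℕ) : 0 < epsE n := by unfold epsE; positivity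

/-- The time horizon. -/
def timeE (n : ℕ) : ℕ := 4 ^ n + 2

lemma timeE_spec (n : ℕ) : 2 ≤ timeE n ∧ 1 / Real.sqrt ((timeE n : ℝ) - 1) ≤ epsE n := by
  refine ⟨Nat.le_add_left _ _, ?_⟩
  have h : (2 : ℝ) ^ n ≤ Real.sqrt ((timeE n : ℝ) - 1) := by
    rw [← Real.sqrt_sq (pow_nonneg zero_le_two n)]
    refine Real.sqrt_le_sqrt ?_
    rw [← pow_mul, mul_comm n 2, pow_mul]
    norm_num [timeE]
    linarith
  unfold epsE
  rw [div_pow, one_pow]
  exact one_div_le_one_div_of_le (by positivity) h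

/-- A scheme whose smoothed output at critical innovations is within `8ε` of the spin, on every
large enough domain and at every fine enough level. -/
def Good' (hG : G.IsTree) (hd : Regular G d) (hd3 : 3 ≤ d) (η : ℝ) (n : ℕ) (S : Sch)
    (R r R₁ : ℕ) : Prop :=
  S.η = η ∧ 0 < S.α ∧ S.α ^ 2 ≤ 1 / 2 ∧ r ≤ R₁ ∧ S.T = timeE n ∧
    ∀ (v : V) (K : ℕ), S.k ≤ K → ∀ A : Finset V, Closed G A → ballF hG hd hd3 v R₁ ⊆ A →
      ∀ N : ℕ, S.T * 2 ^ K ≤ N →
        E G (prm (Real.sqrt ((d : ℝ) - 1))⁻¹ η K) A N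
            (dfn hG hd hd3 S R r v (Real.sqrt ((d : ℝ) - 1))⁻¹ K A) ≤ 8 * epsE n

theorem exists_scheme (hE : EnergyStmt) (d : ℕ) (hd3 : 3 ≤ d) :
    ∃ η : ℝ, 0 < η ∧ η ≤ 1 / (4 * d) ∧
      ∀ (V : Type) (G : SimpleGraph V) (hG : G.IsTree) (hd : Regular G d) (n : ℕ),
        ∃ (S : Sch) (R r R₁ : ℕ), Good' hG hd hd3 η n S R r R₁ := by
  obtain ⟨η, hη0, hη4, hloc⟩ := local_small hE d hd3
  refine ⟨η, hη0, hη4, fun V G hG hd n => ?_⟩
  obtain ⟨o⟩ := hG.connected.nonempty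
  set ε := epsE n
  have hε : 0 < ε := epsE_pos n
  set T := timeE n
  obtain ⟨hT, hTε⟩ := timeE_spec n
  obtain ⟨α, r, hα, hα2, hloc⟩ := hloc η hη0 le_rfl T hT ε hε
  obtain ⟨R₁, k₁, hr, hgain⟩ := gain_le d hd3 η hη0 hη4 T r α ε hα hα2 hε
  obtain ⟨θ, hθc, hθlo, htheta⟩ :=
    theta_le d hd3 η hη0 hη4 T r (d ^ (R₁ + 2)) α ε hα hα2 hε
  set θc := (Real.sqrt ((d : ℝ) - 1))⁻¹
  obtain ⟨R₀, hR₀⟩ := hloc V G hG hd hd3 o θ hθlo hθc
  set R := max R₀ R₁
  obtain ⟨k₂, hk₂⟩ := hR₀ R (le_max_left _ _)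
  obtain ⟨k₃, hk₃⟩ := close_inn (d ^ (R + 2) * d ^ (R + 2)) T hε
  obtain ⟨k₄, hk₄⟩ := refine_le d hd3 η hη0 hη4 T r α ε hα hα2 hε
  set k := max (max k₁ k₂) (max k₃ k₄)
  have hk1 : k₁ ≤ k := (le_max_left _ _).trans (le_max_left _ _)
  have hk2 : k₂ ≤ k := (le_max_right _ _).trans (le_max_left _ _)
  have hk3 : k₃ ≤ k := (le_max_left _ _).trans (le_max_right _ _)
  have hk4 : k₄ ≤ k := (le_max_right _ _).trans (le_max_right _ _)
  set S : Sch := ⟨θ, η, α, k, T⟩ with hS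
  refine ⟨S, R, r, R₁, rfl, hα, hα2, hr, rfl, fun v K hK A' hA' hsub N hN => ?_⟩
  have hrR : r ≤ R := hr.trans (le_max_right _ _)
  have hs := (sqrt_deg_facts hd3).1
  have hθc1 : θc < 1 := inv_lt_one_of_one_lt₀ hs
  have hθ0 : 0 ≤ θ := le_trans (by positivity) hθlo
  have hη2 : η ≤ 2 := hη4.trans (by
    rw [div_le_iff₀ (by positivity)]
    have : (3 : ℝ) ≤ d := by exact_mod_cast hd3
    linarith)
  set D := ballF hG hd hd3 v R
  set A := ballF hG hd hd3 v R₁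
  have hAD : A ⊆ D := ball_sub v (le_max_right _ _)
  -- at the scheme's own level
  have s0 : E G S.P D S.N (fun σ Y =>
      |Hb hG hd hd3 S R r v (innY G S.P D Y) - spin σ v|) ≤ 4 * ε := by
    have hc := start_le (hG := hG) (hd := hd) (hd3 := hd3) (S := S) (R := R) (r := r) (v := v)
      hθ0 (hθc.trans hθc1) hη0.le hα.le hα2 hT hrR (δ := ε) fun Ψ mΨ bΨ =>
        hk₃ k hk3 V G θ η D hθ0 (hθc.trans hθc1) hη0.le hη2 (card_obsIx_ball v R) S.N
          (mul_hlev k T).le 2 Ψ mΨ bΨ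
    have hl : locErr hG hd hd3 S R r v ≤ ε := by
      rw [locErr_eq hG hd hd3 S R r v o]
      exact hk₂ k hk2
    refine hc.trans ?_
    have : 1 / Real.sqrt ((S.T : ℝ) - 1) ≤ ε := hTε
    linarith
  -- refine
  have s1 : E G (prm θ η K) D (T * 2 ^ K) (dfn hG hd hd3 S R r v θ K D) ≤ 5 * ε := by
    have := hk₄ V G hG hd hd3 v θ hθlo hθc.le R hrR k K hk4 hK
    simp only at this
    linarith
  -- shrink, change the coupling, enlarge
  have g1 := hgain V G hG hd hd3 v θ θ hθlo hθc.le R hrR k K (T * 2 ^ K) hk1 hK le_rfl A D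
    (closed_ballF v R₁) (closed_ballF v R) hAD subset_rfl
  have hc : A.card ≤ d ^ (R₁ + 2) := by
    have := card_ballF (hG := hG) (hd := hd) (hd3 := hd3) v R₁
    exact_mod_cast this
  have t1 := htheta V G hG hd hd3 v θ θ le_rfl hθc.le R hrR k K hK A hc (closed_ballF v R₁)
    (ball_sub v hr)
  have g2 := hgain V G hG hd hd3 v θ θc (by have : (0:ℝ) ≤ θc := by positivity
                                            linarith) le_rfl R hrR k K N hk1 hK hN A A'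
    (closed_ballF v R₁) hA' hsub subset_rfl
  simp only at g1 t1 g2
  have a1 := (abs_le.1 g1).1
  have a2 := (abs_le.1 t1).1
  have a3 := (abs_le.1 g2).2
  linarith

/-- Replacing the noise by critical innovations on a finite domain. -/
lemma ref_close (hG : G.IsTree) (hd : Regular G d) (hd3 : 3 ≤ d) {η : ℝ} (hη : 0 ≤ η) (hη2 : η ≤ 2)
    (C T : ℕ) {δ : ℝ} (hδ : 0 < δ) :
    ∃ k₀ : ℕ, ∀ K ≥ k₀, ∀ A : Finset V, (obsIx G A).card ≤ C →
      ∀ (Bd : ℝ) (Φ : (ℕ → V × V → ℝ) → ℝ),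
      (∀ (β : Type) [MeasurableSpace β] (Z : β → ℕ → V × V → ℝ),
        (∀ j i, Measurable fun a => Z a j i) → Measurable fun a => Φ (Z a)) →
      (∀ Z, |Φ Z| ≤ Bd) →
      (∀ Z Z', (∀ j < T * 2 ^ K, ∀ i ∈ obsIx G A, Z j i = Z' j i) → Φ Z = Φ Z') →
      |E G (prm (Real.sqrt ((d : ℝ) - 1))⁻¹ η K) A (T * 2 ^ K)
          (fun _ Y => Φ (innY G (prm (Real.sqrt ((d : ℝ) - 1))⁻¹ η K) A Y)) -
        ∫ U, Φ (pnz G K U) ∂(ilaw V)| ≤ Bd * δ := by
  obtain ⟨k₀, hk₀⟩ := close_inn C T hδ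
  refine ⟨k₀, fun K hK A hC Bd Φ hm hb hdep => ?_⟩
  have := countable_of_tree G hG hd hd3
  set θc := (Real.sqrt ((d : ℝ) - 1))⁻¹
  have hθc1 : θc < 1 := inv_lt_one_of_one_lt₀ (sqrt_deg_facts hd3).1
  set N := T * 2 ^ K
  set Ψ := fun z : Gen.Noi N (obsIx G A) => Φ (tot G A (Gen.ext z))
  have mΨ : Measurable Ψ :=
    hm _ _ fun j i => measurable_tot A (fun j i => Gen.measurable_ext j i) j i
  have h := hk₀ K hK V G θc η A (by positivity) hθc1 hη hη2 hC N (mul_hlev K T).le Bd Ψ mΨ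
    fun z => hb _
  have e1 : ∫ U, Φ (pnz G K U) ∂(ilaw V) =
      ∫ z, Ψ z ∂(Gen.nl (ι := obsIx G A) (hlev K) N) := by
    rw [← (pnz_preserving G hG hd hd3 K N A).map_eq,
      integral_map (pnz_preserving G hG hd hd3 K N A).measurable.aemeasurable
        mΨ.aestronglyMeasurable]
    refine integral_congr_ae (ae_of_all _ fun U => hdep _ _ fun j hj i hi => ?_)
    simp [tot, Gen.ext, hj, hi, N]
  have e2 : ∀ Y, Ψ (fun q => innY G (prm θc η K) A Y q.1 q.2.1) =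
      Φ (innY G (prm θc η K) A Y) := fun Y => hdep _ _ fun j hj i hi => by
    simp [tot, Gen.ext, hj, hi, N]
  simp only [e2] at h
  rw [e1]
  exact h

section approx

variable (η : ℝ) (S : ℕ → Sch) (R r R₁ : ℕ → ℕ)

/-- The `n`-th approximate spin. -/
def approxX (hG : G.IsTree) (hd : Regular G d) (hd3 : 3 ≤ d) (n : ℕ) (v : V)
    (U : V → unitInterval) : ℝ :=
  Hb hG hd hd3 (S n) (R n) (r n) v (pnz G (S n).k U)

variable {η S R r R₁} (hS : ∀ n, Good' hG hd hd3 η n (S n) (R n) (r n) (R₁ n))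
  (hη : 0 ≤ η) (hη2 : η ≤ 2)
include hS hη hη2

lemma approxX_step (n : ℕ) (v : V) :
    ∫ U, |approxX S R r hG hd hd3 n v U - approxX S R r hG hd hd3 (n + 1) v U| ∂(ilaw V) ≤
      14 * epsE n := by
  obtain ⟨e1, a1, b1, r1, T1, g1⟩ := hS n
  obtain ⟨e2, a2, b2, r2, T2, g2⟩ := hS (n + 1)
  set θc := (Real.sqrt ((d : ℝ) - 1))⁻¹
  set R' := max (R₁ n) (R₁ (n + 1))
  set A := ballF hG hd hd3 v R'
  set T := max (S n).T (S (n + 1)).T
  obtain ⟨k₀, hk₀⟩ :=
    ref_close hG hd hd3 hη hη2 (d ^ (R' + 2) * d ^ (R' + 2)) T (epsE_pos n)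
  set K := max k₀ (max (S n).k (S (n + 1)).k)
  have hK1 : (S n).k ≤ K := (le_max_left _ _).trans (le_max_right _ _)
  have hK2 : (S (n + 1)).k ≤ K := (le_max_right _ _).trans (le_max_right _ _)
  set Φ := fun Z : ℕ → V × V → ℝ =>
    |Hb hG hd hd3 (S n) (R n) (r n) v (aggY (2 ^ (K - (S n).k)) Z) -
      Hb hG hd hd3 (S (n + 1)) (R (n + 1)) (r (n + 1)) v (aggY (2 ^ (K - (S (n + 1)).k)) Z)|
  have hsub1 : ballF hG hd hd3 v (r n) ⊆ A := ball_sub v (r1.trans (le_max_left _ _))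
  have hsub2 : ballF hG hd hd3 v (r (n + 1)) ⊆ A := ball_sub v (r2.trans (le_max_right _ _))
  have h := hk₀ K (le_max_left _ _) A (card_obsIx_ball v R') 2 Φ
    (fun β _ Z hZ => ((measurable_Hb _ _ _ v fun j i => measurable_aggY _ hZ j i).sub
      (measurable_Hb _ _ _ v fun j i => measurable_aggY _ hZ j i)).abs)
    (fun Z => by
      simp only [Φ, abs_abs]
      exact (abs_sub _ _).trans (by
        linarith [abs_Hb_le (hG := hG) (hd := hd) (hd3 := hd3) (S n) (R n) (r n) v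
            (aggY (2 ^ (K - (S n).k)) Z),
          abs_Hb_le (hG := hG) (hd := hd) (hd3 := hd3) (S (n + 1)) (R (n + 1)) (r (n + 1)) v
            (aggY (2 ^ (K - (S (n + 1)).k)) Z)]))
    (fun Z Z' hZ => by
      simp only [Φ]
      rw [Hb_agg_congr (S n) a1.le b1 (R n) (r n) v hK1 hsub1 fun j hj i hi => hZ j
          (lt_of_lt_of_le hj (Nat.mul_le_mul_right _ (le_max_left _ _))) i hi,
        Hb_agg_congr (S (n + 1)) a2.le b2 (R (n + 1)) (r (n + 1)) v hK2 hsub2 fun j hj i hi =>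
          hZ j (lt_of_lt_of_le hj (Nat.mul_le_mul_right _ (le_max_right _ _))) i hi])
  have eU : ∀ U : V → unitInterval, Φ (pnz G K U) =
      |approxX S R r hG hd hd3 n v U - approxX S R r hG hd hd3 (n + 1) v U| := fun U => by
    simp only [Φ, approxX, aggY_pnz G hK1 U, aggY_pnz G hK2 U]
  simp only [eU] at h
  have hA : Closed G A := closed_ballF v R'
  have hN1 : (S n).T * 2 ^ K ≤ T * 2 ^ K := Nat.mul_le_mul_right _ (le_max_left _ _)
  have hN2 : (S (n + 1)).T * 2 ^ K ≤ T * 2 ^ K := Nat.mul_le_mul_right _ (le_max_right _ _)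
  have q1 := g1 v K hK1 A hA (ball_sub v (le_max_left _ _)) _ hN1
  have q2 := g2 v K hK2 A hA (ball_sub v (le_max_right _ _)) _ hN2
  have hle : E G (prm θc η K) A (T * 2 ^ K) (fun _ Y => Φ (innY G (prm θc η K) A Y)) ≤
      E G (prm θc η K) A (T * 2 ^ K) (dfn hG hd hd3 (S n) (R n) (r n) v θc K A) +
        E G (prm θc η K) A (T * 2 ^ K)
          (dfn hG hd hd3 (S (n + 1)) (R (n + 1)) (r (n + 1)) v θc K A) := by
    rw [← E_add (measY_dfn _ _ _ _ _ _ _) (measY_dfn _ _ _ _ _ _ _) (abs_dfn_le _ _ _ _ _ _ _)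
      (abs_dfn_le _ _ _ _ _ _ _)]
    refine E_mono (fun _ _ _ _ hY => ((measurable_Hb _ _ _ v fun j i =>
        measurable_agg_inn θc η K _ A hY j i).sub (measurable_Hb _ _ _ v fun j i =>
        measurable_agg_inn θc η K _ A hY j i)).abs)
      (fun σ _ _ _ hY => (measY_dfn _ _ _ _ _ _ _ σ _ _ hY).add (measY_dfn _ _ _ _ _ _ _ σ _ _ hY))
      (B := 2) (fun _ Y => by
        simp only [Φ, abs_abs]
        exact (abs_sub _ _).trans (by
          linarith [abs_Hb_le (hG := hG) (hd := hd) (hd3 := hd3) (S n) (R n) (r n) v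
              (aggY (2 ^ (K - (S n).k)) (innY G (prm θc η K) A Y)),
            abs_Hb_le (hG := hG) (hd := hd) (hd3 := hd3) (S (n + 1)) (R (n + 1)) (r (n + 1)) v
              (aggY (2 ^ (K - (S (n + 1)).k)) (innY G (prm θc η K) A Y))]))
      (B' := 4) (fun σ Y => (abs_add_le _ _).trans (by
        linarith [abs_dfn_le (hG := hG) (hd := hd) (hd3 := hd3) (S n) (R n) (r n) v θc K A σ Y,
          abs_dfn_le (hG := hG) (hd := hd) (hd3 := hd3) (S (n + 1)) (R (n + 1)) (r (n + 1)) v θc K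
            A σ Y])) ?_
    intro σ _ Y
    simp only [Φ, dfn, e1, e2]
    exact (abs_sub_le _ (spin σ v) _).trans_eq (by rw [abs_sub_comm (spin σ v)])
  have hh : epsE (n + 1) = epsE n / 2 := by unfold epsE; rw [pow_succ]; ring
  have := (abs_le.1 h).1
  linarith

lemma approxX_law (D₀ : Finset V) (hD₀ : Closed G D₀) (hne : D₀.Nonempty) (f : (V → ℝ) → ℝ)
    (hfc : Continuous f) (hfd : DepOn f D₀) (hf2 : ∀ x : V → ℝ, (∀ v, |x v| ≤ 1) → |f x| ≤ 2)
    (hfL : ∀ x y : V → ℝ, (∀ v, |x v| ≤ 1) → (∀ v, |y v| ≤ 1) →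
      |f x - f y| ≤ 2 * ∑ v ∈ D₀, |x v - y v|) (n : ℕ) :
    |∫ U, f (fun v => approxX S R r hG hd hd3 n v U) ∂(ilaw V) -
        avg G (Real.sqrt ((d : ℝ) - 1))⁻¹ D₀ (fun _ => 0) f| ≤
      (16 * (D₀.card : ℝ) + 2) * epsE n := by
  obtain ⟨e1, a1, b1, r1, T1, g1⟩ := hS n
  obtain ⟨o, ho⟩ := hne
  set θc := (Real.sqrt ((d : ℝ) - 1))⁻¹
  have hθc1 : θc < 1 := inv_lt_one_of_one_lt₀ (sqrt_deg_facts hd3).1
  have hθc0 : 0 ≤ θc := by positivity
  set L := D₀.sup fun v => G.dist o v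
  set R' := R₁ n + L
  set A := ballF hG hd hd3 o R'
  set T := (S n).T
  obtain ⟨k₀, hk₀⟩ :=
    ref_close hG hd hd3 hη hη2 (d ^ (R' + 2) * d ^ (R' + 2)) T (epsE_pos n)
  set K := max k₀ (S n).k
  have hK1 : (S n).k ≤ K := le_max_right _ _
  have hA : Closed G A := closed_ballF o R'
  have hball : ∀ v ∈ D₀, ballF hG hd hd3 v (R₁ n) ⊆ A := fun v hv => ballF_mono (by
    have := Finset.le_sup (f := fun v => G.dist o v) hv
    omega)
  have hD₀A : D₀ ⊆ A := fun v hv => hball v hv (self_mem_ballF v _)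
  set H := fun (Z : ℕ → V × V → ℝ) (v : V) =>
    Hb hG hd hd3 (S n) (R n) (r n) v (aggY (2 ^ (K - (S n).k)) Z)
  have mH : ∀ (β : Type) [MeasurableSpace β] (Z : β → ℕ → V × V → ℝ),
      (∀ j i, Measurable fun a => Z a j i) → Measurable fun a => f (H (Z a)) := fun β _ Z hZ =>
    measurable_depOn hfc hfd (measurable_pi_lambda _ fun v =>
      measurable_Hb _ _ _ v fun j i => measurable_aggY _ hZ j i)
  have bH : ∀ Z v, |H Z v| ≤ 1 := fun Z v => abs_Hb_le _ _ _ _ _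
  have h := hk₀ K (le_max_left _ _) A (card_obsIx_ball o R') 2 (fun Z => f (H Z)) mH
    (fun Z => hf2 _ (bH Z)) (fun Z Z' hZ => hfd _ _ fun v hv =>
      Hb_agg_congr (S n) a1.le b1 (R n) (r n) v hK1 ((ball_sub v r1).trans (hball v hv)) hZ)
  have eU : ∀ U : V → unitInterval, H (pnz G K U) = fun v => approxX S R r hG hd hd3 n v U :=
    fun U => funext fun v => by simp only [H, approxX, aggY_pnz G hK1 U]
  simp only [eU] at h
  set P := prm θc η K
  set N := T * 2 ^ K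
  have mσ : MeasY fun σ (_ : ℕ → V × V → ℝ) => f (spin σ) := fun _ _ _ _ _ => measurable_const
  have bσ : ∀ σ (_ : ℕ → V × V → ℝ), |f (spin σ)| ≤ 2 := fun σ _ =>
    hf2 _ fun v => (abs_spin σ v).le
  have hspin : E G P A N (fun σ _ => f (spin σ)) = avg G θc D₀ (fun _ => 0) f := by
    rw [← avg_consistent hG hD₀ ⟨o, ho⟩ hA hD₀A (fun _ _ _ => rfl) hfd,
      ← sum_lpw P ⟨hθc0, hθc1⟩ A f]
    have : IsProbabilityMeasure (Gen.nl (ι := obsIx G A) P.h N) := by
      unfold Gen.nl; infer_instance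
    simp [E, Gen.Epl]
  have mI : MeasY fun (_ : Finset V) Y => f (H (innY G P A Y)) := fun _ β _ Y hY =>
    mH β (fun a => innY G P A (Y a)) fun j i => measurable_innY P A hY j i
  have bI : ∀ (_ : Finset V) Y, |f (H (innY G P A Y))| ≤ 2 := fun _ Y => hf2 _ (bH _)
  have mS : MeasY fun σ Y => ∑ v ∈ D₀, dfn hG hd hd3 (S n) (R n) (r n) v θc K A σ Y :=
    fun σ _ _ _ hY => Finset.measurable_sum _ fun v _ => measY_dfn _ _ _ _ _ _ _ σ _ _ hY
  have bS : ∀ σ Y, |∑ v ∈ D₀, dfn hG hd hd3 (S n) (R n) (r n) v θc K A σ Y| ≤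
      2 * (D₀.card : ℝ) := fun σ Y =>
    ((Finset.abs_sum_le_sum_abs _ _).trans (Finset.sum_le_card_nsmul _ _ 2 fun v _ =>
      abs_dfn_le _ _ _ _ _ _ _ _ _)).trans_eq (by rw [nsmul_eq_mul, mul_comm])
  have hpt : ∀ σ Y, |f (H (innY G P A Y)) - f (spin σ)| ≤
      2 * ∑ v ∈ D₀, dfn hG hd hd3 (S n) (R n) (r n) v θc K A σ Y := fun σ Y => by
    refine (hfL _ _ (bH _) fun v => (abs_spin σ v).le).trans_eq ?_
    simp only [H, dfn, e1, P]
  have hsumE : E G P A N (fun σ Y => ∑ v ∈ D₀, dfn hG hd hd3 (S n) (R n) (r n) v θc K A σ Y) ≤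
      (D₀.card : ℝ) * (8 * epsE n) := by
    rw [E_sum D₀ (fun v _ => measY_dfn _ _ _ _ _ _ _) fun v _ => abs_dfn_le _ _ _ _ _ _ _]
    exact (Finset.sum_le_card_nsmul _ _ _ fun v hv => g1 v K hK1 A hA (hball v hv) N le_rfl).trans_eq
      (nsmul_eq_mul _ _)
  have hup : E G P A N (fun _ Y => f (H (innY G P A Y))) ≤ E G P A N (fun σ _ => f (spin σ)) +
      2 * E G P A N (fun σ Y => ∑ v ∈ D₀, dfn hG hd hd3 (S n) (R n) (r n) v θc K A σ Y) := by
    rw [← E_const_mul, ← E_add mσ (fun σ _ _ _ hY => (mS σ _ _ hY).const_mul 2) bσ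
      (B' := 4 * (D₀.card : ℝ)) fun σ Y => by
        rw [abs_mul, abs_two]; linarith [bS σ Y]]
    exact E_mono mI (fun σ _ _ _ hY => (mσ σ _ _ hY).add ((mS σ _ _ hY).const_mul 2)) bI
      (B' := 2 + 4 * (D₀.card : ℝ)) (fun σ Y => (abs_add_le _ _).trans (by
        rw [abs_mul, abs_two]; linarith [bσ σ Y, bS σ Y]))
      fun σ _ Y => by linarith [(abs_le.1 (hpt σ Y)).2]
  have hdown : E G P A N (fun σ _ => f (spin σ)) ≤ E G P A N (fun _ Y => f (H (innY G P A Y))) +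
      2 * E G P A N (fun σ Y => ∑ v ∈ D₀, dfn hG hd hd3 (S n) (R n) (r n) v θc K A σ Y) := by
    rw [← E_const_mul, ← E_add mI (fun σ _ _ _ hY => (mS σ _ _ hY).const_mul 2) bI
      (B' := 4 * (D₀.card : ℝ)) fun σ Y => by
        rw [abs_mul, abs_two]; linarith [bS σ Y]]
    exact E_mono mσ (fun σ _ _ _ hY => (mI σ _ _ hY).add ((mS σ _ _ hY).const_mul 2)) bσ
      (B' := 2 + 4 * (D₀.card : ℝ)) (fun σ Y => (abs_add_le _ _).trans (by
        rw [abs_mul, abs_two]; linarith [bI σ Y, bS σ Y]))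
      fun σ _ Y => by linarith [(abs_le.1 (hpt σ Y)).1]
  rw [hspin] at hup hdown
  obtain ⟨h1, h2⟩ := abs_le.1 h
  rw [abs_le]
  constructor <;> linarith

end approx

/-- At the critical coupling the free Ising state is a factor of IID, given the energy bound. -/
theorem endpoint_of_energy (hE : EnergyStmt) (d : ℕ) (hd3 : 3 ≤ d) (V : Type) (G : SimpleGraph V)
    (hG : G.IsTree) (hd : Regular G d) :
    ∃ μ : Measure (V → Bool), IsFreeIsing G (Real.sqrt ((d : ℝ) - 1))⁻¹ μ ∧ IsFactorOfIID G μ := by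
  obtain ⟨η, hη, hη4, hex⟩ := exists_scheme hE d hd3
  have hη2 : η ≤ 2 := hη4.trans (by
    rw [div_le_iff₀ (by positivity)]
    have : (3 : ℝ) ≤ d := by exact_mod_cast hd3
    linarith)
  choose S R r R₁ hS using hex V G hG hd
  have := countable_of_tree G hG hd hd3
  refine exists_factor_of_approx hG hd hd3
    ⟨by positivity, inv_lt_one_of_one_lt₀ (sqrt_deg_facts hd3).1⟩
    (fun n v U => approxX S R r hG hd hd3 n v U)
    (fun n v => measurable_Hb _ _ _ v fun j i => measurable_pnz G _ j i)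
    (fun n v U => abs_Hb_le _ _ _ _ _) ?_ (fun n => 14 * epsE n) ?_ ?_ ?_
  · intro g n v U
    have hp : pnz G (S n).k (fun w => U (g.symm w)) =
        fun j i => pnz G (S n).k U j (g.symm i.1, g.symm i.2) := by
      funext j i
      have h := pnz_map G g (S n).k U j (g.symm i.1) (g.symm i.2)
      simpa using h
    simp only [approxX, hp]
    exact Hb_map hG hd hd3 g (S n) (R n) (r n) v _
  · exact (summable_geometric_of_lt_one (by norm_num) (by norm_num)).mul_left 14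
  · exact fun n v => approxX_step hS hη.le hη2 n v
  · intro D₀ hD₀ hne
    refine ⟨(16 * (D₀.card : ℝ) + 2) / 14, fun f hfc hfd hf2 hfL n => ?_⟩
    refine (approxX_law hS hη.le hη2 D₀ hD₀ hne f hfc hfd hf2 hfL n).trans_eq ?_
    ring

/-- At the critical coupling the free Ising state is a factor of IID. -/
theorem endpoint (d : ℕ) (hd3 : 3 ≤ d) (V : Type) (G : SimpleGraph V) (hG : G.IsTree)
    (hd : Regular G d) :
    ∃ μ : Measure (V → Bool), IsFreeIsing G (Real.sqrt ((d : ℝ) - 1))⁻¹ μ ∧ IsFactorOfIID G μ :=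
  endpoint_of_energy energyStmt d hd3 V G hG hd

end

end Vale.Agent.P161.Edge
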