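import Vale.Agent.P161.Edge.EnergyStep

/-!
The expected squared row at the root is at most a multiple of `s ^ (-3/4)`, uniformly below the
critical coupling.
-/

namespace Vale.Agent.P161.Edge

open MeasureTheory ProbabilityTheory Finset Function Real
open scoped NNReal Classical

noncomputable section

variable {V : Type} {G : SimpleGraph V} {d : ℕ} {P : Prm} {D : Finset V}

lemma sMax_exp (d : ℕ) {η : ℝ} (X : ℝ) : sMax d η (exp (-X)) = 4 * d / η * exp X := by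
  rw [sMax, exp_neg, ← div_eq_mul_inv, div_div_eq_mul_div, mul_div_right_comm]

lemma opMax_exp (d : ℕ) {η : ℝ} (X : ℝ) :
    opMax d η (exp (-X)) = 256 * d / η ^ 2 * exp (2 * X) := by
  rw [opMax, exp_neg, show exp (2 * X) = exp X ^ 2 by rw [← exp_nat_mul]; norm_num]
  field_simp
  ring

lemma radS_exp_le (d : ℕ) {η : ℝ} (hη : 0 < η) (X : ℝ) :
    (radS d η (exp (-X)) : ℝ) ≤ 192 * kap d η * (256 * d / η ^ 2) / η * exp (3 * X) + 1 := by
  have e : exp (3 * X) = exp (2 * X) * exp X := by rw [← exp_add]; ring_nf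
  have hk : 0 ≤ kap d η := by unfold kap; positivity
  refine ((Nat.ceil_lt_add_one ?_).le).trans_eq ?_
  · rw [opMax_exp]
    positivity
  · rw [opMax_exp, e, exp_neg]
    field_simp
    ring

lemma window_sq_le {s h : ℝ} {X K : ℝ} {k₀ : ℕ} (hh : 0 < h) (hs : 0 < s) (hs1 : s ≤ 1)
    (hX : X = log (1 / s)) {a i : ℕ} (ha : 1 ≤ a) (has : s ≤ (a : ℝ) * h) (hi : (i : ℝ) * h ≤ 1) :
    ∑ k ∈ Ico a i, h * (K * ((k₀ : ℝ) + 1 / sqrt (k * h))) ^ 2 ≤
      2 * K ^ 2 * ((k₀ : ℝ) ^ 2 + (1 + X)) := by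
  have hk : ∀ k ∈ Ico a i, s ≤ (k : ℝ) * h ∧ (k : ℝ) * h ≤ 1 := fun k hk =>
    ⟨has.trans (mul_le_mul_of_nonneg_right (by exact_mod_cast (mem_Ico.1 hk).1) hh.le),
      (mul_le_mul_of_nonneg_right (by exact_mod_cast (mem_Ico.1 hk).2.le) hh.le).trans hi⟩
  have hcard : ((Ico a i).card : ℝ) * h ≤ 1 := card_window hh fun k hk' =>
    ⟨ha.trans (mem_Ico.1 hk').1, (hk k hk').2⟩
  calc _ ≤ ∑ k ∈ Ico a i, 2 * K ^ 2 * ((k₀ : ℝ) ^ 2 * h + 1 / k) := by
        refine Finset.sum_le_sum fun k hk' => ?_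
        have hpos : 0 < (k : ℝ) * h := hs.trans_le (hk k hk').1
        have h2 : (1 / sqrt ((k : ℝ) * h)) ^ 2 * h = 1 / k := by
          rw [div_pow, one_pow, sq_sqrt hpos.le]
          field_simp
        rw [← h2]
        nlinarith [mul_nonneg (mul_nonneg (sq_nonneg K) hh.le)
          (sq_nonneg ((k₀ : ℝ) - 1 / sqrt ((k : ℝ) * h)))]
    _ = 2 * K ^ 2 * ((k₀ : ℝ) ^ 2 * (((Ico a i).card : ℝ) * h) + ∑ k ∈ Ico a i, 1 / (k : ℝ)) := by
        rw [← Finset.mul_sum, Finset.sum_add_distrib, Finset.sum_const, nsmul_eq_mul]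
        ring
    _ ≤ _ := by
        refine mul_le_mul_of_nonneg_left (add_le_add
          (mul_le_of_le_one_right (sq_nonneg _) hcard) ?_) (by positivity)
        rw [hX]
        exact sum_inv_window hh hs hs1 hk

lemma exponent_le {C1 ε₀ K δ t₁ t₀ s X T Λ : ℝ} {n₂ : ℕ} (hC : 0 ≤ C1) (hε : 0 ≤ ε₀)
    (hεC : C1 * (9 * K ^ 2 * ε₀) ≤ 1 / 16) (hδ0 : 0 ≤ δ) (hδ1 : δ ≤ 1)
    (hδC : C1 * K ^ 2 * δ ≤ 1 / 256) (hX : 0 < X) (hs : 0 < s) (hsX : X = log (1 / s))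
    (ht₁ : t₁ = (X ^ 8)⁻¹) (ht₁1 : t₁ ≤ 1) (ht₀ : 0 < t₀) (ht₀1 : t₀ ≤ 1)
    (hlog : log X ≤ δ * X) (hn : (n₂ : ℝ) ≤ δ * sqrt X + 1) :
    C1 * (9 * K ^ 2 * ε₀ * (1 + log (t₁ / s)) +
        2 * K ^ 2 * ((n₂ : ℝ) ^ 2 + (1 + log (t₀ / t₁))) + Λ * T) ≤
      (1 / 16 + 6 * C1 * K ^ 2 + C1 * Λ * T) + X / 4 := by
  have ht : 0 < t₁ := by rw [ht₁]; positivity
  have h1 : log (t₁ / s) ≤ X := by
    rw [hsX]
    exact log_le_log (by positivity) (div_le_div_of_nonneg_right ht₁1 hs.le)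
  have h2 : log (t₀ / t₁) ≤ 8 * (δ * X) := by
    have : log (t₀ / t₁) ≤ log (X ^ 8) := log_le_log (by positivity) (by
      rw [ht₁, div_inv_eq_mul]
      exact mul_le_of_le_one_left (by positivity) ht₀1)
    rw [log_pow] at this
    push_cast at this
    linarith
  have h3 : (n₂ : ℝ) ^ 2 ≤ 2 * (δ * X) + 2 := by
    have a : (n₂ : ℝ) ^ 2 ≤ (δ * sqrt X + 1) ^ 2 := pow_le_pow_left₀ (Nat.cast_nonneg _) hn 2
    have b : (δ * sqrt X) ^ 2 ≤ δ * X := by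
      rw [mul_pow, sq_sqrt hX.le]
      exact mul_le_mul_of_nonneg_right (by nlinarith) hX.le
    nlinarith [sq_nonneg (δ * sqrt X - 1)]
  have q1 : C1 * (9 * K ^ 2 * ε₀) * (1 + log (t₁ / s)) ≤ 1 / 16 * (1 + X) :=
    le_trans (mul_le_mul_of_nonneg_left (by linarith) (by positivity))
      (mul_le_mul_of_nonneg_right hεC (by linarith))
  have q2 : C1 * K ^ 2 * ((n₂ : ℝ) ^ 2 + (1 + log (t₀ / t₁))) ≤
      10 * (1 / 256) * X + 3 * (C1 * K ^ 2) := by
    calc _ ≤ C1 * K ^ 2 * (10 * (δ * X) + 3) :=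
          mul_le_mul_of_nonneg_left (by linarith) (by positivity)
      _ = 10 * (C1 * K ^ 2 * δ) * X + 3 * (C1 * K ^ 2) := by ring
      _ ≤ _ := by nlinarith
  linarith

/-- The rate of growth of the column. -/
lemma col_growth {η K C1 ε₀ t₁ t₀ s X Λ c₀ A b : ℝ} {T : ℝ} {n₂ j₀ j : ℕ} {h : ℝ} {a : ℕ → ℝ}
    (hh : 0 < h) (hC : 0 ≤ C1) (hε : 0 ≤ ε₀) (hΛ : 0 ≤ Λ) (hb : 0 ≤ b) (hη : η = X / 4)
    (hs : 0 < s) (hst : s ≤ t₁) (htt : t₁ ≤ t₀) (ht₀1 : t₀ ≤ 1)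
    (has : s ≤ ((j₀ + 1 : ℕ) : ℝ) * h) (hj : j₀ < j) (hjT : (j : ℝ) * h ≤ T)
    (hexp : C1 * (9 * K ^ 2 * ε₀ * (1 + log (t₁ / s)) +
        2 * K ^ 2 * ((n₂ : ℝ) ^ 2 + (1 + log (t₀ / t₁))) + Λ * T) ≤ c₀ + η)
    (ha0 : 0 ≤ a (j₀ + 1)) (hA : a (j₀ + 1) ≤ A)
    (hrec : ∀ i, j₀ + 1 ≤ i → i < j → a (i + 1) ≤
      (1 + h * C1 * rateL (9 * K ^ 2 * ε₀) K t₁ t₀ n₂ Λ (i * h)) * a i + h * b) :
    a j ≤ exp (c₀ + X / 4) * (A + T * b) := by
  set x := fun i : ℕ => h * C1 * rateL (9 * K ^ 2 * ε₀) K t₁ t₀ n₂ Λ (i * h)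
  have hx : ∀ i, 0 ≤ x i := fun i =>
    mul_nonneg (mul_nonneg hh.le hC) (rateL_nonneg (by positivity) hΛ (by positivity))
  refine (gronwall (x := x) (b := fun _ => h * b) (fun _ => mul_nonneg hh.le hb) hx ha0 j hj
    hrec).trans ?_
  refine mul_le_mul (exp_le_exp.2 ?_) (add_le_add hA ?_)
    (add_nonneg ha0 (Finset.sum_nonneg fun _ _ => mul_nonneg hh.le hb)) (exp_pos _).le
  · subst hη
    refine le_trans ?_ hexp
    calc ∑ i ∈ Ico (j₀ + 1) j, x i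
        = C1 * ∑ i ∈ Ico (j₀ + 1) j, h * rateL (9 * K ^ 2 * ε₀) K t₁ t₀ n₂ Λ (i * h) := by
          rw [Finset.mul_sum]
          exact Finset.sum_congr rfl fun i _ => by simp only [x]; ring
      _ ≤ _ := mul_le_mul_of_nonneg_left (sum_rateL_le (by positivity) hΛ hh hs hst htt ht₀1
          (Nat.le_add_left 1 j₀) has hjT) hC
  · rw [Finset.sum_const, nsmul_eq_mul, Nat.card_Ico, ← mul_assoc]
    exact mul_le_mul_of_nonneg_right ((mul_le_mul_of_nonneg_right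
      (by exact_mod_cast Nat.sub_le _ _) hh.le).trans hjT) hb

lemma sqrt_hlev_le {x : ℝ} (hx : 0 ≤ x) :
    ∃ k₀ : ℕ, ∀ k ≥ k₀, x * sqrt (hlev k) ≤ 1 := by
  obtain ⟨k₀, hk₀⟩ := pow_unbounded_of_one_lt ((x + 1) ^ 2) (one_lt_two (α := ℝ))
  refine ⟨k₀, fun k hk => ?_⟩
  have h2 : (x + 1) ^ 2 ≤ (2 : ℝ) ^ k := hk₀.le.trans (pow_le_pow_right₀ one_le_two hk)
  have hh : (hlev k : ℝ) ≤ ((x + 1) ^ 2)⁻¹ := by
    simpa [hlev] using inv_anti₀ (by positivity) h2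
  calc x * sqrt (hlev k) ≤ x * sqrt (((x + 1) ^ 2)⁻¹) :=
        mul_le_mul_of_nonneg_left (sqrt_le_sqrt hh) hx
    _ = x / (x + 1) := by rw [sqrt_inv, sqrt_sq (by linarith), ← div_eq_mul_inv]
    _ ≤ 1 := (div_le_one (by linarith)).2 (by linarith)

/-- The constant in front of the growth of the column. -/
def growC (d : ℕ) (η : ℝ) : ℝ := kap d η * (8 * schurC d)

lemma growC_nonneg (d : ℕ) {η : ℝ} (hη : 0 ≤ η) : 0 ≤ growC d η := by
  have := schurC_nonneg d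
  unfold growC kap
  positivity

/-- What the energy estimate uses about one scheme at a time `exp (-X)`. -/
structure Setup (d : ℕ) (P : Prm) (D : Finset V) (G : SimpleGraph V) (o : V) (K c cM ε₀ tP : ℝ)
    (tM : ℝ) : Prop where
  prob : ∀ i : ℕ, 0 < i → (i : ℝ) * P.h ≤ tP → ∀ v ∈ D,
    E G P D i (fun _ Y => sqSJ G P D Y i v) ≤ K / Real.sqrt (i * P.h) ∧
    (∀ k : ℕ, E G P D i (fun _ Y =>
        if K * (k + 1 / Real.sqrt (i * P.h)) < sqSJ G P D Y i v then 1 else 0) ≤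
      K * Real.exp (-c * ((d : ℝ) - 1) ^ k * (i * P.h)))
  moment : ∀ i : ℕ, 0 < i → (i : ℝ) * P.h ≤ tM → E G P D i (fun _ Y =>
    if ε₀ < pmean G P D Y i o ^ 2 then 1 else 0) ≤ Real.exp (-cM / Real.sqrt (i * P.h))

/-- The excess at the root against the row is at most one. -/
lemma excess_le (hG : G.IsTree) (hd : Regular G d) (hD : Closed G D) {o : V} (ho : o ∈ D)
    {K c cM ε₀ tP tM t₀ t₁ Λ X Kb : ℝ} (hS : Setup d P D G o K c cM ε₀ tP tM)
    (hK : 0 ≤ K) (hc : 0 < c) (hcM : 0 < cM) (hε : 0 ≤ ε₀) (ht₁ : t₁ = (X ^ 8)⁻¹)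
    (hX : 10 ≤ X) (hA : AtTime d P (exp (-X))) (hh : P.h ≠ 0) {n₂ : ℕ}
    (hn₂ : X ^ 12 ≤ ((d : ℝ) - 1) ^ n₂) (ht₀1 : t₀ ≤ 1) (htP : t₀ ≤ tP) (htM : t₀ ≤ tM)
    (hKb : ∀ (k₀ R : ℕ), (k₀ : ℝ) ≤ 12 * X + 1 →
      (R : ℝ) ≤ 192 * kap d P.η * (256 * d / P.η ^ 2) / P.η * exp (3 * X) + 1 → ∀ p q : ℝ,
      p ≤ K * exp (-(min cM c) * exp (7 * X)) → q ≤ (1 + K) * exp (-(min cM c) * X ^ 4) →
      (4 * d / P.η * exp X) ^ 2 * (4 * (256 * d / P.η ^ 2 * exp (2 * X)) ^ 2 *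
          exp (8 * kap d P.η * (2 * K ^ 2 * (((k₀ : ℝ)) ^ 2 + (1 + X)))) *
        (exp (8 * kap d P.η) * q + exp (8 * kap d P.η * (4 * d / P.η * exp X) ^ 2) *
          (4 * d / P.η * exp X) ^ 2 * ((d : ℝ) ^ (R + 2) * p))) ≤ Kb)
    {j₀ i : ℕ} (hi : j₀ < i) (hs : exp (-X) ≤ ((j₀ : ℝ) + 1) * P.h) (hit : (i : ℝ) * P.h ≤ t₀) :
    sMax d P.η (exp (-X)) ^ 2 * E G P D i (fun _ Y =>
      (if rateL (9 * K ^ 2 * ε₀) K t₁ t₀ n₂ Λ (i * P.h) < wgt G P D Y i o then (1:ℝ) else 0) *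
        rowY G P D Y j₀ i o) ≤ Kb := by
  have hd3 := hA.reg.deg
  have hd0 : (3 : ℝ) ≤ d := by exact_mod_cast hd3
  set k₀ := ⌈12 * X⌉₊
  have hi1 : (i : ℝ) * P.h ≤ 1 := hit.trans ht₀1
  have hpos : ∀ k : ℕ, j₀ < k → exp (-X) ≤ (k : ℝ) * P.h := fun k hk =>
    hs.trans (mul_le_mul_of_nonneg_right (by exact_mod_cast hk) P.h.coe_nonneg)
  set W := rateL (9 * K ^ 2 * ε₀) K t₁ t₀ n₂ Λ (i * P.h)
  set χ := fun Y => (if W < wgt G P D Y i o then (1:ℝ) else 0)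
  have hχm : MeasY (fun _ Y => χ Y) := fun S β _ Y hY => Measurable.ite
    (measurableSet_lt measurable_const (measurable_wgt hY i o)) measurable_const measurable_const
  set p := K * exp (-(min cM c) * exp (7 * X))
  have hp : ∀ k, j₀ < k → k < i → ∀ v ∈ D, G.dist o v ≤ radS d P.η (exp (-X)) →
      E G P D k (fun _ Y =>
        if K * ((k₀ : ℝ) + 1 / sqrt (k * P.h)) < sqSJ G P D Y k v then (1:ℝ) else 0) ≤ p := by
    intro k hk hki v hv _
    have hkt : (k : ℝ) * P.h ≤ tP :=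
      ((mul_le_mul_of_nonneg_right (by exact_mod_cast hki.le) P.h.coe_nonneg).trans hit).trans htP
    refine ((hS.prob k (by omega) hkt v hv).2 k₀).trans
      (mul_le_mul_of_nonneg_left (exp_le_exp.2 ?_) hK)
    rw [neg_mul, neg_mul, neg_mul, neg_le_neg_iff, mul_assoc]
    refine mul_le_mul (min_le_right _ _) ?_ (exp_pos _).le hc.le
    calc exp (7 * X) = exp (8 * X) * exp (-X) := by rw [← exp_add]; ring_nf
      _ ≤ ((d : ℝ) - 1) ^ k₀ * ((k : ℝ) * P.h) := by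
          refine mul_le_mul ?_ (hpos k hk) (exp_pos _).le (pow_nonneg (by linarith) _)
          refine le_trans (exp_le_exp.2 ?_)
            (exp_log_two_le_pow (by linarith) (Nat.le_ceil (12 * X)))
          nlinarith [Real.log_two_gt_d9]
  have hq : E G P D i (fun _ Y => χ Y) ≤ (1 + K) * exp (-(min cM c) * X ^ 4) := by
    have hi0 : 0 < i := by omega
    exact exc_prob hK hc hε hcM hd3 ((exp_pos _).trans_le (hpos i hi)) hit ht₁ hX rfl hn₂
      (hS.prob i hi0 (hit.trans htP) o ho).2 (fun _ => hS.moment i hi0 (hit.trans htM))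
      (fun Y => (sqSJ_bounds treeStmt hG hd hA.reg hD Y i ho).1)
      (fun Y => pmean_sq_le_one hA.reg Y i o)
  refine le_trans ?_ (hKb k₀ (radS d P.η (exp (-X))) (Nat.ceil_lt_add_one (by linarith)).le
    (radS_exp_le d hA.etaPos X) p (E G P D i (fun _ Y => χ Y)) le_rfl hq)
  rw [← sMax_exp, ← opMax_exp]
  refine mul_le_mul_of_nonneg_left ((ind_row_le hG hd hD ⟨o, ho⟩ ho hA hh hi hs hi1 χ hχm
    (fun Y => by simp only [χ]; split_ifs <;> norm_num)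
    (fun k => K * ((k₀ : ℝ) + 1 / sqrt (k * P.h))) hp (mul_nonneg hK (exp_pos _).le)).trans ?_)
    (sq_nonneg _)
  have hκ : 0 ≤ kap d P.η := by have := hA.etaPos; unfold kap; positivity
  refine mul_le_mul_of_nonneg_right (mul_le_mul_of_nonneg_left (exp_le_exp.2
    (mul_le_mul_of_nonneg_left ?_ (by positivity))) (by positivity)) ?_
  · exact window_sq_le (lt_of_le_of_ne P.h.coe_nonneg (by exact_mod_cast hh.symm)) (exp_pos _)
      hA.le_one (by rw [one_div, ← exp_neg, neg_neg, log_exp]) (Nat.le_add_left 1 j₀)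
      (by exact_mod_cast hs) hi1
  · refine add_nonneg (mul_nonneg (exp_pos _).le (E_nonneg fun S _ Y => ?_)) (by positivity)
    simp only [χ]; split_ifs <;> norm_num

/-- The averaged squared response of the root at small times. -/
theorem energy_small (hG : G.IsTree) (hd : Regular G d) (hD : Closed G D) {o : V} (ho : o ∈ D)
    {K c cM ε₀ tP tM t₀ δ X Kb : ℝ} (hS : Setup d P D G o K c cM ε₀ tP tM)
    (hK : 0 ≤ K) (hc : 0 < c) (hcM : 0 < cM) (hε : 0 ≤ ε₀)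
    (hεC : growC d P.η * (9 * K ^ 2 * ε₀) ≤ 1 / 16) (hδ0 : 0 < δ) (hδ1 : δ ≤ 1)
    (hδC : growC d P.η * K ^ 2 * δ ≤ 1 / 256)
    (hX : 10 ≤ X) (hA : AtTime d P (exp (-X))) (hA₀ : AtTime d P t₀) (hh1 : (P.h : ℝ) ≤ 1)
    (hh : P.h ≠ 0) (hpow : X ^ 12 ≤ exp (δ * log 2 * sqrt X)) (hlog : log X ≤ δ * X)
    (hX8 : X ^ 8 ≤ exp X) (ht₀X : 1 / t₀ ≤ X ^ 8) (htP : t₀ ≤ tP) (htM : t₀ ≤ tM)
    (hKb : ∀ (k₀ R : ℕ), (k₀ : ℝ) ≤ 12 * X + 1 →
      (R : ℝ) ≤ 192 * kap d P.η * (256 * d / P.η ^ 2) / P.η * exp (3 * X) + 1 → ∀ p q : ℝ,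
      p ≤ K * exp (-(min cM c) * exp (7 * X)) → q ≤ (1 + K) * exp (-(min cM c) * X ^ 4) →
      (4 * d / P.η * exp X) ^ 2 * (4 * (256 * d / P.η ^ 2 * exp (2 * X)) ^ 2 *
          exp (8 * kap d P.η * (2 * K ^ 2 * (((k₀ : ℝ)) ^ 2 + (1 + X)))) *
        (exp (8 * kap d P.η) * q + exp (8 * kap d P.η * (4 * d / P.η * exp X) ^ 2) *
          (4 * d / P.η * exp X) ^ 2 * ((d : ℝ) ^ (R + 2) * p))) ≤ Kb) (hKb0 : 0 ≤ Kb)
    {T A Kg ε : ℝ} (hT : 0 ≤ T) {j₀ j : ℕ} (hj : j₀ < j)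
    (hs : ((j₀ : ℝ) + 1) * P.h = exp (-X)) (hjT : (j : ℝ) * P.h ≤ T)
    (hpowA : ∀ i, i ≤ j → (1 + P.h * (kap d P.η * D.card)) ^ i ≤ A)
    (hstep : ∀ i, ∀ (ψ φ W : Cfg D → ℝ), (∀ S, |φ S| ≤ 1) → (∀ S, |W S| ≤ A) →
      Gen.stepE (feat G P.η P.N₁ D) P.h i ψ (fun ψ' =>
          Gen.cov ψ' φ (Gen.propStep (feat G P.η P.N₁ D) P.h i ψ W) ^ 2) ≤
        Gen.cov ψ φ W ^ 2 + P.h * ∑ l, Gen.cum3 ψ φ W (feat G P.η P.N₁ D i l) ^ 2 +
          Kg * P.h * Real.sqrt P.h)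
    (hsmall : (D.card : ℝ) * Kg * sqrt P.h ≤ 1)
    (hsym1 : |E G P D j (fun _ Y => ∑ c ∈ D, resp G P D Y j₀ j c o ^ 2) -
        E G P D j (fun _ Y => ∑ c ∈ D, resp G P D Y j₀ j o c ^ 2)| ≤ ε)
    (hsym2 : ∀ i, j₀ < i → i < j → ∀ L : ℝ, 0 ≤ L → |E G P D i (fun _ Y => ∑ c ∈ D,
          max (pmean G P D Y i c ^ 2 * sqSJ G P D Y i c ^ 2 - L) 0 * resp G P D Y j₀ i c o ^ 2) -
        E G P D i (fun _ Y => max (pmean G P D Y i o ^ 2 * sqSJ G P D Y i o ^ 2 - L) 0 *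
          ∑ c ∈ D, resp G P D Y j₀ i o c ^ 2)| ≤ 1) :
    E G P D j (fun _ Y => ∑ z ∈ D, resp G P D Y j₀ j o z ^ 2) ≤
      exp (1 / 16 + 6 * growC d P.η * K ^ 2 + growC d P.η * sMax d P.η t₀ ^ 2 * T) *
          (K + T * (growC d P.η * (Kb + 1) + 1)) * exp (3 / 4 * X) + ε := by
  set C1 := growC d P.η
  have hC1 : 0 ≤ C1 := growC_nonneg d hA.etaPos.le
  set Λ := sMax d P.η t₀ ^ 2
  set t₁ := (X ^ 8)⁻¹ with ht₁
  set n₂ := ⌈δ * sqrt X⌉₊
  have hX0 : 0 < X := by linarith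
  have ht₁t₀ : t₁ ≤ t₀ := by
    rw [ht₁, inv_le_comm₀ (by positivity) hA₀.pos, ← one_div]
    exact ht₀X
  have hst : exp (-X) ≤ t₁ := by rw [ht₁, exp_neg]; exact inv_anti₀ (by positivity) hX8
  have hh0 : 0 < (P.h : ℝ) := lt_of_le_of_ne P.h.coe_nonneg (by exact_mod_cast hh.symm)
  have hd0 : (3 : ℝ) ≤ d := by exact_mod_cast hA.reg.deg
  have hn₂ : X ^ 12 ≤ ((d : ℝ) - 1) ^ n₂ := by
    refine hpow.trans (le_trans (le_of_eq ?_)
      (exp_log_two_le_pow (by linarith) (Nat.le_ceil (δ * sqrt X))))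
    ring_nf
  have hBr : Bridge G P D := bridge_of_model modelStmt hG hA.reg.deg hd hA.reg.nonneg
    hA.reg.lt_one hh hA.etaPos.le hA.reg.tau hD
  set a := fun i : ℕ => E G P D i (fun _ Y => colY G P D Y j₀ i o) with hadef
  have ha0 : ∀ i, 0 ≤ a i := fun i => E_nonneg fun S _ Y =>
    Finset.sum_nonneg fun x _ => sq_nonneg _
  have hstart : a (j₀ + 1) ≤ K * exp (X / 2) := by
    have e : ((j₀ + 1 : ℕ) : ℝ) * P.h = exp (-X) := by exact_mod_cast hs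
    have htP' : ((j₀ + 1 : ℕ) : ℝ) * P.h ≤ tP := e ▸ (hst.trans (ht₁t₀.trans htP))
    have hb := (hS.prob (j₀ + 1) (by omega) htP' o ho).1
    rw [e, ← exp_half, neg_div, exp_neg, div_inv_eq_mul] at hb
    refine le_trans ?_ hb
    exact E_mono (fun S β _ Y hY => Finset.measurable_sum _ fun x _ =>
        (measurable_resp P D hY j₀ (j₀ + 1) x o).pow_const 2)
      (fun S β _ Y hY => measurable_sqSJ P D hY (j₀ + 1) o)
      (fun _ Y => abs_colY_le hG hd hA.reg hD Y j₀ (j₀ + 1) o) (B' := D.card)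
      (fun _ Y => by
        rw [abs_of_nonneg (sqSJ_bounds treeStmt hG hd hA.reg hD Y _ ho).1]
        exact (sqSJ_bounds treeStmt hG hd hA.reg hD Y _ ho).2)
      fun _ _ Y => colY_start_le hG hd hA.reg hD Y j₀ ho
  have hrec : ∀ i, j₀ + 1 ≤ i → i < j → a (i + 1) ≤
      (1 + P.h * C1 * rateL (9 * K ^ 2 * ε₀) K t₁ t₀ n₂ Λ (i * P.h)) * a i +
        P.h * (C1 * (Kb + 1) + 1) := by
    intro i hi hij
    have hi' : j₀ < i := hi
    have hti : exp (-X) ≤ (i : ℝ) * P.h :=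
      hs.ge.trans (mul_le_mul_of_nonneg_right (by exact_mod_cast hi) hh0.le)
    set L := rateL (9 * K ^ 2 * ε₀) K t₁ t₀ n₂ Λ (i * P.h) with hL
    have hL0 : 0 ≤ L := rateL_nonneg (by positivity) (sq_nonneg _) (by positivity)
    set Q := E G P D i (fun _ Y =>
      (if L < wgt G P D Y i o then (1:ℝ) else 0) * rowY G P D Y j₀ i o) with hQ
    have hwen : E G P D i (fun _ Y => wenY G P D Y j₀ i o) ≤ L * a i + (Kb + 1) := by
      have := wen_le hG hd hA.reg hD ho (j₀ := j₀) hL0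
        (fun Y => sqSJ_le_sMax hG hd hD hA Y hti ho) (hsym2 i hi' hij L hL0)
      refine this.trans ?_
      have : sMax d P.η (exp (-X)) ^ 2 * Q ≤ Kb := by
        by_cases hit : (i : ℝ) * P.h ≤ t₀
        · exact excess_le hG hd hD ho hS hK hc hcM hε rfl hX hA hh hn₂ hA₀.le_one htP htM hKb hi'
            hs.ge hit
        · have : Q = 0 := by
            refine excess_zero hG hd hA.reg hD ho
              (fun Y => sqSJ_le_sMax hG hd hD hA₀ Y (not_le.1 hit).le ho) ?_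
            rw [hL, rateL, if_neg (fun h => hit (h.trans ht₁t₀)), if_neg hit]
          rw [this, mul_zero]
          exact hKb0
      linarith
    refine (col_step treeStmt hG hd hA.reg hD genLawStmt hh hh1 hBr hi' o
      (hpowA i hij.le) (hstep i)).trans ?_
    have h1 : (P.h : ℝ) * C1 * E G P D i (fun _ Y => wenY G P D Y j₀ i o) ≤
        P.h * C1 * (L * a i + (Kb + 1)) :=
      mul_le_mul_of_nonneg_left hwen (by positivity)
    have h2 : (D.card : ℝ) * (Kg * P.h * sqrt P.h) ≤ P.h * 1 := by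
      calc _ = (P.h : ℝ) * ((D.card : ℝ) * Kg * sqrt P.h) := by ring
        _ ≤ _ := mul_le_mul_of_nonneg_left hsmall hh0.le
    simp only [C1, growC, hadef] at h1 ⊢
    linarith
  have hcol : a j ≤ exp (1 / 16 + 6 * C1 * K ^ 2 + C1 * Λ * T + X / 4) *
      (K * exp (X / 2) + T * (C1 * (Kb + 1) + 1)) :=
    col_growth hh0 hC1 hε (sq_nonneg _) (by positivity) rfl (exp_pos _) hst ht₁t₀ hA₀.le_one
      (by exact_mod_cast hs.ge) hj hjT
      (exponent_le hC1 hε hεC hδ0.le hδ1 hδC hX0 (exp_pos _)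
        (by rw [one_div, ← exp_neg, neg_neg, log_exp]) rfl
        (inv_le_one_of_one_le₀ (one_le_pow₀ (by linarith))) hA₀.pos hA₀.le_one hlog
        (Nat.ceil_lt_add_one (by positivity)).le)
      (ha0 _) hstart hrec
  have hrow := (abs_le.1 hsym1).1
  have hfin : a j ≤ exp (1 / 16 + 6 * C1 * K ^ 2 + C1 * Λ * T) *
      (K + T * (C1 * (Kb + 1) + 1)) * exp (3 / 4 * X) := by
    refine hcol.trans ?_
    rw [exp_add]
    simp only [mul_assoc]
    refine mul_le_mul_of_nonneg_left ?_ (exp_pos _).le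
    have he : 1 ≤ exp (X / 2) := one_le_exp (by linarith)
    calc exp (X / 4) * (K * exp (X / 2) + T * (C1 * (Kb + 1) + 1))
        ≤ exp (X / 4) * ((K + T * (C1 * (Kb + 1) + 1)) * exp (X / 2)) := by
          refine mul_le_mul_of_nonneg_left ?_ (exp_pos _).le
          rw [add_mul]
          exact add_le_add_right (le_mul_of_one_le_right (by positivity) he) _
      _ = _ := by rw [mul_left_comm, ← exp_add]; ring_nf
  simp only [hadef, colY] at hfin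
  linarith

lemma abs_feat_le (P : Prm) (hη : P.η ≤ 1) (i : ℕ) (l : obsIx G D) (S : Cfg D) :
    |feat G P.η P.N₁ D i l S| ≤ 2 := by
  have hc : |coef P.η P.N₁ i l.1| ≤ 1 := by
    unfold coef
    split_ifs
    · norm_num
    · rw [abs_of_nonneg (Real.sqrt_nonneg _)]
      exact Real.sqrt_le_one.2 (by linarith)
    · norm_num
  rw [feat, abs_mul]
  refine (mul_le_mul hc ((abs_add_le _ _).trans_eq (by rw [abs_spin, abs_spin]; norm_num))
    (abs_nonneg _) zero_le_one).trans_eq (one_mul _)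

/-- The energy estimate. -/
theorem energy (hP : ProbStmt) (hM : MomentStmt) (hSym : SymStmt) : EnergyStmt := by
  intro d hd3
  obtain ⟨ηP, hηP, HP⟩ := hP d hd3
  obtain ⟨ηM, hηM, HM⟩ := hM d hd3
  obtain ⟨ηS, hηS, HS⟩ := hSym d hd3
  refine ⟨min (min ηP ηM) (min ηS (1 / (4 * d))),
    lt_min (lt_min hηP hηM) (lt_min hηS (by positivity)), fun η hη hη0 T => ?_⟩
  have hd0 : (3 : ℝ) ≤ d := by exact_mod_cast hd3
  have hη4 : η ≤ 1 / (4 * d) := hη0.trans ((min_le_right _ _).trans (min_le_right _ _))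
  obtain ⟨Kp, c, tP, hKp, hc, htP, htP1, HP⟩ :=
    HP η hη (hη0.trans ((min_le_left _ _).trans (min_le_left _ _)))
  set C1 := growC d η
  have hC1 : 0 ≤ C1 := growC_nonneg d hη.le
  set ε₀ := 1 / (16 * (9 * Kp ^ 2 * C1 + 1)) with hε₀
  have hε₀0 : 0 < ε₀ := by positivity
  have hεC : C1 * (9 * Kp ^ 2 * ε₀) ≤ 1 / 16 := by
    have h0 : 0 ≤ 9 * Kp ^ 2 * C1 := by positivity
    rw [hε₀, show C1 * (9 * Kp ^ 2 * (1 / (16 * (9 * Kp ^ 2 * C1 + 1)))) =
      (9 * Kp ^ 2 * C1) / (16 * (9 * Kp ^ 2 * C1 + 1)) by ring,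
      div_le_div_iff₀ (by positivity) (by norm_num)]
    linarith
  obtain ⟨cM, tM, hcM, htM, htM1, HM⟩ :=
    HM η hη (hη0.trans ((min_le_left _ _).trans (min_le_right _ _))) ε₀ hε₀0
  set t₀ := min tP tM
  have ht₀ : 0 < t₀ := lt_min htP htM
  have ht₀1 : t₀ ≤ 1 := (min_le_left _ _).trans htP1
  set δ := 1 / (256 * Kp ^ 2 * C1 + 1) with hδ
  have hδ0 : 0 < δ := by positivity
  have hδ1 : δ ≤ 1 := (div_le_one (by positivity)).2 (le_add_of_nonneg_left (by positivity))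
  have hδC : C1 * Kp ^ 2 * δ ≤ 1 / 256 := by
    rw [hδ, mul_one_div, div_le_div_iff₀ (by positivity) (by norm_num)]
    linarith
  have hκ : 0 ≤ kap d η := by unfold kap; positivity
  obtain ⟨Kb, hKb0, hKb⟩ := bad_small (c := min cM c) (a₁ := 4 * d / η)
    (a₂ := 256 * d / η ^ 2) (c' := min cM c)
    (a₃ := 192 * kap d η * (256 * d / η ^ 2) / η) (dd := d) hκ hKp.le (by linarith)
    (by positivity)
  have hl2 : 0 < log 2 := log_pos one_lt_two
  have hl21 : log 2 ≤ 1 := by linarith [Real.log_two_lt_d9]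
  obtain ⟨X₀, hX₀, hbig⟩ := exists_large (δ := δ * log 2) (c := min cM c) (K := Kb + 1 / t₀)
    (mul_pos hδ0 hl2) (lt_min hcM hc) (by positivity)
  set s₀ := exp (-X₀)
  set Kd := decayK d η s₀ T * (T : ℝ) ^ ((3 : ℝ) / 4)
  set Ks := exp (1 / 16 + 6 * C1 * Kp ^ 2 + C1 * sMax d η t₀ ^ 2 * T) *
    (Kp + T * (C1 * (1 + 1) + 1))
  refine ⟨max Kd Ks, ?_⟩
  intro V G hG hd _ o θ hθ0 hθ1 ε hε
  obtain ⟨R₀, HR⟩ := HS η hη (hη0.trans ((min_le_right _ _).trans (min_le_left _ _))) V G hG hd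
    hd3 o T θ hθ0 hθ1 (min ε 1) (lt_min hε one_pos)
  refine ⟨R₀, fun R hR => ?_⟩
  obtain ⟨kM, HkM⟩ := HM V G hG hd hd3 o R θ hθ0 hθ1
  set D := ballF hG hd hd3 o R
  set A := exp (kap d η * D.card * T)
  obtain ⟨Kg', hKg'⟩ := genStepStmt (obsIx G D).card 2 A 0
  set Kg := max Kg' 0
  obtain ⟨kh, Hkh⟩ := sqrt_hlev_le (x := (D.card : ℝ) * Kg)
    (mul_nonneg (Nat.cast_nonneg _) (le_max_right _ _))
  refine ⟨max kM kh, fun k hk j₀ j hj hjT => ?_⟩
  set P : Prm := ⟨θ, η, hlev k, 2 ^ k⟩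
  have hhp : (0 : ℝ) < hlev k := by simp [hlev]
  have hh : P.h ≠ 0 := fun h => by simp [P, hlev] at h
  have hh1 : (P.h : ℝ) ≤ 1 := by
    simpa [P, hlev] using inv_le_one_of_one_le₀ (one_le_pow₀ (one_le_two (α := ℝ)))
  have hcount : ((T * 2 ^ k : ℕ) : ℝ) * hlev k = T := by
    rw [Nat.cast_mul, mul_assoc, hlev_count, mul_one]
  have hjT' : (j : ℝ) * P.h ≤ T :=
    (mul_le_mul_of_nonneg_right (by exact_mod_cast hjT) hhp.le).trans_eq hcount
  set s := ((j₀ : ℝ) + 1) * P.h with hsdef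
  have hs0 : 0 < s := mul_pos (by positivity) hhp
  have hD : Closed G D := closed_ballF o R
  have ho : o ∈ D := self_mem_ballF o R
  have hrp : 0 ≤ s ^ (-(3 : ℝ) / 4) := rpow_nonneg hs0.le _
  by_cases hcase : s₀ ≤ s
  · have hle : ∀ Y, ∑ z ∈ D, resp G P D Y j₀ j o z ^ 2 ≤ decayK d η s₀ T := fun Y => by
      have := resp_decay hG hd hd3 hη hη4 (exp_pos (-X₀)) T o θ hθ0 hθ1.le D k 0 j₀ j Y hD ho
        hcase hj hjT
      rw [Finset.filter_true_of_mem fun z _ => Nat.zero_le _, Nat.cast_zero, mul_zero, exp_zero,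
        mul_one] at this
      exact this
    have hnn : ∀ Y, 0 ≤ ∑ z ∈ D, resp G P D Y j₀ j o z ^ 2 := fun Y =>
      Finset.sum_nonneg fun z _ => sq_nonneg _
    have hd0' : 0 ≤ decayK d η s₀ T := sq_nonneg _
    refine le_trans (E_mono (fun S β _ Y hY => Finset.measurable_sum _ fun z _ =>
        (measurable_resp P D hY j₀ j o z).pow_const 2) (fun S β _ Y hY => measurable_const)
      (fun _ Y => (abs_of_nonneg (hnn Y)).trans_le (hle Y)) (fun _ _ => (abs_of_nonneg hd0').le)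
      fun _ _ Y => hle Y) ?_
    rw [E_const]
    have hsT : s ≤ T := le_trans (mul_le_mul_of_nonneg_right (by exact_mod_cast hj) hhp.le) hjT'
    have hT0 : (0 : ℝ) < T := hs0.trans_le hsT
    calc decayK d η s₀ T = Kd * (T : ℝ) ^ (-(3 : ℝ) / 4) := by
          simp only [Kd]
          rw [mul_assoc, ← rpow_add hT0]
          norm_num
      _ ≤ (max Kd Ks + ε) * s ^ (-(3 : ℝ) / 4) := by
          refine mul_le_mul ((le_max_left _ _).trans (le_add_of_nonneg_right hε.le))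
            (rpow_le_rpow_of_nonpos hs0 hsT (by norm_num)) (rpow_nonneg hT0.le _) ?_
          exact add_nonneg (le_trans (mul_nonneg hd0' (rpow_nonneg hT0.le _)) (le_max_left _ _))
            hε.le
  · set X := log (1 / s) with hXdef
    have hexp : exp (-X) = s := by
      rw [hXdef, one_div, log_inv, neg_neg, exp_log hs0]
    have hXX : X₀ ≤ X := by
      have : exp (-X) ≤ exp (-X₀) := hexp.le.trans (not_le.1 hcase).le
      linarith [exp_le_exp.1 this]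
    obtain ⟨b1, b2, b3, b4, b5, b6⟩ := hbig X hXX
    have hX10 : 10 ≤ X := hX₀.trans hXX
    have hreg := reg_of hd3 hη.le hη4 hθ0 hθ1.le k
    obtain ⟨hs1, -⟩ := sqrt_deg_facts hd3
    have hcrit : Real.sqrt ((d : ℝ) - 1) * θ ≤ 1 := by
      have := mul_le_mul_of_nonneg_left hθ1.le (Real.sqrt_nonneg ((d : ℝ) - 1))
      rwa [mul_inv_cancel₀ (by linarith : Real.sqrt ((d : ℝ) - 1) ≠ 0)] at this
    have hηθ : η ≤ θ := by
      refine hη4.trans (le_trans ?_ hθ0)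
      rw [inv_eq_one_div, div_div]
      obtain ⟨-, hsd⟩ := sqrt_deg_facts hd3
      exact one_div_le_one_div_of_le (by positivity) (by linarith)
    have hη1 : η ≤ 1 := hη4.trans ((div_le_one (by positivity)).2 (by linarith))
    have hAT : ∀ u : ℝ, 0 < u → u ≤ 1 → AtTime d P u := fun u hu hu1 =>
      ⟨hreg, hlev_count k, hη, hη1, hηθ, hcrit, hu, hu1⟩
    have hA₁ : AtTime d P (exp (-X)) :=
      hAT _ (exp_pos _) (exp_le_one_iff.2 (by linarith))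
    have hA₀ := hAT t₀ ht₀ ht₀1
    have hKb' := hKb X hX10
      ((mul_le_mul_of_nonneg_right (le_add_of_nonneg_right (by positivity)) (sq_nonneg _)).trans b3)
      ((mul_le_mul_of_nonneg_right (le_add_of_nonneg_right (by positivity)) (exp_pos _).le).trans b4)
    have hsetup : Setup d P D G o Kp c cM ε₀ tP tM :=
      ⟨fun i hi hit => HP V G hG hd hd3 o R P ⟨rfl, hlev_count k, hθ0, hθ1⟩ D rfl i hi hit,
        fun i hi hit => HkM k (le_trans (le_max_left _ _) hk) i hi hit⟩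
    have hmain := energy_small hG hd hD ho hsetup hKp.le hc hcM hε₀0.le hεC hδ0 hδ1 hδC hX10 hA₁
      hA₀ hh1 hh b2 (b5.trans (mul_le_mul_of_nonneg_right (mul_le_of_le_one_right hδ0.le hl21)
        (by linarith))) b6 ((le_add_of_nonneg_left hKb0).trans b1) (min_le_left _ _)
      (min_le_right _ _) hKb' zero_le_one (T := T) (A := A) (Kg := Kg)
      (Nat.cast_nonneg T) hj hexp.symm hjT'
      (fun i hi => (pow_le_pow_left₀ (by positivity) (show 1 + (P.h : ℝ) * (kap d P.η * D.card) ≤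
        exp ((P.h : ℝ) * (kap d P.η * D.card)) by
          linarith [add_one_le_exp ((P.h : ℝ) * (kap d P.η * D.card))]) i).trans (by
          rw [← exp_nat_mul, exp_le_exp, ← mul_assoc, mul_comm _ (T : ℝ)]
          exact mul_le_mul_of_nonneg_right
            ((mul_le_mul_of_nonneg_right (by exact_mod_cast hi) hhp.le).trans hjT')
            (mul_nonneg hκ (Nat.cast_nonneg _))))
      (fun i ψ φ W hφ hW => by
        have : Nonempty (Cfg D) := ⟨⟨∅, Finset.empty_mem_powerset D⟩⟩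
        refine ((hKg' (obsIx G D) (Cfg D) (feat G P.η P.N₁ D) P.h i ψ φ W
          (Fintype.card_coe _).le (fun l S => abs_feat_le P hη1 i l S) hφ hW hh hh1).1).trans ?_
        refine add_le_add_right ?_ _
        exact mul_le_mul_of_nonneg_right
          (mul_le_mul_of_nonneg_right (le_max_left _ _) hhp.le) (Real.sqrt_nonneg _))
      (Hkh k (le_trans (le_max_right _ _) hk))
      ((HR R hR k j₀ j hj hjT).1)
      (fun i hi hij L hL =>
        ((HR R hR k j₀ i hi (hij.le.trans hjT)).2 L hL).trans (min_le_right _ _))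
    refine hmain.trans ?_
    have h34 : s ^ (-(3 : ℝ) / 4) = exp (3 / 4 * X) := by
      rw [rpow_def_of_pos hs0, hXdef, one_div, log_inv]
      ring_nf
    rw [h34, add_mul]
    exact add_le_add (mul_le_mul_of_nonneg_right (le_max_right _ _) (exp_pos _).le)
      ((min_le_left _ _).trans (le_mul_of_one_le_right hε.le (one_le_exp (by linarith))))

end

end Vale.Agent.P161.Edge
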