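import Mathlib.Analysis.SpecialFunctions.Log.Basic
import Mathlib.Analysis.SpecialFunctions.Pow.Real
import Mathlib.Algebra.Order.Field.Basic
import Mathlib.Tactic

/-!
Elementary inequalities for the amplification estimate: a discrete Grönwall inequality, harmonic
sums over windows, and the comparison of growth rates in the logarithm of the time.
-/

namespace Vale.Agent.P161.Edge

open Finset Real

lemma gronwall {a x b : ℕ → ℝ} {m : ℕ} (hb : ∀ i, 0 ≤ b i) (hx : ∀ i, 0 ≤ x i) (ha : 0 ≤ a m) :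
    ∀ n, m ≤ n → (∀ i, m ≤ i → i < n → a (i + 1) ≤ (1 + x i) * a i + b i) →
      a n ≤ exp (∑ i ∈ Ico m n, x i) * (a m + ∑ i ∈ Ico m n, b i) := by
  intro n hn
  induction n, hn using Nat.le_induction with
  | base => intro _; simp
  | succ n hn ih =>
    intro hrec
    rw [Finset.sum_Ico_succ_top hn, Finset.sum_Ico_succ_top hn, exp_add]
    set X := exp (∑ i ∈ Ico m n, x i)
    set B := a m + ∑ i ∈ Ico m n, b i
    have hX : 1 ≤ X := one_le_exp (Finset.sum_nonneg fun i _ => hx i)
    have hB : 0 ≤ B := add_nonneg ha (Finset.sum_nonneg fun i _ => hb i)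
    have he : 1 + x n ≤ exp (x n) := by linarith [add_one_le_exp (x n)]
    have he1 : 1 ≤ exp (x n) := one_le_exp (hx n)
    calc a (n + 1) ≤ (1 + x n) * a n + b n := hrec n hn (Nat.lt_succ_self n)
      _ ≤ exp (x n) * (X * B) + b n := by
          refine add_le_add_left ?_ _
          calc (1 + x n) * a n ≤ (1 + x n) * (X * B) :=
                mul_le_mul_of_nonneg_left (ih fun i a b => hrec i a (by omega))
                  (by linarith [hx n])
            _ ≤ _ := mul_le_mul_of_nonneg_right he (by positivity)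
      _ ≤ X * exp (x n) * B + X * exp (x n) * b n := by
          refine add_le_add (le_of_eq (by ring)) (le_mul_of_one_le_left (hb n) ?_)
          exact one_le_mul_of_one_le_of_one_le hX he1
      _ = _ := by ring

lemma sum_inv_Ico_le {a : ℕ} (ha : 1 ≤ a) : ∀ b, a ≤ b →
    ∑ k ∈ Ico a (b + 1), (1 : ℝ) / k ≤ 1 + log ((b : ℝ) / a) := by
  intro b hb
  induction b, hb using Nat.le_induction with
  | base =>
    have : (1 : ℝ) ≤ a := by exact_mod_cast ha
    rw [Nat.Ico_succ_singleton, Finset.sum_singleton, div_self (by linarith), log_one, add_zero,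
      div_le_one (by linarith)]
    exact this
  | succ b hb ih =>
    rw [Finset.sum_Ico_succ_top (by omega)]
    have ha' : (1 : ℝ) ≤ a := by exact_mod_cast ha
    have hb' : (1 : ℝ) ≤ b := le_trans ha' (by exact_mod_cast hb)
    refine (add_le_add_left ih _).trans ?_
    have h1 : 1 / ((b + 1 : ℕ) : ℝ) ≤ log (((b + 1 : ℕ) : ℝ) / b) := by
      have := Real.one_sub_inv_le_log_of_pos (show 0 < ((b + 1 : ℕ) : ℝ) / b by positivity)
      refine le_trans (le_of_eq ?_) this
      push_cast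
      field_simp
      ring
    have h2 : log (((b + 1 : ℕ) : ℝ) / a) = log ((b : ℝ) / a) + log (((b + 1 : ℕ) : ℝ) / b) := by
      rw [← log_mul (by positivity) (by positivity)]
      congr 1
      field_simp
    rw [h2]
    linarith

/-- A harmonic sum over integers `k` with `lo ≤ k h ≤ hi`. -/
lemma sum_inv_window {S : Finset ℕ} {h lo hi : ℝ} (hh : 0 < h) (hlo : 0 < lo) (hlh : lo ≤ hi)
    (hS : ∀ k ∈ S, lo ≤ k * h ∧ k * h ≤ hi) :
    ∑ k ∈ S, (1 : ℝ) / k ≤ 1 + log (hi / lo) := by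
  rcases S.eq_empty_or_nonempty with rfl | hne
  · simp only [Finset.sum_empty]
    linarith [log_nonneg ((one_le_div hlo).2 hlh)]
  · set a := S.min' hne
    set b := S.max' hne
    obtain ⟨ha1, -⟩ := hS a (S.min'_mem hne)
    obtain ⟨-, hb2⟩ := hS b (S.max'_mem hne)
    have ha : 1 ≤ a := by
      by_contra hc
      have : (a : ℝ) = 0 := by exact_mod_cast (by omega : a = 0)
      rw [this, zero_mul] at ha1
      linarith
    have hab : a ≤ b := S.min'_le _ (S.max'_mem hne)
    refine le_trans (Finset.sum_le_sum_of_subset_of_nonneg (t := Ico a (b + 1)) (fun k hk =>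
      mem_Ico.2 ⟨S.min'_le k hk, Nat.lt_succ_of_le (S.le_max' k hk)⟩) fun k _ _ => by positivity)
      ((sum_inv_Ico_le ha b hab).trans ?_)
    have ha0 : (0 : ℝ) < a := by exact_mod_cast ha
    have hb0 : (0 : ℝ) < b := by exact_mod_cast (lt_of_lt_of_le ha hab)
    refine add_le_add_right (log_le_log (by positivity) ?_) _
    rw [div_le_div_iff₀ ha0 hlo]
    exact le_of_mul_le_mul_right
      (by nlinarith [mul_le_mul_of_nonneg_left ha1 hb0.le, mul_le_mul_of_nonneg_left hb2 ha0.le]) hh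

/-- Comparison of the growth rates. -/
lemma exists_large {δ c K : ℝ} (hδ : 0 < δ) (hc : 0 < c) (hK : 0 ≤ K) :
    ∃ X₀ : ℝ, 10 ≤ X₀ ∧ ∀ X : ℝ, X₀ ≤ X →
      K ≤ X ^ 8 ∧ X ^ 12 ≤ exp (δ * sqrt X) ∧ K * (1 + X) ^ 2 ≤ c * X ^ 4 ∧
        K * exp (4 * X) ≤ c * exp (7 * X) ∧ log X ≤ δ * X ∧ X ^ 8 ≤ exp X := by
  refine ⟨10 + K + (Nat.factorial 26 : ℝ) / δ ^ 26 + 4 * K / c + 4 / δ ^ 2 +
    (Nat.factorial 9 : ℝ), ?_, fun X hX => ?_⟩
  · have : (0 : ℝ) ≤ (Nat.factorial 26 : ℝ) / δ ^ 26 + 4 * K / c + 4 / δ ^ 2 +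
      (Nat.factorial 9 : ℝ) := by positivity
    linarith
  have h0 : 0 ≤ (Nat.factorial 26 : ℝ) / δ ^ 26 := by positivity
  have h1 : 0 ≤ 4 * K / c := by positivity
  have h2 : 0 ≤ 4 / δ ^ 2 := by positivity
  have h3 : (0 : ℝ) ≤ (Nat.factorial 9 : ℝ) := by positivity
  have hX1 : 1 ≤ X := by linarith
  have hX0 : 0 < X := by linarith
  have hsq : sqrt X ^ 2 = X := sq_sqrt hX0.le
  refine ⟨?_, ?_, ?_, ?_, ?_, ?_⟩
  · exact le_trans (by linarith) (le_self_pow₀ hX1 (by norm_num))
  · have hp := pow_div_factorial_le_exp (δ * sqrt X) (by positivity) 26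
    refine le_trans ?_ hp
    rw [le_div_iff₀ (by positivity), mul_pow,
      show sqrt X ^ 26 = X ^ 13 by rw [show (26 : ℕ) = 2 * 13 by norm_num, pow_mul, hsq]]
    have : (Nat.factorial 26 : ℝ) ≤ δ ^ 26 * X := by
      have : (Nat.factorial 26 : ℝ) / δ ^ 26 ≤ X := by linarith
      rwa [div_le_iff₀ (by positivity), mul_comm] at this
    calc X ^ 12 * (Nat.factorial 26 : ℝ) ≤ X ^ 12 * (δ ^ 26 * X) :=
          mul_le_mul_of_nonneg_left this (by positivity)
      _ = _ := by ring
  · have h4 : 4 * K ≤ c * X ^ 2 := by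
      have : 4 * K / c ≤ X := by linarith
      rw [div_le_iff₀ hc] at this
      nlinarith [mul_le_mul_of_nonneg_left hX1 (mul_nonneg hc.le hX0.le)]
    calc K * (1 + X) ^ 2 ≤ K * (4 * X ^ 2) := mul_le_mul_of_nonneg_left (by nlinarith) hK
      _ = 4 * K * X ^ 2 := by ring
      _ ≤ c * X ^ 2 * X ^ 2 := mul_le_mul_of_nonneg_right h4 (sq_nonneg X)
      _ = _ := by ring
  · have h4 : K ≤ c * exp (3 * X) := by
      have : 4 * K / c ≤ X := by linarith
      rw [div_le_iff₀ hc] at this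
      have := mul_le_mul_of_nonneg_left (add_one_le_exp (3 * X)) hc.le
      nlinarith
    calc K * exp (4 * X) ≤ c * exp (3 * X) * exp (4 * X) :=
          mul_le_mul_of_nonneg_right h4 (exp_pos _).le
      _ = _ := by rw [mul_assoc, ← exp_add]; ring_nf
  · have hl : log X ≤ 2 * sqrt X := by
      have := log_le_sub_one_of_pos (sqrt_pos.2 hX0)
      rw [log_sqrt hX0.le] at this
      linarith
    refine hl.trans ?_
    have h4 : 4 ≤ δ ^ 2 * X := by
      have : 4 / δ ^ 2 ≤ X := by linarith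
      rwa [div_le_iff₀ (by positivity), mul_comm] at this
    have h5 : 2 ≤ δ * sqrt X := by
      nlinarith [sqrt_nonneg X, mul_nonneg hδ.le (sqrt_nonneg X)]
    calc 2 * sqrt X ≤ δ * sqrt X * sqrt X := mul_le_mul_of_nonneg_right h5 (sqrt_nonneg X)
      _ = δ * X := by rw [mul_assoc, ← sq, hsq]
  · have h9 : (Nat.factorial 9 : ℝ) ≤ X := le_trans (le_add_of_nonneg_left (by positivity)) hX
    have hp := pow_div_factorial_le_exp X hX0.le 9
    refine le_trans ?_ hp
    rw [le_div_iff₀ (by positivity), pow_succ X 8]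
    exact mul_le_mul_of_nonneg_left h9 (by positivity)

end Vale.Agent.P161.Edge
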