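import Vale.Agent.P161.Edge.Crude
import Vale.Agent.P161.Edge.Rates
import Vale.Agent.P161.Edge.Model
import Vale.Agent.P161.Edge.Tree

/-!
The deterministic bound on the squared sums after time `s`, and the expected squared root row
against the indicator of an exceptional event.
-/

namespace Vale.Agent.P161.Edge

open MeasureTheory ProbabilityTheory Finset Function Real
open scoped NNReal Classical

noncomputable section

variable {V : Type} {G : SimpleGraph V} {d : ℕ} {P : Prm} {D : Finset V}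

/-- A deterministic bound on the squared sums at times at least `s`. -/
def sMax (d : ℕ) (η s : ℝ) : ℝ := 4 * d / (η * s)

/-- A deterministic bound on the covariance operator at times at least `s`. -/
def opMax (d : ℕ) (η s : ℝ) : ℝ := d / (η * s / 16) ^ 2

/-- A radius outside which the covariance operator is negligible at times at least `s`. -/
def radS (d : ℕ) (η s : ℝ) : ℕ := ⌈12 * kap d η * opMax d η s / (η * s / 16)⌉₊

lemma sMax_nonneg (d : ℕ) {η s : ℝ} (hη : 0 ≤ η) (hs : 0 ≤ s) : 0 ≤ sMax d η s := by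
  unfold sMax; positivity

/-- Standing facts about a scheme at a positive time `s ≤ 1`. -/
structure AtTime (d : ℕ) (P : Prm) (s : ℝ) : Prop where
  reg : Reg d P
  count : (P.N₁ : ℝ) * P.h = 1
  etaPos : 0 < P.η
  etaLe : P.η ≤ 1
  etaTheta : P.η ≤ P.θ
  crit : Real.sqrt ((d : ℝ) - 1) * P.θ ≤ 1
  pos : 0 < s
  le_one : s ≤ 1

lemma AtTime.gap {s : ℝ} (hA : AtTime d P s) {i : ℕ} (hi : s ≤ (i : ℝ) * P.h) :
    0 ≤ thetaJ P i ∧ Real.sqrt ((d : ℝ) - 1) * thetaJ P i ≤ 1 - P.η * s / 4 := by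
  obtain ⟨a, -, c⟩ := sqrt_mul_thetaJ_le hA.reg.deg hA.reg.nonneg hA.crit hA.count hA.etaPos.le
    hA.etaTheta i
  have := mul_le_mul_of_nonneg_left (le_tcl hA.count hi hA.le_one) hA.etaPos.le
  exact ⟨a, by linarith [hA.crit]⟩

variable (hG : G.IsTree) (hd : Regular G d) (hD : Closed G D)
include hG hd hD

lemma sqSJ_le_sMax {s : ℝ} (hA : AtTime d P s) (Y : ℕ → V × V → ℝ) {i : ℕ}
    (hi : s ≤ (i : ℝ) * P.h) {c : V} (hc : c ∈ D) :
    sqSJ G P D Y i c ≤ sMax d P.η s := by
  obtain ⟨h0, hgap⟩ := hA.gap hi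
  have hd3 := hA.reg.deg
  set r := Real.sqrt ((d : ℝ) - 1) with hr
  have hb : (0 : ℝ) ≤ (d : ℝ) - 1 := by
    have : (3 : ℝ) ≤ d := by exact_mod_cast hd3
    linarith
  have hηs : 0 < P.η * s := mul_pos hA.etaPos hA.pos
  have hx : ((d : ℝ) - 1) * thetaJ P i ^ 2 ≤ 1 - P.η * s / 4 := by
    have e : ((d : ℝ) - 1) * thetaJ P i ^ 2 = (r * thetaJ P i) ^ 2 := by
      rw [mul_pow, hr, Real.sq_sqrt hb]
    have h1 : 0 ≤ r * thetaJ P i := mul_nonneg (Real.sqrt_nonneg _) h0
    rw [e]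
    nlinarith
  calc sqSJ G P D Y i c ≤ ∑ x ∈ D, (thetaJ P i ^ 2) ^ G.dist c x := by
        refine Finset.sum_le_sum fun x hx' => ?_
        obtain ⟨-, h2, -, h4⟩ := (treeStmt V G d (thetaJ P i) D (tilt G P D Y i) hG hd3 hd
          (hA.reg.par i).2.2.2 hD (Fld.tanh _)).2.1 c hc x hx'
        rw [← pow_mul, mul_comm, pow_mul]
        exact pow_le_pow_left₀ h2 h4 2
    _ ≤ _ := by
        refine (sum_pow_dist_le hG hd hd3 c D (sq_nonneg _) (by linarith) 0
          fun _ _ => Nat.zero_le _).trans ?_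
        rw [pow_zero, mul_one]
        calc (d : ℝ) / (1 - ((d : ℝ) - 1) * thetaJ P i ^ 2) ≤ d / (P.η * s / 4) :=
              div_le_div_of_nonneg_left (Nat.cast_nonneg d) (by linarith) (by linarith)
          _ = _ := by unfold sMax; field_simp

/-- The squared row at times in `[s, 1]` from bounds on the squared sums. -/
lemma row_sq_le {o : V} (ho : o ∈ D) {s : ℝ} (hA : AtTime d P s) (Y : ℕ → V × V → ℝ)
    (L : ℕ → ℝ) {j₀ j : ℕ} (hj : j₀ < j) (hs : s ≤ ((j₀ : ℝ) + 1) * P.h)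
    (hj1 : (j : ℝ) * P.h ≤ 1)
    (hS : ∀ k, j₀ < k → k < j → ∀ c ∈ D, G.dist o c ≤ radS d P.η s → sqSJ G P D Y k c ≤ L k) :
    ∑ z ∈ D, resp G P D Y j₀ j o z ^ 2 ≤
      4 * opMax d P.η s ^ 2 *
        exp (8 * kap d P.η * ∑ k ∈ Ico (j₀ + 1) j, P.h * L k ^ 2) := by
  have hd3 := hA.reg.deg
  set a := P.η * s / 16 with ha
  have ha0 : 0 < a := by rw [ha]; exact div_pos (mul_pos hA.etaPos hA.pos) (by norm_num)
  have ha1 : a ≤ 1 := by
    rw [ha]; nlinarith [mul_le_mul hA.etaLe hA.le_one hA.pos.le zero_le_one]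
  obtain ⟨hs1, -⟩ := sqrt_deg_facts hd3
  set r := Real.sqrt ((d : ℝ) - 1)
  have hr0 : 0 < r := by linarith
  set ϑ := (1 - 4 * a) / r
  set ρ := 1 + a
  have hρ : 1 ≤ ρ := by simp only [ρ]; linarith
  have hρ2 : ρ ≤ 2 := by simp only [ρ]; linarith
  have hϑ1 : ϑ < 1 := by simp only [ϑ]; rw [div_lt_one hr0]; linarith
  have hk : ∀ k, j₀ < k → k ≤ j → thetaJ P k ≤ ϑ := by
    intro k hk _
    have := (hA.gap (i := k) (hs.trans
      (mul_le_mul_of_nonneg_right (by exact_mod_cast hk) P.h.coe_nonneg))).2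
    simp only [ϑ]
    rw [le_div_iff₀ hr0]
    linarith [mul_comm (thetaJ P k) r]
  have e1 : r * (ϑ * ρ) = (1 - 4 * a) * (1 + a) := by simp only [ϑ, ρ]; field_simp
  have hgap : a ≤ 1 - r * (ϑ * ρ) := by rw [e1]; nlinarith
  have hmain := row_crude treeStmt hG hd hA.reg hD Y ho (radS d P.η s) L hρ hϑ1
    (by linarith) hj hk hS
  set Λ₀ := (d : ℝ) / (1 - r * (ϑ * ρ)) ^ 2
  set Λ := opMax d P.η s with hΛ
  have hΛ₀ : 0 ≤ Λ₀ := by positivity
  have hΛle : Λ₀ ≤ Λ := by
    rw [hΛ, opMax, ← ha]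
    exact div_le_div_of_nonneg_left (Nat.cast_nonneg d) (by positivity)
      (pow_le_pow_left₀ ha0.le hgap 2)
  have hκ : 0 < kap d P.η := by have := hA.etaPos; unfold kap; positivity
  set n := j - (j₀ + 1)
  have hn : (n : ℝ) * P.h ≤ 1 :=
    le_trans (mul_le_mul_of_nonneg_right (by exact_mod_cast Nat.sub_le _ _) P.h.coe_nonneg) hj1
  set m := radS d P.η s
  set E := kap d P.η * ρ * Λ
  have hE : 0 ≤ E := mul_nonneg (mul_nonneg hκ.le (by linarith)) (le_trans hΛ₀ hΛle)
  have hcorr : (n : ℝ) * (P.h * (2 * (Λ₀ * (kap d P.η * ρ)) * (ρ ^ m)⁻¹)) *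
      (1 + P.h * (Λ₀ * (kap d P.η * ρ))) ^ n ≤ 1 := by
    have hl : a / 2 ≤ log ρ := by
      have := one_sub_inv_le_log_of_pos (show 0 < ρ by linarith)
      refine le_trans ?_ this
      simp only [ρ]
      rw [div_le_iff₀ two_pos]
      have : (1 - (1 + a)⁻¹) = a / (1 + a) := by field_simp; ring
      rw [this, div_mul_eq_mul_div, le_div_iff₀ (by linarith)]
      nlinarith
    have hρm : exp (3 * E) ≤ ρ ^ m := by
      rw [← exp_log (show 0 < ρ ^ m by positivity), exp_le_exp, log_pow]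
      have h6 : 12 * kap d P.η * Λ / a ≤ m := by rw [hΛ]; exact Nat.le_ceil _
      rw [div_le_iff₀ ha0] at h6
      calc 3 * E = 3 * (kap d P.η * Λ) * ρ := by simp only [E]; ring
        _ ≤ 3 * (kap d P.η * Λ) * 2 := mul_le_mul_of_nonneg_left hρ2
            (mul_nonneg (by norm_num) (mul_nonneg hκ.le (le_trans hΛ₀ hΛle)))
        _ ≤ (m : ℝ) * (a / 2) := by linarith
        _ ≤ _ := mul_le_mul_of_nonneg_left hl (Nat.cast_nonneg m)
    have hg : (1 + (P.h : ℝ) * (Λ₀ * (kap d P.η * ρ))) ^ n ≤ exp E := by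
      refine (pow_le_pow_left₀ (by positivity) (by
        linarith [add_one_le_exp ((P.h : ℝ) * (Λ₀ * (kap d P.η * ρ)))] :
          1 + (P.h : ℝ) * (Λ₀ * (kap d P.η * ρ)) ≤ exp ((P.h : ℝ) * (Λ₀ * (kap d P.η * ρ)))) n).trans ?_
      rw [← exp_nat_mul, exp_le_exp, ← mul_assoc]
      calc (n : ℝ) * P.h * (Λ₀ * (kap d P.η * ρ)) ≤ 1 * (Λ * (kap d P.η * ρ)) := by
            refine mul_le_mul hn (mul_le_mul_of_nonneg_right hΛle ?_) (by positivity) zero_le_one
            exact mul_nonneg hκ.le (by linarith)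
        _ = E := by simp only [E]; ring
    have h2 : 2 * (Λ₀ * (kap d P.η * ρ)) ≤ exp (2 * E) := by
      have := add_one_le_exp (2 * E)
      have h3 : Λ₀ * (kap d P.η * ρ) ≤ E := by
        simp only [E]
        calc Λ₀ * (kap d P.η * ρ) ≤ Λ * (kap d P.η * ρ) :=
              mul_le_mul_of_nonneg_right hΛle (mul_nonneg hκ.le (by linarith))
          _ = _ := by ring
      linarith
    calc _ = ((n : ℝ) * P.h) * ((2 * (Λ₀ * (kap d P.η * ρ))) *
          (1 + P.h * (Λ₀ * (kap d P.η * ρ))) ^ n * (ρ ^ m)⁻¹) := by ring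
      _ ≤ 1 * (exp (2 * E) * exp E * (exp (3 * E))⁻¹) := by
          refine mul_le_mul hn ?_ (by positivity) zero_le_one
          exact mul_le_mul (mul_le_mul h2 hg (by positivity) (exp_pos _).le)
            (inv_anti₀ (exp_pos _) hρm) (by positivity) (by positivity)
      _ = 1 := by rw [← exp_add, one_mul, show 2 * E + E = 3 * E by ring,
            mul_inv_cancel₀ (exp_pos _).ne']
  have hb : Real.sqrt (∑ z ∈ D, resp G P D Y j₀ j o z ^ 2) ≤
      exp (∑ k ∈ Ico (j₀ + 1) j, P.h * (4 * kap d P.η * L k ^ 2)) * (2 * Λ) := by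
    refine hmain.trans (mul_le_mul_of_nonneg_left ?_ (exp_pos _).le)
    calc Λ₀ * _ ≤ Λ₀ * (1 + 1) := mul_le_mul_of_nonneg_left (add_le_add_right hcorr 1) hΛ₀
      _ ≤ _ := by linarith
  refine (Real.sqrt_le_iff.1 hb).2.trans_eq ?_
  rw [mul_pow, ← exp_nat_mul, Finset.mul_sum, Finset.mul_sum,
    show ∀ u : ℝ, u * (2 * Λ) ^ 2 = 4 * Λ ^ 2 * u from fun u => by ring]
  refine congrArg _ (congrArg exp (Finset.sum_congr rfl fun k _ => ?_))
  push_cast
  ring

/-- The exceptional event at step `k`: some squared sum in the ball exceeds `Ds`. -/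
def bigInd (G : SimpleGraph V) (P : Prm) (D : Finset V) (o : V) (R : ℕ) (Ds : ℝ)
    (Y : ℕ → V × V → ℝ) (k : ℕ) : ℝ :=
  if ∃ c ∈ D, G.dist o c ≤ R ∧ Ds < sqSJ G P D Y k c then 1 else 0

/-- The squared row against an event `χ`. -/
theorem ind_row_le (hDne : D.Nonempty) {o : V} (ho : o ∈ D) {s : ℝ} (hA : AtTime d P s)
    (hh : P.h ≠ 0) {j₀ i : ℕ} (hi : j₀ < i) (hs : s ≤ ((j₀ : ℝ) + 1) * P.h)
    (hi1 : (i : ℝ) * P.h ≤ 1) (χ : (ℕ → V × V → ℝ) → ℝ) (hχm : MeasY (fun _ Y => χ Y))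
    (hχ : ∀ Y, 0 ≤ χ Y ∧ χ Y ≤ 1) (Ds : ℕ → ℝ) {p : ℝ}
    (hp : ∀ k, j₀ < k → k < i → ∀ c ∈ D, G.dist o c ≤ radS d P.η s →
      E G P D k (fun _ Y => if Ds k < sqSJ G P D Y k c then (1:ℝ) else 0) ≤ p) (hp0 : 0 ≤ p) :
    E G P D i (fun _ Y => χ Y * ∑ z ∈ D, resp G P D Y j₀ i o z ^ 2) ≤
      4 * opMax d P.η s ^ 2 * exp (8 * kap d P.η * ∑ k ∈ Ico (j₀ + 1) i, P.h * Ds k ^ 2) *
        (exp (8 * kap d P.η) * E G P D i (fun _ Y => χ Y) +
          exp (8 * kap d P.η * sMax d P.η s ^ 2) * sMax d P.η s ^ 2 *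
            ((d : ℝ) ^ (radS d P.η s + 2) * p)) := by
  have hd3 := hA.reg.deg
  set m := radS d P.η s
  set κ := kap d P.η
  have hκ : 0 ≤ κ := by have := hA.etaPos; simp only [κ]; unfold kap; positivity
  set M := sMax d P.η s
  have hM : 0 ≤ M := sMax_nonneg d hA.etaPos.le hA.pos.le
  set S := Ico (j₀ + 1) i
  set A := ∑ k ∈ S, (P.h : ℝ) * Ds k ^ 2
  have hA0 : 0 ≤ A := Finset.sum_nonneg fun k _ => by positivity
  set I := fun Y : ℕ → V × V → ℝ => ∑ k ∈ S, (P.h : ℝ) * bigInd G P D o m (Ds k) Y k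
  have hb01 : ∀ Y k, 0 ≤ bigInd G P D o m (Ds k) Y k ∧ bigInd G P D o m (Ds k) Y k ≤ 1 :=
    fun Y k => by unfold bigInd; split_ifs <;> norm_num
  have hI1 : ∀ Y, 0 ≤ I Y ∧ I Y ≤ 1 := fun Y => by
    refine ⟨Finset.sum_nonneg fun k _ => mul_nonneg P.h.coe_nonneg (hb01 Y k).1, ?_⟩
    refine (Finset.sum_le_card_nsmul S _ (P.h : ℝ) fun k _ =>
      mul_le_of_le_one_right P.h.coe_nonneg (hb01 Y k).2).trans ?_
    rw [nsmul_eq_mul, Nat.card_Ico]
    exact le_trans (mul_le_mul_of_nonneg_right (by exact_mod_cast Nat.sub_le _ _) P.h.coe_nonneg)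
      hi1
  set B := 4 * opMax d P.η s ^ 2 * exp (8 * κ * A)
  have hB : 0 ≤ B := by positivity
  set c₁ := exp (8 * κ)
  set c₂ := exp (8 * κ * M ^ 2) * M ^ 2
  have hc₁ : 0 ≤ c₁ := (exp_pos _).le
  have hc₂ : 0 ≤ c₂ := by positivity
  have hrow : ∀ Y, χ Y * ∑ z ∈ D, resp G P D Y j₀ i o z ^ 2 ≤ B * (c₁ * χ Y + c₂ * I Y) := by
    intro Y
    set L := fun k => if (∃ c ∈ D, G.dist o c ≤ m ∧ Ds k < sqSJ G P D Y k c) then M else Ds k
    have h1 := row_sq_le hG hd hD ho hA Y L hi hs hi1 (fun k hk _ c hc hcm => by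
      simp only [L]
      split_ifs with hbad
      · exact sqSJ_le_sMax hG hd hD hA Y
          (hs.trans (mul_le_mul_of_nonneg_right (by exact_mod_cast hk) P.h.coe_nonneg)) hc
      · exact not_lt.1 fun hlt => hbad ⟨c, hc, hcm, hlt⟩)
    have hL : ∑ k ∈ S, (P.h : ℝ) * L k ^ 2 ≤ A + M ^ 2 * I Y := by
      simp only [A, I, Finset.mul_sum, ← Finset.sum_add_distrib]
      refine Finset.sum_le_sum fun k _ => ?_
      simp only [L, bigInd]
      split_ifs
      · nlinarith [mul_nonneg P.h.coe_nonneg (sq_nonneg (Ds k))]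
      · simp
    have hrw : ∑ z ∈ D, resp G P D Y j₀ i o z ^ 2 ≤ B * exp (8 * κ * (M ^ 2 * I Y)) := by
      refine h1.trans ?_
      simp only [B]
      rw [mul_assoc (4 * opMax d P.η s ^ 2) (exp _) (exp _), ← exp_add, ← mul_add]
      exact mul_le_mul_of_nonneg_left (exp_le_exp.2
        (mul_le_mul_of_nonneg_left hL (by positivity))) (by positivity)
    refine le_trans (mul_le_mul_of_nonneg_left hrw (hχ Y).1) ?_
    rw [mul_left_comm]
    refine mul_le_mul_of_nonneg_left ?_ hB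
    obtain ⟨hI0, hI⟩ := hI1 Y
    rcases le_or_gt (M ^ 2 * I Y) 1 with hle | hgt
    · have : exp (8 * κ * (M ^ 2 * I Y)) ≤ c₁ := by
        simp only [c₁]
        exact exp_le_exp.2 (mul_le_of_le_one_right (by positivity) hle)
      nlinarith [mul_le_mul_of_nonneg_left this (hχ Y).1, mul_nonneg hc₂ hI0]
    · have h3 : exp (8 * κ * (M ^ 2 * I Y)) ≤ exp (8 * κ * M ^ 2) :=
        exp_le_exp.2 (mul_le_mul_of_nonneg_left (mul_le_of_le_one_right (sq_nonneg M) hI)
          (by positivity))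
      calc χ Y * exp (8 * κ * (M ^ 2 * I Y)) ≤ 1 * exp (8 * κ * M ^ 2) :=
            mul_le_mul (hχ Y).2 h3 (exp_pos _).le zero_le_one
        _ ≤ exp (8 * κ * M ^ 2) * (M ^ 2 * I Y) := by
            rw [one_mul]; exact le_mul_of_one_le_right (exp_pos _).le hgt.le
        _ ≤ c₁ * χ Y + c₂ * I Y := by
            simp only [c₂]
            nlinarith [mul_nonneg hc₁ (hχ Y).1]
  have mbig : ∀ k, MeasY (fun _ Y => bigInd G P D o m (Ds k) Y k) := fun k S' β _ Y hY => by
    unfold bigInd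
    refine Measurable.ite ?_ measurable_const measurable_const
    have e : {a : β | ∃ c ∈ D, G.dist o c ≤ m ∧ Ds k < sqSJ G P D (Y a) k c} =
        ⋃ c ∈ D.filter (fun c => G.dist o c ≤ m), {a | Ds k < sqSJ G P D (Y a) k c} := by
      ext a
      simp only [Set.mem_setOf_eq, Set.mem_iUnion, Finset.mem_filter, exists_prop]
      constructor
      · rintro ⟨c, hc, hcm, h⟩; exact ⟨c, ⟨hc, hcm⟩, h⟩
      · rintro ⟨c, ⟨hc, hcm⟩, h⟩; exact ⟨c, hc, hcm, h⟩
    rw [e]
    exact Finset.measurableSet_biUnion _ fun c _ =>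
      measurableSet_lt measurable_const (measurable_sqSJ P D hY k c)
  have mI : MeasY (fun _ Y => I Y) := fun S' β _ Y hY =>
    Finset.measurable_sum _ fun k _ => (mbig k S' β Y hY).const_mul _
  have bI : ∀ (_ : Finset V) Y, |I Y| ≤ 1 := fun _ Y => by
    rw [abs_of_nonneg (hI1 Y).1]; exact (hI1 Y).2
  have mrow : MeasY (fun _ Y => χ Y * ∑ z ∈ D, resp G P D Y j₀ i o z ^ 2) := fun S' β _ Y hY =>
    (hχm S' β Y hY).mul (Finset.measurable_sum _ fun z _ =>
      (measurable_resp P D hY j₀ i o z).pow_const 2)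
  have hmem : ∀ k ∈ S, j₀ < k ∧ k < i := fun k hk => by
    have := mem_Ico.1 hk
    omega
  have hEI : E G P D i (fun _ Y => I Y) ≤ (d : ℝ) ^ (m + 2) * p := by
    rw [E_sum S (fun k _ S' β _ Y hY => (mbig k S' β Y hY).const_mul _)
      (B := fun _ => (P.h : ℝ)) (fun k _ _ Y => by
        rw [abs_mul, abs_of_nonneg P.h.coe_nonneg, abs_of_nonneg (hb01 Y k).1]
        exact mul_le_of_le_one_right P.h.coe_nonneg (hb01 Y k).2)]
    have hk : ∀ k ∈ S, E G P D i (fun _ Y => bigInd G P D o m (Ds k) Y k) ≤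
        (d : ℝ) ^ (m + 2) * p := by
      intro k hk
      obtain ⟨hk0, hki⟩ := hmem k hk
      set Bl := D.filter (fun c => G.dist o c ≤ m)
      calc E G P D i (fun _ Y => bigInd G P D o m (Ds k) Y k)
          = E G P D k (fun _ Y => bigInd G P D o m (Ds k) Y k) := by
            refine (modelStmt V G d P hG hd3 hd hA.reg.nonneg hA.reg.lt_one hh hA.etaPos.le
              hA.reg.tau).2.1 D D k i 1 _ hD hDne hD subset_rfl hki.le
              (adm_of (mbig k) fun _ Y => by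
                rw [abs_of_nonneg (hb01 Y k).1]; exact (hb01 Y k).2) ?_
            intro S' S'' Y Y' _ hY
            unfold bigInd sqSJ tilt
            simp only [fieldH_congr fun l hl e he => hY l hl e he (Finset.notMem_empty _)]
        _ ≤ E G P D k (fun _ Y => ∑ c ∈ Bl, if Ds k < sqSJ G P D Y k c then (1:ℝ) else 0) := by
            refine E_mono (mbig k) (fun S' β _ Y hY => Finset.measurable_sum _ fun c _ =>
              Measurable.ite (measurableSet_lt measurable_const (measurable_sqSJ P D hY k c))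
                measurable_const measurable_const) (B := 1)
              (fun _ Y => by rw [abs_of_nonneg (hb01 Y k).1]; exact (hb01 Y k).2)
              (B' := Bl.card) (fun _ Y => ?_) fun _ _ Y => ?_
            · refine (Finset.abs_sum_le_sum_abs _ _).trans ?_
              refine (Finset.sum_le_card_nsmul _ _ 1 fun c _ => ?_).trans_eq (by simp)
              split_ifs <;> norm_num
            · unfold bigInd
              split_ifs with hb
              · obtain ⟨c, hc, hcm, hlt⟩ := hb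
                refine le_trans ?_ (Finset.single_le_sum (fun x _ => by split_ifs <;> norm_num)
                  (Finset.mem_filter.2 ⟨hc, hcm⟩))
                rw [if_pos hlt]
              · exact Finset.sum_nonneg fun x _ => by split_ifs <;> norm_num
        _ ≤ (Bl.card : ℝ) * p := by
            rw [E_sum Bl (fun c _ S' β _ Y hY => Measurable.ite (measurableSet_lt measurable_const
                (measurable_sqSJ P D hY k c)) measurable_const measurable_const)
              (B := fun _ => 1) (fun c _ _ Y => by split_ifs <;> norm_num), ← nsmul_eq_mul]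
            exact Finset.sum_le_card_nsmul _ _ _ fun c hc =>
              hp k hk0 hki c (Finset.mem_filter.1 hc).1 (Finset.mem_filter.1 hc).2
        _ ≤ _ := by
            refine mul_le_mul_of_nonneg_right ?_ hp0
            refine le_trans ?_ (card_ballF (hG := hG) (hd := hd) (hd3 := hd3) o m)
            exact_mod_cast Finset.card_le_card (s := Bl) (t := ballF hG hd hd3 o m) fun c hc =>
              mem_ballF.2 (Finset.mem_filter.1 hc).2
    calc ∑ k ∈ S, E G P D i (fun _ Y => P.h * bigInd G P D o m (Ds k) Y k)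
        ≤ ∑ k ∈ S, (P.h : ℝ) * ((d : ℝ) ^ (m + 2) * p) := Finset.sum_le_sum fun k hk' => by
          rw [E_const_mul]; exact mul_le_mul_of_nonneg_left (hk k hk') P.h.coe_nonneg
      _ = (S.card : ℝ) * P.h * ((d : ℝ) ^ (m + 2) * p) := by
          rw [Finset.sum_const, nsmul_eq_mul, mul_assoc]
      _ ≤ 1 * ((d : ℝ) ^ (m + 2) * p) := by
          refine mul_le_mul_of_nonneg_right (le_trans (mul_le_mul_of_nonneg_right ?_
            P.h.coe_nonneg) hi1) (by positivity)
          simp only [S, Nat.card_Ico]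
          exact_mod_cast Nat.sub_le _ _
      _ = _ := one_mul _
  calc E G P D i (fun _ Y => χ Y * ∑ z ∈ D, resp G P D Y j₀ i o z ^ 2)
      ≤ E G P D i (fun _ Y => B * (c₁ * χ Y + c₂ * I Y)) := by
        refine E_mono mrow (fun S' β _ Y hY =>
          ((((hχm S' β Y hY).const_mul c₁).add ((mI S' β Y hY).const_mul c₂)).const_mul B))
          (B := B * (c₁ + c₂)) (fun _ Y => ?_) (B' := B * (c₁ + c₂)) (fun _ Y => ?_)
          fun _ _ Y => hrow Y
        · rw [abs_of_nonneg (mul_nonneg (hχ Y).1 (Finset.sum_nonneg fun _ _ => sq_nonneg _))]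
          refine (hrow Y).trans (mul_le_mul_of_nonneg_left (add_le_add
            (mul_le_of_le_one_right hc₁ (hχ Y).2) (mul_le_of_le_one_right hc₂ (hI1 Y).2)) hB)
        · rw [abs_mul, abs_of_nonneg hB, abs_of_nonneg (add_nonneg (mul_nonneg hc₁ (hχ Y).1)
            (mul_nonneg hc₂ (hI1 Y).1))]
          exact mul_le_mul_of_nonneg_left (add_le_add
            (mul_le_of_le_one_right hc₁ (hχ Y).2) (mul_le_of_le_one_right hc₂ (hI1 Y).2)) hB
    _ = B * (c₁ * E G P D i (fun _ Y => χ Y) + c₂ * E G P D i (fun _ Y => I Y)) := by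
        rw [E_const_mul, E_add (Φ := fun _ Y => c₁ * χ Y) (Ψ := fun _ Y => c₂ * I Y)
          (fun S' β _ Y hY => (hχm S' β Y hY).const_mul c₁)
          (fun S' β _ Y hY => (mI S' β Y hY).const_mul c₂) (B := c₁) (B' := c₂)
          (fun _ Y => by
            rw [abs_mul, abs_of_nonneg hc₁, abs_of_nonneg (hχ Y).1]
            exact mul_le_of_le_one_right hc₁ (hχ Y).2)
          (fun _ Y => by
            rw [abs_mul, abs_of_nonneg hc₂]
            exact mul_le_of_le_one_right hc₂ (bI ∅ Y)),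
          E_const_mul, E_const_mul]
    _ ≤ _ := mul_le_mul_of_nonneg_left
        (add_le_add_right (mul_le_mul_of_nonneg_left hEI hc₂) _) hB

end

end Vale.Agent.P161.Edge
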