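import Vale.Agent.P161.Edge.EnergyRate
import Vale.Agent.P161.Edge.GenLaw
import Vale.Agent.P161.Edge.GenStep

/-!
The probability of the exceptional events in the energy estimate is negligible against the
deterministic bounds.
-/

namespace Vale.Agent.P161.Edge

open MeasureTheory ProbabilityTheory Finset Function Real
open scoped NNReal Classical

noncomputable section

variable {V : Type} {G : SimpleGraph V} {d : ℕ}

lemma exp_sum_nonpos {u₁ u₂ u₃ x P A Q R S w : ℝ} (g1 : u₁ ≤ u₁ * w) (g2 : u₂ ≤ u₂ * w)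
    (g3 : x ≤ u₃ * w) (g4 : A ≤ P * w) (g5 : 0 ≤ Q * w) (g : (u₁ + u₂ + u₃ + P + Q) * w ≤ R * S) :
    u₁ + (x + A + u₂ + -R * S) ≤ 0 := by
  simp only [add_mul] at g
  linarith

lemma exp_sum_nonpos' {u₁ u₂ u₃ u₄ Q x A B C P R S w : ℝ} (g1 : u₁ ≤ u₁ * w) (g3 : x ≤ u₃ * w)
    (g4 : A ≤ P * w) (g5 : B ≤ u₂ * w) (g6 : C ≤ u₄ * w) (g7 : 0 ≤ Q * w)
    (g : (Q + (u₁ + u₂ + P + u₃ + u₄)) * w ≤ R * S) :
    u₁ + (x + A + B + C + -R * S) ≤ 0 := by
  simp only [add_mul] at g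
  linarith

lemma bad_small_term {κ K c a₁ a₂ a₃ dd X E A Q p : ℝ} {R : ℕ} (hκ : 0 ≤ κ) (hK : 0 ≤ K)
    (hdd : 1 ≤ dd) (ha₃ : 0 ≤ a₃) (hX0 : 0 ≤ X) (hE : E = exp X)
    (hA : A ≤ 16 * κ * K ^ 2 * 170 * E ^ 4) (hQ : 0 ≤ Q)
    (h2 : (Q + (8 * a₁ ^ 4 * a₂ ^ 2 * K + 8 * κ * a₁ ^ 2 + 16 * κ * K ^ 2 * 170 + 8 +
      (a₃ + 3) * dd)) * exp (4 * X) ≤ c * exp (7 * X))
    (hR : (R : ℝ) ≤ a₃ * exp (3 * X) + 1) (hp : p ≤ K * exp (-c * exp (7 * X))) :
    (a₁ * E) ^ 2 * (4 * (a₂ * exp (2 * X)) ^ 2 * exp A *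
      (exp (8 * κ * (a₁ * E) ^ 2) * (a₁ * E) ^ 2 * (dd ^ (R + 2) * p))) ≤ 1 / 2 := by
  have hE1 : 1 ≤ E := hE ▸ one_le_exp hX0
  have e2 : exp (2 * X) = E ^ 2 := by rw [hE, ← exp_nat_mul]; norm_num
  have e4 : exp (4 * X) = E ^ 4 := by rw [hE, ← exp_nat_mul]; norm_num
  have e3 : exp (3 * X) = E ^ 3 := by rw [hE, ← exp_nat_mul]; norm_num
  have hp0 : ∀ u : ℝ, 0 ≤ u → u ≤ exp u := fun u _ => by linarith [add_one_le_exp u]
  have hdd0 : 0 < dd := by linarith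
  have hddp : dd ^ (R + 2) ≤ exp (((R + 2 : ℕ) : ℝ) * dd) := by
    rw [exp_nat_mul]; exact pow_le_pow_left₀ hdd0.le (hp0 dd hdd0.le) _
  calc _ ≤ (a₁ * E) ^ 2 * (4 * (a₂ * exp (2 * X)) ^ 2 * exp A *
        (exp (8 * κ * (a₁ * E) ^ 2) * (a₁ * E) ^ 2 *
          (exp (((R + 2 : ℕ) : ℝ) * dd) * (K * exp (-c * exp (7 * X)))))) := by
        refine mul_le_mul_of_nonneg_left (mul_le_mul_of_nonneg_left (mul_le_mul_of_nonneg_left
          ((mul_le_mul_of_nonneg_left hp (by positivity)).trans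
            (mul_le_mul_of_nonneg_right hddp (by positivity))) (by positivity)) (by positivity))
          (by positivity)
    _ = 8 * a₁ ^ 4 * a₂ ^ 2 * K * (exp (8 * X) * exp A * exp (8 * κ * (a₁ * E) ^ 2) *
          exp (((R + 2 : ℕ) : ℝ) * dd) * exp (-c * exp (7 * X))) / 2 := by
        rw [e2, show exp (8 * X) = E ^ 8 by rw [hE, ← exp_nat_mul]; norm_num]
        ring
    _ ≤ exp (8 * a₁ ^ 4 * a₂ ^ 2 * K) * (exp (8 * X) * exp A * exp (8 * κ * (a₁ * E) ^ 2) *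
          exp (((R + 2 : ℕ) : ℝ) * dd) * exp (-c * exp (7 * X))) / 2 := by
        gcongr
        exact hp0 _ (by positivity)
    _ ≤ 1 / 2 := by
        rw [← exp_add, ← exp_add, ← exp_add, ← exp_add, ← exp_add]
        refine div_le_div_of_nonneg_right (exp_le_one_iff.2 ?_) two_pos.le
        have r1 : ((R + 2 : ℕ) : ℝ) * dd ≤ (a₃ + 3) * dd * E ^ 4 := by
          push_cast
          have : (R : ℝ) + 2 ≤ (a₃ + 3) * E ^ 4 := by
            rw [e3] at hR
            nlinarith [one_le_pow₀ (n := 4) hE1, mul_le_mul_of_nonneg_left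
              (pow_le_pow_right₀ hE1 (by norm_num : 3 ≤ 4)) ha₃]
          calc ((R : ℝ) + 2) * dd ≤ (a₃ + 3) * E ^ 4 * dd :=
                mul_le_mul_of_nonneg_right this hdd0.le
            _ = _ := by ring
        have r2 : A ≤ 16 * κ * K ^ 2 * 170 * E ^ 4 := hA
        have r3 : 8 * κ * (a₁ * E) ^ 2 ≤ 8 * κ * a₁ ^ 2 * E ^ 4 := by
          calc _ = 8 * κ * a₁ ^ 2 * E ^ 2 := by ring
            _ ≤ _ := mul_le_mul_of_nonneg_left (pow_le_pow_right₀ hE1 (by norm_num))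
                (by positivity)
        have r4 : 8 * a₁ ^ 4 * a₂ ^ 2 * K ≤ 8 * a₁ ^ 4 * a₂ ^ 2 * K * E ^ 4 :=
          le_mul_of_one_le_right (by positivity) (one_le_pow₀ hE1)
        have r5 : 8 * X ≤ 8 * E ^ 4 := by
          nlinarith [hE ▸ add_one_le_exp X, le_self_pow₀ hE1 (by norm_num : 4 ≠ 0)]
        rw [e4] at h2
        refine exp_sum_nonpos' (w := E ^ 4) r4 r5 r2 r3 r1 ?_ h2
        exact mul_nonneg hQ (by positivity)


/-- Two exceptional-event bounds that are negligible against the deterministic ones. -/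
lemma bad_small {κ K c a₁ a₂ a₃ c' : ℝ} {dd : ℝ} (hκ : 0 ≤ κ) (hK : 0 ≤ K)
    (hdd : 1 ≤ dd) (ha₃ : 0 ≤ a₃) :
    ∃ Kb : ℝ, 0 ≤ Kb ∧ ∀ X : ℝ, 10 ≤ X → Kb * (1 + X) ^ 2 ≤ c' * X ^ 4 →
      Kb * exp (4 * X) ≤ c * exp (7 * X) → ∀ (k₀ R : ℕ), (k₀ : ℝ) ≤ 12 * X + 1 →
      (R : ℝ) ≤ a₃ * exp (3 * X) + 1 → ∀ p q : ℝ, p ≤ K * exp (-c * exp (7 * X)) →
      q ≤ (1 + K) * exp (-c' * X ^ 4) →
      (a₁ * exp X) ^ 2 * (4 * (a₂ * exp (2 * X)) ^ 2 *
          exp (8 * κ * (2 * K ^ 2 * (((k₀ : ℝ)) ^ 2 + (1 + X)))) *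
        (exp (8 * κ) * q + exp (8 * κ * (a₁ * exp X) ^ 2) * (a₁ * exp X) ^ 2 *
          (dd ^ (R + 2) * p))) ≤ 1 := by
  refine ⟨8 * a₁ ^ 2 * a₂ ^ 2 * (1 + K) + 8 * κ + 8 + 16 * κ * K ^ 2 * 170 +
    (8 * a₁ ^ 4 * a₂ ^ 2 * K + 8 * κ * a₁ ^ 2 + 16 * κ * K ^ 2 * 170 + 8 + (a₃ + 3) * dd),
    by positivity, ?_⟩
  intro X hX h1 h2 k₀ R hk₀ hR p q hp hq
  set E := exp X with hE
  have hE1 : 1 ≤ E := one_le_exp (by linarith)
  have hX0 : 0 ≤ X := by linarith
  have e2 : exp (2 * X) = E ^ 2 := by rw [hE, ← exp_nat_mul]; norm_num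
  have e4 : exp (4 * X) = E ^ 4 := by rw [hE, ← exp_nat_mul]; norm_num
  have e3 : exp (3 * X) = E ^ 3 := by rw [hE, ← exp_nat_mul]; norm_num
  have hkk : (k₀ : ℝ) ^ 2 + (1 + X) ≤ 170 * (1 + X) ^ 2 := by
    nlinarith [sq_nonneg X, mul_le_mul hk₀ hk₀ (Nat.cast_nonneg k₀) (by linarith)]
  set A := 8 * κ * (2 * K ^ 2 * (((k₀ : ℝ)) ^ 2 + (1 + X))) with hAdef
  have hA : A ≤ 16 * κ * K ^ 2 * 170 * (1 + X) ^ 2 := by
    calc A = 16 * κ * K ^ 2 * ((k₀ : ℝ) ^ 2 + (1 + X)) := by rw [hAdef]; ring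
      _ ≤ 16 * κ * K ^ 2 * (170 * (1 + X) ^ 2) := mul_le_mul_of_nonneg_left hkk (by positivity)
      _ = _ := by ring
  have hp0 : ∀ u : ℝ, 0 ≤ u → u ≤ exp u := fun u _ => by linarith [add_one_le_exp u]
  have hX2 : 1 ≤ (1 + X) ^ 2 := one_le_pow₀ (by linarith)
  have hE2 : (1 + X) ^ 2 ≤ E ^ 4 := by
    have : (1 + X) ^ 2 ≤ E ^ 2 := pow_le_pow_left₀ (by linarith) (by linarith [add_one_le_exp X]) 2
    exact this.trans (pow_le_pow_right₀ hE1 (by norm_num))
  have t1 : (a₁ * E) ^ 2 * (4 * (a₂ * exp (2 * X)) ^ 2 * exp A * (exp (8 * κ) * q)) ≤ 1 / 2 := by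
    calc _ ≤ (a₁ * E) ^ 2 * (4 * (a₂ * exp (2 * X)) ^ 2 * exp A *
          (exp (8 * κ) * ((1 + K) * exp (-c' * X ^ 4)))) := by gcongr
      _ = 8 * a₁ ^ 2 * a₂ ^ 2 * (1 + K) *
          (exp (6 * X) * exp A * exp (8 * κ) * exp (-c' * X ^ 4)) / 2 := by
          rw [e2, show exp (6 * X) = E ^ 6 by rw [hE, ← exp_nat_mul]; norm_num]
          ring
      _ ≤ exp (8 * a₁ ^ 2 * a₂ ^ 2 * (1 + K)) *
          (exp (6 * X) * exp A * exp (8 * κ) * exp (-c' * X ^ 4)) / 2 := by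
          gcongr
          exact hp0 _ (by positivity)
      _ ≤ 1 / 2 := by
          rw [← exp_add, ← exp_add, ← exp_add, ← exp_add]
          refine div_le_div_of_nonneg_right (exp_le_one_iff.2 ?_) two_pos.le
          refine exp_sum_nonpos (w := (1 + X) ^ 2) ?_ ?_ ?_ hA ?_ h1
          · exact le_mul_of_one_le_right (by positivity) hX2
          · exact le_mul_of_one_le_right (by positivity) hX2
          · nlinarith [sq_nonneg X]
          · exact mul_nonneg (by positivity) (by positivity)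
  have t2 := bad_small_term (p := p) hκ hK hdd ha₃ hX0 hE
    (hA.trans (mul_le_mul_of_nonneg_left hE2 (by positivity))) (by positivity) h2 hR hp
  calc _ = (a₁ * E) ^ 2 * (4 * (a₂ * exp (2 * X)) ^ 2 * exp A * (exp (8 * κ) * q)) +
        (a₁ * E) ^ 2 * (4 * (a₂ * exp (2 * X)) ^ 2 * exp A *
          (exp (8 * κ * (a₁ * E) ^ 2) * (a₁ * E) ^ 2 * (dd ^ (R + 2) * p))) := by ring
    _ ≤ _ := by linarith

lemma ofReal_ite_le {a b : ℝ} {p q : Prop} (h : p → q) (hab : a = 1 ∧ b = 0) :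
    (if p then a else b) ≤ if q then a else b := by
  obtain ⟨rfl, rfl⟩ := hab
  by_cases hp : p
  · rw [if_pos hp, if_pos (h hp)]
  · rw [if_neg hp]; split_ifs <;> norm_num

lemma measY_lt_sqSJ (P : Prm) (D : Finset V) (u : ℝ) (i : ℕ) (c : V) :
    MeasY (fun (_ : Finset V) Y => if u < sqSJ G P D Y i c then (1:ℝ) else 0) := fun _ _ _ _ hY =>
  Measurable.ite (measurableSet_lt measurable_const (measurable_sqSJ P D hY i c))
    measurable_const measurable_const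

/-- The probability that the column's rate exceeds `rateL`. -/
lemma exc_prob {P : Prm} {D : Finset V} {o : V} {i : ℕ} {K c cM ε₀ t₁ t₀ k₂ Λ X : ℝ} {n₂ : ℕ}
    (hK : 0 ≤ K) (hc : 0 < c) (hε₀ : 0 ≤ ε₀) (hcM : 0 < cM) (hb : (3 : ℕ) ≤ d)
    (ht : 0 < (i : ℝ) * P.h) (hi0 : (i : ℝ) * P.h ≤ t₀) (ht1 : t₁ = (X ^ 8)⁻¹) (hX : 10 ≤ X)
    (hk₂ : k₂ = n₂) (hpow : X ^ 12 ≤ ((d : ℝ) - 1) ^ n₂)
    (hP : ∀ k : ℕ, E G P D i (fun _ Y =>
        if K * (k + 1 / Real.sqrt (i * P.h)) < sqSJ G P D Y i o then 1 else 0) ≤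
      K * Real.exp (-c * ((d : ℝ) - 1) ^ k * (i * P.h)))
    (hM : (i : ℝ) * P.h ≤ t₁ → E G P D i (fun _ Y =>
        if ε₀ < pmean G P D Y i o ^ 2 then 1 else 0) ≤ Real.exp (-cM / Real.sqrt (i * P.h)))
    (hS0 : ∀ Y, 0 ≤ sqSJ G P D Y i o) (hm1 : ∀ Y, pmean G P D Y i o ^ 2 ≤ 1) :
    E G P D i (fun _ Y => if rateL (9 * K ^ 2 * ε₀) K t₁ t₀ k₂ Λ (i * P.h) <
        pmean G P D Y i o ^ 2 * sqSJ G P D Y i o ^ 2 then 1 else 0) ≤
      (1 + K) * Real.exp (-(min cM c) * X ^ 4) := by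
  set t := (i : ℝ) * P.h
  have mW : MeasY (fun (_ : Finset V) Y => if rateL (9 * K ^ 2 * ε₀) K t₁ t₀ k₂ Λ t <
      pmean G P D Y i o ^ 2 * sqSJ G P D Y i o ^ 2 then (1:ℝ) else 0) := fun _ _ _ _ hY =>
    Measurable.ite (measurableSet_lt measurable_const (((measurable_pmean P D hY i o).pow_const 2).mul
      ((measurable_sqSJ P D hY i o).pow_const 2))) measurable_const measurable_const
  have b01 : ∀ (p : Prop) [Decidable p], |(if p then (1:ℝ) else 0)| ≤ 1 := fun p _ => by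
    split_ifs <;> norm_num
  have hX0 : 0 < X := by linarith
  have hst : 0 < Real.sqrt t := Real.sqrt_pos.2 ht
  have hd1 : (2 : ℝ) ≤ (d : ℝ) - 1 := by
    have : (3 : ℝ) ≤ d := by exact_mod_cast hb
    linarith
  have hX4 : 0 ≤ X ^ 4 := by positivity
  by_cases h1 : t ≤ t₁
  · set u := 1 / Real.sqrt t with hu
    have hu4 : X ^ 4 ≤ u := by
      rw [hu, le_div_iff₀ hst]
      have : Real.sqrt t ≤ (X ^ 4)⁻¹ := by
        rw [Real.sqrt_le_left (by positivity), ← inv_pow, ← pow_mul, inv_pow]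
        exact h1.trans_eq ht1
      calc X ^ 4 * Real.sqrt t ≤ X ^ 4 * (X ^ 4)⁻¹ := mul_le_mul_of_nonneg_left this hX4
        _ = 1 := mul_inv_cancel₀ (by positivity)
    have hu10 : 110 ≤ u := le_trans (le_trans (by norm_num : (110:ℝ) ≤ 10 ^ 4)
      (pow_le_pow_left₀ (by norm_num) hX 4)) hu4
    set k := ⌈u⌉₊
    have hku : u ≤ k := Nat.le_ceil u
    have hk2 : (k : ℝ) ≤ 2 * u := by
      have := (Nat.ceil_lt_add_one (by linarith : 0 ≤ u)).le
      linarith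
    have hbk : u ≤ ((d : ℝ) - 1) ^ k * t := by
      have htu : t = 1 / u ^ 2 := by
        rw [hu, div_pow, one_pow, one_div_one_div, Real.sq_sqrt ht.le]
      rw [htu, mul_one_div, le_div_iff₀ (by positivity), ← pow_succ']
      exact (two_pow_ge_cube hu10).trans (exp_log_two_le_pow hd1 hku)
    calc _ ≤ E G P D i (fun _ Y => (if ε₀ < pmean G P D Y i o ^ 2 then (1:ℝ) else 0) +
          if K * (k + u) < sqSJ G P D Y i o then (1:ℝ) else 0) := by
          refine E_mono mW (fun S β _ Y hY => (Measurable.ite (measurableSet_lt measurable_const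
            ((measurable_pmean P D hY i o).pow_const 2)) measurable_const measurable_const).add
              (measY_lt_sqSJ P D _ i o S β Y hY)) (B := 1) (fun _ Y => b01 _) (B' := 2)
            (fun _ Y => (abs_add_le _ _).trans
              ((add_le_add (b01 _) (b01 _)).trans_eq (by norm_num)))
            fun _ _ Y => ?_
          by_cases hm : ε₀ < pmean G P D Y i o ^ 2
          · rw [if_pos hm]; split_ifs <;> norm_num
          · rw [if_neg hm, zero_add]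
            refine ofReal_ite_le (fun hW => ?_) ⟨rfl, rfl⟩
            by_contra hc
            push Not at hc hm
            have h3 : sqSJ G P D Y i o ≤ 3 * K * u :=
              hc.trans ((mul_le_mul_of_nonneg_left (by linarith) hK).trans_eq (by ring :
                K * (2 * u + u) = 3 * K * u))
            have : pmean G P D Y i o ^ 2 * sqSJ G P D Y i o ^ 2 ≤ ε₀ * (3 * K * u) ^ 2 :=
              mul_le_mul hm (pow_le_pow_left₀ (hS0 Y) h3 2) (sq_nonneg _) hε₀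
            have e : ε₀ * (3 * K * u) ^ 2 = 9 * K ^ 2 * ε₀ / t := by
              rw [hu]
              field_simp
              rw [Real.sq_sqrt ht.le]
              ring
            rw [rateL, if_pos h1] at hW
            linarith
      _ ≤ Real.exp (-cM / Real.sqrt t) + K * Real.exp (-c * ((d : ℝ) - 1) ^ k * t) := by
          rw [E_add (fun S β _ Y hY => Measurable.ite (measurableSet_lt measurable_const
            ((measurable_pmean P D hY i o).pow_const 2)) measurable_const measurable_const)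
            (measY_lt_sqSJ P D _ i o) (fun _ Y => b01 _) (fun _ Y => b01 _)]
          exact add_le_add (hM h1) (hP k)
      _ ≤ Real.exp (-(min cM c) * X ^ 4) + K * Real.exp (-(min cM c) * X ^ 4) := by
          refine add_le_add (exp_le_exp.2 ?_) (mul_le_mul_of_nonneg_left (exp_le_exp.2 ?_) hK)
          · rw [neg_div, neg_mul, neg_le_neg_iff, div_eq_mul_one_div cM]
            exact mul_le_mul (min_le_left _ _) hu4 hX4 hcM.le
          · rw [neg_mul, neg_mul, neg_mul, neg_le_neg_iff, mul_assoc]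
            exact mul_le_mul (min_le_right _ _) (hu4.trans hbk) hX4 hc.le
      _ = _ := by ring
  · calc _ ≤ E G P D i (fun _ Y =>
          if K * ((n₂ : ℝ) + 1 / Real.sqrt t) < sqSJ G P D Y i o then (1:ℝ) else 0) := by
          refine E_mono mW (measY_lt_sqSJ P D _ i o) (B := 1) (fun _ Y => b01 _) (B' := 1)
            (fun _ Y => b01 _) fun _ _ Y => ofReal_ite_le (fun hW => ?_) ⟨rfl, rfl⟩
          by_contra hc
          push Not at hc
          have h2 : sqSJ G P D Y i o ^ 2 ≤ (K * ((n₂ : ℝ) + 1 / Real.sqrt t)) ^ 2 :=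
            pow_le_pow_left₀ (hS0 Y) hc 2
          have h3 : pmean G P D Y i o ^ 2 * sqSJ G P D Y i o ^ 2 ≤ sqSJ G P D Y i o ^ 2 :=
            mul_le_of_le_one_left (sq_nonneg _) (hm1 Y)
          have h4 : (K * ((n₂ : ℝ) + 1 / Real.sqrt t)) ^ 2 ≤
              2 * K ^ 2 * ((n₂ : ℝ) ^ 2 + 1 / t) := by
            have : (1 / Real.sqrt t) ^ 2 = 1 / t := by
              rw [div_pow, one_pow, Real.sq_sqrt ht.le]
            nlinarith [mul_nonneg (sq_nonneg K) (sq_nonneg ((n₂ : ℝ) - 1 / Real.sqrt t))]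
          rw [rateL, if_neg h1, if_pos hi0, hk₂] at hW
          linarith
      _ ≤ K * Real.exp (-c * ((d : ℝ) - 1) ^ n₂ * t) := hP n₂
      _ ≤ 1 * (K * Real.exp (-(min cM c) * X ^ 4)) := by
          rw [one_mul]
          refine mul_le_mul_of_nonneg_left (exp_le_exp.2 ?_) hK
          rw [neg_mul, neg_mul, neg_mul, neg_le_neg_iff, mul_assoc]
          refine mul_le_mul (min_le_right _ _) ?_ hX4 hc.le
          calc X ^ 4 = X ^ 12 * (X ^ 8)⁻¹ := by
                field_simp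
            _ ≤ _ := mul_le_mul hpow (le_of_eq_of_le ht1.symm (not_le.1 h1).le) (by positivity)
                (pow_nonneg (by linarith) _)
      _ ≤ _ := by
          rw [one_mul, add_mul, one_mul]
          exact le_add_of_nonneg_left (exp_pos _).le

end

end Vale.Agent.P161.Edge
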