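import Vale.Agent.P161.Edge.EnergyBad

/-!
The growth rate of the column, its integral, and the probability bound for its exceptional event
turned into numerical inequalities in the logarithm of the time.
-/

namespace Vale.Agent.P161.Edge

open Finset Real
open scoped NNReal Classical

noncomputable section

/-- The rate: small before `t₁`, of order `k₂² + 1/t` before `t₀`, constant afterwards. -/
def rateL (ε K t₁ t₀ k₂ Λ t : ℝ) : ℝ :=
  if t ≤ t₁ then ε / t else if t ≤ t₀ then 2 * K ^ 2 * (k₂ ^ 2 + 1 / t) else Λ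

lemma rateL_nonneg {ε K t₁ t₀ k₂ Λ t : ℝ} (hε : 0 ≤ ε) (hΛ : 0 ≤ Λ) (ht : 0 ≤ t) :
    0 ≤ rateL ε K t₁ t₀ k₂ Λ t := by
  unfold rateL; split_ifs <;> positivity

lemma card_window {S : Finset ℕ} {h : ℝ} (hh : 0 < h) (hS : ∀ i ∈ S, 1 ≤ i ∧ (i : ℝ) * h ≤ 1) :
    (S.card : ℝ) * h ≤ 1 := by
  rcases S.eq_empty_or_nonempty with rfl | hne
  · simp
  · obtain ⟨-, hM⟩ := hS _ (S.max'_mem hne)
    refine le_trans (mul_le_mul_of_nonneg_right ?_ hh.le) hM
    have : S ⊆ Icc 1 (S.max' hne) := fun i hi => mem_Icc.2 ⟨(hS i hi).1, S.le_max' i hi⟩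
    have := Finset.card_le_card this
    rw [Nat.card_Icc, Nat.add_sub_cancel] at this
    exact_mod_cast this

/-- The integral of the rate. -/
lemma sum_rateL_le {ε K t₁ t₀ k₂ Λ s h : ℝ} {T : ℝ} {a b : ℕ} (hε : 0 ≤ ε) (hΛ : 0 ≤ Λ)
    (hh : 0 < h) (hs : 0 < s) (hs1 : s ≤ t₁) (ht : t₁ ≤ t₀) (ht0 : t₀ ≤ 1) (ha : 1 ≤ a)
    (has : s ≤ (a : ℝ) * h) (hb : (b : ℝ) * h ≤ T) :
    ∑ i ∈ Ico a b, h * rateL ε K t₁ t₀ k₂ Λ (i * h) ≤
      ε * (1 + log (t₁ / s)) + 2 * K ^ 2 * (k₂ ^ 2 + (1 + log (t₀ / t₁))) + Λ * T := by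
  set S₁ := (Ico a b).filter fun i : ℕ => (i : ℝ) * h ≤ t₁
  set S₂ := (Ico a b).filter fun i : ℕ => t₁ < (i : ℝ) * h ∧ (i : ℝ) * h ≤ t₀
  have hpt : ∀ i ∈ Ico a b, h * rateL ε K t₁ t₀ k₂ Λ (i * h) ≤
      (if (i : ℝ) * h ≤ t₁ then ε * (1 / i) else 0) +
        (if t₁ < (i : ℝ) * h ∧ (i : ℝ) * h ≤ t₀ then 2 * K ^ 2 * (k₂ ^ 2 * h + 1 / i) else 0) +
          h * Λ := by
    intro i hi
    have hi0 : (0 : ℝ) < i := by
      exact_mod_cast lt_of_lt_of_le (Nat.lt_of_lt_of_le Nat.zero_lt_one ha) (mem_Ico.1 hi).1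
    have hΛh : 0 ≤ h * Λ := mul_nonneg hh.le hΛ
    unfold rateL
    by_cases h1 : (i : ℝ) * h ≤ t₁
    · rw [if_pos h1, if_pos h1, if_neg fun hc => absurd h1 (not_le.2 hc.1)]
      have : h * (ε / ((i : ℝ) * h)) = ε * (1 / i) := by field_simp
      linarith
    · rw [if_neg h1, if_neg h1]
      by_cases h2 : (i : ℝ) * h ≤ t₀
      · rw [if_pos h2, if_pos ⟨not_le.1 h1, h2⟩]
        have : h * (2 * K ^ 2 * (k₂ ^ 2 + 1 / ((i : ℝ) * h))) =
            2 * K ^ 2 * (k₂ ^ 2 * h + 1 / i) := by field_simp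
        linarith
      · rw [if_neg h2, if_neg fun hc => h2 hc.2]
        linarith
  refine (Finset.sum_le_sum hpt).trans ?_
  rw [Finset.sum_add_distrib, Finset.sum_add_distrib, ← Finset.sum_filter, ← Finset.sum_filter]
  refine add_le_add (add_le_add ?_ ?_) ?_
  · rw [← Finset.mul_sum]
    refine mul_le_mul_of_nonneg_left (sum_inv_window hh hs hs1 fun i hi => ?_) hε
    obtain ⟨hi1, hi2⟩ := Finset.mem_filter.1 hi
    exact ⟨has.trans (mul_le_mul_of_nonneg_right (by exact_mod_cast (mem_Ico.1 hi1).1) hh.le), hi2⟩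
  · rw [← Finset.mul_sum, Finset.sum_add_distrib, Finset.sum_const, nsmul_eq_mul]
    refine mul_le_mul_of_nonneg_left (add_le_add ?_ (sum_inv_window hh (hs.trans_le hs1) ht
      fun i hi => ⟨(Finset.mem_filter.1 hi).2.1.le, (Finset.mem_filter.1 hi).2.2⟩)) (by positivity)
    rw [mul_left_comm]
    refine mul_le_of_le_one_right (sq_nonneg _) (card_window hh fun i hi => ?_)
    obtain ⟨hi1, hi2⟩ := Finset.mem_filter.1 hi
    exact ⟨ha.trans (mem_Ico.1 hi1).1, hi2.2.trans ht0⟩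
  · rw [Finset.sum_const, nsmul_eq_mul, Nat.card_Ico, ← mul_assoc, mul_comm Λ]
    refine mul_le_mul_of_nonneg_right (le_trans (mul_le_mul_of_nonneg_right ?_ hh.le) hb) hΛ
    exact_mod_cast Nat.sub_le b a

lemma two_pow_ge_cube {u : ℝ} (hu : 110 ≤ u) : u ^ 3 ≤ exp (log 2 * u) := by
  have hl := Real.log_two_gt_d9
  refine le_trans ?_ (pow_div_factorial_le_exp (log 2 * u) (by
    have : 0 ≤ log 2 := by linarith
    positivity) 4)
  rw [le_div_iff₀ (by positivity), mul_pow]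
  have h4 : (0.6931 : ℝ) ^ 4 ≤ log 2 ^ 4 := pow_le_pow_left₀ (by norm_num) (by linarith) 4
  have h24 : ((Nat.factorial 4 : ℕ) : ℝ) = 24 := by norm_num [Nat.factorial]
  rw [h24]
  have hu3 : 0 ≤ u ^ 3 := by positivity
  calc u ^ 3 * 24 ≤ u ^ 3 * ((0.6931 : ℝ) ^ 4 * u) :=
        mul_le_mul_of_nonneg_left (by norm_num; linarith) hu3
    _ ≤ u ^ 3 * (log 2 ^ 4 * u) :=
        mul_le_mul_of_nonneg_left (mul_le_mul_of_nonneg_right h4 (by linarith)) hu3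
    _ = _ := by ring

lemma exp_log_two_le_pow {b : ℝ} (hb : 2 ≤ b) {y : ℝ} {k : ℕ} (hy : y ≤ (k : ℝ)) :
    exp (log 2 * y) ≤ b ^ k := by
  have hl : 0 ≤ log 2 := Real.log_nonneg (by norm_num)
  calc exp (log 2 * y) ≤ exp ((k : ℝ) * log 2) := by
        rw [exp_le_exp, mul_comm]; exact mul_le_mul_of_nonneg_right hy hl
    _ = 2 ^ k := by rw [exp_nat_mul, exp_log (by norm_num)]
    _ ≤ _ := pow_le_pow_left₀ (by norm_num) hb k

end

end Vale.Agent.P161.Edge
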