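import Vale.Agent.P161.Edge.EnergyExc
import Vale.Agent.P161.Edge.GenStep

/-!
The start of the column, and the weighted column against the column plus a negligible term.
-/

namespace Vale.Agent.P161.Edge

open MeasureTheory ProbabilityTheory Finset Function Real
open scoped NNReal Classical

noncomputable section

variable {V : Type} {G : SimpleGraph V} {d : ℕ} {P : Prm} {D : Finset V}

/-- The weight driving the growth at `c`. -/
def wgt (G : SimpleGraph V) (P : Prm) (D : Finset V) (Y : ℕ → V × V → ℝ) (i : ℕ) (c : V) : ℝ :=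
  pmean G P D Y i c ^ 2 * sqSJ G P D Y i c ^ 2

/-- The squared norm of the row at `o`. -/
def rowY (G : SimpleGraph V) (P : Prm) (D : Finset V) (Y : ℕ → V × V → ℝ) (j₀ i : ℕ) (o : V) :
    ℝ :=
  ∑ z ∈ D, resp G P D Y j₀ i o z ^ 2

lemma measurable_wgt {β : Type} [MeasurableSpace β] {Y : β → ℕ → V × V → ℝ}
    (hY : ∀ j i, Measurable fun a => Y a j i) (i : ℕ) (c : V) :
    Measurable fun a => wgt G P D (Y a) i c :=
  ((measurable_pmean P D hY i c).pow_const 2).mul ((measurable_sqSJ P D hY i c).pow_const 2)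

variable (hG : G.IsTree) (hd : Regular G d) (hR : Reg d P) (hD : Closed G D)
include hG hd hR hD

lemma colY_start_le (Y : ℕ → V × V → ℝ) (j₀ : ℕ) {o : V} (ho : o ∈ D) :
    colY G P D Y j₀ (j₀ + 1) o ≤ sqSJ G P D Y (j₀ + 1) o := by
  refine Finset.sum_le_sum fun x hx => ?_
  have e : resp G P D Y j₀ (j₀ + 1) x o = pcov G P D Y (j₀ + 1) x o := by
    unfold resp
    simp [wvec, Pi.single_apply, ho]
  rw [e, pcov_comm]
  obtain ⟨h1, h2, -⟩ := treeStmt V G d (thetaJ P (j₀ + 1)) D (tilt G P D Y (j₀ + 1)) hG hR.deg hd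
    (hR.par _).2.2.2 hD (Fld.tanh _)
  obtain ⟨hc0, hr0, -, -⟩ := h2 o ho x hx
  refine pow_le_pow_left₀ hc0 ?_ 2
  change cv G (thetaJ P (j₀ + 1)) D (tilt G P D Y (j₀ + 1)) o x ≤
    cv G (thetaJ P (j₀ + 1)) D (tilt G P D Y (j₀ + 1)) o x / _
  exact le_div_self hc0 (h1 o ho) (sub_le_self _ (sq_nonneg _))

omit hG hd hR hD in
lemma wgt_nonneg (Y : ℕ → V × V → ℝ) (i : ℕ) (c : V) : 0 ≤ wgt G P D Y i c :=
  mul_nonneg (sq_nonneg _) (sq_nonneg _)

lemma wgt_le_of (Y : ℕ → V × V → ℝ) (i : ℕ) {c : V} (hc : c ∈ D) {M : ℝ}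
    (hM : sqSJ G P D Y i c ≤ M) : wgt G P D Y i c ≤ M ^ 2 := by
  refine (mul_le_of_le_one_left (sq_nonneg _) ?_).trans
    (pow_le_pow_left₀ (sqSJ_bounds treeStmt hG hd hR hD Y i hc).1 hM 2)
  rw [← sq_abs]
  exact pow_le_one₀ (abs_nonneg _) (abs_mf_le (hR.par i).2.2.2 D _ c)

omit hG hd hD in
lemma pmean_sq_le_one (Y : ℕ → V × V → ℝ) (i : ℕ) (c : V) : pmean G P D Y i c ^ 2 ≤ 1 := by
  rw [← sq_abs]
  exact pow_le_one₀ (abs_nonneg _) (abs_mf_le (hR.par i).2.2.2 D _ c)

lemma abs_rowY_le (Y : ℕ → V × V → ℝ) (j₀ i : ℕ) {o : V} (ho : o ∈ D) :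
    |rowY G P D Y j₀ i o| ≤ D.card * ((1 + P.h * (kap d P.η * D.card)) ^ i) ^ 2 := by
  unfold rowY
  rw [abs_of_nonneg (Finset.sum_nonneg fun x _ => sq_nonneg _)]
  refine (Finset.sum_le_card_nsmul D _ _ fun x _ => ?_).trans_eq (nsmul_eq_mul _ _)
  rw [← sq_abs]
  exact pow_le_pow_left₀ (abs_nonneg _) (abs_resp_le hG hd hR hD Y j₀ i ho x) 2

/-- The weighted column is the column times the rate, plus the excess at the root against the row,
plus the error of the symmetry. -/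
lemma wen_le {o : V} (ho : o ∈ D) {j₀ i : ℕ} {L M ε : ℝ} (hL : 0 ≤ L)
    (hM : ∀ Y, sqSJ G P D Y i o ≤ M)
    (hsym : |E G P D i (fun _ Y => ∑ c ∈ D,
          max (pmean G P D Y i c ^ 2 * sqSJ G P D Y i c ^ 2 - L) 0 * resp G P D Y j₀ i c o ^ 2) -
        E G P D i (fun _ Y => max (pmean G P D Y i o ^ 2 * sqSJ G P D Y i o ^ 2 - L) 0 *
          ∑ c ∈ D, resp G P D Y j₀ i o c ^ 2)| ≤ ε) :
    E G P D i (fun _ Y => wenY G P D Y j₀ i o) ≤
      L * E G P D i (fun _ Y => colY G P D Y j₀ i o) + ε +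
        M ^ 2 * E G P D i (fun _ Y =>
          (if L < wgt G P D Y i o then (1:ℝ) else 0) * rowY G P D Y j₀ i o) := by
  set B := (D.card : ℝ) * ((1 + P.h * (kap d P.η * D.card)) ^ i) ^ 2
  set C := ((D.card : ℝ) ^ 2)
  set F := fun Y => ∑ c ∈ D, max (wgt G P D Y i c - L) 0 * resp G P D Y j₀ i c o ^ 2
  set χ := fun Y => (if L < wgt G P D Y i o then (1:ℝ) else 0)
  have mcol : MeasY (fun _ Y => colY G P D Y j₀ i o) := fun S β _ Y hY =>
    Finset.measurable_sum _ fun x _ => (measurable_resp P D hY j₀ i x o).pow_const 2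
  have mwen : MeasY (fun _ Y => wenY G P D Y j₀ i o) := fun S β _ Y hY =>
    Finset.measurable_sum _ fun x _ =>
      (measurable_wgt hY i x).mul ((measurable_resp P D hY j₀ i x o).pow_const 2)
  have mF : MeasY (fun _ Y => F Y) := fun S β _ Y hY =>
    Finset.measurable_sum _ fun x _ => (((measurable_wgt hY i x).sub_const L).max
      measurable_const).mul ((measurable_resp P D hY j₀ i x o).pow_const 2)
  have mrow : MeasY (fun _ Y => rowY G P D Y j₀ i o) := fun S β _ Y hY =>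
    Finset.measurable_sum _ fun x _ => (measurable_resp P D hY j₀ i o x).pow_const 2
  have hW : ∀ Y, ∀ c ∈ D, 0 ≤ max (wgt G P D Y i c - L) 0 ∧ max (wgt G P D Y i c - L) 0 ≤ C :=
    fun Y c hc => ⟨le_max_right _ _, max_le (by
      linarith [wgt_le_of hG hd hR hD Y i hc (sqSJ_bounds treeStmt hG hd hR hD Y i hc).2])
      (sq_nonneg _)⟩
  have bF : ∀ (_ : Finset V) Y, |F Y| ≤ C * B := fun _ Y => by
    rw [abs_of_nonneg (Finset.sum_nonneg fun c hc => mul_nonneg (hW Y c hc).1 (sq_nonneg _))]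
    refine (Finset.sum_le_sum fun c hc =>
      mul_le_mul_of_nonneg_right (hW Y c hc).2 (sq_nonneg _)).trans ?_
    rw [← Finset.mul_sum]
    exact mul_le_mul_of_nonneg_left
      ((le_abs_self _).trans (abs_colY_le hG hd hR hD Y j₀ i o)) (sq_nonneg _)
  have hrow0 : ∀ Y, 0 ≤ rowY G P D Y j₀ i o := fun Y => Finset.sum_nonneg fun x _ => sq_nonneg _
  have b1 : E G P D i (fun _ Y => wenY G P D Y j₀ i o) ≤
      L * E G P D i (fun _ Y => colY G P D Y j₀ i o) + E G P D i (fun _ Y => F Y) := by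
    rw [← E_const_mul, ← E_add (Φ := fun _ Y => L * colY G P D Y j₀ i o)
      (fun S β _ Y hY => (mcol S β Y hY).const_mul L) mF (B := L * B) (fun _ Y => by
        rw [abs_mul, abs_of_nonneg hL]
        exact mul_le_mul_of_nonneg_left (abs_colY_le hG hd hR hD Y j₀ i o) hL) bF]
    refine E_mono mwen (fun S β _ Y hY => ((mcol S β Y hY).const_mul L).add (mF S β Y hY))
      (fun _ Y => abs_wenY_le treeStmt hG hd hR hD Y j₀ i o) (B' := L * B + C * B)
      (fun _ Y => (abs_add_le _ _).trans (add_le_add (by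
        rw [abs_mul, abs_of_nonneg hL]
        exact mul_le_mul_of_nonneg_left (abs_colY_le hG hd hR hD Y j₀ i o) hL) (bF ∅ Y)))
      fun _ _ Y => ?_
    unfold wenY colY
    rw [Finset.mul_sum, ← Finset.sum_add_distrib]
    refine Finset.sum_le_sum fun c _ => ?_
    rw [← add_mul]
    refine mul_le_mul_of_nonneg_right ?_ (sq_nonneg _)
    have := le_max_left (wgt G P D Y i c - L) 0
    unfold wgt at this ⊢
    linarith
  have b2 : E G P D i (fun _ Y => max (wgt G P D Y i o - L) 0 * rowY G P D Y j₀ i o) ≤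
      M ^ 2 * E G P D i (fun _ Y => χ Y * rowY G P D Y j₀ i o) := by
    rw [← E_const_mul]
    have hχ : ∀ Y, 0 ≤ χ Y ∧ χ Y ≤ 1 := fun Y => by simp only [χ]; split_ifs <;> norm_num
    refine E_mono
      (fun S β _ Y hY => (((measurable_wgt hY i o).sub_const L).max measurable_const).mul
        (mrow S β Y hY))
      (fun S β _ Y hY => ((Measurable.ite (measurableSet_lt measurable_const (measurable_wgt hY i o))
        measurable_const measurable_const).mul (mrow S β Y hY)).const_mul _)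
      (B := C * B) (fun _ Y => by
        rw [abs_mul, abs_of_nonneg (hW Y o ho).1]
        exact mul_le_mul (hW Y o ho).2 (abs_rowY_le hG hd hR hD Y j₀ i ho) (abs_nonneg _)
          (sq_nonneg _))
      (B' := M ^ 2 * B) (fun _ Y => by
        rw [abs_mul, abs_of_nonneg (sq_nonneg M), abs_mul, abs_of_nonneg (hχ Y).1]
        exact mul_le_mul_of_nonneg_left ((mul_le_of_le_one_left (abs_nonneg _) (hχ Y).2).trans
          (abs_rowY_le hG hd hR hD Y j₀ i ho)) (sq_nonneg M))
      fun _ _ Y => ?_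
    rw [← mul_assoc]
    refine mul_le_mul_of_nonneg_right ?_ (hrow0 Y)
    simp only [χ]
    split_ifs with h
    · rw [mul_one]
      exact max_le (by linarith [wgt_le_of hG hd hR hD Y i ho (hM Y)]) (sq_nonneg M)
    · rw [mul_zero]
      exact max_le (by linarith [not_lt.1 h]) le_rfl
  have b3 := (abs_le.1 hsym).2
  simp only [F, χ, wgt, rowY] at b1 b2 ⊢
  linarith

/-- A bound on the squared sums kills the excess. -/
lemma excess_zero {o : V} (ho : o ∈ D) {j₀ i : ℕ} {L M : ℝ}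
    (hM : ∀ Y, sqSJ G P D Y i o ≤ M) (hML : M ^ 2 ≤ L) :
    E G P D i (fun _ Y =>
      (if L < wgt G P D Y i o then (1:ℝ) else 0) * rowY G P D Y j₀ i o) = 0 := by
  have h : ∀ Y, ¬ L < wgt G P D Y i o := fun Y =>
    not_lt.2 ((wgt_le_of hG hd hR hD Y i ho (hM Y)).trans hML)
  simp only [h, if_false, zero_mul]
  exact E_const i 0

end

end Vale.Agent.P161.Edge
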