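import Mathlib.Probability.Distributions.Gaussian.Fernique
import Vale.Agent.P161.Shift
import Vale.Agent.P161.Edge.Statements

/-!
Efron–Stein for arbitrary bounded functions of independent Gaussians, the rotation inequality
for partially resampled noise, and the Lipschitz bound of a smoothed functional.
-/

namespace Vale.Agent.P161.Edge

open MeasureTheory ProbabilityTheory Function
open scoped NNReal ENNReal Classical

noncomputable section

variable {κ : Type*} [Fintype κ]

/-- Exchange the coordinates in `A` between two points. -/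
def swapOn (A : κ → Prop) (p : (κ → ℝ) × (κ → ℝ)) : (κ → ℝ) × (κ → ℝ) :=
  (fun i => if A i then p.2 i else p.1 i, fun i => if A i then p.1 i else p.2 i)

omit [Fintype κ] in
lemma measurable_swapOn (A : κ → Prop) : Measurable (swapOn A) := by
  refine Measurable.prodMk (measurable_pi_lambda _ fun i => ?_) (measurable_pi_lambda _ fun i => ?_)
    <;> split_ifs <;> fun_prop

lemma prod_pi_eq_map (ρ : Measure ℝ) [IsProbabilityMeasure ρ] :
    (Measure.pi fun _ : κ => ρ.prod ρ).map (fun q : κ → ℝ × ℝ => (fun i => (q i).1, fun i => (q i).2))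
      = (Measure.pi fun _ : κ => ρ).prod (Measure.pi fun _ : κ => ρ) :=
  (measurePreserving_arrowProdEquivProdArrow ℝ ℝ κ (fun _ => ρ) (fun _ => ρ)).map_eq

lemma swapOn_preserving (ρ : Measure ℝ) [IsProbabilityMeasure ρ] (A : κ → Prop) :
    MeasurePreserving (swapOn A) ((Measure.pi fun _ : κ => ρ).prod (Measure.pi fun _ : κ => ρ))
      ((Measure.pi fun _ : κ => ρ).prod (Measure.pi fun _ : κ => ρ)) := by
  refine ⟨measurable_swapOn A, ?_⟩
  have hsw : MeasurePreserving (fun (q : κ → ℝ × ℝ) (i : κ) => if A i then (q i).swap else q i)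
      (Measure.pi fun _ : κ => ρ.prod ρ) (Measure.pi fun _ : κ => ρ.prod ρ) :=
    measurePreserving_pi (f := fun i (x : ℝ × ℝ) => if A i then x.swap else x)
      (fun _ => ρ.prod ρ) (fun _ => ρ.prod ρ) fun i => by
        by_cases h : A i
        · simp only [if_pos h]; exact Measure.measurePreserving_swap
        · simp only [if_neg h]; exact MeasurePreserving.id _
  conv_lhs => rw [← prod_pi_eq_map ρ]
  rw [Measure.map_map (measurable_swapOn A) (by fun_prop)]
  conv_rhs => rw [← prod_pi_eq_map ρ, ← hsw.map_eq]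
  rw [Measure.map_map (by fun_prop) hsw.measurable]
  congr 1
  funext q
  simp only [swapOn, comp_apply]
  refine Prod.ext ?_ ?_ <;> funext i <;> by_cases h : A i <;> simp [h]

lemma update_preserving (ρ : Measure ℝ) [IsProbabilityMeasure ρ] (i : κ) :
    MeasurePreserving (fun p : (κ → ℝ) × ℝ => update p.1 i p.2)
      ((Measure.pi fun _ : κ => ρ).prod ρ) (Measure.pi fun _ : κ => ρ) := by
  have hm : Measurable fun p : (κ → ℝ) × ℝ => update p.1 i p.2 := by
    refine measurable_pi_lambda _ fun j => ?_
    by_cases h : j = i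
    · subst h; simp only [update_self]; exact measurable_snd
    · simp only [update_of_ne h]; fun_prop
  refine ⟨hm, (Measure.pi_eq fun s hs => ?_).symm⟩
  rw [Measure.map_apply hm (MeasurableSet.univ_pi hs)]
  have : (fun p : (κ → ℝ) × ℝ => update p.1 i p.2) ⁻¹' Set.univ.pi s
      = (Set.univ.pi (update s i Set.univ)) ×ˢ s i := by
    ext p
    simp only [Set.mem_preimage, Set.mem_univ_pi, Set.mem_prod]
    constructor
    · intro h
      refine ⟨fun j => ?_, by simpa using h i⟩
      by_cases hj : j = i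
      · subst hj; simp
      · simpa [update_of_ne hj] using h j
    · rintro ⟨h1, h2⟩ j
      by_cases hj : j = i
      · subst hj; simpa using h2
      · simpa [update_of_ne hj] using h1 j
  rw [this, Measure.prod_prod, Measure.pi_pi, ← Finset.mul_prod_erase _ _ (Finset.mem_univ i),
    ← Finset.mul_prod_erase _ (fun j => ρ (s j)) (Finset.mem_univ i), update_self, measure_univ,
    one_mul, mul_comm]
  congr 1
  exact Finset.prod_congr rfl fun j hj => by rw [update_of_ne (Finset.mem_erase.1 hj).1]

/-- Transfer of an integral along a preserving map. -/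
lemma integral_comp' {α β : Type*} [MeasurableSpace α] [MeasurableSpace β] {μ : Measure α}
    {ν : Measure β} {T : α → β} (hT : MeasurePreserving T μ ν) {f : β → ℝ} (hf : Measurable f) :
    ∫ a, f (T a) ∂μ = ∫ b, f b ∂ν := by
  rw [← hT.map_eq, integral_map hT.measurable.aemeasurable hf.aestronglyMeasurable]

lemma abs_sub_sq_le {a b B : ℝ} (ha : |a| ≤ B) (hb : |b| ≤ B) : |(a - b) ^ 2| ≤ (2 * B) ^ 2 := by
  rw [abs_pow]
  exact pow_le_pow_left₀ (abs_nonneg _) ((abs_sub _ _).trans (by linarith)) 2

lemma abs_integral_le {α : Type*} [MeasurableSpace α] (μ : Measure α) [IsProbabilityMeasure μ]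
    {f : α → ℝ} {B : ℝ} (hb : ∀ a, |f a| ≤ B) : |∫ a, f a ∂μ| ≤ B := by
  simpa using norm_integral_le_of_norm_le_const (μ := μ)
    (ae_of_all _ fun a => show ‖f a‖ ≤ B from hb a)

/-- The influence of one coordinate. -/
def infl (ρ : Measure ℝ) (F : (κ → ℝ) → ℝ) (i : κ) : ℝ :=
  ∫ z, ∫ x, ∫ y, (F (update z i x) - F (update z i y)) ^ 2 ∂ρ ∂ρ ∂(Measure.pi fun _ : κ => ρ)

omit [Fintype κ] in
lemma measurable_update' (i : κ) : Measurable fun p : (κ → ℝ) × ℝ => update p.1 i p.2 :=
  measurable_pi_lambda _ fun j => by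
    by_cases h : j = i
    · subst h; simp only [update_self]; exact measurable_snd
    · simp only [update_of_ne h]; fun_prop

lemma infl_eq (ρ : Measure ℝ) [IsProbabilityMeasure ρ] {F : (κ → ℝ) → ℝ} (hF : Measurable F)
    {B : ℝ} (hb : ∀ z, |F z| ≤ B) (i : κ) :
    ∫ p, (F p.1 - F (update p.1 i (p.2 i))) ^ 2
        ∂((Measure.pi fun _ : κ => ρ).prod (Measure.pi fun _ : κ => ρ)) = infl ρ F i := by
  set ν := Measure.pi fun _ : κ => ρ with hν
  set g : (κ → ℝ) × ℝ → ℝ := fun p => (F p.1 - F (update p.1 i p.2)) ^ 2 with hg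
  have mg : Measurable g :=
    ((hF.comp measurable_fst).sub (hF.comp (measurable_update' i))).pow_const 2
  have bg : ∀ p, |g p| ≤ (2 * B) ^ 2 := fun p => abs_sub_sq_le (hb _) (hb _)
  have h1 : MeasurePreserving (fun p : (κ → ℝ) × (κ → ℝ) => (p.1, p.2 i)) (ν.prod ν) (ν.prod ρ) :=
    (MeasurePreserving.id ν).prod (measurePreserving_eval (fun _ : κ => ρ) i)
  calc _ = ∫ p, g p ∂(ν.prod ρ) := integral_comp' h1 mg
    _ = ∫ z, ∫ y, g (z, y) ∂ρ ∂ν := integral_prod _ (integrable_of_bdd mg bg)
    _ = ∫ p : (κ → ℝ) × ℝ, ∫ y, g (update p.1 i p.2, y) ∂ρ ∂(ν.prod ρ) :=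
        (integral_comp' (update_preserving ρ i) (f := fun z => ∫ y, g (z, y) ∂ρ)
          mg.stronglyMeasurable.integral_prod_right'.measurable).symm
    _ = ∫ z, ∫ x, ∫ y, g (update z i x, y) ∂ρ ∂ρ ∂ν :=
        integral_prod (fun p : (κ → ℝ) × ℝ => ∫ y, g (update p.1 i p.2, y) ∂ρ) (integrable_of_bdd
          (mg.stronglyMeasurable.integral_prod_right'.measurable.comp (measurable_update' i))
          fun p => abs_integral_le _ fun y => bg _)
    _ = infl ρ F i := by simp [infl, hg, hν]

/-- Efron–Stein. -/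
theorem qv_le_infl (ρ : Measure ℝ) [IsProbabilityMeasure ρ] {F : (κ → ℝ) → ℝ} (hF : Measurable F)
    {B : ℝ} (hb : ∀ z, |F z| ≤ B) :
    qv (Measure.pi fun _ : κ => ρ) F ≤ 1 / 2 * ∑ i, infl ρ F i := by
  set ν := Measure.pi fun _ : κ => ρ with hν
  set π := ν.prod ν with hπ
  set e := Fintype.equivFin κ
  set n := Fintype.card κ
  set H : ℕ → (κ → ℝ) × (κ → ℝ) → ℝ := fun k p => F (swapOn (fun i => (e i : ℕ) < k) p).1 with hH
  set G : κ → (κ → ℝ) × (κ → ℝ) → ℝ := fun i p => F (update p.1 i (p.2 i)) with hG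
  have mH : ∀ k, Measurable (H k) := fun k => hF.comp (measurable_swapOn _).fst
  have bH : ∀ k p, |H k p| ≤ B := fun k p => hb _
  have mG : ∀ i, Measurable (G i) := fun i =>
    hF.comp ((measurable_update' i).comp (measurable_fst.prodMk
      ((measurable_pi_apply i).comp measurable_snd)))
  have mF1 : Measurable fun p : (κ → ℝ) × (κ → ℝ) => F p.1 := hF.comp measurable_fst
  have bmul : ∀ {a b C D : ℝ}, |a| ≤ C → |b| ≤ D → |a * b| ≤ C * D := fun {a b C D} ha hb' => by
    rw [abs_mul]
    exact mul_le_mul ha hb' (abs_nonneg _) ((abs_nonneg _).trans ha)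
  have b2 : ∀ k p, |H k p - H (k + 1) p| ≤ 2 * B := fun k p =>
    (abs_sub _ _).trans (by linarith [bH k p, bH (k + 1) p])
  have iA : ∀ k, Integrable (fun p => F p.1 * (H k p - H (k + 1) p)) π := fun k =>
    integrable_of_bdd (mF1.mul ((mH k).sub (mH (k + 1)))) fun p => bmul (hb _) (b2 k p)
  -- the term of one coordinate
  have step : ∀ i : κ, ∫ p, F p.1 * (H (e i) p - H (e i + 1) p) ∂π ≤ 1 / 2 * infl ρ F i := by
    intro i
    set k : ℕ := (e i : ℕ) with hk
    set S : (κ → ℝ) × (κ → ℝ) → (κ → ℝ) × (κ → ℝ) := swapOn fun j => j = i with hS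
    have hS1 : ∀ p, (S p).1 = update p.1 i (p.2 i) := fun p => by
      funext j
      by_cases h : j = i
      · subst h; simp [hS, swapOn]
      · simp [hS, swapOn, h, update_of_ne h]
    have hne : ∀ {j : κ}, j ≠ i → (e j : ℕ) ≠ k := fun {j} hj h =>
      hj (e.injective (Fin.ext h))
    have hnext : ∀ p, (swapOn (fun j => (e j : ℕ) < k + 1) p).1
        = update (swapOn (fun j => (e j : ℕ) < k) p).1 i (p.2 i) := fun p => by
      funext j
      by_cases h : j = i
      · subst h; simp [swapOn, hk]
      · rw [update_of_ne h]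
        have h2 := hne h
        by_cases h' : (e j : ℕ) < k
        · simp [swapOn, h', show (e j : ℕ) ≤ k by omega]
        · simp [swapOn, h', show ¬(e j : ℕ) ≤ k by omega]
    have hHS : ∀ p, H k (S p) = H (k + 1) p ∧ H (k + 1) (S p) = H k p := by
      intro p
      constructor <;>
      · simp only [hH]
        congr 1
        funext j
        by_cases h : j = i
        · subst h; simp [swapOn, hS, hk]
        · have h2 := hne h
          by_cases h' : (e j : ℕ) < k
          · simp [swapOn, hS, h, h', show (e j : ℕ) ≤ k by omega]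
          · simp [swapOn, hS, h, h', show ¬(e j : ℕ) ≤ k by omega]
    set D : (κ → ℝ) × (κ → ℝ) → ℝ := fun p => H k p - H (k + 1) p with hD
    have mD : Measurable D := (mH k).sub (mH (k + 1))
    have i1 : Integrable (fun p => F p.1 * D p) π := iA k
    have i2 : Integrable (fun p => G i p * D p) π :=
      integrable_of_bdd ((mG i).mul mD) fun p => bmul (hb _) (b2 k p)
    have e1 : ∫ p, F p.1 * D p ∂π = -∫ p, G i p * D p ∂π := by
      rw [← integral_neg]
      conv_lhs => rw [← integral_comp' (swapOn_preserving ρ fun j => j = i)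
        (f := fun p => F p.1 * D p) (mF1.mul mD)]
      refine integral_congr_ae (ae_of_all _ fun p => ?_)
      show F (S p).1 * D (S p) = _
      simp only [hD, hG, hS1, (hHS p).1, (hHS p).2]
      ring
    have sq1 : ∫ p, (F p.1 - G i p) ^ 2 ∂π = infl ρ F i := infl_eq ρ hF hb i
    have sq2 : ∫ p, D p ^ 2 ∂π = infl ρ F i := by
      rw [← sq1]
      conv_rhs => rw [← integral_comp' (swapOn_preserving ρ fun j => (e j : ℕ) < k)
        (f := fun p => (F p.1 - G i p) ^ 2) ((mF1.sub (mG i)).pow_const 2)]
      refine integral_congr_ae (ae_of_all _ fun p => ?_)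
      have hi2 : (swapOn (fun j => (e j : ℕ) < k) p).2 i = p.2 i := by simp [swapOn, hk]
      simp only [hD, hH, hG, hnext, hi2]
    have i3 : Integrable (fun p => (F p.1 - G i p) ^ 2) π :=
      integrable_of_bdd ((mF1.sub (mG i)).pow_const 2) fun p => abs_sub_sq_le (hb _) (hb _)
    have i4 : Integrable (fun p => D p ^ 2) π :=
      integrable_of_bdd (mD.pow_const 2) fun p => abs_sub_sq_le (bH _ _) (bH _ _)
    have hle : ∫ p, (F p.1 * D p - G i p * D p) ∂π
        ≤ ∫ p, ((F p.1 - G i p) ^ 2 / 2 + D p ^ 2 / 2) ∂π := by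
      refine integral_mono (i1.sub i2) ((i3.div_const 2).add (i4.div_const 2)) fun p => ?_
      simp only
      nlinarith [sq_nonneg (F p.1 - G i p - D p)]
    rw [integral_sub i1 i2, integral_add (i3.div_const 2) (i4.div_const 2), integral_div,
      integral_div, sq1, sq2] at hle
    linarith
  have hqv : qv ν F = ∫ p, F p.1 * (H 0 p - H n p) ∂π := by
    have h0 : ∀ p, H 0 p = F p.1 := fun p => by simp [hH, swapOn]
    have hn : ∀ p, H n p = F p.2 := fun p => by
      simp only [hH]
      congr 1
      funext i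
      simp [swapOn, (e i).2, n]
    simp only [h0, hn, mul_sub]
    have ia : Integrable (fun p : (κ → ℝ) × (κ → ℝ) => F p.1 * F p.1) π :=
      integrable_of_bdd (mF1.mul mF1) fun p => bmul (hb _) (hb _)
    have ib : Integrable (fun p : (κ → ℝ) × (κ → ℝ) => F p.1 * F p.2) π :=
      integrable_of_bdd (mF1.mul (hF.comp measurable_snd)) fun p => bmul (hb _) (hb _)
    rw [integral_sub ia ib, integral_prod_mul]
    have h2 : ∫ p : (κ → ℝ) × (κ → ℝ), F p.1 * F p.1 ∂π = ∫ z, F z ^ 2 ∂ν := by
      simp only [sq]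
      exact integral_comp' (measurePreserving_fst (μ := ν) (ν := ν)) (hF.mul hF)
    rw [h2, qv]
    ring
  have htel : ∀ p, H 0 p - H n p = ∑ i, (H (e i) p - H (e i + 1) p) := fun p => by
    rw [← Finset.sum_range_sub' (fun k => H k p) n,
      Equiv.sum_comp e (fun j : Fin n => H j p - H (j + 1) p),
      Fin.sum_univ_eq_sum_range (fun k => H k p - H (k + 1) p) n]
  rw [hqv]
  simp only [htel, Finset.mul_sum]
  rw [integral_finsetSum _ fun i _ => iA _]
  exact Finset.sum_le_sum fun i _ => step i

/-- The rotation of a pair of noise vectors. -/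
def rot (c s : κ → ℝ) (p : (κ → ℝ) × (κ → ℝ)) : (κ → ℝ) × (κ → ℝ) :=
  (fun i => c i * p.1 i + s i * p.2 i, fun i => s i * p.1 i - c i * p.2 i)

lemma rot1_preserving (h : ℝ≥0) {c s : ℝ} (hcs : c ^ 2 + s ^ 2 = 1) :
    MeasurePreserving (fun x : ℝ × ℝ => (c * x.1 + s * x.2, s * x.1 - c * x.2))
      ((gl h).prod (gl h)) ((gl h).prod (gl h)) := by
  have hm : Measurable fun x : ℝ × ℝ => (c * x.1 + s * x.2, s * x.1 - c * x.2) := by fun_prop
  refine ⟨hm, ?_⟩
  set z : ℂ := ⟨c, s⟩ with hz
  have hn : ‖z‖ = 1 := by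
    rw [Complex.norm_def, Complex.normSq_apply, hz]
    simp [← sq, hcs]
  have hz0 : z ≠ 0 := by
    intro e
    rw [e] at hn
    simp at hn
  set t := Complex.arg z
  have hc : Real.cos t = c := by rw [Complex.cos_arg hz0, hn, div_one, hz]
  have hs : Real.sin t = s := by rw [Complex.sin_arg, hn, div_one, hz]
  have h0 : ∀ L : StrongDual ℝ ℝ, ∫ x, L x ∂(gl h) = 0 := by
    intro L
    have e : (fun x => L x) = fun x => x * L 1 := funext fun x => by
      simpa using (L.map_smul x 1)
    rw [e, integral_mul_const, integral_id_gaussianReal, zero_mul]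
  have hrot := ProbabilityTheory.IsGaussian.map_rotation_eq_self_of_forall_strongDual_eq_zero h0 t
  have hneg : ((gl h).prod (gl h)).map (Prod.map id fun x : ℝ => -x) = (gl h).prod (gl h) := by
    rw [← Measure.map_prod_map _ _ measurable_id measurable_neg, Measure.map_id,
      gaussianReal_map_neg, neg_zero]
  conv_rhs => rw [← hneg, ← hrot]
  rw [Measure.map_map (by fun_prop) (by fun_prop)]
  congr 1
  funext x
  simp only [comp_apply, ContinuousLinearMap.rotation_apply, hc, hs, Prod.map_apply, id_eq,
    smul_eq_mul]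
  refine Prod.ext rfl ?_
  ring

lemma rot_preserving (h : ℝ≥0) {c s : κ → ℝ} (hcs : ∀ i, c i ^ 2 + s i ^ 2 = 1) :
    MeasurePreserving (rot c s) ((Measure.pi fun _ : κ => gl h).prod (Measure.pi fun _ : κ => gl h))
      ((Measure.pi fun _ : κ => gl h).prod (Measure.pi fun _ : κ => gl h)) := by
  have hm : Measurable (rot c s) := by unfold rot; fun_prop
  refine ⟨hm, ?_⟩
  have hr : MeasurePreserving (fun (q : κ → ℝ × ℝ) (i : κ) =>
        (c i * (q i).1 + s i * (q i).2, s i * (q i).1 - c i * (q i).2))
      (Measure.pi fun _ : κ => (gl h).prod (gl h)) (Measure.pi fun _ : κ => (gl h).prod (gl h)) :=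
    measurePreserving_pi (f := fun i (x : ℝ × ℝ) => (c i * x.1 + s i * x.2, s i * x.1 - c i * x.2))
      (fun _ => (gl h).prod (gl h)) (fun _ => (gl h).prod (gl h)) fun i => rot1_preserving h (hcs i)
  conv_lhs => rw [← prod_pi_eq_map (gl h)]
  rw [Measure.map_map hm (by fun_prop)]
  conv_rhs => rw [← prod_pi_eq_map (gl h), ← hr.map_eq]
  rw [Measure.map_map (by fun_prop) hr.measurable]
  rfl

lemma neg_preserving (h : ℝ≥0) :
    MeasurePreserving (fun (z : κ → ℝ) i => -z i) (Measure.pi fun _ : κ => gl h)
      (Measure.pi fun _ : κ => gl h) :=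
  measurePreserving_pi (f := fun _ x => -x) (fun _ => gl h) (fun _ => gl h) fun _ =>
    ⟨by fun_prop, by simp [gaussianReal_map_neg]⟩

omit [Fintype κ] in
lemma measurable_comb (c s : κ → ℝ) :
    Measurable fun p : (κ → ℝ) × (κ → ℝ) => fun i => c i * p.1 i + s i * p.2 i := by fun_prop

lemma sq_integral_le {α : Type*} [MeasurableSpace α] (μ : Measure α) [IsProbabilityMeasure μ]
    {f : α → ℝ} (hf : Measurable f) {B : ℝ} (hb : ∀ a, |f a| ≤ B) :
    (∫ a, f a ∂μ) ^ 2 ≤ ∫ a, f a ^ 2 ∂μ := by
  have h := integral_diff_sq (μ := μ) hf hb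
  have h2 : 0 ≤ ∫ x, ∫ y, (f x - f y) ^ 2 ∂μ ∂μ :=
    integral_nonneg fun x => integral_nonneg fun y => sq_nonneg _
  rw [h, qv] at h2
  linarith

/-- The rotation inequality. -/
theorem rotation_bound (h : ℝ≥0) {F : (κ → ℝ) → ℝ} (hF : Measurable F) {B : ℝ}
    (hb : ∀ z, |F z| ≤ B) (c s : κ → ℝ) (hcs : ∀ i, c i ^ 2 + s i ^ 2 = 1) :
    ∫ z, (F z - smooth h F (fun i => c i ^ 2 - s i ^ 2) (fun i => 2 * c i * s i) z) ^ 2
        ∂(Measure.pi fun _ => gl h) ≤
      2 * ∑ i, ∫ z, ∫ u, ∫ w, ∫ w',
        (F (update z i (c i * u + s i * w')) - F (update z i (c i * u + s i * w))) ^ 2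
          ∂(gl h) ∂(gl h) ∂(gl h) ∂(Measure.pi fun _ => gl h) := by
  set ν := Measure.pi fun _ : κ => gl h with hν
  set a : κ → ℝ := fun i => c i ^ 2 - s i ^ 2
  set b : κ → ℝ := fun i => 2 * c i * s i
  set comb : (κ → ℝ) × (κ → ℝ) → κ → ℝ := fun p i => c i * p.1 i + s i * p.2 i with hcomb
  have mcomb : Measurable comb := measurable_comb c s
  set g : (κ → ℝ) × (κ → ℝ) → ℝ := fun p => (F p.1 - F fun i => a i * p.1 i + b i * p.2 i) ^ 2
    with hg
  have mg : Measurable g :=
    ((hF.comp measurable_fst).sub (hF.comp (measurable_comb a b))).pow_const 2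
  have bg : ∀ p, |g p| ≤ (2 * B) ^ 2 := fun p => abs_sub_sq_le (hb _) (hb _)
  have mds : Measurable fun z => (F z - smooth h F a b z) ^ 2 :=
    (hF.sub (hF.comp (measurable_comb a b)).stronglyMeasurable.integral_prod_right'.measurable).pow_const 2
  -- Jensen
  have s1 : ∫ z, (F z - smooth h F a b z) ^ 2 ∂ν ≤ ∫ p, g p ∂(ν.prod ν) := by
    rw [integral_prod _ (integrable_of_bdd mg bg)]
    refine integral_mono
      (integrable_of_bdd mds fun z => abs_sub_sq_le (hb z) (abs_integral_le ν fun z' => hb _))
      (integrable_of_bdd mg.stronglyMeasurable.integral_prod_right'.measurable fun z =>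
        abs_integral_le ν fun z' => bg _) fun z => ?_
    simp only [hg]
    have hm : Measurable fun z' : κ → ℝ => F fun i => a i * z i + b i * z' i := hF.comp (by fun_prop)
    have : F z - smooth h F a b z = ∫ z', (F z - F fun i => a i * z i + b i * z' i) ∂ν := by
      rw [integral_sub (integrable_const _) (integrable_of_bdd hm fun _ => hb _)]
      simp [smooth, hν]
    rw [this]
    exact sq_integral_le ν (measurable_const.sub hm)
      (B := 2 * B) fun z' => (abs_sub _ _).trans (by linarith [hb z, hb fun i => a i * z i + b i * z' i])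
  -- rotation
  set g' : (κ → ℝ) × (κ → ℝ) → ℝ := fun p =>
    (F (comb p) - F (comb (p.1, fun i => -p.2 i))) ^ 2 with hg'
  have mg' : Measurable g' :=
    ((hF.comp mcomb).sub (hF.comp (mcomb.comp (by fun_prop)))).pow_const 2
  have bg' : ∀ p, |g' p| ≤ (2 * B) ^ 2 := fun p => abs_sub_sq_le (hb _) (hb _)
  have s2 : ∫ p, g p ∂(ν.prod ν) = ∫ p, g' p ∂(ν.prod ν) := by
    rw [← integral_comp' (rot_preserving h hcs) mg]
    refine integral_congr_ae (ae_of_all _ fun p => ?_)
    simp only [hg, hg', rot, hcomb]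
    congr 3
    funext i
    simp only [a, b]
    linear_combination (c i * p.1 i - s i * p.2 i) * hcs i
  -- Efron–Stein in `w`
  set J : κ → (κ → ℝ) × (κ → ℝ) → ℝ := fun i p => ∫ x, ∫ y,
    (F (update (comb p) i (c i * p.1 i + s i * y)) - F (update (comb p) i (c i * p.1 i + s i * x))) ^ 2
      ∂(gl h) ∂(gl h) with hJ
  have mJ : ∀ i, Measurable (J i) := by
    intro i
    have mu : ∀ {α : Type _} [MeasurableSpace α] {p : α → (κ → ℝ) × (κ → ℝ)} {y : α → ℝ},
        Measurable p → Measurable y →
        Measurable fun a => F (update (comb (p a)) i (c i * (p a).1 i + s i * y a)) :=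
      fun hp hy => hF.comp ((measurable_update' i).comp ((mcomb.comp hp).prodMk
        ((((measurable_pi_apply i).comp hp.fst).const_mul _).add (hy.const_mul _))))
    have m0 : Measurable fun q : (((κ → ℝ) × (κ → ℝ)) × ℝ) × ℝ =>
        (F (update (comb q.1.1) i (c i * q.1.1.1 i + s i * q.2))
          - F (update (comb q.1.1) i (c i * q.1.1.1 i + s i * q.1.2))) ^ 2 :=
      ((mu measurable_fst.fst measurable_snd).sub
        (mu measurable_fst.fst measurable_fst.snd)).pow_const 2
    exact (m0.stronglyMeasurable.integral_prod_right'.measurable).stronglyMeasurable.integral_prod_right'.measurable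
  have bJ : ∀ i p, |J i p| ≤ (2 * B) ^ 2 := fun i p =>
    abs_integral_le _ fun x => abs_integral_le _ fun y => abs_sub_sq_le (hb _) (hb _)
  have iJ : ∀ i, Integrable (J i) (ν.prod ν) := fun i => integrable_of_bdd (mJ i) (bJ i)
  have s3 : ∫ p, g' p ∂(ν.prod ν) ≤ ∫ p, 2 * ∑ i, J i p ∂(ν.prod ν) := by
    rw [integral_prod _ (integrable_of_bdd mg' bg'),
      integral_prod _ ((integrable_finsetSum _ fun i _ => iJ i).const_mul 2)]
    refine integral_mono
      (integrable_of_bdd mg'.stronglyMeasurable.integral_prod_right'.measurable fun u =>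
        abs_integral_le ν fun w => bg' _) ?_ fun u => ?_
    · exact ((integrable_finsetSum _ fun i _ => iJ i).const_mul 2).integral_prod_left
    set Gu : (κ → ℝ) → ℝ := fun w => F (comb (u, w)) with hGu
    have mGu : Measurable Gu := hF.comp (mcomb.comp measurable_prodMk_left)
    set m := ∫ w, Gu w ∂ν with hm
    have hmb : |m| ≤ B := abs_integral_le ν fun w => hb _
    have hvar : ∫ w, (Gu w - m) ^ 2 ∂ν = qv ν Gu := by
      have i1 : Integrable Gu ν := integrable_of_bdd mGu fun w => hb _
      have i2 : Integrable (fun w => Gu w ^ 2) ν := integrable_sq_of_bdd mGu fun w => hb _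
      simp only [sub_sq]
      have ia : Integrable (fun w => Gu w ^ 2 - 2 * Gu w * m) ν :=
        i2.sub ((i1.const_mul 2).mul_const m)
      rw [integral_add ia (integrable_const _),
        integral_sub i2 ((i1.const_mul 2).mul_const m), integral_mul_const, integral_const_mul]
      simp [qv, ← hm]
      ring
    have h4 : ∫ w, g' (u, w) ∂ν ≤ 4 * qv ν Gu := by
      have ia : Integrable (fun w => 2 * (Gu w - m) ^ 2) ν :=
        (integrable_of_bdd ((mGu.sub measurable_const).pow_const 2)
          fun w => abs_sub_sq_le (hb _) hmb).const_mul 2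
      have mn : Measurable fun w : κ → ℝ => (Gu (fun i => -w i) - m) ^ 2 :=
        ((mGu.comp (measurable_pi_lambda _ fun i => (measurable_pi_apply i).neg)).sub measurable_const).pow_const 2
      have ib : Integrable (fun w => 2 * (Gu (fun i => -w i) - m) ^ 2) ν :=
        (integrable_of_bdd mn fun w => abs_sub_sq_le (hb _) hmb).const_mul 2
      calc ∫ w, g' (u, w) ∂ν
          ≤ ∫ w, (2 * (Gu w - m) ^ 2 + 2 * (Gu (fun i => -w i) - m) ^ 2) ∂ν := by
            refine integral_mono (integrable_of_bdd (mg'.comp measurable_prodMk_left) fun w => bg' _)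
              (ia.add ib) fun w => ?_
            simp only [hg', hGu]
            nlinarith [sq_nonneg (Gu w + Gu (fun i => -w i) - 2 * m)]
        _ = 4 * qv ν Gu := by
            rw [integral_add ia ib, integral_const_mul, integral_const_mul,
              integral_comp' (neg_preserving h) (f := fun w => (Gu w - m) ^ 2)
                ((mGu.sub measurable_const).pow_const 2), hvar]
            ring
    refine h4.trans ?_
    have hes := qv_le_infl (gl h) mGu (B := B) fun w => hb _
    have hinfl : ∀ i, infl (gl h) Gu i = ∫ w, J i (u, w) ∂ν := fun i => by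
      refine integral_congr_ae (ae_of_all _ fun w => ?_)
      simp only [hJ, hGu]
      refine integral_congr_ae (ae_of_all _ fun x => integral_congr_ae (ae_of_all _ fun y => ?_))
      have hu : ∀ t, comb (u, update w i t) = update (comb (u, w)) i (c i * u i + s i * t) := by
        intro t
        funext j
        by_cases hj : j = i
        · subst hj; simp [hcomb]
        · simp [hcomb, update_of_ne hj]
      simp only [hu]
      ring
    have iu : ∀ i, Integrable (fun w => J i (u, w)) ν := fun i =>
      integrable_of_bdd ((mJ i).comp measurable_prodMk_left) fun w => bJ i _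
    simp only [hinfl] at hes
    rw [integral_const_mul, integral_finsetSum _ fun i _ => iu i]
    linarith
  -- separating the coordinate `i`
  have s4 : ∀ i, ∫ p, J i p ∂(ν.prod ν) = ∫ z, ∫ u, ∫ w, ∫ w',
      (F (update z i (c i * u + s i * w')) - F (update z i (c i * u + s i * w))) ^ 2
        ∂(gl h) ∂(gl h) ∂(gl h) ∂ν := by
    intro i
    set K : (κ → ℝ) × ℝ → ℝ := fun q => ∫ w, ∫ w',
      (F (update q.1 i (c i * q.2 + s i * w')) - F (update q.1 i (c i * q.2 + s i * w))) ^ 2
        ∂(gl h) ∂(gl h) with hK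
    have mK : Measurable K := by
      have mu : ∀ {α : Type _} [MeasurableSpace α] {q : α → (κ → ℝ) × ℝ} {y : α → ℝ},
          Measurable q → Measurable y →
          Measurable fun a => F (update (q a).1 i (c i * (q a).2 + s i * y a)) :=
        fun hq hy => hF.comp ((measurable_update' i).comp (hq.fst.prodMk
          ((hq.snd.const_mul _).add (hy.const_mul _))))
      have m0 : Measurable fun r : (((κ → ℝ) × ℝ) × ℝ) × ℝ =>
          (F (update r.1.1.1 i (c i * r.1.1.2 + s i * r.2))
            - F (update r.1.1.1 i (c i * r.1.1.2 + s i * r.1.2))) ^ 2 :=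
        ((mu measurable_fst.fst measurable_snd).sub
          (mu measurable_fst.fst measurable_fst.snd)).pow_const 2
      exact (m0.stronglyMeasurable.integral_prod_right'.measurable).stronglyMeasurable.integral_prod_right'.measurable
    have bK : ∀ q, |K q| ≤ (2 * B) ^ 2 := fun q =>
      abs_integral_le _ fun x => abs_integral_le _ fun y => abs_sub_sq_le (hb _) (hb _)
    have hJK : ∀ p, J i p = K (comb p, p.1 i) := fun p => rfl
    set T : ((κ → ℝ) × ℝ) × (κ → ℝ) → (κ → ℝ) × (κ → ℝ) := fun q => (update q.1.1 i q.1.2, q.2)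
      with hT
    have hTp : MeasurePreserving T ((ν.prod (gl h)).prod ν) (ν.prod ν) :=
      (update_preserving (gl h) i).prod (MeasurePreserving.id ν)
    have hinv : ∀ z t u0, K (update z i t, u0) = K (z, u0) := fun z t u0 => by
      simp only [hK, update_idem]
    set L : (κ → ℝ) → ℝ := fun z => ∫ u0, K (z, u0) ∂(gl h) with hL
    have mL : Measurable L := mK.stronglyMeasurable.integral_prod_right'.measurable
    set S : ((κ → ℝ) × ℝ) × (κ → ℝ) → ((κ → ℝ) × (κ → ℝ)) × ℝ := fun q => ((q.1.1, q.2), q.1.2)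
      with hSd
    have hSp : MeasurePreserving S ((ν.prod (gl h)).prod ν) ((ν.prod ν).prod (gl h)) := by
      have h1 := measurePreserving_prodAssoc ν (gl h) ν
      have h2 : MeasurePreserving (fun q : (κ → ℝ) × ℝ × (κ → ℝ) => (q.1, q.2.swap))
          (ν.prod ((gl h).prod ν)) (ν.prod (ν.prod (gl h))) :=
        (MeasurePreserving.id ν).prod Measure.measurePreserving_swap
      have h3 := (measurePreserving_prodAssoc ν ν (gl h)).symm
      exact h3.comp (h2.comp h1)
    have mc : Measurable fun q : ((κ → ℝ) × (κ → ℝ)) × ℝ => K (comb q.1, q.2) :=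
      mK.comp ((mcomb.comp measurable_fst).prodMk measurable_snd)
    calc ∫ p, J i p ∂(ν.prod ν) = ∫ q, J i (T q) ∂((ν.prod (gl h)).prod ν) :=
          (integral_comp' hTp (mJ i)).symm
      _ = ∫ q, K (comb (S q).1, (S q).2) ∂((ν.prod (gl h)).prod ν) := by
          refine integral_congr_ae (ae_of_all _ fun q => ?_)
          simp only [hJK, hT, hSd, update_self]
          have : comb (update q.1.1 i q.1.2, q.2)
              = update (comb (q.1.1, q.2)) i (c i * q.1.2 + s i * q.2 i) := by
            funext j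
            by_cases hj : j = i
            · subst hj; simp [hcomb]
            · simp [hcomb, update_of_ne hj]
          rw [this, hinv]
      _ = ∫ r, K (comb r.1, r.2) ∂((ν.prod ν).prod (gl h)) :=
          integral_comp' hSp (f := fun r => K (comb r.1, r.2)) mc
      _ = ∫ p, L (comb p) ∂(ν.prod ν) :=
          integral_prod _ (integrable_of_bdd mc fun r => bK _)
      _ = ∫ z, L z ∂ν :=
          integral_comp' ((measurePreserving_fst (μ := ν) (ν := ν)).comp (rot_preserving h hcs)) mL
      _ = _ := rfl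
  calc _ ≤ ∫ p, g p ∂(ν.prod ν) := s1
    _ = _ := s2
    _ ≤ _ := s3
    _ = _ := by
      rw [integral_const_mul, integral_finsetSum _ fun i _ => iJ i]
      simp only [s4]

lemma integral_abs_tilt_le {h : ℝ≥0} (hh : h ≠ 0) (α : κ → ℝ) :
    ∫ z, |tiltProd (h : ℝ) α z - 1| ∂(Measure.pi fun _ : κ => gl h)
      ≤ Real.sqrt (Real.exp (h * ∑ i, α i * α i) - 1) := by
  set ν := Measure.pi fun _ : κ => gl h with hν
  have i1 : Integrable (tiltProd (h : ℝ) α) ν := integrable_tiltProd h α
  have hl := lintegral_tiltProd_mul (ι := κ) hh α α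
  have m2 : Measurable fun z => tiltProd (h : ℝ) α z * tiltProd (h : ℝ) α z := by
    unfold tiltProd tiltExp; fun_prop
  have n2 : ∀ z, 0 ≤ tiltProd (h : ℝ) α z * tiltProd (h : ℝ) α z := fun z => mul_self_nonneg _
  have i2 : Integrable (fun z => tiltProd (h : ℝ) α z * tiltProd (h : ℝ) α z) ν :=
    ⟨m2.aestronglyMeasurable, by
      rw [hasFiniteIntegral_iff_ofReal (ae_of_all _ n2), hl]
      exact ENNReal.ofReal_lt_top⟩
  have e2 : ∫ z, tiltProd (h : ℝ) α z * tiltProd (h : ℝ) α z ∂ν
      = Real.exp (h * ∑ i, α i * α i) := by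
    rw [integral_eq_lintegral_of_nonneg_ae (ae_of_all _ n2) m2.aestronglyMeasurable, hl,
      ENNReal.toReal_ofReal (Real.exp_pos _).le]
  have e1 : ∫ z, tiltProd (h : ℝ) α z ∂ν = 1 := by
    have h1 := lintegral_shift (ι := κ) hh α (f := fun _ => 1) measurable_const
    simp only [lintegral_one, measure_univ, mul_one] at h1
    rw [integral_eq_lintegral_of_nonneg_ae (ae_of_all _ fun z => (tiltProd_pos _ α z).le)
      i1.aestronglyMeasurable, ← h1]
    simp
  set E := Real.exp (h * ∑ i, α i * α i) - 1 with hE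
  have hE0 : 0 ≤ E := by
    have : (0:ℝ) ≤ h * ∑ i, α i * α i :=
      mul_nonneg h.coe_nonneg (Finset.sum_nonneg fun i _ => mul_self_nonneg _)
    linarith [Real.one_le_exp this]
  set L := tiltProd (h : ℝ) α with hL
  have key : ∀ t : ℝ, 0 < t → ∫ z, |L z - 1| ∂ν ≤ E / (2 * t) + t / 2 := by
    intro t ht
    calc ∫ z, |L z - 1| ∂ν
        ≤ ∫ z, ((L z * L z - 2 * L z + 1) / (2 * t) + t / 2) ∂ν := by
          refine integral_mono (i1.sub (integrable_const _)).abs
            ((((i2.sub (i1.const_mul 2)).add (integrable_const _)).div_const _).add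
              (integrable_const _)) fun z => ?_
          simp only
          rw [show L z * L z - 2 * L z + 1 = |L z - 1| ^ 2 by rw [sq_abs]; ring,
            div_add' _ _ _ (by positivity), le_div_iff₀ (by positivity)]
          nlinarith [sq_nonneg (|L z - 1| - t)]
      _ = E / (2 * t) + t / 2 := by
          have ia : Integrable (fun z => L z * L z - 2 * L z) ν := i2.sub (i1.const_mul 2)
          have ib : Integrable (fun z => L z * L z - 2 * L z + 1) ν := ia.add (integrable_const _)
          rw [integral_add (ib.div_const _) (integrable_const _), integral_div,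
            integral_add ia (integrable_const _), integral_sub i2 (i1.const_mul 2),
            integral_const_mul, e1, e2]
          simp [hE]
          ring
  rcases hE0.lt_or_eq with hpos | hzero
  · have hs : 0 < Real.sqrt E := Real.sqrt_pos.2 hpos
    refine (key _ hs).trans_eq ?_
    rw [div_add_div _ _ (by positivity) two_ne_zero, div_eq_iff (by positivity)]
    linear_combination (-2 : ℝ) * Real.mul_self_sqrt hE0
  · rw [← hzero, Real.sqrt_zero]
    refine le_of_forall_pos_le_add fun ε hε => ?_
    have := key ε hε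
    rw [← hzero, zero_div] at this
    linarith

/-- The Lipschitz bound of a smoothed functional. -/
theorem smooth_lipschitz {h : ℝ≥0} (hh : h ≠ 0) {F : (κ → ℝ) → ℝ} (hF : Measurable F) {B : ℝ}
    (hb : ∀ z, |F z| ≤ B) (a b z v : κ → ℝ) (hv : ∀ i, v i ≠ 0 → b i ≠ 0) :
    |smooth h F a b (fun i => z i + v i) - smooth h F a b z| ≤
      B * Real.sqrt (Real.exp (∑ i, (a i * v i / b i) ^ 2 / h) - 1) := by
  set ν := Measure.pi fun _ : κ => gl h with hν
  have hh' : (h : ℝ) ≠ 0 := by exact_mod_cast hh
  set α : κ → ℝ := fun i => a i * v i / b i / h with hα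
  set G : (κ → ℝ) → ℝ := fun z' => F fun i => a i * z i + b i * z' i with hG
  have mG : Measurable G := hF.comp (by fun_prop)
  have hshift : ∀ z' : κ → ℝ, (F fun i => a i * (z i + v i) + b i * z' i)
      = G fun i => z' i + h * α i := by
    intro z'
    simp only [hG]
    congr 1
    funext i
    simp only [hα]
    rw [mul_div_cancel₀ _ hh']
    by_cases hv0 : v i = 0
    · simp [hv0]
    · have := hv i hv0
      field_simp
      ring
  have e1 : smooth h F a b (fun i => z i + v i) = ∫ z', tiltProd (h : ℝ) α z' * G z' ∂ν := by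
    have : smooth h F a b (fun i => z i + v i) = ∫ z', G (fun i => z' i + h * α i) ∂ν :=
      integral_congr_ae (ae_of_all _ hshift)
    rw [this, ← integral_map (φ := fun (z' : κ → ℝ) i => z' i + h * α i) (measurable_pi_lambda _ fun i => (measurable_pi_apply i).add_const _).aemeasurable mG.aestronglyMeasurable,
      pi_gl_map_add hh, integral_withDensity_eq_integral_toReal_smul
        (by unfold tiltProd tiltExp; fun_prop) (ae_of_all _ fun _ => ENNReal.ofReal_lt_top)]
    refine integral_congr_ae (ae_of_all _ fun z' => ?_)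
    simp [ENNReal.toReal_ofReal (tiltProd_pos _ α z').le]
  have hsum : ∑ i, (a i * v i / b i) ^ 2 / h = h * ∑ i, α i * α i := by
    rw [Finset.mul_sum]
    refine Finset.sum_congr rfl fun i _ => ?_
    simp only [hα]
    field_simp
  have hB : 0 ≤ B := (abs_nonneg _).trans (hb z)
  have i1 : Integrable (tiltProd (h : ℝ) α) ν := integrable_tiltProd h α
  have iG : Integrable G ν := integrable_of_bdd mG fun _ => hb _
  have i2 : Integrable (fun z' => tiltProd (h : ℝ) α z' * G z') ν :=
    i1.mul_bdd (c := B) mG.aestronglyMeasurable (ae_of_all _ fun _ => hb _)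
  rw [e1, show smooth h F a b z = ∫ z', G z' ∂ν from rfl, ← integral_sub i2 iG, hsum]
  refine abs_integral_le_integral_abs.trans ?_
  calc ∫ z', |tiltProd (h : ℝ) α z' * G z' - G z'| ∂ν
      ≤ ∫ z', B * |tiltProd (h : ℝ) α z' - 1| ∂ν := by
        refine integral_mono (i2.sub iG).abs ((i1.sub (integrable_const _)).abs.const_mul B)
          fun z' => ?_
        simp only
        rw [show tiltProd (h : ℝ) α z' * G z' - G z' = G z' * (tiltProd (h : ℝ) α z' - 1) by ring,
          abs_mul]
        exact mul_le_mul_of_nonneg_right (hb _) (abs_nonneg _)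
    _ ≤ _ := by
        rw [integral_const_mul]
        exact mul_le_mul_of_nonneg_left (integral_abs_tilt_le hh α) hB

theorem gaussStmt : GaussStmt := fun _ _ h _ _ hh hF hb =>
  ⟨fun c s hcs => rotation_bound h hF hb c s hcs,
    fun a b z v hv => smooth_lipschitz hh hF hb a b z v hv⟩

end

end Vale.Agent.P161.Edge
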