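import Vale.Agent.P161.Gauss

/-!
A general planted observation model: a finite state space with log prior weights, and finitely
many observations per step, observation `i` at step `j` having mean `h * f j i S` and variance `h`.
-/

namespace Vale.Agent.P161.Gen

open MeasureTheory ProbabilityTheory
open scoped NNReal Classical

noncomputable section

variable {ι Ω : Type*} [Fintype ι] [Fintype Ω]

/-- The probability vector with log weights `ψ`. -/
def post (ψ : Ω → ℝ) (S : Ω) : ℝ := Real.exp (ψ S) / ∑ T, Real.exp (ψ T)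

/-- The expectation of `φ` under log weights `ψ`. -/
def ev (ψ φ : Ω → ℝ) : ℝ := ∑ S, post ψ S * φ S

/-- The covariance under log weights `ψ`. -/
def cov (ψ φ χ : Ω → ℝ) : ℝ := ev ψ (fun S => φ S * χ S) - ev ψ φ * ev ψ χ

/-- The third joint cumulant under log weights `ψ`. -/
def cum3 (ψ φ χ ω : Ω → ℝ) : ℝ :=
  ev ψ fun S => (φ S - ev ψ φ) * (χ S - ev ψ χ) * (ω S - ev ψ ω)

variable (f : ℕ → ι → Ω → ℝ) (h : ℝ≥0) (ψ₀ : Ω → ℝ)

/-- The increment of the log weights at step `j` when `y` is observed. -/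
def inc (j : ℕ) (y : ι → ℝ) (S : Ω) : ℝ := ∑ i, (f j i S * y i - h * f j i S ^ 2 / 2)

/-- The log posterior weights after the first `j` observations. -/
def llk (j : ℕ) (y : ℕ → ι → ℝ) (S : Ω) : ℝ := ψ₀ S + ∑ k ∈ Finset.range j, inc f h k (y k) S

/-- The log posterior weights along the scheme driven by the noise `z`. -/
def state (z : ℕ → ι → ℝ) : ℕ → Ω → ℝ
  | 0 => ψ₀
  | j + 1 => fun S =>
      state z j S + inc f h j (fun i => z j i + h * ev (state z j) (f j i)) S

/-- The observations produced by the scheme driven by the noise `z`. -/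
def ypath (z : ℕ → ι → ℝ) (j : ℕ) (i : ι) : ℝ := z j i + h * ev (state f h ψ₀ z j) (f j i)

/-- The innovations of the observations `y`. -/
def inn (y : ℕ → ι → ℝ) (j : ℕ) (i : ι) : ℝ := y j i - h * ev (llk f h ψ₀ j y) (f j i)

/-- The noise space of `N` steps. -/
abbrev Noi (N : ℕ) (ι : Type*) : Type _ := Fin N × ι → ℝ

/-- The law of the noise. -/
def nl (N : ℕ) : Measure (Noi N ι) := Measure.pi fun _ => gl h

/-- The noise as an infinite sequence, zero from step `N` on. -/
def ext {N : ℕ} (z : Noi N ι) (j : ℕ) (i : ι) : ℝ := if hj : j < N then z (⟨j, hj⟩, i) else 0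

/-- The observations of state `S` with noise `ξ`. -/
def plant {N : ℕ} (S : Ω) (ξ : Noi N ι) (j : ℕ) (i : ι) : ℝ :=
  if hj : j < N then h * f j i S + ξ (⟨j, hj⟩, i) else 0

/-- Expectation of a functional of the state and of the first `N` observations. -/
def Epl (N : ℕ) (Φ : Ω → (ℕ → ι → ℝ) → ℝ) : ℝ :=
  ∑ S, post ψ₀ S * ∫ ξ, Φ S (plant f h S ξ) ∂(nl (ι := ι) h N)

/-- One step of the posterior Markov chain. -/
def stepE (j : ℕ) (ψ : Ω → ℝ) (Φ : (Ω → ℝ) → ℝ) : ℝ :=
  ∑ S, post ψ S *
    ∫ ξ : ι → ℝ, Φ (fun T => ψ T + inc f h j (fun i => h * f j i S + ξ i) T) ∂(Measure.pi fun _ => gl h)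

/-- One step of the linearised scheme. -/
def propStep (j : ℕ) (ψ W : Ω → ℝ) (T : Ω) : ℝ := W T + h * ∑ i, cov ψ (f j i) W * f j i T

/-- The linearised response to a change of the noise of observation `i` at step `j₀`. -/
def prop (st : ℕ → Ω → ℝ) (j₀ : ℕ) (i : ι) : ℕ → Ω → ℝ
  | 0 => 0
  | j + 1 => if j = j₀ then f j i else propStep f h j (st j) (prop st j₀ i j)

end

end Vale.Agent.P161.Gen
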