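import Vale.Agent.P161.Edge.GenLaw

/-!
Taylor bounds for the expectation and the covariance under log weights, in the sup norm of the
change of the log weights.
-/

namespace Vale.Agent.P161.Gen

open scoped NNReal Classical

noncomputable section

variable {Ω : Type*} [Fintype Ω] [Nonempty Ω]

lemma sum_exp_pos (ψ : Ω → ℝ) : 0 < ∑ T, Real.exp (ψ T) :=
  Finset.sum_pos (fun _ _ => Real.exp_pos _) Finset.univ_nonempty

lemma ev_add (ψ φ χ : Ω → ℝ) : ev ψ (fun S => φ S + χ S) = ev ψ φ + ev ψ χ := by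
  simp only [ev, mul_add, Finset.sum_add_distrib]

lemma ev_sub (ψ φ χ : Ω → ℝ) : ev ψ (fun S => φ S - χ S) = ev ψ φ - ev ψ χ := by
  simp only [ev, mul_sub, Finset.sum_sub_distrib]

lemma ev_const_mul (ψ φ : Ω → ℝ) (c : ℝ) : ev ψ (fun S => c * φ S) = c * ev ψ φ := by
  simp only [ev, Finset.mul_sum, mul_left_comm]

lemma ev_sum {κ : Type*} (s : Finset κ) (ψ : Ω → ℝ) (g : κ → Ω → ℝ) :
    ev ψ (fun S => ∑ k ∈ s, g k S) = ∑ k ∈ s, ev ψ (g k) := by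
  simp only [ev, Finset.mul_sum]
  exact Finset.sum_comm

lemma bdd_nonneg {φ : Ω → ℝ} {B : ℝ} (hφ : ∀ S, |φ S| ≤ B) : 0 ≤ B :=
  (abs_nonneg _).trans (hφ (Classical.arbitrary Ω))

lemma abs_mul_le_mul {x y A B : ℝ} (hx : |x| ≤ A) (hy : |y| ≤ B) : |x * y| ≤ A * B := by
  rw [abs_mul]
  exact mul_le_mul hx hy (abs_nonneg _) ((abs_nonneg _).trans hx)

lemma abs_cov_le (ψ : Ω → ℝ) {φ χ : Ω → ℝ} {B B' : ℝ} (hφ : ∀ S, |φ S| ≤ B)
    (hχ : ∀ S, |χ S| ≤ B') : |cov ψ φ χ| ≤ 2 * B * B' := by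
  have h1 : |ev ψ (fun S => φ S * χ S)| ≤ B * B' :=
    abs_ev_le ψ fun S => abs_mul_le_mul (hφ S) (hχ S)
  have h2 : |ev ψ φ * ev ψ χ| ≤ B * B' := abs_mul_le_mul (abs_ev_le ψ hφ) (abs_ev_le ψ hχ)
  unfold cov
  refine (abs_sub _ _).trans ?_
  linarith

lemma cov_comm (ψ φ χ : Ω → ℝ) : cov ψ φ χ = cov ψ χ φ := by
  unfold cov
  simp only [mul_comm]

lemma cov_add (ψ φ χ χ' : Ω → ℝ) :
    cov ψ φ (fun S => χ S + χ' S) = cov ψ φ χ + cov ψ φ χ' := by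
  simp only [cov, mul_add, ev_add]
  ring

lemma cov_sub (ψ φ χ χ' : Ω → ℝ) :
    cov ψ φ (fun S => χ S - χ' S) = cov ψ φ χ - cov ψ φ χ' := by
  simp only [cov, mul_sub, ev_sub]
  ring

lemma cov_const_mul (ψ φ χ : Ω → ℝ) (c : ℝ) :
    cov ψ φ (fun S => c * χ S) = c * cov ψ φ χ := by
  simp only [cov, mul_left_comm _ c, ev_const_mul]
  ring

lemma cov_sum {κ : Type*} (s : Finset κ) (ψ φ : Ω → ℝ) (g : κ → Ω → ℝ) :
    cov ψ φ (fun S => ∑ k ∈ s, g k S) = ∑ k ∈ s, cov ψ φ (g k) := by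
  simp only [cov, Finset.mul_sum, ev_sum, Finset.sum_sub_distrib]

lemma cum3_eq (ψ φ χ ω : Ω → ℝ) :
    cum3 ψ φ χ ω = cov ψ (fun S => φ S * χ S) ω - ev ψ φ * cov ψ χ ω - ev ψ χ * cov ψ φ ω := by
  have e : ∀ S, (φ S - ev ψ φ) * (χ S - ev ψ χ) * (ω S - ev ψ ω) =
      φ S * χ S * ω S - ev ψ ω * (φ S * χ S) - ev ψ φ * (χ S * ω S) - ev ψ χ * (φ S * ω S) +
        (ev ψ φ * ev ψ ω) * χ S + (ev ψ χ * ev ψ ω) * φ S + (ev ψ φ * ev ψ χ) * ω S -
        ev ψ φ * ev ψ χ * ev ψ ω := fun S => by ring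
  simp only [cum3, e, ev_add, ev_sub, ev_const_mul, ev_const, cov]
  ring

/-! ### Perturbing the log weights -/

lemma ev_tilt (ψ D φ : Ω → ℝ) :
    ev (fun T => ψ T + D T) φ =
      ev ψ (fun S => Real.exp (D S) * φ S) / ev ψ (fun S => Real.exp (D S)) := by
  have h1 := (sum_exp_pos ψ).ne'
  simp only [ev, post, Real.exp_add, div_mul_eq_mul_div, ← Finset.sum_div]
  rw [div_div_div_cancel_right₀ h1]
  simp only [mul_assoc]

/-- Second order Taylor bound. -/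
theorem abs_ev_taylor (ψ : Ω → ℝ) {D φ : Ω → ℝ} {B δ : ℝ} (hφ : ∀ S, |φ S| ≤ B)
    (hD : ∀ S, |D S| ≤ δ) :
    |ev (fun T => ψ T + D T) φ - ev ψ φ - cov ψ φ D| ≤ 20 * B * δ ^ 2 := by
  have hB := bdd_nonneg hφ
  have hδ := bdd_nonneg hD
  rcases le_or_gt δ (1 / 2) with hsmall | hbig
  swap
  · have h1 := abs_ev_le (fun T => ψ T + D T) hφ
    have h2 := abs_ev_le ψ hφ
    have h3 := abs_cov_le ψ hφ hD
    refine ((abs_sub _ _).trans (add_le_add ((abs_sub _ _).trans (add_le_add h1 h2)) h3)).trans ?_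
    have h4 : 1 ≤ 4 * δ ^ 2 := by nlinarith
    have h5 : δ ≤ 2 * δ ^ 2 := by nlinarith
    nlinarith [mul_nonneg hB hδ, mul_le_mul_of_nonneg_left h4 hB, mul_le_mul_of_nonneg_left h5 hB]
  set m := ev ψ φ with hm
  set R : Ω → ℝ := fun S => Real.exp (D S) - 1 - D S with hR
  set c : Ω → ℝ := fun S => φ S - m with hc
  have hc2 : ∀ S, |c S| ≤ 2 * B := fun S => by
    refine (abs_sub _ _).trans ?_
    linarith [hφ S, abs_ev_le ψ hφ]
  have hRb : ∀ S, |R S| ≤ δ ^ 2 := fun S => by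
    refine (Real.abs_exp_sub_one_sub_id_le ((hD S).trans (by linarith))).trans ?_
    rw [← sq_abs]
    exact pow_le_pow_left₀ (abs_nonneg _) (hD S) 2
  set Z := ev ψ (fun S => Real.exp (D S)) with hZ
  have hZ1 : Z = 1 + (ev ψ D + ev ψ R) := by
    rw [← ev_add, ← ev_const ψ 1, ← ev_add, hZ]
    congr 1
    funext S
    simp [R]
  have hu : |Z - 1| ≤ 3 / 2 * δ := by
    rw [hZ1, add_sub_cancel_left]
    refine (abs_add_le _ _).trans ?_
    have := abs_ev_le ψ hD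
    have := abs_ev_le ψ hRb
    nlinarith
  have hZpos : 1 / 4 ≤ Z := by linarith [(abs_le.1 hu).1]
  have hnum : ev ψ (fun S => Real.exp (D S) * φ S) - m * Z =
      cov ψ φ D + ev ψ (fun S => R S * c S) := by
    have e : ∀ S, R S * c S = Real.exp (D S) * φ S - m * Real.exp (D S) - φ S - φ S * D S +
        m * D S + m := fun S => by simp only [R, c]; ring
    simp only [e, ev_add, ev_sub, ev_const_mul, ev_const, cov, ← hZ, ← hm]
    ring
  have hmain : ev (fun T => ψ T + D T) φ - m - cov ψ φ D =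
      (ev ψ (fun S => R S * c S) - cov ψ φ D * (Z - 1)) / Z := by
    rw [ev_tilt, ← hZ, eq_div_iff (by linarith : Z ≠ 0)]
    field_simp
    linear_combination hnum
  have h1 := abs_ev_le ψ (φ := fun S => R S * c S) fun S => abs_mul_le_mul (hRb S) (hc2 S)
  have h2 := abs_mul_le_mul (abs_cov_le ψ hφ hD) hu
  rw [hmain, abs_div, abs_of_pos (by linarith : 0 < Z), div_le_iff₀ (by linarith)]
  refine ((abs_sub _ _).trans (add_le_add h1 h2)).trans ?_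
  nlinarith [mul_le_mul_of_nonneg_left hZpos (by positivity : (0:ℝ) ≤ 20 * B * δ ^ 2)]

/-- Lipschitz bound for the expectation. -/
theorem abs_ev_sub_le (ψ : Ω → ℝ) {D φ : Ω → ℝ} {B δ : ℝ} (hφ : ∀ S, |φ S| ≤ B)
    (hD : ∀ S, |D S| ≤ δ) : |ev (fun T => ψ T + D T) φ - ev ψ φ| ≤ 22 * B * δ := by
  have hB := bdd_nonneg hφ
  have hδ := bdd_nonneg hD
  rcases le_or_gt δ 1 with hsmall | hbig
  · have h1 := abs_ev_taylor ψ hφ hD
    have h2 := abs_cov_le ψ hφ hD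
    have h3 := abs_add_le (ev (fun T => ψ T + D T) φ - ev ψ φ - cov ψ φ D) (cov ψ φ D)
    rw [sub_add_cancel] at h3
    nlinarith [mul_le_mul_of_nonneg_left (by nlinarith : δ ^ 2 ≤ δ) hB]
  · refine (abs_sub _ _).trans ?_
    have := abs_ev_le (fun T => ψ T + D T) hφ
    have := abs_ev_le ψ hφ
    nlinarith

/-- Lipschitz bound for the covariance. -/
theorem abs_cov_sub_le (ψ : Ω → ℝ) {D φ χ : Ω → ℝ} {B B' δ : ℝ} (hφ : ∀ S, |φ S| ≤ B)
    (hχ : ∀ S, |χ S| ≤ B') (hD : ∀ S, |D S| ≤ δ) :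
    |cov (fun T => ψ T + D T) φ χ - cov ψ φ χ| ≤ 66 * B * B' * δ := by
  set ψ' := fun T => ψ T + D T with hψ'
  have h1 : |ev ψ' (fun S => φ S * χ S) - ev ψ (fun S => φ S * χ S)| ≤ 22 * (B * B') * δ :=
    abs_ev_sub_le ψ (fun S => abs_mul_le_mul (hφ S) (hχ S)) hD
  have h2 := abs_mul_le_mul (abs_ev_sub_le ψ hφ hD) (abs_ev_le ψ' hχ)
  have h3 := abs_mul_le_mul (abs_ev_le ψ hφ) (abs_ev_sub_le ψ hχ hD)
  rw [← hψ'] at h2 h3
  have e : cov ψ' φ χ - cov ψ φ χ =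
      (ev ψ' (fun S => φ S * χ S) - ev ψ (fun S => φ S * χ S)) -
        (ev ψ' φ - ev ψ φ) * ev ψ' χ - ev ψ φ * (ev ψ' χ - ev ψ χ) := by
    unfold cov
    ring
  rw [e]
  refine ((abs_sub _ _).trans (add_le_add ((abs_sub _ _).trans (add_le_add h1 h2)) h3)).trans ?_
  nlinarith

lemma continuous_ev (φ : Ω → ℝ) : Continuous fun ψ : Ω → ℝ => ev ψ φ := by
  unfold ev post
  refine continuous_finsetSum _ fun S _ => (Continuous.div ?_ ?_ fun ψ => (sum_exp_pos ψ).ne').mul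
    continuous_const
  · fun_prop
  · fun_prop

lemma continuous_cov (φ χ : Ω → ℝ) : Continuous fun ψ : Ω → ℝ => cov ψ φ χ := by
  unfold cov
  exact (continuous_ev _).sub ((continuous_ev φ).mul (continuous_ev χ))

end

end Vale.Agent.P161.Gen
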