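import Vale.Agent.P161.Edge.Statements
import Vale.Agent.P161.Marginal

/-!
The planted observation model on a finite set of vertices: the posterior is the tree posterior,
sub-systems have the marginal law, and the flip symmetry.
-/

namespace Vale.Agent.P161.Edge.Mdl

open MeasureTheory ProbabilityTheory Finset Function
open scoped NNReal Classical

noncomputable section

variable {V : Type} {G : SimpleGraph V}

/-! ### Configurations and observation indices -/

lemma sum_cfg (D : Finset V) (F : Finset V → ℝ) : ∑ S : Cfg D, F S.1 = ∑ S ∈ D.powerset, F S :=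
  Finset.sum_coe_sort D.powerset F

lemma mem_obsIx {D : Finset V} {i : V × V} :
    i ∈ obsIx G D ↔ i.1 ∈ D ∧ i.2 ∈ D ∧ (i.1 = i.2 ∨ G.Adj i.1 i.2) := by
  simp [obsIx, and_assoc]

lemma obsIx_mono {A D : Finset V} (hsub : A ⊆ D) : obsIx G A ⊆ obsIx G D := fun i hi => by
  rw [mem_obsIx] at hi ⊢
  exact ⟨hsub hi.1, hsub hi.2.1, hi.2.2⟩

lemma mult_eq_zero {i : V × V} {v : V} (h₁ : i.1 ≠ v) (h₂ : i.2 ≠ v) : mult i v = 0 := by
  simp [mult, h₁, h₂]

lemma sum_mult {D : Finset V} {i : V × V} (h : i ∈ obsIx G D) (s : V → ℝ) :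
    ∑ v ∈ D, mult i v * s v = s i.1 + s i.2 := by
  obtain ⟨h1, h2, -⟩ := mem_obsIx.1 h
  simp [mult, add_mul, Finset.sum_add_distrib, h1, h2]

/-- The spins of a configuration, read off a function on the vertices. -/
def toSet (D : Finset V) (s : V → ℝ) : Finset V := D.filter fun v => s v = 1

lemma toSet_spin {D S : Finset V} (hS : S ⊆ D) : toSet D (spin S) = S := by
  ext v
  simp only [toSet, Finset.mem_filter]
  constructor
  · rintro ⟨-, hv⟩
    by_contra h
    rw [spin_notMem h] at hv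
    norm_num at hv
  · exact fun h => ⟨hS h, by simp [spin, h]⟩

lemma toSet_spin_inter (A S : Finset V) : toSet A (spin S) = S ∩ A := by
  ext v
  simp only [toSet, Finset.mem_filter, Finset.mem_inter]
  by_cases h : v ∈ S <;> simp [spin, h, eq_comm]
  norm_num

/-! ### The posterior -/

/-- The time up to which the coupling has been used. -/
lemma tanh_mono {a b : ℝ} (h : a ≤ b) : Real.tanh a ≤ Real.tanh b := by
  rw [Real.tanh_eq_sinh_div_cosh, Real.tanh_eq_sinh_div_cosh,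
    div_le_div_iff₀ (Real.cosh_pos a) (Real.cosh_pos b)]
  have h2 : 0 ≤ Real.sinh (b - a) := Real.sinh_nonneg_iff.2 (by linarith)
  rw [Real.sinh_sub] at h2
  linarith

lemma tcl_le (h : ℝ≥0) (N₁ j : ℕ) : tcl h N₁ j ≤ (N₁ : ℝ) * h := by
  unfold tcl
  have : ((min j N₁ : ℕ) : ℝ) ≤ N₁ := by exact_mod_cast min_le_right j N₁
  exact mul_le_mul_of_nonneg_right this h.2

lemma tanh_tcl_le {P : Prm} (hη : 0 ≤ P.η) (ht : Real.tanh (P.η * (P.N₁ * P.h)) ≤ P.θ)
    (j : ℕ) : Real.tanh (P.η * tcl P.h P.N₁ j) ≤ P.θ :=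
  (tanh_mono (mul_le_mul_of_nonneg_left (tcl_le P.h P.N₁ j) hη)).trans ht

lemma par_thetaJ {P : Prm} (h1 : P.θ < 1) (hη : 0 ≤ P.η)
    (ht : Real.tanh (P.η * (P.N₁ * P.h)) ≤ P.θ) (j : ℕ) : Par (thetaJ P j) := by
  have hle := tanh_tcl_le hη ht j
  have h0 : 0 ≤ tcl P.h P.N₁ j := by unfold tcl; positivity
  have hτ0 : 0 ≤ Real.tanh (P.η * tcl P.h P.N₁ j) := by
    rw [← Real.tanh_zero]
    exact tanh_mono (mul_nonneg hη h0)
  have hτ1 : Real.tanh (P.η * tcl P.h P.N₁ j) < 1 := (abs_lt.1 (abs_tanh_lt_one' _)).2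
  unfold Par thetaJ thetaAt
  have hden : 0 < 1 - P.θ * Real.tanh (P.η * tcl P.h P.N₁ j) := by
    rcases lt_or_ge P.θ 0 with h | h
    · nlinarith
    · nlinarith
  constructor
  · exact div_nonneg (by linarith) hden.le
  · rw [div_lt_one hden]
    nlinarith

lemma exp_mul_pm (H : ℝ) {s : ℝ} (hs : s * s = 1) :
    Real.exp (H * s) = Real.cosh H * (1 + Real.tanh H * s) := by
  have h := (Real.cosh_pos H).ne'
  rw [mul_add, mul_one, Real.tanh_eq_sinh_div_cosh, ← mul_assoc, mul_div_cancel₀ _ h]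
  rcases mul_self_eq_one_iff.1 hs with rfl | rfl
  · rw [mul_one, mul_one, Real.cosh_add_sinh]
  · rw [mul_neg_one, mul_neg_one, ← sub_eq_add_neg, Real.cosh_sub_sinh]

/-- The edge part of the log likelihood of one step. -/
lemma edge_fold (θ u a b : ℝ) (hden : 1 - θ * Real.tanh u ≠ 0) (hab : (a * b) * (a * b) = 1) :
    (1 + θ * a * b) * Real.exp (-u * (a * b)) =
      Real.cosh u * (1 - θ * Real.tanh u) *
        (1 + (θ - Real.tanh u) / (1 - θ * Real.tanh u) * a * b) := by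
  rw [exp_mul_pm (-u) hab, Real.cosh_neg, Real.tanh_neg]
  have : (1 - θ * Real.tanh u) *
      (1 + (θ - Real.tanh u) / (1 - θ * Real.tanh u) * a * b) =
      (1 + θ * a * b) * (1 + -Real.tanh u * (a * b)) := by
    rw [mul_add, mul_one, ← mul_assoc, ← mul_assoc, mul_div_cancel₀ _ hden]
    linear_combination (θ * Real.tanh u) * hab
  rw [mul_assoc (Real.cosh u), this]
  ring

/-- The product of the two spins of an edge. -/
def edgeProd (s : V → ℝ) : Sym2 V → ℝ :=
  Sym2.lift ⟨fun u v => s u * s v, fun u v => by ring⟩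

@[simp] lemma edgeProd_mk (s : V → ℝ) (u v : V) : edgeProd s s(u, v) = s u * s v := rfl

lemma sum_offdiag (D : Finset V) (s : V → ℝ) :
    ∑ i ∈ (obsIx G D).filter (fun i => i.1 ≠ i.2), s i.1 * s i.2 =
      2 * ∑ e ∈ edgesIn G D, edgeProd s e := by
  rw [Finset.mul_sum, ← Finset.sum_fiberwise_of_maps_to
    (g := fun i : V × V => s(i.1, i.2)) (t := edgesIn G D)]
  · refine Finset.sum_congr rfl fun e he => ?_
    induction e using Sym2.ind with
    | _ a b =>
      simp only [edgesIn, Finset.mem_filter, Finset.mk_mem_sym2_iff,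
        SimpleGraph.mem_edgeSet] at he
      have : ((obsIx G D).filter fun i => i.1 ≠ i.2).filter
          (fun i : V × V => s(i.1, i.2) = s(a, b)) = {(a, b), (b, a)} := by
        ext i
        simp only [Finset.mem_filter, Finset.mem_insert, Finset.mem_singleton, mem_obsIx,
          Sym2.eq_iff, Prod.ext_iff]
        constructor
        · exact fun h => h.2
        · rintro (⟨h1, h2⟩ | ⟨h1, h2⟩) <;> rw [h1, h2]
          · exact ⟨⟨⟨he.1.1, he.1.2, Or.inr he.2⟩, he.2.ne⟩, Or.inl ⟨rfl, rfl⟩⟩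
          · exact ⟨⟨⟨he.1.2, he.1.1, Or.inr he.2.symm⟩, he.2.ne.symm⟩, Or.inr ⟨rfl, rfl⟩⟩
      rw [this, Finset.sum_pair (by simp [he.2.ne]), edgeProd_mk]
      ring
  · intro i hi
    obtain ⟨hi, hne⟩ := Finset.mem_filter.1 hi
    obtain ⟨h1, h2, h⟩ := mem_obsIx.1 hi
    simp only [edgesIn, Finset.mem_filter, Finset.mk_mem_sym2_iff, SimpleGraph.mem_edgeSet]
    exact ⟨⟨h1, h2⟩, h.resolve_left hne⟩

lemma sum_coef_sq (P : Prm) (hη : 0 ≤ P.η) (D : Finset V) (k : ℕ) (s : V → ℝ)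
    (hs : ∀ v, s v * s v = 1) :
    ∑ i ∈ obsIx G D, (coef P.η P.N₁ k i * (s i.1 + s i.2)) ^ 2 / 2 =
      (((obsIx G D).filter fun i => i.1 = i.2).card : ℝ) / 2 +
        (if k < P.N₁ then P.η / 2 else 0) * ((obsIx G D).filter fun i => i.1 ≠ i.2).card +
        (if k < P.N₁ then P.η else 0) * ∑ e ∈ edgesIn G D, edgeProd s e := by
  rw [← Finset.sum_filter_add_sum_filter_not (obsIx G D) (fun i => i.1 = i.2)]
  have h1 : ∀ i ∈ (obsIx G D).filter (fun i => i.1 = i.2),
      (coef P.η P.N₁ k i * (s i.1 + s i.2)) ^ 2 / 2 = 1 / 2 := by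
    intro i hi
    have he := (Finset.mem_filter.1 hi).2
    rw [coef, if_pos he, he]
    linear_combination (1 / 2 : ℝ) * hs i.2
  have h2 : ∀ i ∈ (obsIx G D).filter (fun i => ¬ i.1 = i.2),
      (coef P.η P.N₁ k i * (s i.1 + s i.2)) ^ 2 / 2 =
        (if k < P.N₁ then P.η / 2 else 0) + (if k < P.N₁ then P.η / 2 else 0) * (s i.1 * s i.2) := by
    intro i hi
    rw [coef, if_neg (Finset.mem_filter.1 hi).2]
    split_ifs
    · rw [mul_pow, Real.sq_sqrt (by linarith)]
      linear_combination (P.η / 4) * hs i.1 + (P.η / 4) * hs i.2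
    · simp
  rw [Finset.sum_congr rfl h1, Finset.sum_congr rfl h2, Finset.sum_add_distrib, ← Finset.mul_sum,
    sum_offdiag, Finset.sum_const, Finset.sum_const, nsmul_eq_mul, nsmul_eq_mul]
  split_ifs <;> ring

lemma llk_eq (P : Prm) (hη : 0 ≤ P.η) (D : Finset V) (y : ℕ → obsIx G D → ℝ) (j : ℕ) :
    ∃ C : ℝ, ∀ S : Cfg D, Gen.llk (feat G P.η P.N₁ D) P.h (lpw G P.θ D) j y S =
      lpw G P.θ D S + C + ∑ v ∈ D, fieldH G P D (tot G D y) j v * spin S.1 v
        + -(P.η * tcl P.h P.N₁ j) * ∑ e ∈ edgesIn G D, edgeProd (spin S.1) e := by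
  refine ⟨-∑ k ∈ range j, (P.h : ℝ) *
    ((((obsIx G D).filter fun i => i.1 = i.2).card : ℝ) / 2 +
      (if k < P.N₁ then P.η / 2 else 0) * ((obsIx G D).filter fun i => i.1 ≠ i.2).card),
    fun S => ?_⟩
  set s := spin S.1 with hs
  set Y := tot G D y with hY
  have hinc : ∀ k, Gen.inc (feat G P.η P.N₁ D) P.h k (y k) S =
      (∑ i ∈ obsIx G D, coef P.η P.N₁ k i * (s i.1 + s i.2) * Y k i) -
        P.h * ∑ i ∈ obsIx G D, (coef P.η P.N₁ k i * (s i.1 + s i.2)) ^ 2 / 2 := by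
    intro k
    unfold Gen.inc feat
    rw [Finset.sum_sub_distrib, Finset.mul_sum]
    congr 1
    · rw [← Finset.sum_coe_sort (obsIx G D)]
      refine Finset.sum_congr rfl fun i _ => ?_
      simp [hY, tot, hs]
    · rw [← Finset.sum_coe_sort (obsIx G D)]
      refine Finset.sum_congr rfl fun i _ => ?_
      simp only [hs]
      ring
  have hfield : ∀ k, ∑ i ∈ obsIx G D, coef P.η P.N₁ k i * (s i.1 + s i.2) * Y k i =
      ∑ v ∈ D, (∑ i ∈ obsIx G D, coef P.η P.N₁ k i * mult i v * Y k i) * s v := by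
    intro k
    simp only [Finset.sum_mul]
    rw [Finset.sum_comm (s := D)]
    refine Finset.sum_congr rfl fun i hi => ?_
    rw [← sum_mult hi s, Finset.mul_sum, Finset.sum_mul]
    exact Finset.sum_congr rfl fun v _ => by ring
  unfold Gen.llk
  simp only [hinc, hfield, sum_coef_sq P hη D _ s (spin_sq S.1)]
  rw [Finset.sum_sub_distrib, Finset.sum_comm (t := D)]
  simp only [← Finset.sum_mul, fieldH]
  have ht : (tcl P.h P.N₁ j) = ∑ k ∈ range j, (if k < P.N₁ then (P.h : ℝ) else 0) := by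
    rw [Finset.sum_ite, Finset.sum_const_zero, add_zero, Finset.sum_const, nsmul_eq_mul]
    have : (range j).filter (fun k => k < P.N₁) = range (min j P.N₁) := by
      ext k; simp
    rw [this, Finset.card_range]
    rfl
  rw [ht, Finset.mul_sum (range j)]
  have e : ∀ a b E : ℝ,
      ∑ k ∈ range j, (P.h : ℝ) * (a + (if k < P.N₁ then P.η / 2 else 0) * b +
          (if k < P.N₁ then P.η else 0) * E) =
        ∑ k ∈ range j, (P.h : ℝ) * (a + (if k < P.N₁ then P.η / 2 else 0) * b) +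
          (∑ k ∈ range j, P.η * if k < P.N₁ then (P.h : ℝ) else 0) * E := by
    intro a b E
    rw [Finset.sum_mul, ← Finset.sum_add_distrib]
    refine Finset.sum_congr rfl fun k _ => ?_
    split_ifs <;> ring
  rw [e]
  ring

lemma exp_llk (P : Prm) (h0 : 0 ≤ P.θ) (h1 : P.θ < 1) (hη : 0 ≤ P.η) (D : Finset V)
    (y : ℕ → obsIx G D → ℝ) (j : ℕ) :
    ∃ κ : ℝ, 0 < κ ∧ ∀ S : Cfg D,
      Real.exp (Gen.llk (feat G P.η P.N₁ D) P.h (lpw G P.θ D) j y S) =
        κ * (wt G (thetaJ P j) D (spin S.1) *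
          ∏ v ∈ D, (1 + tilt G P D (tot G D y) j v * spin S.1 v)) := by
  obtain ⟨C, hC⟩ := llk_eq (G := G) P hη D y j
  set u := P.η * tcl P.h P.N₁ j with hu
  have hden : 0 < 1 - P.θ * Real.tanh u := by
    have hlt := (abs_lt.1 (abs_tanh_lt_one' u))
    nlinarith [hlt.1, hlt.2]
  refine ⟨Real.exp C * (∏ v ∈ D, Real.cosh (fieldH G P D (tot G D y) j v)) *
      ∏ _e ∈ edgesIn G D, (Real.cosh u * (1 - P.θ * Real.tanh u)),
    mul_pos (mul_pos (Real.exp_pos _) (Finset.prod_pos fun v _ => Real.cosh_pos _))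
      (Finset.prod_pos fun e _ => mul_pos (Real.cosh_pos _) hden), fun S => ?_⟩
  rw [hC, Real.exp_add, Real.exp_add, Real.exp_add, lpw,
    Real.exp_log (wt_pos ⟨h0, h1⟩ D S.1), Real.exp_sum]
  have hv : ∀ v ∈ D, Real.exp (fieldH G P D (tot G D y) j v * spin S.1 v) =
      Real.cosh (fieldH G P D (tot G D y) j v) *
        (1 + tilt G P D (tot G D y) j v * spin S.1 v) :=
    fun v _ => exp_mul_pm _ (spin_sq S.1 v)
  rw [Finset.prod_congr rfl hv, Finset.prod_mul_distrib]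
  have he : wt G P.θ D (spin S.1) * Real.exp (-u * ∑ e ∈ edgesIn G D, edgeProd (spin S.1) e) =
      (∏ _e ∈ edgesIn G D, (Real.cosh u * (1 - P.θ * Real.tanh u))) *
        wt G (thetaJ P j) D (spin S.1) := by
    unfold wt
    rw [Finset.mul_sum, Real.exp_sum, ← Finset.prod_mul_distrib, ← Finset.prod_mul_distrib]
    refine Finset.prod_congr rfl fun e _ => ?_
    induction e using Sym2.ind with
    | _ a b =>
      simp only [edgeFactor_mk, edgeProd_mk]
      exact edge_fold P.θ u _ _ hden.ne'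
        (by linear_combination (spin S.1 b * spin S.1 b) * spin_sq S.1 a + spin_sq S.1 b)
  linear_combination (Real.exp C * (∏ v ∈ D, Real.cosh (fieldH G P D (tot G D y) j v)) *
    ∏ v ∈ D, (1 + tilt G P D (tot G D y) j v * spin S.1 v)) * he

lemma gen_ev_eq {Ω : Type*} [Fintype Ω] (ψ φ : Ω → ℝ) :
    Gen.ev ψ φ = (∑ S, Real.exp (ψ S) * φ S) / ∑ S, Real.exp (ψ S) := by
  unfold Gen.ev Gen.post
  rw [Finset.sum_div]
  exact Finset.sum_congr rfl fun S _ => div_mul_eq_mul_div _ _ _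

/-- The posterior is the tree posterior. -/
theorem ev_llk (P : Prm) (h0 : 0 ≤ P.θ) (h1 : P.θ < 1) (hη : 0 ≤ P.η) (D : Finset V)
    (y : ℕ → obsIx G D → ℝ) (j : ℕ) (φ : Finset V → ℝ) :
    Gen.ev (Gen.llk (feat G P.η P.N₁ D) P.h (lpw G P.θ D) j y) (fun S => φ S.1) =
      avg G (thetaJ P j) D (tilt G P D (tot G D y) j) (fun s => φ (toSet D s)) := by
  obtain ⟨κ, hκ, hk⟩ := exp_llk (G := G) P h0 h1 hη D y j
  rw [gen_ev_eq]
  simp only [hk]
  unfold avg Sm
  rw [sum_cfg D (fun S => κ * (wt G (thetaJ P j) D (spin S) *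
      ∏ v ∈ D, (1 + tilt G P D (tot G D y) j v * spin S v)) * φ S),
    sum_cfg D (fun S => κ * (wt G (thetaJ P j) D (spin S) *
      ∏ v ∈ D, (1 + tilt G P D (tot G D y) j v * spin S v)))]
  simp only [mul_assoc κ, ← Finset.mul_sum]
  rw [mul_div_mul_left _ _ hκ.ne']
  congr 1
  · exact Finset.sum_congr rfl fun S hS => by rw [toSet_spin (Finset.mem_powerset.1 hS)]
  · exact Finset.sum_congr rfl fun S _ => by rw [mul_one]

/-! ### The prior, marginals, flips -/

lemma exp_lpw (P : Prm) (h0 : 0 ≤ P.θ) (h1 : P.θ < 1) (D : Finset V) (S : Cfg D) :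
    Real.exp (lpw G P.θ D S) = wt G P.θ D (spin S.1) := by
  rw [lpw, Real.exp_log (wt_pos ⟨h0, h1⟩ D S.1)]

/-- The planted expectation, as a sum over subsets. -/
lemma E_eq (P : Prm) (h0 : 0 ≤ P.θ) (h1 : P.θ < 1) (D : Finset V) (N : ℕ)
    (Φ : Finset V → (ℕ → V × V → ℝ) → ℝ) :
    E G P D N Φ = (∑ S : Cfg D, wt G P.θ D (spin S.1) *
      ∫ ξ, Φ S.1 (tot G D (Gen.plant (feat G P.η P.N₁ D) P.h S ξ))
        ∂(Gen.nl (ι := obsIx G D) P.h N)) / ∑ S : Cfg D, wt G P.θ D (spin S.1) := by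
  unfold E Gen.Epl Gen.post
  rw [Finset.sum_div]
  simp only [exp_lpw P h0 h1]
  exact Finset.sum_congr rfl fun S _ => div_mul_eq_mul_div _ _ _

/-- The configuration restricted to a subset. -/
def cfgInter (A : Finset V) {D : Finset V} (S : Cfg D) : Cfg A :=
  ⟨S.1 ∩ A, Finset.mem_powerset.2 Finset.inter_subset_right⟩

lemma prior_marginal (hG : G.IsTree) {θ : ℝ} {A D : Finset V} (hA : Closed G A)
    (hAne : A.Nonempty) (hD : Closed G D) (hsub : A ⊆ D) (F : Cfg A → ℝ) :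
    (∑ S : Cfg D, wt G θ D (spin S.1) * F (cfgInter A S)) /
        ∑ S : Cfg D, wt G θ D (spin S.1) =
      (∑ S : Cfg A, wt G θ A (spin S.1) * F S) / ∑ S : Cfg A, wt G θ A (spin S.1) := by
  set f : (V → ℝ) → ℝ := fun s =>
    F ⟨toSet A s, Finset.mem_powerset.2 (Finset.filter_subset _ _)⟩ with hf
  have hdep : DepOn f A := fun s t h => by
    simp only [hf]
    congr 1
    exact Subtype.ext (Finset.filter_congr fun v hv => by rw [h v hv])
  have key : ∀ (B : Finset V) (φ : (V → ℝ) → ℝ),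
      Sm G θ B (fun _ => 0) φ = ∑ S : Cfg B, wt G θ B (spin S.1) * φ (spin S.1) := by
    intro B φ
    rw [sum_cfg B (fun S => wt G θ B (spin S) * φ (spin S))]
    exact Finset.sum_congr rfl fun S _ => by simp
  have := avg_consistent (θ := θ) hG hA hAne hD hsub (g := fun _ => 0) (fun _ _ _ => rfl) hdep
  unfold avg at this
  rw [key, key, key, key] at this
  simp only [mul_one] at this
  convert this using 4 with S _ S _
  · congr 1
    exact Subtype.ext (toSet_spin_inter A S.1).symm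
  · congr 1
    exact Subtype.ext (toSet_spin (Finset.mem_powerset.1 S.2)).symm

lemma integral_map_mp {α β : Type*} [MeasurableSpace α] [MeasurableSpace β] {μ : Measure α}
    {ν : Measure β} {f : α → β} (hf : MeasurePreserving f μ ν) {g : β → ℝ} (hg : Measurable g) :
    ∫ x, g (f x) ∂μ = ∫ y, g y ∂ν := by
  rw [← hf.map_eq, integral_map hf.measurable.aemeasurable hg.aestronglyMeasurable]

lemma meas_plant {D : Finset V} {N : ℕ} {B : ℝ} {Φ : Finset V → (ℕ → V × V → ℝ) → ℝ}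
    (hΦ : Adm G D N B Φ) (P : Prm) (S : Cfg D) (T : Finset V) :
    Measurable fun ξ : Gen.Noi N (obsIx G D) =>
      Φ T (tot G D (Gen.plant (feat G P.η P.N₁ D) P.h S ξ)) := by
  have hm : Measurable (fun ξ : Gen.Noi N (obsIx G D) =>
      fun p => P.h * feat G P.η P.N₁ D p.1 p.2 S + ξ p) :=
    measurable_pi_lambda _ fun p => (measurable_pi_apply p).const_add _
  have := (hΦ.1 T).comp hm
  convert this using 1
  funext ξ
  simp only [Function.comp]
  congr 2

lemma integrable_plant {D : Finset V} {N : ℕ} {B : ℝ} {Φ : Finset V → (ℕ → V × V → ℝ) → ℝ}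
    (hΦ : Adm G D N B Φ) (P : Prm) (S : Cfg D) (T : Finset V) :
    Integrable (fun ξ : Gen.Noi N (obsIx G D) =>
      Φ T (tot G D (Gen.plant (feat G P.η P.N₁ D) P.h S ξ))) (Gen.nl P.h N) := by
  have : IsProbabilityMeasure (Gen.nl (ι := obsIx G D) P.h N) := by
    unfold Gen.nl; infer_instance
  exact integrable_of_bdd (meas_plant hΦ P S T) fun ξ => hΦ.2 _ _

/-- Restriction of the noise to a sub-system and to fewer steps. -/
def rnoise {A D : Finset V} (hsub : A ⊆ D) {N M : ℕ} (hNM : N ≤ M)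
    (ξ : Gen.Noi M (obsIx G D)) : Gen.Noi N (obsIx G A) :=
  fun p => ξ (Fin.castLE hNM p.1, ⟨p.2.1, obsIx_mono hsub p.2.2⟩)

lemma rnoise_mp {A D : Finset V} (hsub : A ⊆ D) {N M : ℕ} (hNM : N ≤ M) (h : ℝ≥0) :
    MeasurePreserving (rnoise (G := G) hsub hNM) (Gen.nl h M) (Gen.nl h N) := by
  refine pi_comp_inj (gl h) (e := fun p : Fin N × obsIx G A =>
    (Fin.castLE hNM p.1, (⟨p.2.1, obsIx_mono hsub p.2.2⟩ : obsIx G D))) fun a b hab => ?_
  simp only [Prod.mk.injEq, Subtype.mk.injEq] at hab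
  exact Prod.ext (Fin.castLE_injective hNM hab.1) (Subtype.ext hab.2)

lemma depOn_plant {A D : Finset V} (hsub : A ⊆ D) {N M : ℕ} (hNM : N ≤ M) {skip : Finset (V × V)}
    {Φ : Finset V → (ℕ → V × V → ℝ) → ℝ} (hdep : ObsDep G A skip N Φ) (P : Prm) (S : Cfg D)
    (ξ : Gen.Noi M (obsIx G D)) :
    Φ S.1 (tot G D (Gen.plant (feat G P.η P.N₁ D) P.h S ξ)) =
      Φ (cfgInter A S).1
        (tot G A (Gen.plant (feat G P.η P.N₁ A) P.h (cfgInter A S) (rnoise hsub hNM ξ))) := by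
  refine hdep _ _ _ _ (fun v hv => (spin_inter hv).symm) fun j hj i hi _ => ?_
  obtain ⟨h1, h2, -⟩ := mem_obsIx.1 hi
  have hjM : j < M := lt_of_lt_of_le hj hNM
  simp only [tot, dif_pos hi, dif_pos (obsIx_mono hsub hi), Gen.plant, dif_pos hj, dif_pos hjM,
    feat, cfgInter, spin_inter h1, spin_inter h2]
  rfl

/-- A functional of a sub-system has the law of the sub-system. -/
theorem E_marginal (hG : G.IsTree) (P : Prm) (h0 : 0 ≤ P.θ) (h1 : P.θ < 1) {A D : Finset V}
    {N M : ℕ} {B : ℝ} {Φ : Finset V → (ℕ → V × V → ℝ) → ℝ} (hA : Closed G A)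
    (hAne : A.Nonempty) (hD : Closed G D) (hsub : A ⊆ D) (hNM : N ≤ M) (hΦ : Adm G A N B Φ)
    (hdep : ObsDep G A ∅ N Φ) : E G P D M Φ = E G P A N Φ := by
  rw [E_eq P h0 h1, E_eq P h0 h1, ← prior_marginal hG hA hAne hD hsub
    (fun S => ∫ ξ, Φ S.1 (tot G A (Gen.plant (feat G P.η P.N₁ A) P.h S ξ))
      ∂(Gen.nl (ι := obsIx G A) P.h N))]
  congr 1
  refine Finset.sum_congr rfl fun S _ => ?_
  simp only [depOn_plant hsub hNM hdep P S]
  rw [integral_map_mp (rnoise_mp hsub hNM P.h) (meas_plant hΦ P (cfgInter A S) _)]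

lemma spin_flipS {D S : Finset V} {v : V} (hv : v ∈ D) : spin (flipS D S) v = -spin S v := by
  by_cases h : v ∈ S <;> simp [spin, flipS, hv, h]

lemma wt_flipS (θ : ℝ) (D S : Finset V) : wt G θ D (spin (flipS D S)) = wt G θ D (spin S) := by
  refine Finset.prod_congr rfl fun e he => ?_
  induction e using Sym2.ind with
  | _ a b =>
    simp only [edgesIn, Finset.mem_filter, Finset.mk_mem_sym2_iff] at he
    simp [spin_flipS he.1.1, spin_flipS he.1.2]

/-- Flipping all spins of the configuration. -/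
def flipCfg (D : Finset V) : Cfg D ≃ Cfg D :=
  Function.Involutive.toPerm
    (fun S => ⟨flipS D S.1, Finset.mem_powerset.2 Finset.sdiff_subset⟩) fun S => by
      refine Subtype.ext ?_
      simp only [flipS]
      rw [sdiff_sdiff_right_self, Finset.inf_eq_inter,
        Finset.inter_eq_right.2 (Finset.mem_powerset.1 S.2)]

lemma gl_neg_mp (h : ℝ≥0) : MeasurePreserving (fun x : ℝ => -x) (gl h) (gl h) := by
  refine ⟨measurable_neg, ?_⟩
  rw [gaussianReal_map_neg, neg_zero]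

/-- Negation of the noise. -/
def negEquiv (ι : Type*) : (ι → ℝ) ≃ᵐ (ι → ℝ) :=
  MeasurableEquiv.piCongrRight fun _ => MeasurableEquiv.neg ℝ

/-- Flip symmetry. -/
theorem E_flip (P : Prm) (h0 : 0 ≤ P.θ) (h1 : P.θ < 1) (D : Finset V) (N : ℕ)
    (Φ : Finset V → (ℕ → V × V → ℝ) → ℝ) :
    E G P D N (fun S Y => Φ (flipS D S) (fun j i => -Y j i)) = E G P D N Φ := by
  rw [E_eq P h0 h1, E_eq P h0 h1]
  congr 1
  refine Fintype.sum_equiv (flipCfg D) _ _ fun S => ?_
  have hval : ((flipCfg D) S).1 = flipS D S.1 := rfl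
  rw [hval, wt_flipS]
  congr 1
  have hmp : MeasurePreserving (negEquiv (Fin N × obsIx G D))
      (Gen.nl (ι := obsIx G D) P.h N) (Gen.nl (ι := obsIx G D) P.h N) :=
    measurePreserving_pi (fun _ => gl P.h) (fun _ => gl P.h) fun _ => gl_neg_mp P.h
  rw [← hmp.integral_comp (negEquiv _).measurableEmbedding
    (fun ξ => Φ (flipS D S.1) (tot G D (Gen.plant (feat G P.η P.N₁ D) P.h ((flipCfg D) S) ξ)))]
  refine integral_congr_ae (ae_of_all _ fun ξ => ?_)
  simp only
  congr 1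
  funext j i
  unfold tot
  split_ifs with hi
  · obtain ⟨i1, i2, -⟩ := mem_obsIx.1 hi
    unfold Gen.plant
    split_ifs with hj
    · simp only [feat, hval, spin_flipS i1, spin_flipS i2, negEquiv,
        MeasurableEquiv.piCongrRight, MeasurableEquiv.neg]
      simp
      ring
    · simp
  · simp

end

end Vale.Agent.P161.Edge.Mdl
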