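import Vale.Agent.P161.Edge.ModelBasic

/-!
Splitting the planted model at a vertex: given the spin there, the two sides are independent.
-/

namespace Vale.Agent.P161.Edge.Mdl

open MeasureTheory ProbabilityTheory Finset Function
open scoped NNReal Classical

noncomputable section

variable {V : Type} {G : SimpleGraph V}

lemma no_cross (hG : G.IsTree) {A₁ A₂ : Finset V} (hA₁ : Closed G A₁) (hA₂ : Closed G A₂) {c : V}
    (hcap : A₁ ∩ A₂ = {c}) {a b : V} (ha : a ∈ A₁) (hb : b ∈ A₂) (hab : G.Adj a b) :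
    a = c ∨ b = c := by
  have hc : c ∈ A₁ ∩ A₂ := by rw [hcap]; exact Finset.mem_singleton_self c
  obtain ⟨hc₁, hc₂⟩ := Finset.mem_inter.1 hc
  by_contra hh
  push Not at hh
  rcases hG.dist_eq_dist_add_one_of_adj c hab with e | e
  · obtain ⟨p, hp, hap, hdp⟩ := hA₁ c hc₁ a ha hh.1
    have : p = b := closer_unique hG hap hab hdp e
    subst this
    have : p ∈ A₁ ∩ A₂ := Finset.mem_inter.2 ⟨hp, hb⟩
    rw [hcap, Finset.mem_singleton] at this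
    exact hh.2 this
  · obtain ⟨p, hp, hbp, hdp⟩ := hA₂ c hc₂ b hb hh.2
    have : p = a := closer_unique hG hbp hab.symm hdp e
    subst this
    have : p ∈ A₁ ∩ A₂ := Finset.mem_inter.2 ⟨ha, hp⟩
    rw [hcap, Finset.mem_singleton] at this
    exact hh.1 this

lemma edgesIn_split (hG : G.IsTree) {A₁ A₂ D : Finset V} (hA₁ : Closed G A₁) (hA₂ : Closed G A₂)
    {c : V} (hcap : A₁ ∩ A₂ = {c}) (hcup : A₁ ∪ A₂ = D) :
    edgesIn G D = edgesIn G A₁ ∪ edgesIn G A₂ ∧ Disjoint (edgesIn G A₁) (edgesIn G A₂) := by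
  have hc : c ∈ A₁ ∩ A₂ := by rw [hcap]; exact Finset.mem_singleton_self c
  obtain ⟨hc₁, hc₂⟩ := Finset.mem_inter.1 hc
  constructor
  · ext e
    induction e using Sym2.ind with
    | _ a b =>
      simp only [edgesIn, Finset.mem_union, Finset.mem_filter, Finset.mk_mem_sym2_iff,
        SimpleGraph.mem_edgeSet, ← hcup]
      constructor
      · rintro ⟨⟨ha | ha, hb | hb⟩, hab⟩
        · exact Or.inl ⟨⟨ha, hb⟩, hab⟩
        · rcases no_cross hG hA₁ hA₂ hcap ha hb hab with rfl | rfl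
          · exact Or.inr ⟨⟨hc₂, hb⟩, hab⟩
          · exact Or.inl ⟨⟨ha, hc₁⟩, hab⟩
        · rcases no_cross hG hA₁ hA₂ hcap hb ha hab.symm with rfl | rfl
          · exact Or.inr ⟨⟨ha, hc₂⟩, hab⟩
          · exact Or.inl ⟨⟨hc₁, hb⟩, hab⟩
        · exact Or.inr ⟨⟨ha, hb⟩, hab⟩
      · rintro (⟨⟨ha, hb⟩, hab⟩ | ⟨⟨ha, hb⟩, hab⟩)
        · exact ⟨⟨Or.inl ha, Or.inl hb⟩, hab⟩
        · exact ⟨⟨Or.inr ha, Or.inr hb⟩, hab⟩
  · rw [Finset.disjoint_left]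
    intro e
    induction e using Sym2.ind with
    | _ a b =>
      simp only [edgesIn, Finset.mem_filter, Finset.mk_mem_sym2_iff, SimpleGraph.mem_edgeSet]
      rintro ⟨⟨ha₁, hb₁⟩, hab⟩ ⟨⟨ha₂, hb₂⟩, -⟩
      have ha : a ∈ A₁ ∩ A₂ := Finset.mem_inter.2 ⟨ha₁, ha₂⟩
      have hb : b ∈ A₁ ∩ A₂ := Finset.mem_inter.2 ⟨hb₁, hb₂⟩
      rw [hcap, Finset.mem_singleton] at ha hb
      exact hab.ne (ha.trans hb.symm)

lemma wt_split (hG : G.IsTree) (θ : ℝ) {A₁ A₂ D : Finset V} (hA₁ : Closed G A₁)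
    (hA₂ : Closed G A₂) {c : V} (hcap : A₁ ∩ A₂ = {c}) (hcup : A₁ ∪ A₂ = D) (S : Finset V) :
    wt G θ D (spin S) = wt G θ A₁ (spin (S ∩ A₁)) * wt G θ A₂ (spin (S ∩ A₂)) := by
  obtain ⟨he, hdis⟩ := edgesIn_split hG hA₁ hA₂ hcap hcup
  rw [wt_congr (fun v hv => spin_inter hv), wt_congr (fun v hv => spin_inter hv)]
  unfold wt
  rw [he, Finset.prod_union hdis]

lemma sum_wt_spin (θ : ℝ) {A : Finset V} {c : V} (hc : c ∈ A) :
    ∑ S : Cfg A, wt G θ A (spin S.1) * spin S.1 c = 0 := by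
  have key : ∑ S : Cfg A, wt G θ A (spin S.1) * spin S.1 c =
      -∑ S : Cfg A, wt G θ A (spin S.1) * spin S.1 c := by
    rw [← Finset.sum_neg_distrib]
    refine Fintype.sum_equiv (flipCfg A) _ _ fun S => ?_
    have hval : ((flipCfg A) S).1 = flipS A S.1 := rfl
    rw [hval, wt_flipS, spin_flipS hc]
    ring
  linarith

lemma spin_agree (S T : Finset V) (c : V) :
    (if (c ∈ S ↔ c ∈ T) then (1 : ℝ) else 0) = (1 + spin S c * spin T c) / 2 := by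
  by_cases h₁ : c ∈ S <;> by_cases h₂ : c ∈ T <;> simp [spin, h₁, h₂]

lemma sum_split {A₁ A₂ D : Finset V} {c : V} (hcap : A₁ ∩ A₂ = {c}) (hcup : A₁ ∪ A₂ = D)
    (F : Cfg A₁ → Cfg A₂ → ℝ) :
    ∑ S : Cfg D, F (cfgInter A₁ S) (cfgInter A₂ S) =
      ∑ S₁ : Cfg A₁, ∑ S₂ : Cfg A₂, (if (c ∈ S₁.1 ↔ c ∈ S₂.1) then (1 : ℝ) else 0) * F S₁ S₂ := by
  have hc : c ∈ A₁ ∩ A₂ := by rw [hcap]; exact Finset.mem_singleton_self c
  obtain ⟨hc₁, hc₂⟩ := Finset.mem_inter.1 hc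
  simp only [ite_mul, one_mul, zero_mul]
  rw [← Fintype.sum_prod_type' (f := fun (S₁ : Cfg A₁) (S₂ : Cfg A₂) =>
    if (c ∈ S₁.1 ↔ c ∈ S₂.1) then F S₁ S₂ else 0), ← Finset.sum_filter]
  have hin : ∀ p ∈ (Finset.univ : Finset (Cfg A₁ × Cfg A₂)).filter
      (fun p => c ∈ p.1.1 ↔ c ∈ p.2.1), ∀ v ∈ A₁, (v ∈ p.1.1 ∪ p.2.1 ↔ v ∈ p.1.1) := by
    intro p hp v hv
    refine ⟨fun h => (Finset.mem_union.1 h).elim id fun h2 => ?_, Finset.mem_union_left _⟩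
    have h2' : v ∈ A₁ ∩ A₂ := Finset.mem_inter.2 ⟨hv, Finset.mem_powerset.1 p.2.2 h2⟩
    rw [hcap, Finset.mem_singleton] at h2'
    subst h2'
    exact (Finset.mem_filter.1 hp).2.2 h2
  have hin' : ∀ p ∈ (Finset.univ : Finset (Cfg A₁ × Cfg A₂)).filter
      (fun p => c ∈ p.1.1 ↔ c ∈ p.2.1), ∀ v ∈ A₂, (v ∈ p.1.1 ∪ p.2.1 ↔ v ∈ p.2.1) := by
    intro p hp v hv
    refine ⟨fun h => (Finset.mem_union.1 h).elim (fun h1 => ?_) id, Finset.mem_union_right _⟩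
    have h1' : v ∈ A₁ ∩ A₂ := Finset.mem_inter.2 ⟨Finset.mem_powerset.1 p.1.2 h1, hv⟩
    rw [hcap, Finset.mem_singleton] at h1'
    subst h1'
    exact (Finset.mem_filter.1 hp).2.1 h1
  refine Finset.sum_bij' (fun S _ => (cfgInter A₁ S, cfgInter A₂ S))
    (fun p _ => ⟨p.1.1 ∪ p.2.1, Finset.mem_powerset.2 (hcup ▸
      Finset.union_subset_union (Finset.mem_powerset.1 p.1.2) (Finset.mem_powerset.1 p.2.2))⟩)
    (fun S _ => by simp [cfgInter, hc₁, hc₂]) (fun p _ => Finset.mem_univ _) (fun S _ => ?_)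
    (fun p hp => ?_) fun S _ => rfl
  · refine Subtype.ext ?_
    simp only [cfgInter]
    rw [← Finset.inter_union_distrib_left, hcup,
      Finset.inter_eq_left.2 (Finset.mem_powerset.1 S.2)]
  · refine Prod.ext (Subtype.ext ?_) (Subtype.ext ?_) <;> simp only [cfgInter] <;> ext v <;>
      rw [Finset.mem_inter]
    · exact ⟨fun h => (hin p hp v h.2).1 h.1,
        fun h => ⟨Finset.mem_union_left _ h, Finset.mem_powerset.1 p.1.2 h⟩⟩
    · exact ⟨fun h => (hin' p hp v h.2).1 h.1,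
        fun h => ⟨Finset.mem_union_right _ h, Finset.mem_powerset.1 p.2.2 h⟩⟩

lemma disjoint_obs {A₁ A₂ : Finset V} {c : V} (hcap : A₁ ∩ A₂ = {c}) {i : V × V}
    (h₁ : i ∈ obsIx G A₁) (h₂ : i ∈ obsIx G A₂) : i = (c, c) := by
  obtain ⟨a1, a2, -⟩ := mem_obsIx.1 h₁
  obtain ⟨b1, b2, -⟩ := mem_obsIx.1 h₂
  have x1 : i.1 ∈ A₁ ∩ A₂ := Finset.mem_inter.2 ⟨a1, b1⟩
  have x2 : i.2 ∈ A₁ ∩ A₂ := Finset.mem_inter.2 ⟨a2, b2⟩
  rw [hcap, Finset.mem_singleton] at x1 x2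
  exact Prod.ext x1 x2

/-- The observations of the first side other than that of the shared vertex. -/
abbrev Side (G : SimpleGraph V) (A : Finset V) (c : V) (N : ℕ) : Type :=
  {p : Fin N × obsIx G A // p.2.1 ≠ (c, c)}

/-- Extension by zero at the shared vertex. -/
def sideExt {A : Finset V} {c : V} {N : ℕ} (w : Side G A c N → ℝ) : Gen.Noi N (obsIx G A) :=
  fun p => if hp : p.2.1 ≠ (c, c) then w ⟨p, hp⟩ else 0

lemma measurable_sideExt {A : Finset V} {c : V} {N : ℕ} :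
    Measurable (sideExt (G := G) (A := A) (c := c) (N := N)) := by
  refine measurable_pi_lambda _ fun p => ?_
  unfold sideExt
  split_ifs with hp
  · exact measurable_pi_apply _
  · exact measurable_const

lemma indep_split {A₁ A₂ D : Finset V} {c : V} (hcap : A₁ ∩ A₂ = {c})
    (h : ℝ≥0) (N : ℕ) {f₁ : Gen.Noi N (obsIx G A₁) → ℝ} {f₂ : Gen.Noi N (obsIx G A₂) → ℝ}
    (hf₁ : Measurable f₁) (hskip : ∀ z z', (∀ p, p.2.1 ≠ (c, c) → z p = z' p) → f₁ z = f₁ z')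
    (hf₂ : Measurable f₂) (h₁ : A₁ ⊆ D) (h₂ : A₂ ⊆ D) :
    ∫ ξ, f₁ (rnoise h₁ le_rfl ξ) * f₂ (rnoise h₂ le_rfl ξ) ∂(Gen.nl (ι := obsIx G D) h N) =
      (∫ z, f₁ z ∂(Gen.nl (ι := obsIx G A₁) h N)) * ∫ z, f₂ z ∂(Gen.nl (ι := obsIx G A₂) h N) := by
  set g₁ : (Side G A₁ c N → ℝ) → ℝ := fun w => f₁ (sideExt w) with hg₁
  have hg₁m : Measurable g₁ := hf₁.comp measurable_sideExt
  have hfg : ∀ z, f₁ z = g₁ (fun p => z p.1) := fun z => hskip _ _ fun p hp => by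
    simp [sideExt, hp]
  set e : Side G A₁ c N ⊕ (Fin N × obsIx G A₂) → Fin N × obsIx G D := Sum.elim
    (fun p => (p.1.1, ⟨p.1.2.1, obsIx_mono h₁ p.1.2.2⟩))
    (fun p => (p.1, ⟨p.2.1, obsIx_mono h₂ p.2.2⟩)) with he
  have hinj : Injective e := by
    rintro (a | a) (b | b) hab <;> simp only [he, Sum.elim_inl, Sum.elim_inr, Prod.mk.injEq,
      Subtype.mk.injEq] at hab
    · exact congrArg Sum.inl (Subtype.ext (Prod.ext hab.1 (Subtype.ext hab.2)))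
    · exact absurd (disjoint_obs hcap a.1.2.2 (hab.2 ▸ b.2.2)) a.2
    · exact absurd (disjoint_obs hcap b.1.2.2 (hab.2 ▸ a.2.2)) b.2
    · exact congrArg Sum.inr (Prod.ext hab.1 (Subtype.ext hab.2))
  have hmp := (measurePreserving_sumPiEquivProdPi (X := fun _ : _ ⊕ _ => ℝ)
    (fun _ : Side G A₁ c N ⊕ (Fin N × obsIx G A₂) => gl h)).comp (pi_comp_inj (gl h) hinj)
  have hside : MeasurePreserving
      (fun (z : Gen.Noi N (obsIx G A₁)) (p : Side G A₁ c N) => z p.1)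
      (Gen.nl (ι := obsIx G A₁) h N) (Measure.pi fun _ => gl h) :=
    pi_comp_inj (gl h) Subtype.val_injective
  calc ∫ ξ, f₁ (rnoise h₁ le_rfl ξ) * f₂ (rnoise h₂ le_rfl ξ) ∂(Gen.nl (ι := obsIx G D) h N)
      = ∫ q : (Side G A₁ c N → ℝ) × (Gen.Noi N (obsIx G A₂)), g₁ q.1 * f₂ q.2
          ∂((Measure.pi fun _ : Side G A₁ c N => gl h).prod
            (Measure.pi fun _ : Fin N × obsIx G A₂ => gl h)) := by
        rw [← integral_map_mp hmp (g := fun q => g₁ q.1 * f₂ q.2)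
          ((hg₁m.comp measurable_fst).mul (hf₂.comp measurable_snd))]
        refine integral_congr_ae (ae_of_all _ fun ξ => ?_)
        simp only
        rw [hfg]
        rfl
    _ = _ := by
        rw [integral_prod_mul g₁ f₂, ← integral_map_mp hside hg₁m]
        simp only [← hfg]
        rfl

/-- Given the spin at `c`, the observations on the two sides are independent. -/
theorem E_split (hG : G.IsTree) (P : Prm) (h0 : 0 ≤ P.θ) (h1 : P.θ < 1) {A₁ A₂ D : Finset V}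
    {c : V} {N : ℕ} {B : ℝ} {Φ₁ Φ₂ : Finset V → (ℕ → V × V → ℝ) → ℝ} (hA₁ : Closed G A₁)
    (hA₂ : Closed G A₂) (hcap : A₁ ∩ A₂ = {c}) (hcup : A₁ ∪ A₂ = D) (hΦ₁ : Adm G A₁ N B Φ₁)
    (hΦ₂ : Adm G A₂ N B Φ₂) (hd₁ : ObsDep G A₁ {(c, c)} N Φ₁) (hd₂ : ObsDep G A₂ ∅ N Φ₂) :
    E G P D N (fun S Y => Φ₁ S Y * Φ₂ S Y) =
      E G P A₁ N Φ₁ * E G P A₂ N Φ₂ +
        E G P A₁ N (fun S Y => spin S c * Φ₁ S Y) * E G P A₂ N (fun S Y => spin S c * Φ₂ S Y) := by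
  have hc : c ∈ A₁ ∩ A₂ := by rw [hcap]; exact Finset.mem_singleton_self c
  obtain ⟨hc₁, hc₂⟩ := Finset.mem_inter.1 hc
  have hs₁ : A₁ ⊆ D := hcup ▸ Finset.subset_union_left
  have hs₂ : A₂ ⊆ D := hcup ▸ Finset.subset_union_right
  set I₁ : Cfg A₁ → ℝ := fun S => ∫ ξ, Φ₁ S.1
    (tot G A₁ (Gen.plant (feat G P.η P.N₁ A₁) P.h S ξ)) ∂(Gen.nl (ι := obsIx G A₁) P.h N) with hI₁
  set I₂ : Cfg A₂ → ℝ := fun S => ∫ ξ, Φ₂ S.1
    (tot G A₂ (Gen.plant (feat G P.η P.N₁ A₂) P.h S ξ)) ∂(Gen.nl (ι := obsIx G A₂) P.h N) with hI₂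
  set w₁ : Cfg A₁ → ℝ := fun S => wt G P.θ A₁ (spin S.1)
  set w₂ : Cfg A₂ → ℝ := fun S => wt G P.θ A₂ (spin S.1)
  have hint : ∀ S : Cfg D, ∫ ξ, Φ₁ S.1 (tot G D (Gen.plant (feat G P.η P.N₁ D) P.h S ξ)) *
      Φ₂ S.1 (tot G D (Gen.plant (feat G P.η P.N₁ D) P.h S ξ)) ∂(Gen.nl (ι := obsIx G D) P.h N) =
      I₁ (cfgInter A₁ S) * I₂ (cfgInter A₂ S) := by
    intro S
    simp only [depOn_plant hs₁ le_rfl hd₁ P S, depOn_plant hs₂ le_rfl hd₂ P S]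
    refine indep_split hcap P.h N (meas_plant hΦ₁ P (cfgInter A₁ S) _)
      (fun z z' hz => hd₁ _ _ _ _ (fun v _ => rfl) fun j hj i hi hns => ?_)
      (meas_plant hΦ₂ P (cfgInter A₂ S) _) hs₁ hs₂
    simp only [tot, dif_pos hi, Gen.plant, dif_pos hj]
    rw [hz (⟨j, hj⟩, ⟨i, hi⟩) (fun h => hns (Finset.mem_singleton.2 h))]
  have pull : ∀ (A : Finset V) (Φ : Finset V → (ℕ → V × V → ℝ) → ℝ),
      E G P A N (fun S Y => spin S c * Φ S Y) = (∑ S : Cfg A, wt G P.θ A (spin S.1) * spin S.1 c *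
        ∫ ξ, Φ S.1 (tot G A (Gen.plant (feat G P.η P.N₁ A) P.h S ξ))
          ∂(Gen.nl (ι := obsIx G A) P.h N)) / ∑ S : Cfg A, wt G P.θ A (spin S.1) := by
    intro A Φ
    rw [E_eq P h0 h1]
    congr 1
    exact Finset.sum_congr rfl fun S _ => by rw [integral_const_mul]; ring
  have hnum : ∀ (u₁ : Cfg A₁ → ℝ) (u₂ : Cfg A₂ → ℝ),
      ∑ S : Cfg D, wt G P.θ D (spin S.1) * (u₁ (cfgInter A₁ S) * u₂ (cfgInter A₂ S)) =
        ((∑ S, w₁ S * u₁ S) * (∑ S, w₂ S * u₂ S) +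
          (∑ S, w₁ S * spin S.1 c * u₁ S) * (∑ S, w₂ S * spin S.1 c * u₂ S)) / 2 := by
    intro u₁ u₂
    rw [Finset.sum_congr rfl fun (S : Cfg D) _ =>
      show _ = w₁ (cfgInter A₁ S) * u₁ (cfgInter A₁ S) * (w₂ (cfgInter A₂ S) * u₂ (cfgInter A₂ S))
      by rw [wt_split hG P.θ hA₁ hA₂ hcap hcup S.1]; simp only [w₁, w₂, cfgInter]; ring,
      sum_split hcap hcup (fun S₁ S₂ => w₁ S₁ * u₁ S₁ * (w₂ S₂ * u₂ S₂))]
    simp only [spin_agree, Finset.sum_mul, Finset.mul_sum, ← Finset.sum_add_distrib,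
      Finset.sum_div]
    rw [Finset.sum_comm]
    exact Finset.sum_congr rfl fun S₁ _ => Finset.sum_congr rfl fun S₂ _ => by ring
  have hden : ∑ S : Cfg D, wt G P.θ D (spin S.1) = (∑ S, w₁ S) * (∑ S, w₂ S) / 2 := by
    have := hnum (fun _ => 1) (fun _ => 1)
    simp only [mul_one] at this
    rw [this]
    have z₁ : ∑ S, w₁ S * spin S.1 c = 0 := sum_wt_spin P.θ hc₁
    rw [z₁]
    ring
  rw [pull, pull, E_eq P h0 h1, E_eq P h0 h1, E_eq P h0 h1]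
  simp only [hint]
  rw [hnum, hden]
  simp only [w₁, w₂, I₁, I₂]
  field_simp

end

end Vale.Agent.P161.Edge.Mdl
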