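import Vale.Agent.P161.Edge.Scheme

/-!
The quantities compared along the assembly: the distance between output and smoothing, and the
distance between the smoothing of aggregated innovations and the spin.
-/

namespace Vale.Agent.P161.Edge

open MeasureTheory Finset
open scoped NNReal Classical

noncomputable section

variable {V : Type} {G : SimpleGraph V} {d : ℕ} (hG : G.IsTree) (hd : Regular G d) (hd3 : 3 ≤ d)

/-- The observations inside the ball of radius `r` around `v`. -/
def ballB (v : V) (r : ℕ) : Finset (V × V) := obsIx G (ballF hG hd hd3 v r)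

/-- The smoothed output of the scheme `S` on the ball of radius `R` around `v`. -/
def Hb (S : Sch) (R r : ℕ) (v : V) (Z : ℕ → V × V → ℝ) : ℝ :=
  Hs G S (ballF hG hd hd3 v R) (ballB hG hd hd3 v r) v Z

/-- The `L¹` distance of the output to its smoothing. -/
def locErr (S : Sch) (R r : ℕ) (v : V) : ℝ :=
  ∫ z, |Fo G S (ballF hG hd hd3 v R) v z -
      Hb hG hd hd3 S R r v (tot G (ballF hG hd hd3 v R) (Gen.ext z))|
    ∂(Gen.nl (ι := obsIx G (ballF hG hd hd3 v R)) (hlev S.k) S.N)

/-- The distance to the spin of the smoothed output at the innovations of the level-`K` scheme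
with coupling `θ` on `A`. -/
def dfn (S : Sch) (R r : ℕ) (v : V) (θ : ℝ) (K : ℕ) (A : Finset V) (σ : Finset V)
    (Y : ℕ → V × V → ℝ) : ℝ :=
  |Hb hG hd hd3 S R r v (aggY (2 ^ (K - S.k)) (innY G (prm θ S.η K) A Y)) - spin σ v|

lemma ballB_subset {v : V} {r : ℕ} {A : Finset V} (h : ballF hG hd hd3 v r ⊆ A) :
    ballB hG hd hd3 v r ⊆ obsIx G A := fun i hi => by
  obtain ⟨⟨h1, h2⟩, h3⟩ := mem_obsIx.1 hi
  exact mem_obsIx.2 ⟨⟨h h1, h h2⟩, h3⟩

lemma self_mem_ballB (v : V) (r : ℕ) : (v, v) ∈ ballB hG hd hd3 v r :=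
  mem_obsIx.2 ⟨⟨self_mem_ballF v r, self_mem_ballF v r⟩, Or.inl rfl⟩

end

end Vale.Agent.P161.Edge
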