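import Vale.Agent.P161.Edge.ProbRules

/-!
The posterior mean at a vertex is correlated with a linear statistic of one side branch, also
after weighting by an even functional of another side branch.
-/

namespace Vale.Agent.P161.Edge

open MeasureTheory ProbabilityTheory Finset Function
open scoped NNReal Classical

noncomputable section

variable {V : Type} {G : SimpleGraph V} {d j : ℕ} {P : Prm}

/-- The depth used for linear statistics at time `t`. -/
def depthN (t : ℝ) : ℕ := ⌈1 / Real.sqrt t⌉₊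

lemma depthN_bounds {t : ℝ} (h0 : 0 < t) (h1 : t ≤ 1) :
    1 ≤ depthN t ∧ 1 ≤ (depthN t : ℝ) * Real.sqrt t ∧ (depthN t : ℝ) * Real.sqrt t ≤ 2 := by
  have hs : 0 < Real.sqrt t := Real.sqrt_pos.2 h0
  have hs1 : Real.sqrt t ≤ 1 := Real.sqrt_le_one.mpr h1
  have hlo := Nat.le_ceil (1 / Real.sqrt t)
  have hhi := Nat.ceil_lt_add_one (show (0 : ℝ) ≤ 1 / Real.sqrt t by positivity)
  refine ⟨Nat.ceil_pos.2 (by positivity), ?_, ?_⟩
  · unfold depthN
    rw [div_le_iff₀ hs] at hlo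
    exact hlo
  · unfold depthN
    have : 1 / Real.sqrt t * Real.sqrt t = 1 := by field_simp
    nlinarith [mul_le_mul_of_nonneg_right hhi.le hs.le]

/-- Truncation to `[-M, M]`. -/
def clM (M x : ℝ) : ℝ := max (-M) (min M x)

lemma clM_facts {M : ℝ} (hM : 0 < M) (x : ℝ) :
    |clM M x| ≤ M ∧ clM M x ^ 2 ≤ x ^ 2 ∧ |x - clM M x| ≤ x ^ 2 / M := by
  have hdiv : 0 ≤ x ^ 2 / M := by positivity
  unfold clM
  rcases le_total x (-M) with h | h
  · rw [min_eq_right (by linarith), max_eq_left h]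
    refine ⟨by rw [abs_neg, abs_of_pos hM], by nlinarith, ?_⟩
    rw [abs_of_nonpos (by linarith), le_div_iff₀ hM]
    nlinarith
  rcases le_total x M with h' | h'
  · rw [min_eq_right h', max_eq_right h]
    exact ⟨abs_le.2 ⟨h, h'⟩, le_rfl, by rw [sub_self, abs_zero]; exact hdiv⟩
  · rw [min_eq_left h', max_eq_right (by linarith)]
    refine ⟨le_of_eq (abs_of_pos hM), by nlinarith, ?_⟩
    rw [abs_of_nonneg (by linarith), le_div_iff₀ hM]
    nlinarith

lemma measurable_clM (M : ℝ) : Measurable (clM M) :=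
  measurable_const.max (measurable_const.min measurable_id)

/-- A full branch has many vertices. -/
lemma sphere_sum_lower (hG : G.IsTree) (hd : Regular G d) (hd3 : 3 ≤ d) {D : Finset V}
    (hD : Closed G D) {q : ℝ} (hq : 0 ≤ q) (hq1 : ((d : ℝ) - 1) * q ≤ 1) :
    ∀ (n : ℕ) {w z : V}, z ∈ D → G.Adj w z → (∀ x, G.dist z x ≤ n → x ∈ D) →
      ((n : ℝ) + 1) * (((d : ℝ) - 1) * q) ^ n ≤
        ∑ x ∈ (branch G D z w).filter (fun x => G.dist z x ≤ n), q ^ G.dist z x := by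
  have hb : (0 : ℝ) ≤ (d : ℝ) - 1 := by
    have : (3 : ℝ) ≤ d := by exact_mod_cast hd3
    linarith
  have hy : 0 ≤ ((d : ℝ) - 1) * q := mul_nonneg hb hq
  intro n
  induction n with
  | zero =>
    intro w z hz hwz _
    have hm : z ∈ (branch G D z w).filter (fun x => G.dist z x ≤ 0) :=
      Finset.mem_filter.2 ⟨self_mem_branch hz hwz, by simp⟩
    refine le_trans (le_of_eq (by simp))
      (Finset.single_le_sum (fun x _ => pow_nonneg hq (G.dist z x)) hm)
  | succ n ih =>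
    intro w z hz hwz hall
    have hch : ((ch G D z w).card : ℝ) = (d : ℝ) - 1 := by
      rw [card_ch_eq hd hd3 hwz fun y hy => hall y (by
        rw [SimpleGraph.dist_eq_one_iff_adj.2 hy]; omega)]
      rw [Nat.cast_sub (by omega), Nat.cast_one]
    set T := fun z' => (branch G D z' z).filter (fun x => G.dist z' x ≤ n) with hT
    have hdist : ∀ z' ∈ ch G D z w, ∀ x ∈ T z', G.dist z x = G.dist z' x + 1 := by
      intro z' hz' x hx
      exact (btw_nbr (mem_ch.1 hz').2.1).1 (mem_branch.1 (Finset.mem_filter.1 hx).1).2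
    have hsub : insert z ((ch G D z w).biUnion T) ⊆
        (branch G D z w).filter (fun x => G.dist z x ≤ n + 1) := by
      intro x hx
      rcases Finset.mem_insert.1 hx with rfl | hx
      · exact Finset.mem_filter.2 ⟨self_mem_branch hz hwz, by simp⟩
      obtain ⟨z', hz', hx⟩ := Finset.mem_biUnion.1 hx
      refine Finset.mem_filter.2 ⟨?_, ?_⟩
      · rw [branch_eq_part hG hD hz hwz]
        exact mem_part.2 (Or.inr ⟨z', hz', (Finset.mem_filter.1 hx).1⟩)
      · rw [hdist z' hz' x hx]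
        have := (Finset.mem_filter.1 hx).2
        omega
    refine le_trans ?_ (Finset.sum_le_sum_of_subset_of_nonneg hsub fun x _ _ => pow_nonneg hq _)
    have hzn : z ∉ (ch G D z w).biUnion T := fun hm => by
      obtain ⟨z', hz', hx⟩ := Finset.mem_biUnion.1 hm
      exact notMem_branch (mem_ch.1 hz').2.1 (Finset.mem_filter.1 hx).1
    have hdis : (↑(ch G D z w) : Set V).PairwiseDisjoint T := by
      intro a ha b hb' hab
      refine Finset.disjoint_left.2 fun x hxa hxb => hab ?_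
      exact branch_disjoint hG (mem_ch.1 ha).2.1 (mem_ch.1 hb').2.1
        (Finset.mem_filter.1 hxa).1 (Finset.mem_filter.1 hxb).1
    rw [Finset.sum_insert hzn, Finset.sum_biUnion hdis, SimpleGraph.dist_self, pow_zero]
    have hterm : ∀ z' ∈ ch G D z w,
        q * (((n : ℝ) + 1) * (((d : ℝ) - 1) * q) ^ n) ≤ ∑ x ∈ T z', q ^ G.dist z x := by
      intro z' hz'
      obtain ⟨hz'D, hzz', _⟩ := mem_ch.1 hz'
      refine (mul_le_mul_of_nonneg_left (ih hz'D hzz' fun x hx => hall x ?_) hq).trans (le_of_eq ?_)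
      · have := hG.connected.dist_triangle (u := z) (v := z') (w := x)
        rw [SimpleGraph.dist_eq_one_iff_adj.2 hzz'] at this
        omega
      · rw [Finset.mul_sum]
        refine Finset.sum_congr rfl fun x hx => ?_
        rw [hdist z' hz' x hx, pow_succ]
        ring
    have hle := Finset.card_nsmul_le_sum _ _ _ hterm
    rw [nsmul_eq_mul, hch] at hle
    have hp : (((d : ℝ) - 1) * q) ^ (n + 1) ≤ 1 := pow_le_one₀ hy hq1
    calc ((↑(n + 1) : ℝ) + 1) * (((d : ℝ) - 1) * q) ^ (n + 1)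
        = (((d : ℝ) - 1) * q) ^ (n + 1) +
            ((d : ℝ) - 1) * (q * (((n : ℝ) + 1) * (((d : ℝ) - 1) * q) ^ n)) := by
          push_cast; ring
      _ ≤ _ := add_le_add hp hle

/-- The weights of the linear statistic. -/
def wgtL (G : SimpleGraph V) (θ : ℝ) (X : Finset V) (u : V) (i : V × V) : ℝ :=
  if i.1 = i.2 ∧ i.1 ∈ X then θ ^ G.dist u i.1 else 0

lemma sum_wgtL {A X : Finset V} (hX : X ⊆ A) (θ : ℝ) (u : V) (F : V × V → ℝ) :
    ∑ i ∈ obsIx G A, wgtL G θ X u i * F i = ∑ x ∈ X, θ ^ G.dist u x * F (x, x) := by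
  have e : (obsIx G A).filter (fun i => i.1 = i.2 ∧ i.1 ∈ X) = X.image fun x => (x, x) := by
    ext ⟨a, b⟩
    simp only [obsIx, Finset.mem_filter, Finset.mem_product, Finset.mem_image, Prod.mk.injEq]
    constructor
    · rintro ⟨_, rfl, ha⟩
      exact ⟨a, ha, rfl, rfl⟩
    · rintro ⟨x, hx, rfl, rfl⟩
      exact ⟨⟨⟨hX hx, hX hx⟩, Or.inl rfl⟩, rfl, hx⟩
  have h1 : ∀ i, wgtL G θ X u i * F i =
      if i.1 = i.2 ∧ i.1 ∈ X then θ ^ G.dist u i.1 * F i else 0 := fun i => by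
    unfold wgtL; split_ifs <;> simp
  simp only [h1]
  rw [← Finset.sum_filter, e, Finset.sum_image (by simp)]

lemma sum_wgtL_sq {A X : Finset V} (hX : X ⊆ A) (θ : ℝ) (u : V) :
    ∑ i ∈ obsIx G A, wgtL G θ X u i ^ 2 = ∑ x ∈ X, (θ ^ 2) ^ G.dist u x := by
  simp only [sq, sum_wgtL hX θ u (wgtL G θ X u)]
  refine Finset.sum_congr rfl fun x hx => ?_
  simp [wgtL, hx, mul_pow]

/-- The quadratic form of the prior correlations on a short ball. -/
lemma kernel_sum (hG : G.IsTree) (hd : Regular G d) (hd3 : 3 ≤ d) {θ : ℝ} (h0 : 0 < θ)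
    (hθ1 : ((d : ℝ) - 1) * θ ^ 2 ≤ 1) {X : Finset V} {u : V} {N : ℕ} (hN : 1 ≤ N)
    (hX : ∀ x ∈ X, G.dist u x ≤ N) :
    ∑ x ∈ X, ∑ y ∈ X, θ ^ G.dist u x * θ ^ G.dist u y * θ ^ G.dist x y ≤
      32 * d * (N : ℝ) ^ 2 * ∑ x ∈ X, (θ ^ 2) ^ G.dist u x := by
  have hb : (0 : ℝ) ≤ (d : ℝ) - 1 := by
    have : (3 : ℝ) ≤ d := by exact_mod_cast hd3
    linarith
  have hNR : (1 : ℝ) ≤ N := by exact_mod_cast hN
  set e : ℝ := 1 / (4 * N) with he
  have he0 : 0 < e := by positivity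
  have he1 : e ≤ 1 / 4 := by
    rw [he, div_le_div_iff₀ (by positivity) (by norm_num)]
    linarith
  set θ' := θ * (1 - e) with hθ'
  have h0' : 0 ≤ θ' := by rw [hθ']; nlinarith
  have hlt : θ' < θ := by rw [hθ']; nlinarith
  have hprod : ((d : ℝ) - 1) * (θ' * θ) ≤ 1 - e := by
    calc ((d : ℝ) - 1) * (θ' * θ) = (1 - e) * (((d : ℝ) - 1) * θ ^ 2) := by rw [hθ']; ring
      _ ≤ (1 - e) * 1 := mul_le_mul_of_nonneg_left hθ1 (by linarith)
      _ = _ := mul_one _
  have hcoef : (d : ℝ) / (1 - ((d : ℝ) - 1) * (θ' * θ)) * (θ / (θ - θ')) ≤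
      16 * d * (N : ℝ) ^ 2 := by
    have e1 : θ / (θ - θ') = 4 * N := by
      rw [hθ', he]; field_simp; ring
    have e2 : (d : ℝ) / (1 - ((d : ℝ) - 1) * (θ' * θ)) ≤ d * (4 * N) := by
      rw [div_le_iff₀ (by linarith)]
      have : (4 * N : ℝ) * e = 1 := by rw [he]; field_simp
      calc (d : ℝ) = d * (4 * N) * e := by rw [mul_assoc, this, mul_one]
        _ ≤ d * (4 * N) * (1 - ((d : ℝ) - 1) * (θ' * θ)) :=
            mul_le_mul_of_nonneg_left (by linarith) (by positivity)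
    rw [e1]
    calc (d : ℝ) / (1 - ((d : ℝ) - 1) * (θ' * θ)) * (4 * N) ≤ d * (4 * N) * (4 * N) :=
          mul_le_mul_of_nonneg_right e2 (by positivity)
      _ = _ := by ring
  rw [Finset.mul_sum]
  refine Finset.sum_le_sum fun x hx => ?_
  have hk : ∀ y ∈ X, θ ^ G.dist x y ≤ 2 * θ' ^ G.dist x y := by
    intro y hy
    have hn : (G.dist x y : ℝ) ≤ 2 * N := by
      have := hG.connected.dist_triangle (u := x) (v := u) (w := y)
      rw [SimpleGraph.dist_comm (u := x) (v := u)] at this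
      have h1 := hX x hx
      have h2 := hX y hy
      exact_mod_cast (by omega : G.dist x y ≤ 2 * N)
    have hbern := one_add_mul_le_pow (show (-2 : ℝ) ≤ -e by linarith) (G.dist x y)
    have hhalf : (1 : ℝ) / 2 ≤ (1 - e) ^ G.dist x y := by
      have : (G.dist x y : ℝ) * e ≤ 1 / 2 := by
        calc (G.dist x y : ℝ) * e ≤ 2 * N * e := mul_le_mul_of_nonneg_right hn he0.le
          _ = 1 / 2 := by rw [he]; field_simp; norm_num
      rw [← sub_eq_add_neg] at hbern
      linarith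
    rw [hθ', mul_pow]
    nlinarith [pow_nonneg h0.le (G.dist x y)]
  calc ∑ y ∈ X, θ ^ G.dist u x * θ ^ G.dist u y * θ ^ G.dist x y
      ≤ ∑ y ∈ X, (2 * θ ^ G.dist u x) * (θ' ^ G.dist x y * θ ^ G.dist y u) := by
        refine Finset.sum_le_sum fun y hy => ?_
        rw [SimpleGraph.dist_comm (u := y) (v := u)]
        calc θ ^ G.dist u x * θ ^ G.dist u y * θ ^ G.dist x y
            ≤ θ ^ G.dist u x * θ ^ G.dist u y * (2 * θ' ^ G.dist x y) :=
              mul_le_mul_of_nonneg_left (hk y hy) (by positivity)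
          _ = _ := by ring
    _ = (2 * θ ^ G.dist u x) * ∑ y ∈ X, θ' ^ G.dist x y * θ ^ G.dist y u := by
        rw [Finset.mul_sum]
    _ ≤ (2 * θ ^ G.dist u x) * (16 * d * (N : ℝ) ^ 2 * θ ^ G.dist x u) := by
        refine mul_le_mul_of_nonneg_left ?_ (by positivity)
        refine (kernel_supersolution hG hd hd3 h0' hlt (by linarith) X x u).trans ?_
        exact mul_le_mul_of_nonneg_right hcoef (pow_nonneg h0.le _)
    _ = _ := by rw [SimpleGraph.dist_comm (u := x) (v := u), pow_right_comm]; ring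

/-- The statistic used at `u` inside `A`. -/
def statL (G : SimpleGraph V) (θ : ℝ) (A X : Finset V) (u : V) (j : ℕ) (M : ℝ)
    (Y : ℕ → V × V → ℝ) : ℝ :=
  clM M (linY G A j (wgtL G θ X u) Y)

set_option maxHeartbeats 1000000 in
lemma PCtx.stat_bounds (C : PCtx G d P j) {A X : Finset V} {u : V} (hA : Closed G A)
    (hu : u ∈ A) (hX : X ⊆ A) {N : ℕ} (hN : 1 ≤ N) (hXN : ∀ x ∈ X, G.dist u x ≤ N)
    (hθ0 : 0 < P.θ) (hθ1 : ((d : ℝ) - 1) * P.θ ^ 2 ≤ 1) {M : ℝ} (hM : 0 < M)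
    (hNt : (j : ℝ) * P.h * (N : ℝ) ^ 2 ≤ 4) :
    (j : ℝ) * P.h * (∑ x ∈ X, (P.θ ^ 2) ^ G.dist u x) * (1 - (1 + 128 * d) / M) ≤
        E G P A j (fun S Y => spin S u * statL G P.θ A X u j M Y) ∧
      E G P A j (fun _ Y => statL G P.θ A X u j M Y ^ 2) ≤
        (1 + 128 * d) * ((j : ℝ) * P.h * ∑ x ∈ X, (P.θ ^ 2) ^ G.dist u x) := by
  set t : ℝ := (j : ℝ) * P.h with ht
  set S₁ := ∑ x ∈ X, (P.θ ^ 2) ^ G.dist u x with hS₁
  set a := wgtL G P.θ X u with ha
  have ht0 : 0 ≤ t := mul_nonneg (Nat.cast_nonneg _) P.h.coe_nonneg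
  have hS0 : 0 ≤ S₁ := Finset.sum_nonneg fun _ _ => by positivity
  have hmean : ∀ S : Cfg A,
      linMean G P A j a S = t * ∑ x ∈ X, P.θ ^ G.dist u x * spin S.1 x := by
    intro S
    unfold linMean
    have : ∀ k ∈ range j, ∑ i : obsIx G A, a i.1 * feat G P.η P.N₁ A k i S =
        ∑ x ∈ X, P.θ ^ G.dist u x * spin S.1 x := by
      intro k _
      unfold feat
      rw [Finset.sum_coe_sort (obsIx G A)
        (fun i => a i * (coef P.η P.N₁ k i * (spin S.1 i.1 + spin S.1 i.2))), ha, sum_wgtL hX]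
      refine Finset.sum_congr rfl fun x _ => ?_
      rw [show coef P.η P.N₁ k ((x, x) : V × V) = 1 / 2 from if_pos rfl]
      ring
    rw [Finset.sum_congr rfl this, Finset.sum_const, Finset.card_range, nsmul_eq_mul, ht]
    ring
  have hsqw : ∑ i ∈ obsIx G A, a i ^ 2 = S₁ := sum_wgtL_sq hX _ _
  have hcv : ∀ x ∈ A, ∀ y ∈ A,
      avg G P.θ A (fun _ => 0) (fun s => s x * s y) = P.θ ^ G.dist x y := by
    intro x hx y hy
    have h := cv_zero_field C.treeStmt C.tree C.three C.reg C.par₀ hA _ hx hy rfl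
    unfold cv at h
    rwa [mean_zero_field hx, zero_mul, sub_zero] at h
  set Ls := fun (S : Cfg A) ξ =>
    linY G A j a (tot G A (Gen.plant (feat G P.η P.N₁ A) P.h S ξ)) with hLs
  set ν := Gen.nl (ι := obsIx G A) P.h j with hν
  have hmom := fun S : Cfg A => lin_moments (G := G) P A j a S
  have e1 : ∑ S : Cfg A, Gen.post (lpw G P.θ A) S * (spin S.1 u * linMean G P A j a S) =
      t * S₁ := by
    have : ∀ S : Cfg A, Gen.post (lpw G P.θ A) S * (spin S.1 u * linMean G P A j a S) =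
        t * ∑ x ∈ X, P.θ ^ G.dist u x *
          (Gen.post (lpw G P.θ A) S * (fun s : V → ℝ => s u * s x) (spin S.1)) := fun S => by
      rw [hmean, Finset.mul_sum, Finset.mul_sum, Finset.mul_sum, Finset.mul_sum]
      exact Finset.sum_congr rfl fun x _ => by ring
    rw [Finset.sum_congr rfl fun S _ => this S, ← Finset.mul_sum, Finset.sum_comm, hS₁]
    congr 1
    refine Finset.sum_congr rfl fun x hx => ?_
    rw [← Finset.mul_sum, sum_lpw P C.par₀ A (fun s => s u * s x), hcv u hu x (hX hx), ← pow_mul,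
      ← pow_add]
    congr 1
    ring
  have e2 : ∑ S : Cfg A, Gen.post (lpw G P.θ A) S * (linMean G P A j a S ^ 2 + t * S₁) ≤
      (1 + 128 * d) * (t * S₁) := by
    have hk := kernel_sum C.tree C.reg C.three hθ0 hθ1 hN hXN
    have : ∀ S : Cfg A, Gen.post (lpw G P.θ A) S * (linMean G P A j a S ^ 2 + t * S₁) =
        t ^ 2 * (∑ x ∈ X, ∑ y ∈ X, P.θ ^ G.dist u x * P.θ ^ G.dist u y *
          (Gen.post (lpw G P.θ A) S * (fun s : V → ℝ => s x * s y) (spin S.1))) +
          t * S₁ * Gen.post (lpw G P.θ A) S := fun S => by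
      rw [hmean, mul_pow, sq (∑ x ∈ X, _), Finset.sum_mul_sum, mul_add]
      congr 1
      · rw [Finset.mul_sum, Finset.mul_sum, Finset.mul_sum]
        refine Finset.sum_congr rfl fun x _ => ?_
        rw [Finset.mul_sum, Finset.mul_sum, Finset.mul_sum]
        exact Finset.sum_congr rfl fun y _ => by ring
      · ring
    rw [Finset.sum_congr rfl fun S _ => this S, Finset.sum_add_distrib, ← Finset.mul_sum,
      ← Finset.mul_sum, sum_post_cfg, mul_one, Finset.sum_comm]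
    have hkk : t ^ 2 * (32 * d * (N : ℝ) ^ 2 * S₁) ≤ 128 * d * (t * S₁) := by
      calc t ^ 2 * (32 * d * (N : ℝ) ^ 2 * S₁) = (t * (N : ℝ) ^ 2) * (32 * d * (t * S₁)) := by ring
        _ ≤ 4 * (32 * d * (t * S₁)) := mul_le_mul_of_nonneg_right hNt
            (mul_nonneg (mul_nonneg (by norm_num) (Nat.cast_nonneg _)) (mul_nonneg ht0 hS0))
        _ = _ := by ring
    have : t ^ 2 * ∑ x ∈ X, ∑ S : Cfg A, ∑ y ∈ X, P.θ ^ G.dist u x * P.θ ^ G.dist u y *
          (Gen.post (lpw G P.θ A) S * (fun s : V → ℝ => s x * s y) (spin S.1)) ≤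
        t ^ 2 * (32 * d * (N : ℝ) ^ 2 * S₁) := by
      refine mul_le_mul_of_nonneg_left (le_trans (le_of_eq ?_) hk) (sq_nonneg _)
      refine Finset.sum_congr rfl fun x hx => ?_
      rw [Finset.sum_comm]
      refine Finset.sum_congr rfl fun y hy => ?_
      rw [← Finset.mul_sum, sum_lpw P C.par₀ A (fun s => s x * s y), hcv x (hX hx) y (hX hy)]
    linarith
  have hsp : ∀ S Y, |spin S u * statL G P.θ A X u j M Y| ≤ M := fun S Y => by
    rw [abs_mul, abs_spin, one_mul]; exact (clM_facts hM _).1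
  have hms : MeasY (fun (_ : Finset V) Y => statL G P.θ A X u j M Y) :=
    (measY_linY A j a).comp (measurable_clM M)
  constructor
  · have step : ∀ S : Cfg A, spin S.1 u * linMean G P A j a S -
        (linMean G P A j a S ^ 2 + t * S₁) / M ≤
        ∫ ξ, spin S.1 u * clM M (Ls S ξ) ∂ν := by
      intro S
      obtain ⟨i1, i2, m1, m2⟩ := hmom S
      rw [← hsqw]
      refine le_trans (le_of_eq ?_) (integral_mono ((i1.const_mul (spin S.1 u)).sub (i2.div_const M))
        (integrable_plant (B := M) ((measY_spin u).mul hms) hsp S) fun ξ => ?_)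
      · rw [integral_sub' (i1.const_mul _) (i2.div_const M), integral_const_mul, integral_div,
          m1, m2]
      · obtain ⟨_, _, h3⟩ := clM_facts hM (Ls S ξ)
        show spin S.1 u * Ls S ξ - Ls S ξ ^ 2 / M ≤ spin S.1 u * clM M (Ls S ξ)
        have : spin S.1 u * (Ls S ξ - clM M (Ls S ξ)) ≤ Ls S ξ ^ 2 / M := by
          refine (le_abs_self _).trans ?_
          rw [abs_mul, abs_spin, one_mul]
          exact h3
        linarith
    refine le_trans ?_ (Finset.sum_le_sum fun S _ =>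
      mul_le_mul_of_nonneg_left (step S) (post_nonneg _ _))
    simp only [mul_sub, ← mul_div_assoc, Finset.sum_sub_distrib, ← Finset.sum_div, e1]
    have := div_le_div_of_nonneg_right e2 hM.le
    rw [show t * S₁ * 1 - t * S₁ * (1 + 128 * d) / M = t * S₁ - (1 + 128 * d) * (t * S₁) / M by
      ring]
    linarith
  · refine le_trans (Finset.sum_le_sum fun S _ => mul_le_mul_of_nonneg_left ?_
      (post_nonneg _ _)) e2
    obtain ⟨i1, i2, m1, m2⟩ := hmom S
    rw [← hsqw, ← m2]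
    refine integral_mono (integrable_plant (B := M ^ 2) hms.sq (fun _ Y => by
      rw [abs_pow]; exact pow_le_pow_left₀ (abs_nonneg _) (clM_facts hM _).1 2) S) i2 fun ξ => ?_
    exact (clM_facts hM _).2.1

/-- The constant of the correlation bound. -/
def corrC (d : ℕ) : ℝ := 1 / (16 * ((d : ℝ) - 1) * (1 + 128 * d))

lemma corrC_pos (hd3 : 3 ≤ d) : 0 < corrC d := by
  have : (3 : ℝ) ≤ d := by exact_mod_cast hd3
  unfold corrC
  have : (0 : ℝ) < (d : ℝ) - 1 := by linarith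
  positivity

set_option maxHeartbeats 1000000 in
/-- An even functional of one child branch of `u`, times the squared mean at `u`. -/
lemma PCtx.corr_lower (C : PCtx G d P j) {D : Finset V} (hD : Closed G D) {u w y : V} (hu : u ∈ D)
    (hwu : G.Adj w u) (hy : y ∈ ch G D u w) (ht0 : 0 < (j : ℝ) * P.h) (ht1 : (j : ℝ) * P.h ≤ 1)
    (hall : ∀ x, G.dist u x ≤ depthN ((j : ℝ) * P.h) → x ∈ D)
    (hθ1 : ((d : ℝ) - 1) * P.θ ^ 2 ≤ 1)
    (hθ2 : 1 - Real.sqrt ((j : ℝ) * P.h) / 4 ≤ ((d : ℝ) - 1) * P.θ ^ 2)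
    {F : (ℕ → V × V → ℝ) → ℝ} {B₁ : ℝ} (hm : MeasY (fun (_ : Finset V) Y => F Y))
    (hb : ∀ Y, |F Y| ≤ B₁) (hF0 : ∀ Y, 0 ≤ F Y)
    (hloc : Loc G (part G D u {y}) {(u, u)} j F)
    (heven : ∀ Y, F (fun k i => -Y k i) = F Y) :
    corrC d * Real.sqrt ((j : ℝ) * P.h) * E G P (branch G D u w) j (fun _ Y => F Y) ≤
      E G P (branch G D u w) j (fun _ Y => pmean G P (branch G D u w) Y j u ^ 2 * F Y) := by
  set t := (j : ℝ) * P.h with ht
  set s := Real.sqrt t with hs
  obtain ⟨hN1, hNlo, hNhi⟩ := depthN_bounds ht0 ht1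
  set N := depthN t with hN
  have hspos : 0 < s := Real.sqrt_pos.2 ht0
  have hs1 : s ≤ 1 := Real.sqrt_le_one.mpr ht1
  have hs2 : s ^ 2 = t := Real.sq_sqrt ht0.le
  have hd' : (3 : ℝ) ≤ d := by exact_mod_cast C.three
  have hbpos : (0 : ℝ) < (d : ℝ) - 1 := by linarith
  obtain ⟨hyD, huy, hyw⟩ := mem_ch.1 hy
  set F₁ : Finset V := {y}
  set F₂ := (ch G D u w).erase y with hF₂
  set A₁ := part G D u F₁ with hA₁
  set A₂ := part G D u F₂ with hA₂
  set B := branch G D u w with hB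
  have hBc : Closed G B := closed_branch C.tree hD hu hwu
  have h1 : Closed G A₁ := closed_part C.tree hD hu fun z hz => by
    rw [Finset.mem_singleton.1 hz]; exact ⟨hyD, huy⟩
  have h2 : Closed G A₂ := closed_part C.tree hD hu fun z hz =>
    ⟨(mem_ch.1 (Finset.mem_of_mem_erase hz)).1, (mem_ch.1 (Finset.mem_of_mem_erase hz)).2.1⟩
  have hBeq : B = part G D u (ch G D u w) := branch_eq_part C.tree hD hu hwu
  have hi : A₁ ∩ A₂ = {u} := by
    ext x
    rw [Finset.mem_inter, Finset.mem_singleton, mem_part, mem_part]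
    constructor
    · rintro ⟨hx1, hx2⟩
      rcases hx1 with h | ⟨z, hz, hxz⟩
      · exact h
      rcases hx2 with h | ⟨z', hz', hxz'⟩
      · exact h
      rw [Finset.mem_singleton.1 hz] at hxz
      exact absurd (branch_disjoint C.tree huy (mem_ch.1 (Finset.mem_of_mem_erase hz')).2.1 hxz hxz')
        (Finset.ne_of_mem_erase hz').symm
    · rintro rfl
      exact ⟨Or.inl rfl, Or.inl rfl⟩
  have hun : A₁ ∪ A₂ = B := by
    ext x
    rw [Finset.mem_union, mem_part, mem_part, hBeq, mem_part]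
    constructor
    · rintro ((h | ⟨z, hz, hx⟩) | (h | ⟨z, hz, hx⟩))
      · exact Or.inl h
      · exact Or.inr ⟨z, by rw [Finset.mem_singleton.1 hz]; exact hy, hx⟩
      · exact Or.inl h
      · exact Or.inr ⟨z, Finset.mem_of_mem_erase hz, hx⟩
    · rintro (h | ⟨z, hz, hx⟩)
      · exact Or.inl (Or.inl h)
      · by_cases hzy : z = y
        · exact Or.inl (Or.inr ⟨z, Finset.mem_singleton.2 hzy, hx⟩)
        · exact Or.inr (Or.inr ⟨z, Finset.mem_erase.2 ⟨hzy, hz⟩, hx⟩)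
  have hnb : ∀ z, G.Adj u z → z ∈ D := fun z hz => hall z (by
    rw [SimpleGraph.dist_eq_one_iff_adj.2 hz]; exact hN1)
  obtain ⟨y', hy'⟩ : F₂.Nonempty := by
    rw [← Finset.card_pos, hF₂, Finset.card_erase_of_mem hy, card_ch_eq C.reg C.three hwu hnb]
    have := C.three
    omega
  obtain ⟨hy'D, huy', _⟩ := mem_ch.1 (Finset.mem_of_mem_erase hy')
  set X := (branch G D y' u).filter (fun x => G.dist y' x ≤ N - 1) with hX
  have hXA : X ⊆ A₂ := fun x hx => mem_part.2 (Or.inr ⟨y', hy', (Finset.mem_filter.1 hx).1⟩)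
  have hXd : ∀ x ∈ X, G.dist u x = G.dist y' x + 1 := fun x hx =>
    (btw_nbr huy').1 (mem_branch.1 (Finset.mem_filter.1 hx).1).2
  have hXN : ∀ x ∈ X, G.dist u x ≤ N := fun x hx => by
    have := (Finset.mem_filter.1 hx).2
    rw [hXd x hx]
    omega
  have hθpos : 0 < P.θ := by
    rcases C.par₀.1.eq_or_lt with h | h
    · rw [← h] at hθ2
      nlinarith
    · exact h
  have hq : 0 ≤ P.θ ^ 2 := sq_nonneg _
  set bq := ((d : ℝ) - 1) * P.θ ^ 2 with hbq
  have hhalf : 1 / 2 ≤ bq ^ (N - 1) := by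
    have h0 : 0 ≤ 1 - s / 4 := by linarith
    calc (1 : ℝ) / 2 ≤ 1 + (N : ℝ) * (-(s / 4)) := by nlinarith
      _ ≤ (1 + -(s / 4)) ^ N := one_add_mul_le_pow (by linarith) N
      _ ≤ (1 + -(s / 4)) ^ (N - 1) := pow_le_pow_of_le_one (by linarith) (by linarith) (by omega)
      _ ≤ _ := pow_le_pow_left₀ (by linarith) (by linarith) _
  set S₁ := ∑ x ∈ X, (P.θ ^ 2) ^ G.dist u x with hS₁
  have hS : (N : ℝ) / (4 * ((d : ℝ) - 1)) ≤ S₁ := by
    have hsp := sphere_sum_lower C.tree C.reg C.three hD hq hθ1 (N - 1) hy'D huy' fun x hx =>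
      hall x (by
        have := C.tree.connected.dist_triangle (u := u) (v := y') (w := x)
        rw [SimpleGraph.dist_eq_one_iff_adj.2 huy'] at this
        omega)
    have e : S₁ = P.θ ^ 2 * ∑ x ∈ X, (P.θ ^ 2) ^ G.dist y' x := by
      rw [hS₁, Finset.mul_sum]
      exact Finset.sum_congr rfl fun x hx => by rw [hXd x hx, pow_succ]; ring
    have hcast : ((N - 1 : ℕ) : ℝ) + 1 = N := by
      rw [Nat.cast_sub hN1, Nat.cast_one]; ring
    rw [hcast] at hsp
    have hθb : 1 / (2 * ((d : ℝ) - 1)) ≤ P.θ ^ 2 := by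
      rw [div_le_iff₀ (by positivity)]
      linarith
    calc (N : ℝ) / (4 * ((d : ℝ) - 1)) = 1 / (2 * ((d : ℝ) - 1)) * ((N : ℝ) * (1 / 2)) := by
          field_simp
          ring
      _ ≤ P.θ ^ 2 * ((N : ℝ) * bq ^ (N - 1)) := mul_le_mul hθb
          (mul_le_mul_of_nonneg_left hhalf (Nat.cast_nonneg _)) (by positivity) hq
      _ ≤ P.θ ^ 2 * ∑ x ∈ X, (P.θ ^ 2) ^ G.dist y' x := mul_le_mul_of_nonneg_left hsp hq
      _ = S₁ := e.symm
  set K₁ : ℝ := 1 + 128 * d with hK₁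
  have hK₁0 : 0 < K₁ := by positivity
  have huA₂ : u ∈ A₂ := mem_part.2 (Or.inl rfl)
  have huB : u ∈ B := self_mem_branch hu hwu
  have hNt : t * (N : ℝ) ^ 2 ≤ 4 := by
    calc t * (N : ℝ) ^ 2 = ((N : ℝ) * s) ^ 2 := by rw [mul_pow, hs2]; ring
      _ ≤ 2 ^ 2 := pow_le_pow_left₀ (by positivity) hNhi 2
      _ = 4 := by norm_num
  obtain ⟨hsL, hLL⟩ := C.stat_bounds h2 huA₂ hXA hN1 hXN hθpos hθ1
    (M := 2 * K₁) (by positivity) hNt
  rw [← hK₁, show (1 : ℝ) - K₁ / (2 * K₁) = 1 / 2 by field_simp; norm_num, ← ht, ← hS₁] at hsL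
  rw [← hK₁, ← ht, ← hS₁] at hLL
  set L := statL G P.θ A₂ X u j (2 * K₁) with hL
  set lam : ℝ := 1 / (2 * K₁) with hlam
  set A0 := fun Y => pmean G P B Y j u with hA0
  have hA0b : ∀ Y, |A0 Y| ≤ 1 := fun Y => abs_mf_le C.par B _ u
  have hLb : ∀ Y, |L Y| ≤ 2 * K₁ := fun Y => (clM_facts (by positivity) _).1
  have hmL : MeasY (fun (_ : Finset V) Y => L Y) :=
    (measY_linY A₂ j _).comp (measurable_clM _)
  have hmA : MeasY (fun (_ : Finset V) Y => A0 Y) := measY_pmean P B j u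
  have hdepL : ObsDep G A₂ ∅ j (fun S Y => spin S u * L Y) := by
    intro S S' Y Y' hS' hY
    show spin S u * L Y = spin S' u * L Y'
    rw [hS' u huA₂, hL]
    unfold statL linY
    congr 2
    exact Finset.sum_congr rfl fun k hk => Finset.sum_congr rfl fun i hi => by
      rw [hY k (Finset.mem_range.1 hk) i hi (by simp)]
  have hdepL2 : ObsDep G A₂ ∅ j (fun _ Y => L Y ^ 2) := by
    intro S S' Y Y' _ hY
    show L Y ^ 2 = L Y' ^ 2
    rw [hL]
    unfold statL linY
    congr 2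
    exact Finset.sum_congr rfl fun k hk => Finset.sum_congr rfl fun i hi => by
      rw [hY k (Finset.mem_range.1 hk) i hi (by simp)]
  set e1 := E G P B j (fun _ Y => F Y) with he1
  have hA₁B : A₁ ⊆ B := by rw [← hun]; exact Finset.subset_union_left
  have he1' : e1 = E G P A₁ j (fun _ Y => F Y) :=
    C.marg h1 ⟨u, mem_part.2 (Or.inl rfl)⟩ hBc hA₁B hm hb hloc.forget
  have hcross : E G P B j (fun _ Y => A0 Y * (F Y * L Y)) =
      e1 * E G P A₂ j (fun S Y => spin S u * L Y) := by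
    rw [← C.tower hBc huB (F := fun Y => F Y * L Y) (B := B₁ * (2 * K₁)) (hm.mul hmL) (fun Y => by
        rw [abs_mul]
        exact mul_le_mul (hb Y) (hLb Y) (abs_nonneg _) ((abs_nonneg _).trans (hb Y))),
      E_congr (Ψ := fun S Y => F Y * (spin S u * L Y)) fun S _ Y => by ring,
      C.split_even h1 h2 hBc hi hun hm ((measY_spin u).mul hmL) hb (B₂ := 2 * K₁)
        (fun S Y => by rw [abs_mul, abs_spin, one_mul]; exact hLb Y) hloc hdepL heven, he1']
  have hsq : E G P B j (fun _ Y => F Y * L Y ^ 2) = e1 * E G P A₂ j (fun _ Y => L Y ^ 2) := by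
    rw [C.split_even h1 h2 hBc hi hun hm hmL.sq hb (B₂ := (2 * K₁) ^ 2)
        (fun S Y => by rw [abs_pow]; exact pow_le_pow_left₀ (abs_nonneg _) (hLb Y) 2)
        hloc hdepL2 heven, he1']
  have he0 : 0 ≤ e1 := E_nonneg fun _ _ Y => hF0 Y
  have hB1 : 0 ≤ B₁ := (abs_nonneg _).trans (hb fun _ _ => 0)
  have hb1 : ∀ (_ : Finset V) Y, |A0 Y ^ 2 * F Y| ≤ B₁ := fun _ Y => by
    rw [abs_mul, abs_pow]
    exact (mul_le_mul (pow_le_one₀ (abs_nonneg _) (hA0b Y)) (hb Y) (abs_nonneg _)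
      zero_le_one).trans_eq (one_mul _)
  have hb2 : ∀ (_ : Finset V) Y, |A0 Y * (F Y * L Y)| ≤ B₁ * (2 * K₁) := fun _ Y => by
    rw [abs_mul, abs_mul]
    calc |A0 Y| * (|F Y| * |L Y|) ≤ 1 * (B₁ * (2 * K₁)) :=
          mul_le_mul (hA0b Y) (mul_le_mul (hb Y) (hLb Y) (abs_nonneg _) hB1) (by positivity)
            zero_le_one
      _ = _ := one_mul _
  have hb3 : ∀ (_ : Finset V) Y, |F Y * L Y ^ 2| ≤ B₁ * (2 * K₁) ^ 2 := fun _ Y => by
    rw [abs_mul, abs_pow]
    exact mul_le_mul (hb Y) (pow_le_pow_left₀ (abs_nonneg _) (hLb Y) 2) (by positivity) hB1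
  have hm1 : MeasY (fun (_ : Finset V) Y => A0 Y ^ 2 * F Y) := hmA.sq.mul hm
  have hm2 : MeasY (fun (_ : Finset V) Y => A0 Y * (F Y * L Y)) := hmA.mul (hm.mul hmL)
  have hm3 : MeasY (fun (_ : Finset V) Y => F Y * L Y ^ 2) := hm.mul hmL.sq
  have key : 0 ≤ E G P B j (fun _ Y => A0 Y ^ 2 * F Y) +
      ((-(2 * lam)) * E G P B j (fun _ Y => A0 Y * (F Y * L Y)) +
        lam ^ 2 * E G P B j (fun _ Y => F Y * L Y ^ 2)) := by
    rw [← E_const_mul, ← E_const_mul,
      ← E_add (B := |2 * lam| * (B₁ * (2 * K₁))) (B' := lam ^ 2 * (B₁ * (2 * K₁) ^ 2))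
        ((MeasY.const _).mul hm2) ((MeasY.const _).mul hm3)
        (fun S Y => by
          rw [abs_mul, abs_neg]; exact mul_le_mul_of_nonneg_left (hb2 S Y) (abs_nonneg _))
        (fun S Y => by
          rw [abs_mul, abs_pow, sq_abs]
          exact mul_le_mul_of_nonneg_left (hb3 S Y) (sq_nonneg _)),
      ← E_add (B := B₁)
        (B' := |2 * lam| * (B₁ * (2 * K₁)) + lam ^ 2 * (B₁ * (2 * K₁) ^ 2)) hm1
        (((MeasY.const _).mul hm2).add ((MeasY.const _).mul hm3)) hb1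
        (fun S Y => (abs_add_le _ _).trans (add_le_add
          (by rw [abs_mul, abs_neg]; exact mul_le_mul_of_nonneg_left (hb2 S Y) (abs_nonneg _))
          (by
            rw [abs_mul, abs_pow, sq_abs]
            exact mul_le_mul_of_nonneg_left (hb3 S Y) (sq_nonneg _))))]
    refine E_nonneg fun S _ Y => ?_
    calc (0 : ℝ) ≤ F Y * (A0 Y - lam * L Y) ^ 2 := mul_nonneg (hF0 Y) (sq_nonneg _)
      _ = _ := by ring
  rw [hcross, hsq] at key
  set P1 := E G P A₂ j (fun S Y => spin S u * L Y) with hP1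
  set P2 := E G P A₂ j (fun _ Y => L Y ^ 2) with hP2
  have hts : t * S₁ * (1 / (4 * K₁)) ≤ 2 * lam * P1 - lam ^ 2 * P2 := by
    have hl0 : 0 ≤ lam := by positivity
    have a1 : 2 * lam * (t * S₁ * (1 / 2)) ≤ 2 * lam * P1 :=
      mul_le_mul_of_nonneg_left hsL (by positivity)
    have a2 : lam ^ 2 * P2 ≤ lam ^ 2 * (K₁ * (t * S₁)) :=
      mul_le_mul_of_nonneg_left hLL (sq_nonneg _)
    have a3 : lam * (t * S₁) - lam ^ 2 * (K₁ * (t * S₁)) = t * S₁ * (1 / (4 * K₁)) := by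
      rw [hlam]; field_simp; ring
    linarith
  have hr : corrC d * s ≤ t * S₁ * (1 / (4 * K₁)) := by
    have hsN : s ≤ t * N := by
      rw [← hs2]
      nlinarith [mul_le_mul_of_nonneg_left hNlo hspos.le]
    calc corrC d * s = s / (4 * ((d : ℝ) - 1)) * (1 / (4 * K₁)) := by
          unfold corrC; rw [hK₁]; field_simp; ring
      _ ≤ t * N / (4 * ((d : ℝ) - 1)) * (1 / (4 * K₁)) := by gcongr
      _ ≤ _ := by
          refine mul_le_mul_of_nonneg_right ?_ (by positivity)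
          rw [mul_div_assoc]
          exact mul_le_mul_of_nonneg_left hS ht0.le
  calc corrC d * s * e1 ≤ (2 * lam * P1 - lam ^ 2 * P2) * e1 :=
        mul_le_mul_of_nonneg_right (hr.trans hts) he0
    _ ≤ E G P B j (fun _ Y => A0 Y ^ 2 * F Y) := by linarith

end

end Vale.Agent.P161.Edge
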