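import Vale.Agent.P161.Edge.ProbE

/-!
Rules of calculation in the planted model: restriction to a subtree, symmetry, splitting, tower.
-/

namespace Vale.Agent.P161.Edge

open MeasureTheory ProbabilityTheory Finset Function
open scoped NNReal Classical

noncomputable section

variable {V : Type} {G : SimpleGraph V}

lemma MeasY.const (c : ℝ) : MeasY (fun (_ : Finset V) (_ : ℕ → V × V → ℝ) => c) :=
  fun _ _ _ _ _ => measurable_const

lemma MeasY.mul {Φ Ψ : Finset V → (ℕ → V × V → ℝ) → ℝ} (h : MeasY Φ) (h' : MeasY Ψ) :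
    MeasY (fun S Y => Φ S Y * Ψ S Y) := fun S β _ Y hY => (h S β Y hY).mul (h' S β Y hY)

lemma MeasY.add {Φ Ψ : Finset V → (ℕ → V × V → ℝ) → ℝ} (h : MeasY Φ) (h' : MeasY Ψ) :
    MeasY (fun S Y => Φ S Y + Ψ S Y) := fun S β _ Y hY => (h S β Y hY).add (h' S β Y hY)

lemma MeasY.comp {Φ : Finset V → (ℕ → V × V → ℝ) → ℝ} (h : MeasY Φ) {f : ℝ → ℝ}
    (hf : Measurable f) : MeasY (fun S Y => f (Φ S Y)) :=
  fun S β _ Y hY => hf.comp (h S β Y hY)

lemma MeasY.sq {Φ : Finset V → (ℕ → V × V → ℝ) → ℝ} (h : MeasY Φ) :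
    MeasY (fun S Y => Φ S Y ^ 2) := h.comp (measurable_id.pow_const 2)

lemma MeasY.sum {κ : Type*} (s : Finset κ) {Φ : κ → Finset V → (ℕ → V × V → ℝ) → ℝ}
    (h : ∀ a ∈ s, MeasY (Φ a)) : MeasY (fun S Y => ∑ a ∈ s, Φ a S Y) :=
  fun S β _ Y hY => Finset.measurable_sum s fun a ha => h a ha S β Y hY

lemma MeasY.prod {κ : Type*} (s : Finset κ) {Φ : κ → Finset V → (ℕ → V × V → ℝ) → ℝ}
    (h : ∀ a ∈ s, MeasY (Φ a)) : MeasY (fun S Y => ∏ a ∈ s, Φ a S Y) :=
  fun S β _ Y hY => Finset.measurable_prod s fun a ha => h a ha S β Y hY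

lemma measY_spin (c : V) : MeasY (fun (S : Finset V) (_ : ℕ → V × V → ℝ) => spin S c) :=
  fun _ _ _ _ _ => measurable_const

lemma measY_linY (A : Finset V) (j : ℕ) (a : V × V → ℝ) :
    MeasY (fun (_ : Finset V) Y => linY G A j a Y) := fun _ _ _ _ hY => measurable_linY A j a hY

lemma obsIx_mono {A D : Finset V} (h : A ⊆ D) : obsIx G A ⊆ obsIx G D :=
  Finset.filter_subset_filter _ (Finset.product_subset_product h h)

/-- A functional of the observations of pairs in `A` only, apart from `skip`. -/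
def Loc (G : SimpleGraph V) (A : Finset V) (skip : Finset (V × V)) (j : ℕ)
    (F : (ℕ → V × V → ℝ) → ℝ) : Prop :=
  ∀ Y Y', (∀ k < j, ∀ i ∈ obsIx G A, i ∉ skip → Y k i = Y' k i) → F Y = F Y'

lemma Loc.mono {A A' : Finset V} {skip : Finset (V × V)} {j : ℕ} {F : (ℕ → V × V → ℝ) → ℝ}
    (h : Loc G A skip j F) (hA : A ⊆ A') : Loc G A' skip j F :=
  fun Y Y' he => h Y Y' fun k hk i hi hs => he k hk i (obsIx_mono hA hi) hs

lemma Loc.forget {A : Finset V} {skip : Finset (V × V)} {j : ℕ} {F : (ℕ → V × V → ℝ) → ℝ}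
    (h : Loc G A skip j F) : Loc G A ∅ j F :=
  fun Y Y' he => h Y Y' fun k hk i hi _ => he k hk i hi (by simp)

lemma Loc.obsDep {A : Finset V} {skip : Finset (V × V)} {j : ℕ} {F : (ℕ → V × V → ℝ) → ℝ}
    (h : Loc G A skip j F) : ObsDep G A skip j (fun _ Y => F Y) :=
  fun _ _ Y Y' _ he => h Y Y' he

/-- One step of the planted model together with the statements in use. -/
structure PCtx (G : SimpleGraph V) (d : ℕ) (P : Prm) (j : ℕ) : Prop extends Ctx G d P j where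
  model : ModelStmt
  law : GenLawStmt
  h_ne : P.h ≠ 0
  eta_nonneg : 0 ≤ P.η
  tanh_le : Real.tanh (P.η * (P.N₁ * P.h)) ≤ P.θ

variable {d j : ℕ} {P : Prm}

/-- Restriction of a functional of the observations to a subtree. -/
lemma PCtx.marg (C : PCtx G d P j) {A D : Finset V} (hA : Closed G A) (hne : A.Nonempty)
    (hD : Closed G D) (hsub : A ⊆ D) {F : (ℕ → V × V → ℝ) → ℝ} {B : ℝ}
    (hm : MeasY (fun (_ : Finset V) Y => F Y)) (hb : ∀ Y, |F Y| ≤ B) (hdep : Loc G A ∅ j F) :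
    E G P D j (fun _ Y => F Y) = E G P A j (fun _ Y => F Y) :=
  (C.model V G d P C.tree C.three C.reg C.par₀.1 C.par₀.2 C.h_ne C.eta_nonneg C.tanh_le).2.1
    A D j j B (fun _ Y => F Y) hA hne hD hsub le_rfl (adm_of hm fun _ => hb) hdep.obsDep

/-- A spin is uncorrelated with an even functional. -/
lemma PCtx.flip_zero (C : PCtx G d P j) {D : Finset V} (hD : Closed G D) {c : V} (hc : c ∈ D)
    {F : (ℕ → V × V → ℝ) → ℝ} {B : ℝ} (hm : MeasY (fun (_ : Finset V) Y => F Y))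
    (hb : ∀ Y, |F Y| ≤ B) (heven : ∀ Y, F (fun k i => -Y k i) = F Y) :
    E G P D j (fun S Y => spin S c * F Y) = 0 := by
  have hb' : ∀ S Y, |spin S c * F Y| ≤ B := fun S Y => by
    rw [abs_mul, abs_spin, one_mul]; exact hb Y
  have h := (C.model V G d P C.tree C.three C.reg C.par₀.1 C.par₀.2 C.h_ne C.eta_nonneg
    C.tanh_le).2.2.1 D j B (fun S Y => spin S c * F Y) hD (adm_of ((measY_spin c).mul hm) hb')
  rw [E_congr (Ψ := fun S Y => (-1 : ℝ) * (spin S c * F Y)) fun S _ Y => by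
    simp only [flipS, spin_sdiff hc, heven]; ring, E_const_mul] at h
  linarith

/-- An even functional of one side of a vertex factors out. -/
lemma PCtx.split_even (C : PCtx G d P j) {A₁ A₂ D : Finset V} {c : V} (h1 : Closed G A₁)
    (h2 : Closed G A₂) (hD : Closed G D) (hi : A₁ ∩ A₂ = {c}) (hu : A₁ ∪ A₂ = D)
    {F : (ℕ → V × V → ℝ) → ℝ} {Φ : Finset V → (ℕ → V × V → ℝ) → ℝ} {B₁ B₂ : ℝ}
    (hm : MeasY (fun (_ : Finset V) Y => F Y)) (hm' : MeasY Φ) (hb : ∀ Y, |F Y| ≤ B₁)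
    (hb' : ∀ S Y, |Φ S Y| ≤ B₂) (hloc : Loc G A₁ {(c, c)} j F)
    (hdep : ObsDep G A₂ ∅ j Φ) (heven : ∀ Y, F (fun k i => -Y k i) = F Y) :
    E G P D j (fun S Y => F Y * Φ S Y) = E G P A₁ j (fun _ Y => F Y) * E G P A₂ j Φ := by
  have hc : c ∈ A₁ := Finset.mem_of_mem_inter_left (hi ▸ Finset.mem_singleton_self c)
  rw [(C.model V G d P C.tree C.three C.reg C.par₀.1 C.par₀.2 C.h_ne C.eta_nonneg
    C.tanh_le).2.2.2.1 A₁ A₂ D c j (max B₁ B₂) (fun _ Y => F Y) Φ h1 h2 hD hi hu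
    (adm_of hm fun _ Y => (hb Y).trans (le_max_left _ _))
    (adm_of hm' fun S Y => (hb' S Y).trans (le_max_right _ _)) hloc.obsDep hdep,
    C.flip_zero h1 hc hm hb heven, zero_mul, add_zero]

/-- The tower property for a spin. -/
lemma PCtx.tower (C : PCtx G d P j) {D : Finset V} (hD : Closed G D) {u : V} (hu : u ∈ D)
    {F : (ℕ → V × V → ℝ) → ℝ} {B : ℝ} (hm : MeasY (fun (_ : Finset V) Y => F Y))
    (hb : ∀ Y, |F Y| ≤ B) :
    E G P D j (fun S Y => spin S u * F Y) = E G P D j (fun _ Y => pmean G P D Y j u * F Y) := by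
  haveI : Nonempty (Cfg D) := ⟨⟨∅, Finset.empty_mem_powerset D⟩⟩
  unfold E
  rw [(C.law (obsIx G D) (Cfg D) (feat G P.η P.N₁ D) P.h (lpw G P.θ D) C.h_ne).1 j B
    (fun S => spin S.1 u) (fun y => F (tot G D y))
    ⟨fun _ => hm ∅ _ _ (measurable_tot_ext D), fun _ y => hb _⟩]
  refine Finset.sum_congr rfl fun S _ => ?_
  congr 2
  funext ξ
  beta_reduce
  rw [(C.model V G d P C.tree C.three C.reg C.par₀.1 C.par₀.2 C.h_ne C.eta_nonneg
    C.tanh_le).1 D _ j (fun S => spin S u) hD]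
  congr 1
  unfold pmean mf mean
  rw [if_pos hu, avg_filter (thetaJ P j) _ (fun s => s u)]
  rfl

end

end Vale.Agent.P161.Edge
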