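import Vale.Agent.P161.Edge.ProbCorr

/-!
One step of the recursion for the mean squared sums: observations across the edge to the parent
change the cavity mean little, so the mean square of the regression coefficient contracts.
-/

namespace Vale.Agent.P161.Edge

open MeasureTheory ProbabilityTheory Finset Function
open scoped NNReal Classical

noncomputable section

variable {V : Type} {G : SimpleGraph V} {d j : ℕ} {P : Prm}

lemma closed_pair {w u : V} (h : G.Adj w u) : Closed G ({w, u} : Finset V) := by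
  intro v hv x hx hxv
  simp only [Finset.mem_insert, Finset.mem_singleton] at hv hx
  refine ⟨v, by simpa using hv, ?_, ?_⟩
  · rcases hv with rfl | rfl <;> rcases hx with rfl | rfl <;>
      first | exact absurd rfl hxv | exact h | exact h.symm
  · rcases hv with rfl | rfl <;> rcases hx with rfl | rfl <;>
      first
      | exact absurd rfl hxv
      | simp [SimpleGraph.dist_eq_one_iff_adj.2 h, SimpleGraph.dist_eq_one_iff_adj.2 h.symm]

lemma abs_tanh_le_abs (x : ℝ) : |Real.tanh x| ≤ |x| := by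
  rcases le_total 0 x with h | h
  · rw [abs_of_nonneg h, abs_of_nonneg (by
      rw [Real.tanh_eq_sinh_div_cosh]
      exact div_nonneg (Real.sinh_nonneg_iff.2 h) (Real.cosh_pos _).le)]
    exact tanh_le_self' h
  · have h' : 0 ≤ -x := by linarith
    rw [← abs_neg (Real.tanh x), ← Real.tanh_neg, abs_of_nonneg (by
      rw [Real.tanh_eq_sinh_div_cosh]
      exact div_nonneg (Real.sinh_nonneg_iff.2 h') (Real.cosh_pos _).le), abs_of_nonpos h]
    exact tanh_le_self' h'

lemma tanh_add' (a b : ℝ) :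
    Real.tanh (a + b) = (Real.tanh a + Real.tanh b) / (1 + Real.tanh b * Real.tanh a) := by
  have ha := (Real.cosh_pos a).ne'
  have hb := (Real.cosh_pos b).ne'
  rw [Real.tanh_eq_sinh_div_cosh, Real.tanh_eq_sinh_div_cosh a, Real.tanh_eq_sinh_div_cosh b,
    Real.sinh_add, Real.cosh_add]
  field_simp

/-- The weights of the pair statistic. -/
def pairW (η : ℝ) (i : V × V) : ℝ := if i.1 = i.2 then 0 else Real.sqrt (η / 2)

lemma sum_pairW {w u : V} (h : G.Adj w u) (η : ℝ) (F : V × V → ℝ) :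
    ∑ i ∈ obsIx G {w, u}, pairW η i * F i = Real.sqrt (η / 2) * (F (w, u) + F (u, w)) := by
  have e : (obsIx G {w, u}).filter (fun i => i.1 ≠ i.2) = {(w, u), (u, w)} := by
    ext ⟨a, b⟩
    simp only [obsIx, Finset.mem_filter, Finset.mem_product, Finset.mem_insert,
      Finset.mem_singleton, Prod.mk.injEq]
    constructor
    · rintro ⟨⟨⟨rfl | rfl, rfl | rfl⟩, _⟩, hne⟩ <;> simp_all
    · rintro (⟨rfl, rfl⟩ | ⟨rfl, rfl⟩) <;> simp [h, h.symm, h.ne, h.ne.symm]
  have h1 : ∀ i, pairW η i * F i = if i.1 ≠ i.2 then Real.sqrt (η / 2) * F i else 0 := fun i => by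
    unfold pairW; split_ifs <;> simp_all
  simp only [h1]
  rw [← Finset.sum_filter, e, Finset.sum_pair (by simp [h.ne]), mul_add]

/-- The pair field. -/
def tauP (G : SimpleGraph V) (η : ℝ) (w u : V) (j : ℕ) (Y : ℕ → V × V → ℝ) : ℝ :=
  Real.tanh (linY G {w, u} j (pairW η) Y)

lemma PCtx.pair_field (C : PCtx G d P j) {D : Finset V} {w u : V}
    (hu : u ∈ D) (hwu : G.Adj w u) (Y : ℕ → V × V → ℝ) :
    fieldH G P (part G D w {u}) Y j u =
      fieldH G P (branch G D u w) Y j u + linY G {w, u} j (pairW P.η) Y := by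
  set B := branch G D u w
  have hwB : w ∉ B := notMem_branch hwu
  have huB : u ∈ B := self_mem_branch hu hwu
  have huD' : u ∈ part G D w {u} := mem_part.2 (Or.inr ⟨u, by simp, huB⟩)
  have e : (part G D w {u}).filter (G.Adj u) = insert w (B.filter (G.Adj u)) := by
    ext y
    simp only [Finset.mem_filter, Finset.mem_insert, mem_part, Finset.mem_singleton, exists_eq_left]
    constructor
    · rintro ⟨rfl | h, h'⟩
      · exact Or.inl rfl
      · exact Or.inr ⟨h, h'⟩
    · rintro (rfl | ⟨h, h'⟩)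
      · exact ⟨Or.inl rfl, hwu.symm⟩
      · exact ⟨Or.inr h, h'⟩
  have hni : w ∉ B.filter (G.Adj u) := fun h => hwB (Finset.mem_filter.1 h).1
  rw [fieldH_eq P huD', fieldH_eq P huB, linY, ← Finset.sum_add_distrib]
  refine Finset.sum_congr rfl fun k hk => ?_
  rw [sum_pairW hwu, e, Finset.sum_insert hni, C.ce_eq (Finset.mem_range.1 hk)]
  ring

lemma PCtx.tau_mean (C : PCtx G d P j) {w u : V} (hwu : G.Adj w u) (hη : 0 < P.η)
    (ht : 0 < (j : ℝ) * P.h) (hηt : P.η * ((j : ℝ) * P.h) ≤ 1) :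
    E G P {w, u} j (fun _ Y => |tauP G P.η w u j Y|) ≤
      3 * Real.sqrt (P.η * ((j : ℝ) * P.h)) := by
  set t : ℝ := (j : ℝ) * P.h with htdef
  set c := 3 * Real.sqrt (P.η * t) with hc
  have hs2 : Real.sqrt (P.η * t) ^ 2 = P.η * t := Real.sq_sqrt (by positivity)
  have hspos : 0 < Real.sqrt (P.η * t) := Real.sqrt_pos.2 (mul_pos hη ht)
  have hcpos : 0 < c := by positivity
  have hη2 : Real.sqrt (P.η / 2) ^ 2 = P.η / 2 := Real.sq_sqrt (by linarith)
  have hmean : ∀ S : Cfg ({w, u} : Finset V), linMean G P {w, u} j (pairW P.η) S =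
      t * (P.η * (spin S.1 w + spin S.1 u)) := by
    intro S
    unfold linMean
    have : ∀ k ∈ range j, ∑ i : obsIx G {w, u}, pairW P.η i.1 * feat G P.η P.N₁ {w, u} k i S =
        P.η * (spin S.1 w + spin S.1 u) := by
      intro k hk
      have hk' : k < P.N₁ := lt_of_lt_of_le (Finset.mem_range.1 hk) C.step
      unfold feat
      rw [Finset.sum_coe_sort (obsIx G {w, u})
        (fun i => pairW P.η i * (coef P.η P.N₁ k i * (spin S.1 i.1 + spin S.1 i.2))),
        sum_pairW hwu]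
      simp only [coef, if_neg hwu.ne, if_neg hwu.ne.symm, if_pos hk']
      linear_combination (2 * (spin S.1 w + spin S.1 u)) * hη2
    rw [Finset.sum_congr rfl this, Finset.sum_const, Finset.card_range, nsmul_eq_mul, htdef]
    ring
  have hsq : ∑ i ∈ obsIx G {w, u}, pairW P.η i ^ 2 = P.η := by
    simp only [sq, sum_pairW hwu P.η (pairW P.η)]
    simp only [pairW, if_neg hwu.ne, if_neg hwu.ne.symm]
    linear_combination 2 * hη2
  have hm : MeasY (fun (_ : Finset V) Y => |tauP G P.η w u j Y|) :=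
    ((measY_linY {w, u} j (pairW P.η)).comp measurable_tanh).comp continuous_abs.measurable
  calc E G P {w, u} j (fun _ Y => |tauP G P.η w u j Y|)
      ≤ ∑ S : Cfg ({w, u} : Finset V), Gen.post (lpw G P.θ {w, u}) S * c := by
        unfold E Gen.Epl
        refine Finset.sum_le_sum fun S _ => mul_le_mul_of_nonneg_left ?_ (post_nonneg _ _)
        obtain ⟨_, i2, _, m2⟩ := lin_moments (G := G) P {w, u} j (pairW P.η) S
        haveI : IsProbabilityMeasure (Gen.nl (ι := obsIx G {w, u}) P.h j) := by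
          unfold Gen.nl; infer_instance
        refine (integral_mono (integrable_plant (B := 1) hm
          (fun _ Y => by rw [abs_abs]; exact (abs_tanh_lt_one' _).le) S)
          ((i2.const_mul (2 * c)⁻¹).add (integrable_const (c / 2))) fun ξ => ?_).trans ?_
        · set x := linY G {w, u} j (pairW P.η)
            (tot G {w, u} (Gen.plant (feat G P.η P.N₁ {w, u}) P.h S ξ))
          show |Real.tanh x| ≤ (2 * c)⁻¹ * x ^ 2 + c / 2
          refine (abs_tanh_le_abs x).trans ?_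
          have : (2 * c)⁻¹ * x ^ 2 + c / 2 = (x ^ 2 + c ^ 2) / (2 * c) := by field_simp
          rw [this, le_div_iff₀ (by positivity)]
          nlinarith [sq_nonneg (|x| - c), sq_abs x]
        · rw [integral_add' (i2.const_mul _) (integrable_const _), integral_const_mul, m2, hmean,
            hsq, ← htdef]
          simp only [integral_const, probReal_univ, one_smul]
          have hsum : (spin S.1 w + spin S.1 u) ^ 2 ≤ 4 := by
            unfold spin; split_ifs <;> norm_num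
          have hb : (t * (P.η * (spin S.1 w + spin S.1 u))) ^ 2 + t * P.η ≤ 5 * (P.η * t) := by
            have h1 : (P.η * t) ^ 2 ≤ P.η * t := by
              rw [sq]
              exact mul_le_of_le_one_left (by positivity) hηt
            calc (t * (P.η * (spin S.1 w + spin S.1 u))) ^ 2 + t * P.η
                = (P.η * t) ^ 2 * (spin S.1 w + spin S.1 u) ^ 2 + P.η * t := by ring
              _ ≤ (P.η * t) * 4 + P.η * t := by gcongr
              _ = _ := by ring
          have e : c ^ 2 = 9 * (P.η * t) := by rw [hc, mul_pow, hs2]; norm_num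
          calc (2 * c)⁻¹ * ((t * (P.η * (spin S.1 w + spin S.1 u))) ^ 2 + t * P.η) + c / 2
              ≤ (2 * c)⁻¹ * c ^ 2 + c / 2 := by
                have : (t * (P.η * (spin S.1 w + spin S.1 u))) ^ 2 + t * P.η ≤ c ^ 2 := by
                  rw [e]; nlinarith [mul_pos hη ht]
                gcongr
            _ = c := by field_simp; ring
    _ = c := by rw [← Finset.sum_mul, sum_post_cfg, one_mul]

/-- The cavity mean after the pair observations. -/
lemma PCtx.cav_pair (C : PCtx G d P j) {D : Finset V} (hD : Closed G D) {w u : V} (hw : w ∈ D)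
    (hu : u ∈ D) (hwu : G.Adj w u) (Y : ℕ → V × V → ℝ) :
    cav G (thetaJ P j) (part G D w {u}) (tilt G P (part G D w {u}) Y j) u w =
      (pmean G P (branch G D u w) Y j u + tauP G P.η w u j Y) /
        (1 + tauP G P.η w u j Y * pmean G P (branch G D u w) Y j u) := by
  set B := branch G D u w with hB
  set D' := part G D w {u} with hD'
  set θt := thetaJ P j
  set τ := tauP G P.η w u j Y with hτ
  set g := Edge.tilt G P B Y j with hg
  have huB : u ∈ B := self_mem_branch hu hwu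
  have hgf : Fld g := Fld.tilt P B Y j
  have hτ1 : |τ| < 1 := abs_tanh_lt_one' _
  have hBD' : B ⊆ D' := fun x hx => mem_part.2 (Or.inr ⟨u, by simp, hx⟩)
  have hg' : ∀ v ∈ B, Edge.tilt G P D' Y j v =
      update g u ((g u + τ) / (1 + τ * g u)) v := by
    intro v hv
    by_cases hvu : v = u
    · subst hvu
      rw [update_self, hg, hτ, tauP]
      unfold Edge.tilt
      rw [C.pair_field hu hwu, tanh_add']
    · rw [update_of_ne hvu, hg]
      unfold Edge.tilt
      congr 1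
      refine fieldH_subset P hBD' hv (fun z hz hvz => ?_) Y j
      rcases branch_step C.tree hwu hv (part_subset hw hz) hvz with h | h
      · subst h
        exfalso
        have hb := (btw_nbr hwu).1 (mem_branch.1 hv).2
        rw [SimpleGraph.dist_eq_one_iff_adj.2 hvz.symm] at hb
        exact hvu (C.tree.connected.dist_eq_zero_iff.1 (show G.dist u v = 0 by omega)).symm
      · exact h
  have hbr : branch G D' u w = B := branch_eq_of_subset (part_subset hw) hBD'
  unfold cav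
  rw [hbr, mean_congr hg']
  unfold pmean mf
  rw [if_pos huB]
  change mean G θt B (update g u ((g u + τ) / (1 + τ * g u))) u =
    (mean G θt B g u + τ) / (1 + τ * mean G θt B g u)
  have hk : 1 + τ * g u ≠ 0 := (one_add_mul_pos hτ1 (hgf u).le).ne'
  have hk' : 1 + τ * mean G θt B g u ≠ 0 :=
    (one_add_mul_pos hτ1 (abs_mean_le C.par B hgf u)).ne'
  set Z := Sm G θt B g (fun _ => 1) with hZ
  set S₁ := Sm G θt B g (fun s => s u) with hS
  have hZ0 : 0 < Z := Sm_one_pos C.par B hgf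
  have a1 : Sm G θt B g (fun s => (1 + τ * s u) * (fun _ => (1 : ℝ)) s) = Z + τ * S₁ := by
    rw [show (fun s : V → ℝ => (1 + τ * s u) * (1 : ℝ)) =
      fun s => (fun _ => (1 : ℝ)) s + τ * s u from funext fun s => by ring, Sm_add, Sm_smul]
  have a2 : Sm G θt B g (fun s => (1 + τ * s u) * s u) = S₁ + τ * Z := by
    rw [Sm_congr (f' := fun s => s u + τ * (fun _ => (1 : ℝ)) s) (fun _ _ => rfl) fun S _ => by
      linear_combination τ * spin_sq S u, Sm_add, Sm_smul]
  rw [Sm_absorb huB hgf hτ1] at a1 a2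
  have em : mean G θt B g u = S₁ / Z := rfl
  unfold mean avg
  rw [← mul_div_mul_left _ _ hk, a1, a2, ← hS, ← hZ]
  rw [show (S₁ / Z + τ) = (S₁ + τ * Z) / Z by field_simp,
    show (1 + τ * (S₁ / Z)) = (Z + τ * S₁) / Z by field_simp,
    div_div_div_cancel_right₀ hZ0.ne']

/-- Moving a mean by a field moves its square little. -/
lemma sq_shift {A0 τ : ℝ} (h0 : |A0| ≤ 1) (hτ : |τ| < 1) :
    |(A0 + τ) / (1 + τ * A0)| ≤ 1 ∧
      A0 ^ 2 - 4 * |τ| ≤ ((A0 + τ) / (1 + τ * A0)) ^ 2 := by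
  obtain ⟨a1, a2⟩ := abs_le.1 h0
  obtain ⟨t1, t2⟩ := abs_lt.1 hτ
  have hp : 0 < 1 + τ * A0 := one_add_mul_pos hτ h0
  set A := (A0 + τ) / (1 + τ * A0) with hA
  have hA1 : |A| ≤ 1 := by
    rw [hA, abs_div, abs_of_pos hp, div_le_one hp, abs_le]
    constructor <;> nlinarith
  refine ⟨hA1, ?_⟩
  have e : A - A0 = τ * (1 - A0 ^ 2) / (1 + τ * A0) := by
    rw [hA, eq_div_iff hp.ne', sub_mul, div_mul_cancel₀ _ hp.ne']
    ring
  have hsq : A0 ^ 2 ≤ 1 := by nlinarith
  have hd : |A - A0| ≤ 2 * |τ| := by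
    rw [e, abs_div, abs_of_pos hp, abs_mul, abs_of_nonneg (by linarith : 0 ≤ 1 - A0 ^ 2),
      div_le_iff₀ hp]
    have hlow : 1 - |A0| ≤ 1 + τ * A0 := by
      have : |τ * A0| ≤ 1 * |A0| := by
        rw [abs_mul]; exact mul_le_mul_of_nonneg_right hτ.le (abs_nonneg _)
      linarith [(abs_le.1 this).1]
    have : 1 - A0 ^ 2 ≤ 2 * (1 + τ * A0) := by
      nlinarith [sq_abs A0, abs_nonneg A0]
    calc |τ| * (1 - A0 ^ 2) ≤ |τ| * (2 * (1 + τ * A0)) :=
          mul_le_mul_of_nonneg_left this (abs_nonneg _)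
      _ = _ := by ring
  have hsum : |A + A0| ≤ 2 := (abs_add_le _ _).trans (by linarith)
  have : |A ^ 2 - A0 ^ 2| ≤ 4 * |τ| := by
    rw [show A ^ 2 - A0 ^ 2 = (A - A0) * (A + A0) by ring, abs_mul]
    calc |A - A0| * |A + A0| ≤ 2 * |τ| * 2 := mul_le_mul hd hsum (abs_nonneg _) (by positivity)
      _ = _ := by ring
  linarith [(abs_le.1 this).1]

lemma PCtx.term_bounds (C : PCtx G d P j) {D : Finset V} {z w : V} (hD : Closed G D) (hz : z ∈ D)
    (Y : ℕ → V × V → ℝ) :
    0 ≤ rD G P D j Y z w ^ 2 * dD G P D j Y z w ∧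
      |rD G P D j Y z w ^ 2 * dD G P D j Y z w| ≤ D.card ∧
      rD G P D j Y z w ^ 2 * dD G P D j Y z w ≤ thetaJ P j ^ 2 * dD G P D j Y z w := by
  have h0 : 0 ≤ dD G P D j Y z w := sqD_nonneg _ _ _
  have h1 : rD G P D j Y z w ^ 2 ≤ 1 :=
    (C.rD_sq_le Y z w).trans (pow_le_one₀ C.par.1 C.par.2.le)
  have h2 : 0 ≤ rD G P D j Y z w ^ 2 * dD G P D j Y z w := mul_nonneg (sq_nonneg _) h0
  refine ⟨h2, ?_, mul_le_mul_of_nonneg_right (C.rD_sq_le Y z w) h0⟩
  rw [abs_of_nonneg h2]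
  calc rD G P D j Y z w ^ 2 * dD G P D j Y z w ≤ 1 * dD G P D j Y z w :=
        mul_le_mul_of_nonneg_right h1 h0
    _ ≤ D.card := by rw [one_mul]; exact le_of_abs_le (C.dD_bounds hD hz Y)

set_option maxHeartbeats 1000000 in
/-- Contraction of the mean squared regression coefficient times the squared sum behind it. -/
lemma PCtx.contract (C : PCtx G d P j) {D : Finset V} (hD : Closed G D) {w u : V} (hw : w ∈ D)
    (hu : u ∈ D) (hwu : G.Adj w u) (hη : 0 < P.η) (hη1 : P.η ≤ 1)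
    (hηs : Real.sqrt P.η ≤ corrC d / 24)
    (ht0 : 0 < (j : ℝ) * P.h) (ht1 : (j : ℝ) * P.h ≤ 1)
    (hall : ∀ x, G.dist u x ≤ depthN ((j : ℝ) * P.h) → x ∈ D)
    (hθle : thetaJ P j ≤ P.θ) (hθ1 : ((d : ℝ) - 1) * P.θ ^ 2 ≤ 1)
    (hθ2 : 1 - Real.sqrt ((j : ℝ) * P.h) / 4 ≤ ((d : ℝ) - 1) * P.θ ^ 2) :
    E G P D j (fun _ Y => rD G P D j Y u w ^ 2 * dD G P D j Y u w) ≤
      thetaJ P j ^ 2 * (1 - corrC d / 4 * Real.sqrt ((j : ℝ) * P.h)) *
        E G P D j (fun _ Y => dD G P D j Y u w) := by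
  set t : ℝ := (j : ℝ) * P.h with htdef
  set s := Real.sqrt t with hs
  set B := branch G D u w with hB
  set D' := part G D w {u} with hD'
  set θt := thetaJ P j with hθt
  have hd' : (3 : ℝ) ≤ d := by exact_mod_cast C.three
  have hBc : Closed G B := closed_branch C.tree hD hu hwu
  have hD'c : Closed G D' := closed_part C.tree hD hw fun z hz => by
    rw [Finset.mem_singleton.1 hz]; exact ⟨hu, hwu⟩
  have huB : u ∈ B := self_mem_branch hu hwu
  have hwB : w ∉ B := notMem_branch hwu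
  have hBD : B ⊆ D := Finset.filter_subset _ _
  have hBD' : B ⊆ D' := fun x hx => mem_part.2 (Or.inr ⟨u, by simp, hx⟩)
  have hD'D : D' ⊆ D := part_subset hw
  have hwD' : w ∈ D' := mem_part.2 (Or.inl rfl)
  have huD' : u ∈ D' := hBD' huB
  have hsub : ∀ y ∈ ch G D u w, y ∈ B ∧ branch G D y u ⊆ B := by
    intro y hy
    have h : branch G D y u ⊆ B := by
      rw [hB, branch_eq_part C.tree hD hu hwu]
      exact fun x hx => mem_part.2 (Or.inr ⟨y, hy, hx⟩)
    exact ⟨h (self_mem_branch (mem_ch.1 hy).1 (mem_ch.1 hy).2.1), h⟩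
  set Ty := fun y Y => rD G P B j Y y u ^ 2 * dD G P B j Y y u with hTy
  set F := fun Y => 1 + ∑ y ∈ ch G D u w, Ty y Y with hF
  set A0 := fun Y => pmean G P B Y j u with hA0
  set τ := fun Y => |tauP G P.η w u j Y| with hτ
  have hFD : ∀ Y, dD G P D j Y u w = F Y := by
    intro Y
    rw [C.dD_eq hD hw hu hwu, hF]
    congr 1
    refine Finset.sum_congr rfl fun y hy => ?_
    obtain ⟨hyB, hyb⟩ := hsub y hy
    simp only [hTy]
    rw [C.rD_subset hBD (mem_ch.1 hy).2.1 huB hyb,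
      C.dD_subset hBD hBc hD (mem_ch.1 hy).2.1 huB hyB hyb]
  have hTb : ∀ y ∈ ch G D u w, ∀ Y, 0 ≤ Ty y Y ∧ |Ty y Y| ≤ B.card := fun y hy Y =>
    ⟨(C.term_bounds hBc (hsub y hy).1 Y).1, (C.term_bounds hBc (hsub y hy).1 Y).2.1⟩
  have hTm : ∀ y ∈ ch G D u w, MeasY (fun (_ : Finset V) Y => Ty y Y) := fun y _ =>
    (measY_rD P B j y u).sq.mul (measY_dD P B j y u)
  have hTe : ∀ y ∈ ch G D u w, ∀ Y, Ty y (fun k i => -Y k i) = Ty y Y := fun y hy Y => by
    simp only [hTy]
    rw [rD_neg (mem_ch.1 hy).2.1 (hsub y hy).1,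
      C.dD_neg hBc (mem_ch.1 hy).2.1 huB (hsub y hy).1]
  have hTloc : ∀ y ∈ ch G D u w, Loc G (part G D u {y}) {(u, u)} j (Ty y) := by
    intro y hy Y Y' he
    obtain ⟨hyD, huy, _⟩ := mem_ch.1 hy
    set A₁ := part G D u {y}
    have hA₁ : Closed G A₁ := closed_part C.tree hD hu fun z hz => by
      rw [Finset.mem_singleton.1 hz]; exact ⟨hyD, huy⟩
    have hA₁B : A₁ ⊆ B := by
      intro x hx
      rcases mem_part.1 hx with rfl | ⟨z, hz, hxz⟩
      · exact huB
      · rw [Finset.mem_singleton.1 hz] at hxz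
        exact (hsub y hy).2 hxz
    have hbB : branch G B y u = branch G D y u := branch_eq_of_subset hBD (hsub y hy).2
    have hbA : branch G B y u ⊆ A₁ := by
      rw [hbB]; exact fun x hx => mem_part.2 (Or.inr ⟨y, by simp, hx⟩)
    have huA : u ∈ A₁ := mem_part.2 (Or.inl rfl)
    have hyA : y ∈ A₁ := hbA (self_mem_branch (hsub y hy).1 huy)
    have he' : ∀ k < j, ∀ i ∈ obsIx G A₁, i ≠ (u, u) → Y k i = Y' k i :=
      fun k hk i hi hne => he k hk i hi (by simpa using hne)
    simp only [hTy]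
    rw [C.rD_subset hA₁B huy huA hbA, C.rD_subset hA₁B huy huA hbA,
      C.dD_subset hA₁B hA₁ hBc huy huA hyA hbA, C.dD_subset hA₁B hA₁ hBc huy huA hyA hbA,
      C.rD_dep huy (notMem_branch huy) he',
      C.dD_dep hA₁ huy huA hyA (fun h => absurd h (notMem_branch huy)) he']
  set BF : ℝ := 1 + (ch G D u w).card * (B.card : ℝ) with hBF
  have hFb : ∀ Y, |F Y| ≤ BF := fun Y => by
    refine (abs_add_le _ _).trans ?_
    rw [abs_one, hBF]
    gcongr
    refine (Finset.abs_sum_le_sum_abs _ _).trans ?_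
    refine (Finset.sum_le_card_nsmul _ _ _ fun y hy => (hTb y hy Y).2).trans (le_of_eq ?_)
    rw [nsmul_eq_mul]
  have hF0 : ∀ Y, 0 ≤ F Y := fun Y =>
    add_nonneg zero_le_one (Finset.sum_nonneg fun y hy => (hTb y hy Y).1)
  have hFm : MeasY (fun (_ : Finset V) Y => F Y) :=
    (MeasY.const 1).add (MeasY.sum _ hTm)
  have hFe : ∀ Y, F (fun k i => -Y k i) = F Y := fun Y => by
    simp only [hF]
    rw [Finset.sum_congr rfl fun y hy => hTe y hy Y]
  have hFloc : Loc G B {(u, u)} j F := by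
    intro Y Y' he
    simp only [hF]
    congr 1
    refine Finset.sum_congr rfl fun y hy => (hTloc y hy).mono ?_ Y Y' he
    intro x hx
    rcases mem_part.1 hx with rfl | ⟨z, hz, hxz⟩
    · exact huB
    · rw [Finset.mem_singleton.1 hz] at hxz
      exact (hsub y hy).2 hxz
  have hA0m : MeasY (fun (_ : Finset V) Y => A0 Y) := measY_pmean P B j u
  have hA0b : ∀ Y, |A0 Y ^ 2| ≤ 1 := fun Y => by
    rw [abs_pow]; exact pow_le_one₀ (abs_nonneg _) (abs_mf_le C.par B _ u)
  -- the correlation bound, term by term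
  obtain ⟨y₀, hy₀⟩ : (ch G D u w).Nonempty := by
    have hnb : ∀ z, G.Adj u z → z ∈ D := fun z hz => hall z (by
      rw [SimpleGraph.dist_eq_one_iff_adj.2 hz]; exact (depthN_bounds ht0 ht1).1)
    rw [← Finset.card_pos, card_ch_eq C.reg C.three hwu hnb]
    have := C.three
    omega
  have hcor : corrC d * s * E G P B j (fun _ Y => F Y) ≤
      E G P B j (fun _ Y => A0 Y ^ 2 * F Y) := by
    have h1 := C.corr_lower hD hu hwu hy₀ ht0 ht1 hall hθ1 hθ2 (F := fun _ => 1) (B₁ := 1)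
      (MeasY.const 1) (fun _ => by simp) (fun _ => zero_le_one) (fun _ _ _ => rfl) fun _ => rfl
    have h2 : ∀ y ∈ ch G D u w, _ := fun y hy => C.corr_lower hD hu hwu hy ht0 ht1 hall hθ1 hθ2
      (hTm y hy) (B₁ := (B.card : ℝ)) (fun Y => (hTb y hy Y).2) (fun Y => (hTb y hy Y).1)
      (hTloc y hy) (hTe y hy)
    have e1 : E G P B j (fun _ Y => F Y) =
        E G P B j (fun _ _ => 1) + ∑ y ∈ ch G D u w, E G P B j (fun _ Y => Ty y Y) := by
      rw [← E_sum _ hTm (B := fun _ => (B.card : ℝ)) fun y hy _ Y => (hTb y hy Y).2]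
      exact E_add (B := 1) (B' := (ch G D u w).card * (B.card : ℝ)) (MeasY.const 1)
        (MeasY.sum _ hTm) (fun _ _ => by simp) fun _ Y => by
          refine (Finset.abs_sum_le_sum_abs _ _).trans ?_
          refine (Finset.sum_le_card_nsmul _ _ _ fun y hy => (hTb y hy Y).2).trans (le_of_eq ?_)
          rw [nsmul_eq_mul]
    have hpb : ∀ y ∈ ch G D u w, ∀ (_ : Finset V) Y, |A0 Y ^ 2 * Ty y Y| ≤ (B.card : ℝ) :=
      fun y hy _ Y => by
        rw [abs_mul]
        exact (mul_le_mul (hA0b Y) (hTb y hy Y).2 (abs_nonneg _) zero_le_one).trans_eq (one_mul _)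
    have e2 : E G P B j (fun _ Y => A0 Y ^ 2 * F Y) = E G P B j (fun _ Y => A0 Y ^ 2 * 1) +
        ∑ y ∈ ch G D u w, E G P B j (fun _ Y => A0 Y ^ 2 * Ty y Y) := by
      rw [← E_sum _ (fun y hy => hA0m.sq.mul (hTm y hy)) (B := fun _ => (B.card : ℝ)) hpb,
        ← E_add (B := 1) (B' := (ch G D u w).card * (B.card : ℝ)) (hA0m.sq.mul (MeasY.const 1))
          (MeasY.sum _ fun y hy => hA0m.sq.mul (hTm y hy))
          (fun _ Y => by rw [mul_one]; exact hA0b Y) fun S Y => by
            refine (Finset.abs_sum_le_sum_abs _ _).trans ?_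
            refine (Finset.sum_le_card_nsmul _ _ _ fun y hy => hpb y hy S Y).trans (le_of_eq ?_)
            rw [nsmul_eq_mul]]
      exact E_congr fun _ _ Y => by simp only [hF, mul_add, Finset.mul_sum]
    rw [e1, e2, mul_add, Finset.mul_sum]
    exact add_le_add h1 (Finset.sum_le_sum h2)
  -- moving to the branch and the pair
  have hτm : MeasY (fun (_ : Finset V) Y => τ Y) :=
    ((measY_linY {w, u} j (pairW P.η)).comp measurable_tanh).comp continuous_abs.measurable
  have hτb : ∀ Y, |τ Y| ≤ 1 := fun Y => by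
    simp only [hτ, abs_abs]; exact (abs_tanh_lt_one' _).le
  have hτdep : ObsDep G {w, u} ∅ j (fun _ Y => τ Y) := by
    intro S S' Y Y' _ hY
    simp only [hτ, tauP, linY]
    congr 2
    exact Finset.sum_congr rfl fun k hk => Finset.sum_congr rfl fun i hi => by
      rw [hY k (Finset.mem_range.1 hk) i hi (by simp)]
  have hEF : E G P D' j (fun _ Y => F Y) = E G P B j (fun _ Y => F Y) :=
    C.marg hBc ⟨u, huB⟩ hD'c hBD' hFm hFb hFloc.forget
  have hEA : E G P D' j (fun _ Y => A0 Y ^ 2 * F Y) = E G P B j (fun _ Y => A0 Y ^ 2 * F Y) := by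
    refine C.marg hBc ⟨u, huB⟩ hD'c hBD' (hA0m.sq.mul hFm) (B := BF) (fun Y => ?_) ?_
    · rw [abs_mul]
      exact (mul_le_mul (hA0b Y) (hFb Y) (abs_nonneg _) zero_le_one).trans_eq (one_mul _)
    · intro Y Y' he
      have := fieldH_dep' (G := G) P (D := B) fun k hk i hi => he k hk i hi (by simp)
      simp only [hA0]
      rw [hFloc.forget Y Y' he]
      unfold pmean mf
      change (if u ∈ B then mean G θt B (Edge.tilt G P B Y j) u else 0) ^ 2 * _ =
        (if u ∈ B then mean G θt B (Edge.tilt G P B Y' j) u else 0) ^ 2 * _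
      rw [this]
  have hi : B ∩ {w, u} = {u} := by
    ext x
    simp only [Finset.mem_inter, Finset.mem_insert, Finset.mem_singleton]
    constructor
    · rintro ⟨hx, rfl | h⟩
      · exact absurd hx hwB
      · exact h
    · rintro rfl; exact ⟨huB, Or.inr rfl⟩
  have hun : B ∪ {w, u} = D' := by
    ext x
    simp only [Finset.mem_union, Finset.mem_insert, Finset.mem_singleton, hD', mem_part,
      exists_eq_left]
    constructor
    · rintro (h | rfl | rfl)
      · exact Or.inr h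
      · exact Or.inl rfl
      · exact Or.inr huB
    · rintro (rfl | h)
      · exact Or.inr (Or.inl rfl)
      · exact Or.inl h
  have hET : E G P D' j (fun _ Y => F Y * τ Y) ≤
      E G P B j (fun _ Y => F Y) * (3 * Real.sqrt (P.η * t)) := by
    rw [C.split_even hBc (closed_pair hwu) hD'c hi hun hFm hτm hFb (B₂ := 1)
      (fun _ Y => hτb Y) hFloc hτdep hFe]
    refine mul_le_mul_of_nonneg_left (C.tau_mean hwu hη ht0 ?_) (E_nonneg fun _ _ Y => hF0 Y)
    calc P.η * t ≤ 1 * 1 := mul_le_mul hη1 ht1 ht0.le zero_le_one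
      _ = 1 := one_mul _
  -- pointwise bound in `D'`
  have hpoint : ∀ Y, rD G P D j Y u w ^ 2 * dD G P D j Y u w ≤
      θt ^ 2 * F Y + ((-(θt ^ 2 / 2)) * (A0 Y ^ 2 * F Y) + 2 * θt ^ 2 * (F Y * τ Y)) := by
    intro Y
    rw [hFD, C.rD_subset hD'D hwu hwD' (fun x hx => hBD' hx)]
    obtain ⟨hA1, hA2⟩ := sq_shift (abs_mf_le C.par B (fieldH G P B Y j) u)
      (abs_tanh_lt_one' (linY G {w, u} j (pairW P.η) Y))
    set A := cav G θt D' (Edge.tilt G P D' Y j) u w with hA
    have hAeq : A = (A0 Y + tauP G P.η w u j Y) / (1 + tauP G P.η w u j Y * A0 Y) :=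
      C.cav_pair hD hw hu hwu Y
    change A0 Y ^ 2 - 4 * τ Y ≤ _ at hA2
    have hA1' : |A| ≤ 1 := by rw [hAeq]; exact hA1
    have hA2' : A0 Y ^ 2 - 4 * τ Y ≤ A ^ 2 := by rw [hAeq]; exact hA2
    obtain ⟨_, _, hr⟩ := rq_bounds C.par.1 C.par.2 hA1'
    have hθ2' : θt ^ 2 ≤ 1 / 2 := by
      have : θt ^ 2 ≤ P.θ ^ 2 := pow_le_pow_left₀ C.par.1 hθle 2
      nlinarith [sq_nonneg P.θ]
    have h2 : rD G P D' j Y u w ^ 2 ≤ θt ^ 2 * (1 - (A0 Y ^ 2 - 4 * τ Y) / 2) := by
      refine hr.trans (mul_le_mul_of_nonneg_left ?_ (sq_nonneg _))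
      nlinarith [sq_nonneg A]
    calc rD G P D' j Y u w ^ 2 * F Y ≤ θt ^ 2 * (1 - (A0 Y ^ 2 - 4 * τ Y) / 2) * F Y :=
          mul_le_mul_of_nonneg_right h2 (hF0 Y)
      _ = _ := by ring
  have hb1 : ∀ (_ : Finset V) Y, |rD G P D j Y u w ^ 2 * dD G P D j Y u w| ≤ (D.card : ℝ) :=
    fun _ Y => (C.term_bounds hD hu Y).2.1
  have hm1 : MeasY (fun (_ : Finset V) Y => rD G P D j Y u w ^ 2 * dD G P D j Y u w) :=
    (measY_rD P D j u w).sq.mul (measY_dD P D j u w)
  have hloc1 : Loc G D' ∅ j (fun Y => rD G P D j Y u w ^ 2 * dD G P D j Y u w) := by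
    intro Y Y' he
    have hb : branch G D u w ⊆ D' := hBD'
    have := fieldH_dep' (G := G) P (D := D') fun k hk i hi => he k hk i hi (by simp)
    simp only
    rw [C.rD_subset hD'D hwu hwD' hb, C.rD_subset hD'D hwu hwD' hb,
      C.dD_subset hD'D hD'c hD hwu hwD' huD' hb, C.dD_subset hD'D hD'c hD hwu hwD' huD' hb]
    simp only [rD, dD, this]
  have hFD' : E G P D j (fun _ Y => dD G P D j Y u w) = E G P B j (fun _ Y => F Y) := by
    rw [E_congr (Ψ := fun _ Y => F Y) fun _ _ Y => hFD Y]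
    exact C.marg hBc ⟨u, huB⟩ hD hBD hFm hFb hFloc.forget
  rw [C.marg hD'c ⟨u, huD'⟩ hD hD'D hm1 (hb1 ∅) hloc1, hFD']
  have hb2 : ∀ (_ : Finset V) Y, |A0 Y ^ 2 * F Y| ≤ BF := fun _ Y => by
    rw [abs_mul]
    exact (mul_le_mul (hA0b Y) (hFb Y) (abs_nonneg _) zero_le_one).trans_eq (one_mul _)
  have hb3 : ∀ (_ : Finset V) Y, |F Y * τ Y| ≤ BF := fun _ Y => by
    rw [abs_mul]
    exact (mul_le_mul (hFb Y) (hτb Y) (abs_nonneg _) ((abs_nonneg _).trans (hFb Y))).trans_eq
      (mul_one _)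
  have hb2' : ∀ (S : Finset V) Y, |(-(θt ^ 2 / 2)) * (A0 Y ^ 2 * F Y)| ≤ θt ^ 2 / 2 * BF :=
    fun S Y => by
      rw [abs_mul, abs_neg, abs_of_nonneg (by positivity : 0 ≤ θt ^ 2 / 2)]
      exact mul_le_mul_of_nonneg_left (hb2 S Y) (by positivity)
  have hb3' : ∀ (S : Finset V) Y, |2 * θt ^ 2 * (F Y * τ Y)| ≤ 2 * θt ^ 2 * BF :=
    fun S Y => by
      rw [abs_mul, abs_of_nonneg (by positivity : 0 ≤ 2 * θt ^ 2)]
      exact mul_le_mul_of_nonneg_left (hb3 S Y) (by positivity)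
  have hb1' : ∀ (_ : Finset V) Y, |θt ^ 2 * F Y| ≤ θt ^ 2 * BF := fun _ Y => by
    rw [abs_mul, abs_of_nonneg (sq_nonneg θt)]
    exact mul_le_mul_of_nonneg_left (hFb Y) (sq_nonneg _)
  have hn1 : MeasY (fun (_ : Finset V) Y => θt ^ 2 * F Y) := (MeasY.const _).mul hFm
  have hn2 : MeasY (fun (_ : Finset V) Y => (-(θt ^ 2 / 2)) * (A0 Y ^ 2 * F Y)) :=
    (MeasY.const _).mul (hA0m.sq.mul hFm)
  have hn3 : MeasY (fun (_ : Finset V) Y => 2 * θt ^ 2 * (F Y * τ Y)) :=
    (MeasY.const _).mul (hFm.mul hτm)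
  refine (E_mono (B' := θt ^ 2 * BF + (θt ^ 2 / 2 * BF + 2 * θt ^ 2 * BF)) hm1
    (hn1.add (hn2.add hn3)) hb1 (fun S Y => (abs_add_le _ _).trans (add_le_add (hb1' S Y)
      ((abs_add_le _ _).trans (add_le_add (hb2' S Y) (hb3' S Y))))) fun _ _ Y => hpoint Y).trans ?_
  rw [E_add hn1 (hn2.add hn3) hb1' (fun S Y => (abs_add_le _ _).trans
      (add_le_add (hb2' S Y) (hb3' S Y))), E_add hn2 hn3 hb2' hb3', E_const_mul, E_const_mul,
    E_const_mul, hEF, hEA]
  set e := E G P B j (fun _ Y => F Y)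
  have he : 0 ≤ e := E_nonneg fun _ _ Y => hF0 Y
  have hsη : Real.sqrt (P.η * t) = Real.sqrt P.η * s := by rw [hs, Real.sqrt_mul hη.le]
  have hθ0 : 0 ≤ θt ^ 2 := sq_nonneg _
  have h1 := mul_le_mul_of_nonneg_left hcor (by positivity : 0 ≤ θt ^ 2 / 2)
  have h2 := mul_le_mul_of_nonneg_left hET (by positivity : 0 ≤ 2 * θt ^ 2)
  have h3 : 6 * θt ^ 2 * (Real.sqrt P.η * s * e) ≤ θt ^ 2 * (corrC d / 4 * s * e) := by
    have hse : 0 ≤ s * e := mul_nonneg (Real.sqrt_nonneg _) he
    nlinarith [mul_le_mul_of_nonneg_right hηs (mul_nonneg hθ0 hse)]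
  rw [hsη] at h2
  linarith

end

end Vale.Agent.P161.Edge
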