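import Vale.Agent.P161.Edge.Agg
import Vale.Agent.P161.Edge.GaussSmooth
import Vale.Agent.P161.Edge.Decay
import Vale.Agent.P161.Compare

/-!
A scheme: the clipped time average of the observations at a vertex, as a function of the noise,
and its smoothing, which depends on the noise near the vertex only.
-/

namespace Vale.Agent.P161.Edge

open MeasureTheory ProbabilityTheory Finset Function
open scoped NNReal Classical

noncomputable section

variable {V : Type} {G : SimpleGraph V}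

/-- The parameters of a scheme: coupling, edge rate, rotation near the vertex, level, horizon. -/
structure Sch where
  θ : ℝ
  η : ℝ
  α : ℝ
  k : ℕ
  T : ℕ

/-- The model parameters of a scheme. -/
abbrev Sch.P (S : Sch) : Prm := prm S.θ S.η S.k

/-- The number of steps of a scheme. -/
abbrev Sch.N (S : Sch) : ℕ := S.T * 2 ^ S.k

/-- The window of times over which the scheme averages. -/
abbrev Sch.win (S : Sch) : Finset ℕ := Finset.Ico (2 ^ S.k) S.N

/-- The clipped time average of the observations at `v`. -/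
def outY (S : Sch) (Y : ℕ → V × V → ℝ) (v : V) : ℝ :=
  cl ((∑ j ∈ S.win, Y j (v, v)) / ((S.T : ℝ) - 1))

/-- The observations driven by the noise `z`. -/
def yobs (G : SimpleGraph V) (P : Prm) (D : Finset V) (z : ℕ → obsIx G D → ℝ) : ℕ → V × V → ℝ :=
  tot G D (Gen.ypath (feat G P.η P.N₁ D) P.h (lpw G P.θ D) z)

/-- The output as a function of the noise. -/
def Fo (G : SimpleGraph V) (S : Sch) (D : Finset V) (v : V) (z : Gen.Noi S.N (obsIx G D)) : ℝ :=
  outY S (yobs G S.P D (Gen.ext z)) v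

/-- The sine of the rotation. -/
def rsin (α : ℝ) (B : Finset (V × V)) (i : V × V) : ℝ := if i ∈ B then α else (Real.sqrt 2)⁻¹

/-- The cosine of the rotation. -/
def rcos (α : ℝ) (B : Finset (V × V)) (i : V × V) : ℝ := Real.sqrt (1 - rsin α B i ^ 2)

/-- The factor of the retained noise. -/
def rotA (α : ℝ) (B : Finset (V × V)) (i : V × V) : ℝ := rcos α B i ^ 2 - rsin α B i ^ 2

/-- The factor of the fresh noise. -/
def rotB (α : ℝ) (B : Finset (V × V)) (i : V × V) : ℝ := 2 * rcos α B i * rsin α B i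

/-- The smoothed output; only the coordinates in `B` of its argument enter. -/
def Hs (G : SimpleGraph V) (S : Sch) (D : Finset V) (B : Finset (V × V)) (v : V)
    (Z : ℕ → V × V → ℝ) : ℝ :=
  smooth (hlev S.k) (Fo G S D v) (fun q => rotA S.α B q.2.1) (fun q => rotB S.α B q.2.1)
    (fun q => Z q.1 q.2.1)

/-! ### Rotations -/

section rot

variable {α : ℝ} (B : Finset (V × V))

lemma rsin_sq_le (hα : 0 ≤ α) (hα2 : α ^ 2 ≤ 1 / 2) (i : V × V) :
    0 ≤ rsin α B i ∧ rsin α B i ^ 2 ≤ 1 / 2 := by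
  unfold rsin
  split_ifs
  · exact ⟨hα, hα2⟩
  · exact ⟨by positivity, by rw [inv_pow, Real.sq_sqrt (by norm_num)]; norm_num⟩

lemma rcos_sq (hα : 0 ≤ α) (hα2 : α ^ 2 ≤ 1 / 2) (i : V × V) :
    rcos α B i ^ 2 = 1 - rsin α B i ^ 2 :=
  Real.sq_sqrt (by linarith [(rsin_sq_le B hα hα2 i).2])

lemma rot_sum (hα : 0 ≤ α) (hα2 : α ^ 2 ≤ 1 / 2) (i : V × V) :
    rcos α B i ^ 2 + rsin α B i ^ 2 = 1 := by
  rw [rcos_sq B hα hα2 i]; ring

lemma rotA_eq_zero (hα : 0 ≤ α) (hα2 : α ^ 2 ≤ 1 / 2) {i : V × V} (hi : i ∉ B) :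
    rotA α B i = 0 := by
  unfold rotA
  rw [rcos_sq B hα hα2 i, rsin, if_neg hi, inv_pow, Real.sq_sqrt (by norm_num)]
  norm_num

lemma rotB_ne_zero (hα : 0 < α) (hα2 : α ^ 2 ≤ 1 / 2) (i : V × V) : rotB α B i ≠ 0 := by
  have hs : 0 < rsin α B i := by unfold rsin; split_ifs <;> positivity
  have hc : 0 < rcos α B i :=
    Real.sqrt_pos.2 (by linarith [(rsin_sq_le B hα.le hα2 i).2])
  unfold rotB
  positivity

lemma rot_ratio_sq_le (hα : 0 < α) (hα2 : α ^ 2 ≤ 1 / 2) (i : V × V) :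
    (rotA α B i / rotB α B i) ^ 2 ≤ 1 / (2 * α ^ 2) := by
  by_cases hi : i ∈ B
  · have hs : rsin α B i = α := if_pos hi
    have hc := rcos_sq B hα.le hα2 i
    rw [hs] at hc
    unfold rotA rotB
    rw [hs, hc, div_pow, mul_pow, mul_pow, hc]
    have h1 : (1 - α ^ 2 - α ^ 2) ^ 2 ≤ 1 := by nlinarith [sq_nonneg α]
    have h2 : 2 * α ^ 2 ≤ 2 ^ 2 * (1 - α ^ 2) * α ^ 2 := by nlinarith [sq_nonneg α]
    exact div_le_div₀ zero_le_one h1 (by positivity) h2
  · rw [rotA_eq_zero B hα.le hα2 hi, zero_div, zero_pow two_ne_zero]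
    positivity

end rot

/-! ### Measurability and bounds -/

lemma measurable_tot {α : Type*} [MeasurableSpace α] (D : Finset V)
    {y : α → ℕ → obsIx G D → ℝ} (hy : ∀ j i, Measurable fun a => y a j i) (j : ℕ) (i : V × V) :
    Measurable fun a => tot G D (y a) j i := by
  unfold tot
  split_ifs
  · exact hy _ _
  · exact measurable_const

lemma measurable_yobs (P : Prm) (D : Finset V) {α : Type*} [MeasurableSpace α]
    {z : α → ℕ → obsIx G D → ℝ} (hz : ∀ j i, Measurable fun a => z a j i) (j : ℕ) (i : V × V) :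
    Measurable fun a => yobs G P D (z a) j i :=
  measurable_tot D (fun j i => Gen.measurable_ypath _ _ _ hz j i) j i

lemma measurable_outY (S : Sch) {α : Type*} [MeasurableSpace α] {Y : α → ℕ → V × V → ℝ}
    (hY : ∀ j i, Measurable fun a => Y a j i) (v : V) : Measurable fun a => outY S (Y a) v :=
  measurable_cl.comp ((Finset.measurable_sum _ fun j _ => hY j _).div_const _)

lemma abs_outY_le (S : Sch) (Y : ℕ → V × V → ℝ) (v : V) : |outY S Y v| ≤ 1 := abs_cl_le _

lemma measurable_Fo (S : Sch) (D : Finset V) (v : V) : Measurable (Fo G S D v) :=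
  measurable_outY S (measurable_yobs _ D fun j i => Gen.measurable_ext j i) v

lemma abs_Fo_le (S : Sch) (D : Finset V) (v : V) (z : Gen.Noi S.N (obsIx G D)) :
    |Fo G S D v z| ≤ 1 := abs_cl_le _

lemma abs_Hs_le (S : Sch) (D : Finset V) (B : Finset (V × V)) (v : V) (Z : ℕ → V × V → ℝ) :
    |Hs G S D B v Z| ≤ 1 := by
  have := norm_integral_le_of_norm_le_const (μ := Measure.pi fun _ : Fin S.N × obsIx G D =>
    gl (hlev S.k)) (C := 1) (f := fun z' => Fo G S D v
      (fun q => rotA S.α B q.2.1 * Z q.1 q.2.1 + rotB S.α B q.2.1 * z' q))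
    (ae_of_all _ fun _ => abs_Fo_le _ _ _ _)
  simpa [Hs, smooth] using this

lemma measurable_Hs (S : Sch) (D : Finset V) (B : Finset (V × V)) (v : V) {α : Type*}
    [MeasurableSpace α] {Z : α → ℕ → V × V → ℝ} (hZ : ∀ j i, Measurable fun a => Z a j i) :
    Measurable fun a => Hs G S D B v (Z a) := by
  have h : Measurable fun p : α × (Fin S.N × obsIx G D → ℝ) => Fo G S D v
      (fun q => rotA S.α B q.2.1 * Z p.1 q.1 q.2.1 + rotB S.α B q.2.1 * p.2 q) := by
    refine (measurable_Fo S D v).comp (measurable_pi_lambda _ fun q => ?_)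
    exact ((hZ _ _).comp measurable_fst |>.const_mul _).add
      (((measurable_pi_apply q).comp measurable_snd).const_mul _)
  exact h.stronglyMeasurable.integral_prod_right'.measurable

variable (S : Sch) (D : Finset V) {B : Finset (V × V)} (v : V)

/-- The smoothed output depends only on the noise in `B`. -/
lemma Hs_congr (hα : 0 ≤ S.α) (hα2 : S.α ^ 2 ≤ 1 / 2) {Z Z' : ℕ → V × V → ℝ}
    (h : ∀ j < S.N, ∀ i ∈ B, Z j i = Z' j i) : Hs G S D B v Z = Hs G S D B v Z' := by
  unfold Hs smooth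
  congr 1
  funext z'
  congr 1
  funext q
  simp only
  by_cases hi : q.2.1 ∈ B
  · rw [h _ q.1.2 _ hi]
  · simp [rotA_eq_zero B hα hα2 hi]

lemma min_sqrt_exp_le {Q : ℝ} (hQ : 0 ≤ Q) :
    min 2 (Real.sqrt (Real.exp Q - 1)) ≤ 3 * Real.sqrt Q := by
  by_cases h : Q ≤ 1
  · refine (min_le_right _ _).trans ?_
    have := Real.abs_exp_sub_one_le (x := Q) (by rwa [abs_of_nonneg hQ])
    rw [abs_of_nonneg hQ] at this
    rw [show (3 : ℝ) * Real.sqrt Q = Real.sqrt (3 ^ 2 * Q) by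
      rw [Real.sqrt_mul (by norm_num), Real.sqrt_sq (by norm_num)]]
    exact Real.sqrt_le_sqrt (by linarith [le_abs_self (Real.exp Q - 1)])
  · refine (min_le_left _ _).trans ?_
    have : 1 ≤ Real.sqrt Q := Real.one_le_sqrt.2 (not_le.1 h).le
    linarith

/-- The smoothed output is Lipschitz in the quadratic distance of the noise in `B`. -/
lemma Hs_sub_le (hα : 0 < S.α) (hα2 : S.α ^ 2 ≤ 1 / 2) (hB : B ⊆ obsIx G D)
    (Z Z' : ℕ → V × V → ℝ) {e : ℝ} (he : 0 < e) :
    |Hs G S D B v Z' - Hs G S D B v Z| ≤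
      3 / S.α * (qd (hlev S.k) S.N B Z' Z / (2 * e) + e / 2) := by
  set a := fun q : Fin S.N × obsIx G D => rotA S.α B q.2.1 with ha
  set b := fun q : Fin S.N × obsIx G D => rotB S.α B q.2.1 with hb
  set dv := fun q : Fin S.N × obsIx G D => Z' q.1 q.2.1 - Z q.1 q.2.1 with hdv
  have h1 := (gaussStmt (Fin S.N × obsIx G D) (hlev S.k) (Fo G S D v) 1 (hlev_ne_zero S.k)
    (measurable_Fo S D v) (abs_Fo_le S D v)).2 a b (fun q => Z q.1 q.2.1) dv
    (fun q _ => rotB_ne_zero B hα hα2 _)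
  simp only [hdv, add_sub_cancel, one_mul] at h1
  set Q := ∑ q, (a q * dv q / b q) ^ 2 / (hlev S.k : ℝ) with hQdef
  have hQ0 : 0 ≤ Q := Finset.sum_nonneg fun q _ => by positivity
  have hH : |Hs G S D B v Z' - Hs G S D B v Z| ≤ 3 * Real.sqrt Q := by
    refine le_trans (le_min ?_ h1) (min_sqrt_exp_le hQ0)
    have b1 := abs_Hs_le (G := G) S D B v Z
    have b2 := abs_Hs_le (G := G) S D B v Z'
    exact (abs_sub _ _).trans (by linarith)
  refine hH.trans ?_
  set q₀ := qd (hlev S.k) S.N B Z' Z with hq₀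
  have hq0 : 0 ≤ q₀ := qd_nonneg (hlev_pos _).le _ _ _ _
  have hQ : Q ≤ q₀ / (2 * S.α ^ 2) := by
    rw [hQdef, hq₀, qd, Fintype.sum_prod_type, Finset.sum_range, Finset.sum_div]
    refine Finset.sum_le_sum fun j _ => ?_
    rw [Finset.sum_div, Finset.sum_coe_sort (obsIx G D) fun i =>
      (rotA S.α B i * (Z' j i - Z j i) / rotB S.α B i) ^ 2 / (hlev S.k : ℝ),
      ← Finset.sum_subset hB fun i _ hi => by simp [rotA_eq_zero B hα.le hα2 hi]]
    refine Finset.sum_le_sum fun i _ => ?_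
    rw [show (rotA S.α B i * (Z' j i - Z j i) / rotB S.α B i) ^ 2 / (hlev S.k : ℝ) =
      (rotA S.α B i / rotB S.α B i) ^ 2 * ((Z' j i - Z j i) ^ 2 / hlev S.k) by ring]
    refine (mul_le_mul_of_nonneg_right (rot_ratio_sq_le B hα hα2 i) (by positivity)).trans_eq ?_
    ring
  have hs : Real.sqrt Q ≤ Real.sqrt q₀ / S.α := by
    rw [← Real.sqrt_sq hα.le, ← Real.sqrt_div hq0]
    exact Real.sqrt_le_sqrt (hQ.trans (div_le_div_of_nonneg_left hq0 (by positivity)
      (by nlinarith [sq_nonneg S.α])))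
  have hy : Real.sqrt q₀ ≤ q₀ / (2 * e) + e / 2 := by
    have h := sq_nonneg (Real.sqrt q₀ - e)
    rw [sub_sq, Real.sq_sqrt hq0] at h
    rw [show q₀ / (2 * e) + e / 2 = (q₀ + e ^ 2) / (2 * e) by field_simp,
      le_div_iff₀ (by positivity)]
    linarith
  calc 3 * Real.sqrt Q ≤ 3 * (Real.sqrt q₀ / S.α) := by linarith
    _ = 3 / S.α * Real.sqrt q₀ := by ring
    _ ≤ _ := mul_le_mul_of_nonneg_left hy (by positivity)

/-! ### The output at the innovations -/

variable {S D v}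

lemma state_eq_llk (P : Prm) (z : ℕ → obsIx G D → ℝ) :
    ∀ j, Gen.state (feat G P.η P.N₁ D) P.h (lpw G P.θ D) z j =
      lk G P D j (Gen.ypath (feat G P.η P.N₁ D) P.h (lpw G P.θ D) z) := by
  intro j
  induction j with
  | zero => funext T; simp [Gen.state, Gen.llk]
  | succ j ih =>
    funext T
    simp only [Gen.state, lk, Gen.llk, Finset.sum_range_succ]
    rw [show Gen.state (feat G P.η P.N₁ D) P.h (lpw G P.θ D) z j T =
      lk G P D j (Gen.ypath (feat G P.η P.N₁ D) P.h (lpw G P.θ D) z) T from congrFun ih T]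
    simp only [lk, Gen.llk]
    rw [← add_assoc]
    rfl

lemma ypath_congr (P : Prm) {z z' : ℕ → obsIx G D → ℝ} {j : ℕ} (h : ∀ m ≤ j, z m = z' m) :
    Gen.ypath (feat G P.η P.N₁ D) P.h (lpw G P.θ D) z j =
      Gen.ypath (feat G P.η P.N₁ D) P.h (lpw G P.θ D) z' j := by
  funext i
  unfold Gen.ypath
  rw [Gen.state_congr _ _ _ fun m hm => h m hm.le, h j le_rfl]

/-- The scheme driven by the innovations of observations returns the observations. -/
lemma yobs_inn (P : Prm) (h0 : 0 ≤ P.θ) (h1 : P.θ < 1) (hη : 0 ≤ P.η) (Y : ℕ → V × V → ℝ)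
    {N j : ℕ} (hj : j < N) {i : V × V} (hi : i ∈ obsIx G D) :
    yobs G P D (Gen.ext fun q : Fin N × obsIx G D => innY G P D Y q.1 q.2.1) j i = Y j i := by
  have e : Gen.ypath (feat G P.η P.N₁ D) P.h (lpw G P.θ D)
      (Gen.ext fun q : Fin N × obsIx G D => innY G P D Y q.1 q.2.1) j =
      Gen.ypath (feat G P.η P.N₁ D) P.h (lpw G P.θ D)
        (Gen.inn (feat G P.η P.N₁ D) P.h (lpw G P.θ D) (res D Y)) j :=
    ypath_congr P fun m hm => funext fun l => by
      simp only [Gen.ext, dif_pos (lt_of_le_of_lt hm hj), innY_eq P h0 h1 hη D Y m l]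
  simp only [yobs, tot, dif_pos hi]
  rw [e]
  simp only [Gen.ypath, Gen.state_inn, Gen.inn, res]
  ring

lemma Fo_inn (h0 : 0 ≤ S.θ) (h1 : S.θ < 1) (hη : 0 ≤ S.η) (hv : v ∈ D) (Y : ℕ → V × V → ℝ) :
    Fo G S D v (fun q => innY G S.P D Y q.1 q.2.1) = outY S Y v := by
  unfold Fo outY
  congr 2
  refine Finset.sum_congr rfl fun j hj => ?_
  exact yobs_inn S.P h0 h1 hη Y (Finset.mem_Ico.1 hj).2 (mem_obsIx.2 ⟨⟨hv, hv⟩, Or.inl rfl⟩)

lemma card_win (S : Sch) (hT : 1 ≤ S.T) :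
    (S.win.card : ℝ) * hlev S.k = (S.T : ℝ) - 1 := by
  have h1 : 2 ^ S.k ≤ S.N := Nat.le_mul_of_pos_left _ hT
  rw [Nat.card_Ico, Nat.cast_sub h1, sub_mul, mul_hlev, hlev_count]

lemma measY_outY : MeasY fun _ Y => outY S Y v := fun _ _ _ _ hY => measurable_outY S hY v

/-- In the planted model the output is close to the spin. -/
lemma E_out_err (hT : 2 ≤ S.T) (hv : v ∈ D) :
    E G S.P D S.N (fun R Y => |outY S Y v - spin R v|) ≤ 1 / Real.sqrt ((S.T : ℝ) - 1) := by
  have hT1 : (0 : ℝ) < (S.T : ℝ) - 1 := by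
    have : (2 : ℝ) ≤ S.T := by exact_mod_cast hT
    linarith
  set τ := (S.T : ℝ) - 1 with hτ
  have hvv : (v, v) ∈ obsIx G D := mem_obsIx.2 ⟨⟨hv, hv⟩, Or.inl rfl⟩
  unfold E Gen.Epl
  refine (Finset.sum_le_sum (g := fun R : Cfg D =>
    Gen.post (lpw G S.θ D) R * (1 / Real.sqrt τ)) fun R _ => ?_).trans_eq
    (by rw [← Finset.sum_mul, sum_post_cfg, one_mul])
  refine mul_le_mul_of_nonneg_left ?_ (post_nonneg _ _)
  set a : Fin S.N × obsIx G D → ℝ := fun q =>
    if q.2.1 = (v, v) ∧ 2 ^ S.k ≤ (q.1 : ℕ) then 1 else 0 with ha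
  obtain ⟨g1, g2, -, g4⟩ := gauss_lin (hlev S.k) a
  set L := fun ξ : Gen.Noi S.N (obsIx G D) => ∑ q, a q * ξ q with hL
  have hsum : ∀ ξ : Gen.Noi S.N (obsIx G D), L ξ = ∑ j ∈ S.win, Gen.ext ξ j ⟨(v, v), hvv⟩ := by
    intro ξ
    simp only [hL, ha, Fintype.sum_prod_type, ite_mul, one_mul, zero_mul]
    rw [show (S.win : Finset ℕ) = (range S.N).filter (fun j => 2 ^ S.k ≤ j) by
      ext j; simp [and_comm], Finset.sum_filter, Finset.sum_range]
    refine Finset.sum_congr rfl fun j _ => ?_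
    rw [Finset.sum_eq_single (⟨(v, v), hvv⟩ : obsIx G D) (fun i _ hi => if_neg fun h =>
      hi (Subtype.ext h.1)) (by simp)]
    simp [Gen.ext]
  have hout : ∀ ξ : Gen.Noi S.N (obsIx G D),
      |outY S (tot G D (Gen.plant (feat G S.η (2 ^ S.k) D) (hlev S.k) R ξ)) v - spin R.1 v| ≤
        |L ξ| / τ := by
    intro ξ
    unfold outY
    have hnum : ∑ j ∈ S.win, tot G D (Gen.plant (feat G S.η (2 ^ S.k) D) (hlev S.k) R ξ) j (v, v)
        = τ * spin R.1 v + L ξ := by
      rw [hsum, hτ, ← card_win S (by omega), mul_assoc, ← nsmul_eq_mul, ← Finset.sum_const,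
        ← Finset.sum_add_distrib]
      refine Finset.sum_congr rfl fun j hj => ?_
      have hj' := (Finset.mem_Ico.1 hj).2
      simp only [tot, dif_pos hvv, Gen.plant, Gen.ext, dif_pos hj', feat, coef, if_true]
      ring
    rw [hnum, add_div, mul_div_cancel_left₀ _ hT1.ne']
    refine (abs_cl_add_sub (abs_spin R.1 v).le).trans_eq ?_
    rw [abs_div, abs_of_pos hT1]
  have hsq : ∑ q, a q ^ 2 = (S.win.card : ℝ) := by
    simp only [ha, Fintype.sum_prod_type, ite_pow, one_pow, zero_pow two_ne_zero]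
    rw [show (S.win : Finset ℕ) = (range S.N).filter (fun j => 2 ^ S.k ≤ j) by
      ext j; simp [and_comm], Finset.card_filter, Nat.cast_sum, Finset.sum_range]
    refine Finset.sum_congr rfl fun j _ => ?_
    rw [Finset.sum_eq_single (⟨(v, v), hvv⟩ : obsIx G D) (fun i _ hi => if_neg fun h =>
      hi (Subtype.ext h.1)) (by simp)]
    simp
  rw [hsq, mul_comm, card_win S (by omega)] at g4
  set ν := Gen.nl (ι := obsIx G D) (hlev S.k) S.N with hν
  have : IsProbabilityMeasure ν := by rw [hν]; unfold Gen.nl; infer_instance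
  have hst : 0 < Real.sqrt τ := Real.sqrt_pos.2 hT1
  calc _ ≤ ∫ ξ, |L ξ| / τ ∂ν :=
        integral_mono_of_nonneg (ae_of_all _ fun _ => abs_nonneg _) (g1.abs.div_const _)
          (ae_of_all _ hout)
    _ ≤ ∫ ξ, (L ξ ^ 2 / (2 * Real.sqrt τ) + Real.sqrt τ / 2) / τ ∂ν := by
        refine integral_mono (g1.abs.div_const _)
          (((g2.div_const _).add (integrable_const _)).div_const _) fun ξ => ?_
        refine div_le_div_of_nonneg_right ?_ hT1.le
        have h := sq_nonneg (|L ξ| - Real.sqrt τ)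
        rw [sub_sq, sq_abs] at h
        simp only
        rw [show L ξ ^ 2 / (2 * Real.sqrt τ) + Real.sqrt τ / 2 =
          (L ξ ^ 2 + Real.sqrt τ ^ 2) / (2 * Real.sqrt τ) by field_simp,
          le_div_iff₀ (by positivity)]
        linarith
    _ = 1 / Real.sqrt τ := by
        have i2 : Integrable (fun ξ => L ξ ^ 2 / (2 * Real.sqrt τ)) ν := g2.div_const _
        have e2 : ∫ ξ, L ξ ^ 2 ∂ν = τ := g4
        rw [integral_div, integral_add i2 (integrable_const _), integral_div, e2, integral_const]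
        simp only [probReal_univ, smul_eq_mul, one_mul]
        field_simp
        rw [Real.sq_sqrt hT1.le]
        ring

/-- Innovations are close in law to fresh noise when the mesh is fine. -/
theorem close_inn (C : ℕ) (T : ℝ) {δ : ℝ} (hδ : 0 < δ) : ∃ k₀ : ℕ, ∀ k ≥ k₀,
    ∀ (V : Type) (G : SimpleGraph V) (θ η : ℝ) (D : Finset V), 0 ≤ θ → θ < 1 → 0 ≤ η → η ≤ 2 →
      (obsIx G D).card ≤ C → ∀ N : ℕ, (N : ℝ) * hlev k ≤ T →
      ∀ (Bd : ℝ) (Ψ : Gen.Noi N (obsIx G D) → ℝ), Measurable Ψ → (∀ z, |Ψ z| ≤ Bd) →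
        |E G (prm θ η k) D N (fun _ Y => Ψ fun q => innY G (prm θ η k) D Y q.1 q.2.1)
          - ∫ z, Ψ z ∂(Gen.nl (ι := obsIx G D) (hlev k) N)| ≤ Bd * δ := by
  obtain ⟨h₀, hh₀, H⟩ := genCloseStmt C 2 T δ hδ
  obtain ⟨k₀, hk₀⟩ := exists_small 1 hh₀
  refine ⟨k₀, fun k hk V G θ η D h0 h1 hη hη2 hC N hN Bd Ψ hΨ hb => ?_⟩
  set P := prm θ η k
  have hF : ∀ j i R, |feat G P.η P.N₁ D j i R| ≤ 2 := by
    intro j i R
    unfold feat
    rw [abs_mul]
    have hc : |coef η (2 ^ k) j i.1| ≤ 1 :=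
      abs_le_one_iff_mul_self_le_one.2 (by
        have := coef_sq_le hη hη2 (2 ^ k) j i.1
        rwa [← sq])
    have hs : |spin R.1 i.1.1 + spin R.1 i.1.2| ≤ 2 :=
      (abs_add_le _ _).trans (by rw [abs_spin, abs_spin]; norm_num)
    calc _ ≤ 1 * 2 := mul_le_mul hc hs (abs_nonneg _) zero_le_one
      _ = 2 := one_mul _
  have hcard : Fintype.card (obsIx G D) ≤ C := by simpa using hC
  have := H (obsIx G D) (Cfg D) (feat G P.η P.N₁ D) P.h (lpw G P.θ D) hcard hF (hlev_ne_zero k)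
    (by simpa using hk₀ k hk) N hN Bd (fun y => Ψ fun q => y q.1 q.2)
    ⟨fun _ => hΨ.comp (measurable_pi_lambda _ fun q => Gen.measurable_ext _ _),
      fun _ y => hb _⟩
  have eext : ∀ z : Gen.Noi N (obsIx G D),
      (fun q : Fin N × obsIx G D => Gen.ext z q.1 q.2) = z := fun z => by
    funext q; simp [Gen.ext]
  simp only [eext] at this
  refine le_trans (le_of_eq ?_) this
  congr 2
  unfold E Gen.Epl
  refine Finset.sum_congr rfl fun R _ => ?_
  congr 1
  refine integral_congr_ae (ae_of_all _ fun ξ => ?_)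
  simp only
  congr 1
  funext q
  rw [innY_eq P h0 h1 hη D _ q.1 q.2, if_pos q.1.2]
  congr 1
  funext j l
  simp [res, tot]

end

end Vale.Agent.P161.Edge
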