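import Vale.Agent.P161.Edge.Step

/-!
At a subcritical coupling: bounds on rows and columns of the response, and the effect of the
observations outside a large ball on the response near its centre.
-/

namespace Vale.Agent.P161.Edge.Sym

open Finset Function
open scoped NNReal Classical

noncomputable section

variable {V : Type} {G : SimpleGraph V} {d : ℕ} {P : Prm} {D : Finset V}

/-! ### Weighted norms -/

lemma wnorm_nonneg (D : Finset V) (o : V) (ρ : ℝ) (u : V → ℝ) : 0 ≤ wnorm G D o ρ u :=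
  Real.sqrt_nonneg _

lemma wnorm_sq (D : Finset V) (o : V) (ρ : ℝ) (u : V → ℝ) :
    wnorm G D o ρ u ^ 2 = ∑ x ∈ D, (ρ ^ G.dist o x * u x) ^ 2 :=
  Real.sq_sqrt (Finset.sum_nonneg fun _ _ => sq_nonneg _)

lemma wnorm_mono (D : Finset V) (o : V) (ρ : ℝ) {u u' : V → ℝ} (h : ∀ x ∈ D, |u x| ≤ |u' x|) :
    wnorm G D o ρ u ≤ wnorm G D o ρ u' := by
  refine Real.sqrt_le_sqrt (Finset.sum_le_sum fun x hx => ?_)
  rw [mul_pow, mul_pow]
  exact mul_le_mul_of_nonneg_left (sq_le_sq.2 (h x hx)) (sq_nonneg _)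

lemma abs_le_wnorm {o : V} {ρ : ℝ} (hρ : 1 ≤ ρ) (u : V → ℝ) {x : V} (hx : x ∈ D) :
    |u x| ≤ wnorm G D o ρ u := by
  have h1 : 1 ≤ ρ ^ G.dist o x := one_le_pow₀ hρ
  refine le_trans ?_ (Real.abs_le_sqrt
    (Finset.single_le_sum (f := fun x => (ρ ^ G.dist o x * u x) ^ 2)
      (fun _ _ => sq_nonneg _) hx))
  rw [abs_mul, abs_of_nonneg (zero_le_one.trans h1)]
  exact le_mul_of_one_le_left (abs_nonneg _) h1

lemma wnorm_tail (D : Finset V) (o : V) {ρ : ℝ} (hρ : 1 ≤ ρ) (n : ℕ) (u : V → ℝ) :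
    wnorm G D o 1 (fun x => if G.dist o x ≤ n then 0 else u x) ≤
      (ρ ^ n)⁻¹ * wnorm G D o ρ u := by
  have hp : (0 : ℝ) < ρ ^ n := pow_pos (by linarith) n
  rw [← wnorm_smul D o ρ _ (inv_nonneg.2 hp.le)]
  refine Real.sqrt_le_sqrt (Finset.sum_le_sum fun x _ => ?_)
  rw [one_pow, one_mul]
  beta_reduce
  split_ifs with h
  · simp only [ne_eq, OfNat.ofNat_ne_zero, not_false_eq_true, zero_pow]; positivity
  · refine sq_le_sq.2 ?_
    rw [abs_mul, abs_mul, abs_of_nonneg (pow_nonneg (by linarith : 0 ≤ ρ) _),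
      abs_of_nonneg (inv_nonneg.2 hp.le), ← mul_assoc]
    refine le_mul_of_one_le_left (abs_nonneg _) ?_
    rw [← div_eq_mul_inv, one_le_div hp]
    exact pow_le_pow_right₀ hρ (by omega)

lemma wnorm_subset {A B : Finset V} (hAB : A ⊆ B) (o : V) (ρ : ℝ) {u : V → ℝ}
    (hu : ∀ x ∈ B, x ∉ A → u x = 0) : wnorm G B o ρ u = wnorm G A o ρ u := by
  unfold wnorm
  rw [Finset.sum_subset hAB fun x hx hxA => by simp [hu x hx hxA]]

lemma wnorm_le_sum (D : Finset V) (o : V) (u : V → ℝ) :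
    wnorm G D o 1 u ≤ ∑ x ∈ D, |u x| := by
  refine Real.sqrt_le_iff.2 ⟨Finset.sum_nonneg fun _ _ => abs_nonneg _, ?_⟩
  simp only [one_pow, one_mul]
  calc ∑ x ∈ D, u x ^ 2 = ∑ x ∈ D, |u x| ^ 2 := by simp [sq_abs]
    _ ≤ _ := Finset.sum_sq_le_sq_sum_of_nonneg fun _ _ => abs_nonneg _

/-! ### The observation matrix on a sub-system -/

lemma qop_sub (j : ℕ) (u u' : V → ℝ) (v : V) :
    qop G P D j (fun x => u x - u' x) v = qop G P D j u v - qop G P D j u' v := by
  unfold qop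
  rw [← Finset.sum_sub_distrib]
  exact Finset.sum_congr rfl fun i _ => by ring

lemma qop_notMem (j : ℕ) (u : V → ℝ) {v : V} (hv : v ∉ D) : qop G P D j u v = 0 := by
  refine Finset.sum_eq_zero fun i hi => ?_
  rw [mem_obsIx] at hi
  have h1 : i.1 ≠ v := fun e => hv (e ▸ hi.1.1)
  have h2 : i.2 ≠ v := fun e => hv (e ▸ hi.1.2)
  simp [mult, h1, h2]

lemma wvec_notMem (Y : ℕ → V × V → ℝ) (j₀ : ℕ) {z : V} (hz : z ∈ D) :
    ∀ (j : ℕ) (v : V), v ∉ D → wvec G P D Y j₀ z j v = 0 := by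
  intro j
  induction j with
  | zero => intro v _; rfl
  | succ j ih =>
    intro v hv
    simp only [wvec]
    split_ifs
    · rw [Pi.single_apply, if_neg (fun e => hv (by rw [e]; exact hz))]
    · simp [ih v hv, qop_notMem j _ hv]

lemma qop_eq_of_support {A B : Finset V} (hG : G.IsTree) (hAB : A ⊆ B) {o : V} {n : ℕ}
    (hball : ∀ v, G.dist o v ≤ n + 1 → v ∈ A) (j : ℕ) {u : V → ℝ}
    (hu : ∀ x, n < G.dist o x → u x = 0) (v : V) :
    qop G P A j u v = qop G P B j u v := by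
  refine Finset.sum_subset (fun i hi => ?_) fun i hiB hiA => ?_
  · rw [mem_obsIx] at hi ⊢
    exact ⟨⟨hAB hi.1.1, hAB hi.1.2⟩, hi.2⟩
  · rw [mem_obsIx] at hiB hiA
    have key : n < G.dist o i.1 ∧ n < G.dist o i.2 := by
      rcases hiB.2 with e | e
      · rw [e] at hiA ⊢
        by_contra hc
        exact hiA ⟨⟨hball _ (by omega), hball _ (by omega)⟩, Or.inl rfl⟩
      · rcases hG.dist_eq_dist_add_one_of_adj o e with h | h <;>
        · by_contra hc
          exact hiA ⟨⟨hball _ (by omega), hball _ (by omega)⟩, Or.inr e⟩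
    rw [hu _ key.1, hu _ key.2]
    ring

/-! ### Bounds at a fixed subcritical coupling -/

/-- A rate, a Schur constant and a growth bound up to step `i`. -/
structure Cst (d : ℕ) (P : Prm) (i : ℕ) (ρ C Gg : ℝ) : Prop where
  one_le : 1 ≤ ρ
  gap : Real.sqrt ((d : ℝ) - 1) * (P.θ * ρ) < 1
  hC : (d : ℝ) / (1 - Real.sqrt ((d : ℝ) - 1) * (P.θ * ρ)) ^ 2 ≤ C
  growth : ∀ n ≤ i, (1 + P.h * (C * (kap d P.η * ρ))) ^ n ≤ Gg

variable {i : ℕ} {ρ C Gg : ℝ} (hG : G.IsTree) (hd : Regular G d) (hR : Reg d P)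
  (hc : Cst d P i ρ C Gg)
include hG hd hR hc

omit hG hd hR in
lemma Cst.C_nonneg : 0 ≤ C := le_trans (by positivity) hc.hC

omit hG hd hc in
lemma kap_nonneg : 0 ≤ kap d P.η := by have := hR.eta; unfold kap; positivity

omit hG hd hR in
lemma Cst.Gg_nonneg : 0 ≤ Gg :=
  le_trans (by rw [pow_zero]; norm_num) (hc.growth 0 (Nat.zero_le _))

omit hG hd in
lemma Cst.hC_one : (d : ℝ) / (1 - Real.sqrt ((d : ℝ) - 1) * (P.θ * 1)) ^ 2 ≤ C := by
  refine le_trans (div_le_div_of_nonneg_left (Nat.cast_nonneg d) ?_ (pow_le_pow_left₀ ?_ ?_ 2))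
    hc.hC
  · exact pow_pos (sub_pos.2 hc.gap) 2
  · exact (sub_pos.2 hc.gap).le
  · have := mul_le_mul_of_nonneg_left hc.one_le hR.nonneg
    have := mul_le_mul_of_nonneg_left this (Real.sqrt_nonneg ((d : ℝ) - 1))
    linarith

lemma pcov_op {B : Finset V} (hB : Closed G B) (o : V) (Y : ℕ → V × V → ℝ) (j : ℕ) (u : V → ℝ)
    {ρ' : ℝ} (hρ' : ρ' = 1 ∨ ρ' = ρ) :
    wnorm G B o ρ' (fun x => ∑ y ∈ B, pcov G P B Y j x y * u y) ≤ C * wnorm G B o ρ' u := by
  have hK : ∀ x ∈ B, ∀ y ∈ B, |pcov G P B Y j x y| ≤ P.θ ^ G.dist x y := fun x hx y hy =>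
    (abs_pcov_le hG hB (hR.par j).2.2.2 Y hx hy).trans
      (pow_le_pow_left₀ (hR.par j).1 (hR.par j).2.1 _)
  have hgap1 : Real.sqrt ((d : ℝ) - 1) * (P.θ * 1) < 1 := lt_of_le_of_lt
    (mul_le_mul_of_nonneg_left (mul_le_mul_of_nonneg_left hc.one_le hR.nonneg)
      (Real.sqrt_nonneg _)) hc.gap
  rcases hρ' with rfl | rfl
  · exact (wnorm_kernel hG hd hR.deg B o hR.nonneg le_rfl hgap1 _ hK u).trans
      (mul_le_mul_of_nonneg_right (hc.hC_one hR) (wnorm_nonneg _ _ _ _))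
  · exact (wnorm_kernel hG hd hR.deg B o hR.nonneg hc.one_le hc.gap _ hK u).trans
      (mul_le_mul_of_nonneg_right hc.hC (wnorm_nonneg _ _ _ _))

omit hc in
lemma qop_op {B : Finset V} (o : V) (j : ℕ) (u : V → ℝ) {ρ' : ℝ} (hρ' : 1 ≤ ρ') :
    wnorm G B o ρ' (qop G P B j u) ≤ kap d P.η * ρ' * wnorm G B o ρ' u :=
  wnorm_qop hG hd hR.deg hR.eta o hρ' j u

variable (hD : Closed G D)
include hD

lemma wnorm_wvec (o : V) (Y : ℕ → V × V → ℝ) (j₀ : ℕ) {z : V} (hz : z ∈ D) {n : ℕ} (hn : n ≤ i) :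
    wnorm G D o ρ (wvec G P D Y j₀ z n) ≤ Gg * ρ ^ G.dist o z := by
  have hρ0 : 0 ≤ ρ := zero_le_one.trans hc.one_le
  refine le_trans ?_ (mul_le_mul_of_nonneg_right (hc.growth n hn) (pow_nonneg hρ0 _))
  have ha : 0 ≤ (P.h : ℝ) * (C * (kap d P.η * ρ)) :=
    mul_nonneg P.h.coe_nonneg (mul_nonneg hc.C_nonneg (mul_nonneg (kap_nonneg hR) hρ0))
  clear hn
  induction n with
  | zero => simp [wvec, wnorm, pow_nonneg hρ0]
  | succ n ih =>
    simp only [wvec]
    split_ifs
    · refine le_trans (le_of_eq ?_)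
        (le_mul_of_one_le_left (pow_nonneg hρ0 _) (one_le_pow₀ (le_add_of_nonneg_right ha)))
      unfold wnorm
      rw [Finset.sum_eq_single z (fun x _ hx => by simp [hx]) fun h => absurd hz h,
        Pi.single_eq_same, mul_one, Real.sqrt_sq (pow_nonneg hρ0 _)]
    · refine (wnorm_add_le D o ρ _ _).trans ?_
      rw [wnorm_smul D o ρ _ P.h.coe_nonneg, pow_succ']
      set w := wvec G P D Y j₀ z n
      have hk := mul_le_mul_of_nonneg_left (pcov_op hG hd hR hc hD o Y n w (Or.inr rfl))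
        (mul_nonneg (kap_nonneg hR) hρ0)
      have hq := mul_le_mul_of_nonneg_left
        ((qop_op hG hd hR o n (fun x => ∑ y ∈ D, pcov G P D Y n x y * w y) hc.one_le).trans hk)
        P.h.coe_nonneg
      refine (add_le_add_right hq _).trans ?_
      rw [mul_assoc ((1 : ℝ) + _)]
      refine le_of_eq_of_le ?_ (mul_le_mul_of_nonneg_left ih (add_nonneg zero_le_one ha))
      ring

/-- The weighted norm of a column. -/
lemma wnorm_col (o : V) (Y : ℕ → V × V → ℝ) (j₀ : ℕ) {z : V} (hz : z ∈ D) {n : ℕ} (hn : n ≤ i) :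
    wnorm G D o ρ (fun x => resp G P D Y j₀ n x z) ≤ C * (Gg * ρ ^ G.dist o z) :=
  (pcov_op hG hd hR hc hD o Y n _ (Or.inr rfl)).trans
    (mul_le_mul_of_nonneg_left (wnorm_wvec hG hd hR hc hD o Y j₀ hz hn) hc.C_nonneg)

/-- The weighted norm of a row. -/
lemma wnorm_row {o : V} (ho : o ∈ D) (Y : ℕ → V × V → ℝ) {j₀ : ℕ} (hj : j₀ < i) :
    wnorm G D o ρ (fun z => resp G P D Y j₀ i o z) ≤ C * Gg := by
  refine (wnorm_resp hG hd hR.deg hD hR.eta ho hR.lt_one hc.one_le hc.gap Y hj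
    fun k _ _ => ⟨(hR.par k).1, (hR.par k).2.1⟩).trans ?_
  rw [mul_comm C]
  have hρ0 : 0 ≤ ρ := zero_le_one.trans hc.one_le
  have := kap_nonneg hR
  refine mul_le_mul ((pow_le_pow_left₀ (by positivity) ?_ _).trans
    (hc.growth _ (Nat.sub_le _ _))) hc.hC (by positivity) hc.Gg_nonneg
  gcongr
  exact hc.hC

lemma abs_resp_sub {o z : V} (ho : o ∈ D) (hz : z ∈ D) (Y : ℕ → V × V → ℝ) {j₀ : ℕ}
    (hj : j₀ < i) : |resp G P D Y j₀ i o z| ≤ C * Gg :=
  (abs_le_wnorm (u := fun z => resp G P D Y j₀ i o z) hc.one_le hz).trans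
    (wnorm_row hG hd hR hc hD ho Y hj)

omit hD

/-! ### The effect of outside observations -/

/-- The change of first and second moments in the ball `K`. -/
def dP (G : SimpleGraph V) (P : Prm) (A B K : Finset V) (Y : ℕ → V × V → ℝ) (l : ℕ) : ℝ :=
  ∑ x ∈ K, ∑ y ∈ K,
    (|avg G (thetaJ P l) B (tilt G P B Y l) (fun s => s x * s y) -
        avg G (thetaJ P l) A (tilt G P A Y l) (fun s => s x * s y)| +
      |mean G (thetaJ P l) B (tilt G P B Y l) x - mean G (thetaJ P l) A (tilt G P A Y l) x| +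
      |mean G (thetaJ P l) B (tilt G P B Y l) y - mean G (thetaJ P l) A (tilt G P A Y l) y|)

omit hG hd hR hc in
lemma dP_nonneg (A B K : Finset V) (Y : ℕ → V × V → ℝ) (l : ℕ) : 0 ≤ dP G P A B K Y l :=
  Finset.sum_nonneg fun x _ => Finset.sum_nonneg fun y _ => by positivity

omit hG hd hc in
lemma abs_pcov_sub (A B : Finset V) (Y : ℕ → V × V → ℝ) (l : ℕ) (x y : V) :
    |pcov G P B Y l x y - pcov G P A Y l x y| ≤
      |avg G (thetaJ P l) B (tilt G P B Y l) (fun s => s x * s y) -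
          avg G (thetaJ P l) A (tilt G P A Y l) (fun s => s x * s y)| +
        |mean G (thetaJ P l) B (tilt G P B Y l) x - mean G (thetaJ P l) A (tilt G P A Y l) x| +
        |mean G (thetaJ P l) B (tilt G P B Y l) y - mean G (thetaJ P l) A (tilt G P A Y l) y| := by
  have hb : ∀ (E : Finset V) v, |mean G (thetaJ P l) E (tilt G P E Y l) v| ≤ 1 := fun E v =>
    abs_mean_le (hR.par l).2.2.2 E (Fld.tanh _) v
  unfold pcov cv
  set a := avg G (thetaJ P l) B (tilt G P B Y l) fun s => s x * s y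
  set a' := avg G (thetaJ P l) A (tilt G P A Y l) fun s => s x * s y
  set u := mean G (thetaJ P l) B (tilt G P B Y l) x
  set u' := mean G (thetaJ P l) A (tilt G P A Y l) x
  set v := mean G (thetaJ P l) B (tilt G P B Y l) y
  set v' := mean G (thetaJ P l) A (tilt G P A Y l) y
  calc |a - u * v - (a' - u' * v')| = |(a - a') + (-((u - u') * v)) + -((u' * (v - v')))| := by
        congr 1; ring
    _ ≤ |a - a'| + |(u - u') * v| + |u' * (v - v')| := by
        refine (abs_add_three _ _ _).trans ?_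
        rw [abs_neg, abs_neg]
    _ ≤ _ := by
        rw [abs_mul, abs_mul]
        exact add_le_add (add_le_add_right (mul_le_of_le_one_right (abs_nonneg _) (hb B y)) _)
          (mul_le_of_le_one_left (abs_nonneg _) (hb A x))

omit hG hd hR hc in
lemma single_le_dP {A B K : Finset V} (Y : ℕ → V × V → ℝ) (l : ℕ) {x y : V} (hx : x ∈ K)
    (hy : y ∈ K) :
    |avg G (thetaJ P l) B (tilt G P B Y l) (fun s => s x * s y) -
        avg G (thetaJ P l) A (tilt G P A Y l) (fun s => s x * s y)| +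
      |mean G (thetaJ P l) B (tilt G P B Y l) x - mean G (thetaJ P l) A (tilt G P A Y l) x| +
      |mean G (thetaJ P l) B (tilt G P B Y l) y - mean G (thetaJ P l) A (tilt G P A Y l) y| ≤
      dP G P A B K Y l := by
  refine le_trans ?_ (Finset.single_le_sum (fun x _ => Finset.sum_nonneg fun y _ => ?_) hx)
  · refine le_trans ?_ (Finset.single_le_sum (fun y _ => ?_) hy)
    · exact le_rfl
    · positivity
  · positivity

variable {A B K : Finset V} {o c : V} {r n₃ : ℕ}

/-- Sources in a ball of radius `r`, comparisons on the ball `K` of radius `n₃`. -/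
structure Geo (G : SimpleGraph V) (A B K : Finset V) (o c : V) (r n₃ : ℕ) : Prop where
  hA : Closed G A
  hB : Closed G B
  hAB : A ⊆ B
  hK : ∀ v, v ∈ K ↔ G.dist o v ≤ n₃
  hball : ∀ v, G.dist o v ≤ n₃ + 1 → v ∈ A
  hcr : G.dist o c ≤ r
  hc : c ∈ A

omit hG hd hR hc in
lemma Geo.KA (g : Geo G A B K o c r n₃) : K ⊆ A := fun v hv => g.hball v (by
  have := (g.hK v).1 hv; omega)

omit hG hd hR hc in
lemma Geo.ho (g : Geo G A B K o c r n₃) : o ∈ K := (g.hK o).2 (by simp)

variable (geo : Geo G A B K o c r n₃) (Y : ℕ → V × V → ℝ) (j₀ : ℕ)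
include geo

omit geo in
/-- The error of one step. -/
def stepErr (G : SimpleGraph V) (P : Prm) (A B K : Finset V) (ρ C Gg : ℝ) (r n₃ : ℕ)
    (Y : ℕ → V × V → ℝ) (l : ℕ) : ℝ :=
  (dP G P A B K Y l + 4 * C * (ρ ^ n₃)⁻¹) * (Gg * ρ ^ r)

/-- The change of the column at `c` inside `K`. -/
lemma wnorm_col_sub {n : ℕ} (hn : n ≤ i) :
    wnorm G B o 1 (fun x => if G.dist o x ≤ n₃ then
        resp G P B Y j₀ n x c - resp G P A Y j₀ n x c else 0) ≤
      C * wnorm G B o 1 (fun v => wvec G P B Y j₀ c n v - wvec G P A Y j₀ c n v) +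
        (dP G P A B K Y n + 2 * C * (ρ ^ n₃)⁻¹) * (Gg * ρ ^ r) := by
  have hρ0 : 0 ≤ ρ := zero_le_one.trans hc.one_le
  have hC := hc.C_nonneg
  set wA := wvec G P A Y j₀ c n with hwA
  set wB := wvec G P B Y j₀ c n
  set Gr := Gg * ρ ^ r with hGr
  have hwAb : wnorm G A o ρ wA ≤ Gr := (wnorm_wvec hG hd hR hc geo.hA o Y j₀ geo.hc hn).trans
    (mul_le_mul_of_nonneg_left (pow_le_pow_right₀ hc.one_le geo.hcr) hc.Gg_nonneg)
  set wo := fun x => if G.dist o x ≤ n₃ then 0 else wA x with hwo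
  have hwoA : wnorm G A o 1 wo ≤ (ρ ^ n₃)⁻¹ * Gr :=
    (wnorm_tail A o hc.one_le n₃ wA).trans
      (mul_le_mul_of_nonneg_left hwAb (by positivity))
  have hz : ∀ x ∈ B, x ∉ A → wo x = 0 := fun x _ hx => by
    simp [hwo, hwA, wvec_notMem Y j₀ geo.hc n x hx]
  set u := fun x => ∑ y ∈ B, pcov G P B Y n x y * (wB y - wA y)
  set v₁ := fun x => if x ∈ K then
    ∑ y ∈ K, (pcov G P B Y n x y - pcov G P A Y n x y) * wA y else 0
  set v₂ := fun x => ∑ y ∈ B, pcov G P B Y n x y * wo y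
  set v₃ := fun x => if x ∈ K then ∑ y ∈ A, pcov G P A Y n x y * wo y else 0
  have hfilt : A.filter (fun y => G.dist o y ≤ n₃) = K := by
    ext y
    rw [Finset.mem_filter, geo.hK]
    exact ⟨fun h => h.2, fun h => ⟨geo.KA ((geo.hK y).2 h), h⟩⟩
  have hdec : ∀ x ∈ K, resp G P B Y j₀ n x c - resp G P A Y j₀ n x c =
      u x + v₁ x + v₂ x - v₃ x := by
    intro x hx
    have split : ∀ f : V → ℝ, ∑ y ∈ A, f y * wA y =
        (∑ y ∈ K, f y * wA y) + ∑ y ∈ A, f y * wo y := fun f => by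
      rw [← hfilt, Finset.sum_filter, ← Finset.sum_add_distrib]
      refine Finset.sum_congr rfl fun y _ => ?_
      simp only [hwo]
      split_ifs <;> ring
    have e1 : ∑ y ∈ B, pcov G P B Y n x y * wA y = ∑ y ∈ A, pcov G P B Y n x y * wA y :=
      (Finset.sum_subset geo.hAB fun y _ hy => by
        simp [hwA, wvec_notMem Y j₀ geo.hc n y hy]).symm
    have e2 : ∑ y ∈ B, pcov G P B Y n x y * wo y = ∑ y ∈ A, pcov G P B Y n x y * wo y :=
      (Finset.sum_subset geo.hAB fun y hyB hy => by simp [hz y hyB hy]).symm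
    have e3 : resp G P B Y j₀ n x c = ∑ y ∈ B, pcov G P B Y n x y * wB y := rfl
    have e4 : resp G P A Y j₀ n x c = ∑ y ∈ A, pcov G P A Y n x y * wA y := rfl
    simp only [u, v₁, v₂, v₃, if_pos hx, mul_sub, sub_mul, Finset.sum_sub_distrib, e1, e2, e3,
      e4, split]
    ring
  set f := fun x => if G.dist o x ≤ n₃ then
    resp G P B Y j₀ n x c - resp G P A Y j₀ n x c else 0
  have htri : wnorm G B o 1 f ≤
      wnorm G B o 1 u + wnorm G B o 1 v₁ + wnorm G B o 1 v₂ + wnorm G B o 1 v₃ := by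
    have hneg : wnorm G B o 1 (fun x => -v₃ x) = wnorm G B o 1 v₃ := by
      refine le_antisymm ?_ ?_ <;> exact wnorm_mono B o 1 fun x _ => by rw [abs_neg]
    refine le_trans (wnorm_mono (u' := fun x => u x + v₁ x + v₂ x + -v₃ x) B o 1 fun x _ => ?_) ?_
    · simp only [f]
      split_ifs with h
      · rw [hdec x ((geo.hK x).2 h), sub_eq_add_neg]
      · simp
    · refine (wnorm_add_le B o 1 _ _).trans (le_trans (add_le_add ((wnorm_add_le B o 1 _ _).trans
        (add_le_add (wnorm_add_le B o 1 _ _) le_rfl)) hneg.le) le_rfl)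
  have h1 : wnorm G B o 1 u ≤ C * wnorm G B o 1 (fun v => wB v - wA v) :=
    pcov_op hG hd hR hc geo.hB o Y n _ (Or.inl rfl)
  have h2 : wnorm G B o 1 v₁ ≤ dP G P A B K Y n * Gr := by
    refine (wnorm_le_sum B o v₁).trans ?_
    unfold dP
    rw [Finset.sum_mul]
    rw [← Finset.sum_subset (geo.KA.trans geo.hAB) fun x _ hx => by simp [v₁, hx]]
    refine Finset.sum_le_sum fun x hx => ?_
    simp only [v₁, if_pos hx]
    rw [Finset.sum_mul]
    refine (Finset.abs_sum_le_sum_abs _ _).trans (Finset.sum_le_sum fun y hy => ?_)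
    rw [abs_mul]
    exact mul_le_mul (abs_pcov_sub hR A B Y n x y)
      ((abs_le_wnorm hc.one_le wA (geo.KA hy)).trans hwAb) (abs_nonneg _) (by positivity)
  have h3 : wnorm G B o 1 v₂ ≤ C * ((ρ ^ n₃)⁻¹ * Gr) := by
    refine (pcov_op hG hd hR hc geo.hB o Y n _ (Or.inl rfl)).trans ?_
    rw [wnorm_subset geo.hAB o 1 hz]
    exact mul_le_mul_of_nonneg_left hwoA hC
  have h4 : wnorm G B o 1 v₃ ≤ C * ((ρ ^ n₃)⁻¹ * Gr) := by
    rw [wnorm_subset geo.hAB o 1 fun x _ hx => by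
      simp [v₃, mt (fun h => geo.KA h) hx]]
    refine (wnorm_mono A o 1 fun x _ => ?_).trans
      ((pcov_op hG hd hR hc geo.hA o Y n wo (Or.inl rfl)).trans
        (mul_le_mul_of_nonneg_left hwoA hC))
    simp only [v₃]
    split_ifs <;> simp
  calc wnorm G B o 1 f ≤ _ := htri
    _ ≤ C * wnorm G B o 1 (fun v => wB v - wA v) + dP G P A B K Y n * Gr +
        C * ((ρ ^ n₃)⁻¹ * Gr) + C * ((ρ ^ n₃)⁻¹ * Gr) := by linarith
    _ = _ := by rw [hGr]; ring

/-- One step of the change of the linearised response. -/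
lemma wnorm_wvec_sub_step {n : ℕ} (hn : n ≤ i) (hne : n ≠ j₀) :
    wnorm G B o 1 (fun v => wvec G P B Y j₀ c (n + 1) v - wvec G P A Y j₀ c (n + 1) v) ≤
      (1 + P.h * (kap d P.η * C)) *
          wnorm G B o 1 (fun v => wvec G P B Y j₀ c n v - wvec G P A Y j₀ c n v) +
        P.h * kap d P.η * stepErr G P A B K ρ C Gg r n₃ Y n := by
  have hρ0 : 0 ≤ ρ := zero_le_one.trans hc.one_le
  have hC := hc.C_nonneg
  have hκ := kap_nonneg hR
  set Gr := Gg * ρ ^ r with hGr
  set kB := fun x => resp G P B Y j₀ n x c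
  set kA := fun x => resp G P A Y j₀ n x c
  set kin := fun x => if G.dist o x ≤ n₃ then kA x else 0 with hkin
  have hcol : ∀ E : Finset V, Closed G E → c ∈ E →
      wnorm G E o 1 (fun x => if G.dist o x ≤ n₃ then 0 else resp G P E Y j₀ n x c) ≤
        C * (ρ ^ n₃)⁻¹ * Gr := fun E hE hcE => by
    refine (wnorm_tail E o hc.one_le n₃ _).trans ?_
    rw [mul_comm C, mul_assoc]
    refine mul_le_mul_of_nonneg_left ((wnorm_col hG hd hR hc hE o Y j₀ hcE hn).trans ?_)
      (by positivity)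
    exact mul_le_mul_of_nonneg_left (mul_le_mul_of_nonneg_left
      (pow_le_pow_right₀ hc.one_le geo.hcr) hc.Gg_nonneg) hC
  have hq : ∀ v, qop G P B n kB v - qop G P A n kA v =
      qop G P B n (fun x => kB x - kin x) v + -qop G P A n (fun x => kA x - kin x) v := by
    intro v
    rw [qop_sub, qop_sub, qop_eq_of_support hG geo.hAB geo.hball n (u := kin)
      (fun x hx => by simp [hkin, not_le.2 hx]) v]
    ring
  have hbig : wnorm G B o 1 (fun x => kB x - kin x) ≤
      C * wnorm G B o 1 (fun v => wvec G P B Y j₀ c n v - wvec G P A Y j₀ c n v) +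
        (dP G P A B K Y n + 2 * C * (ρ ^ n₃)⁻¹) * Gr + C * (ρ ^ n₃)⁻¹ * Gr := by
    refine le_trans (le_of_eq ?_) ((wnorm_add_le B o 1 _ _).trans
      (add_le_add (wnorm_col_sub hG hd hR hc geo Y j₀ hn) (hcol B geo.hB (geo.hAB geo.hc))))
    congr 1
    funext x
    simp only [hkin, kB, kA]
    split_ifs <;> ring
  have hsmall : wnorm G A o 1 (fun x => kA x - kin x) ≤ C * (ρ ^ n₃)⁻¹ * Gr := by
    refine le_trans (le_of_eq ?_) (hcol A geo.hA geo.hc)
    congr 1
    funext x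
    simp only [hkin, kA]
    split_ifs <;> ring
  have hqb : wnorm G B o 1 (fun v => qop G P B n kB v - qop G P A n kA v) ≤
      kap d P.η * (C * wnorm G B o 1 (fun v => wvec G P B Y j₀ c n v - wvec G P A Y j₀ c n v) +
        stepErr G P A B K ρ C Gg r n₃ Y n) := by
    simp only [hq]
    refine (wnorm_add_le B o 1 _ _).trans ?_
    have hneg : wnorm G B o 1 (fun v => -qop G P A n (fun x => kA x - kin x) v) =
        wnorm G A o 1 (qop G P A n (fun x => kA x - kin x)) := by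
      rw [wnorm_subset geo.hAB o 1 fun x _ hx => by simp [qop_notMem n _ hx]]
      simp [wnorm]
    rw [hneg]
    have b1 := qop_op hG hd hR (B := B) o n (fun x => kB x - kin x) (le_refl (1 : ℝ))
    have b2 := qop_op hG hd hR (B := A) o n (fun x => kA x - kin x) (le_refl (1 : ℝ))
    rw [mul_one] at b1 b2
    refine (add_le_add (b1.trans (mul_le_mul_of_nonneg_left hbig hκ))
      (b2.trans (mul_le_mul_of_nonneg_left hsmall hκ))).trans (le_of_eq ?_)
    unfold stepErr
    rw [hGr]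
    ring
  have hwv : ∀ v, wvec G P B Y j₀ c (n + 1) v - wvec G P A Y j₀ c (n + 1) v =
      (wvec G P B Y j₀ c n v - wvec G P A Y j₀ c n v) +
        P.h * (qop G P B n kB v - qop G P A n kA v) := fun v => by
    simp only [wvec, if_neg hne, kB, kA, resp]
    ring
  simp only [hwv]
  refine (wnorm_add_le B o 1 _ _).trans ?_
  rw [wnorm_smul B o 1 _ P.h.coe_nonneg]
  refine (add_le_add_right (mul_le_mul_of_nonneg_left hqb P.h.coe_nonneg) _).trans (le_of_eq ?_)
  ring

/-- The accumulated change of the linearised response. -/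
lemma wnorm_wvec_sub :
    ∀ n ≤ i, wnorm G B o 1 (fun v => wvec G P B Y j₀ c n v - wvec G P A Y j₀ c n v) ≤
      (1 + P.h * (kap d P.η * C)) ^ n *
        (P.h * kap d P.η * ∑ l ∈ range n, stepErr G P A B K ρ C Gg r n₃ Y l) := by
  have hκ := kap_nonneg hR
  have hC := hc.C_nonneg
  have hb : 1 ≤ 1 + (P.h : ℝ) * (kap d P.η * C) := le_add_of_nonneg_right (by positivity)
  have he : ∀ l, 0 ≤ stepErr G P A B K ρ C Gg r n₃ Y l := fun l =>
    mul_nonneg (add_nonneg (dP_nonneg A B K Y l) (by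
      have : 0 ≤ ρ := zero_le_one.trans hc.one_le
      positivity)) (mul_nonneg hc.Gg_nonneg (pow_nonneg (zero_le_one.trans hc.one_le) _))
  intro n
  induction n with
  | zero => intro _; simp [wvec, wnorm]
  | succ n ih =>
    intro hn
    by_cases hne : n = j₀
    · subst hne
      refine le_trans (le_of_eq (by simp [wvec, wnorm])) (mul_nonneg (pow_nonneg (by linarith) _)
        (mul_nonneg (by positivity) (Finset.sum_nonneg fun l _ => he l)))
    · refine (wnorm_wvec_sub_step hG hd hR hc geo Y j₀ (by omega) hne).trans ?_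
      rw [Finset.sum_range_succ, mul_add (_ : ℝ), mul_add ((1 + _) ^ (n + 1))]
      refine add_le_add ?_ (le_mul_of_one_le_left (mul_nonneg (by positivity) (he n))
        (one_le_pow₀ hb))
      rw [pow_succ', mul_assoc]
      exact mul_le_mul_of_nonneg_left (ih (by omega)) (by linarith)

/-- The change of the response of `o` to `c`. -/
lemma abs_resp_change :
    |resp G P B Y j₀ i o c - resp G P A Y j₀ i o c| ≤
      C * (Gg * (kap d P.η * (Gg * ρ ^ r) *
          ((∑ l ∈ range i, (P.h : ℝ) * dP G P A B K Y l) + (i * P.h) * (4 * C * (ρ ^ n₃)⁻¹)))) +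
        (dP G P A B K Y i + 2 * C * (ρ ^ n₃)⁻¹) * (Gg * ρ ^ r) := by
  have hoB : o ∈ B := geo.hAB (geo.KA geo.ho)
  have h1 := abs_le_wnorm (G := G) (o := o) (le_refl (1 : ℝ)) (fun x => if G.dist o x ≤ n₃ then
    resp G P B Y j₀ i x c - resp G P A Y j₀ i x c else 0) hoB
  simp only [SimpleGraph.dist_self, Nat.zero_le, if_true] at h1
  refine (h1.trans (wnorm_col_sub hG hd hR hc geo Y j₀ le_rfl)).trans (add_le_add_left
    (mul_le_mul_of_nonneg_left ((wnorm_wvec_sub hG hd hR hc geo Y j₀ i le_rfl).trans ?_)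
      hc.C_nonneg) _)
  have hκ := kap_nonneg hR
  have hC := hc.C_nonneg
  have hρ0 : 0 ≤ ρ := zero_le_one.trans hc.one_le
  have hg : (1 + (P.h : ℝ) * (kap d P.η * C)) ^ i ≤ Gg := by
    refine (pow_le_pow_left₀ (by positivity) ?_ i).trans (hc.growth i le_rfl)
    refine add_le_add_right (mul_le_mul_of_nonneg_left ?_ P.h.coe_nonneg) _
    rw [mul_comm]
    exact mul_le_mul_of_nonneg_left (le_mul_of_one_le_right hκ hc.one_le) hC
  refine mul_le_mul hg (le_of_eq ?_) ?_ hc.Gg_nonneg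
  · simp only [stepErr, add_mul, mul_add, Finset.sum_add_distrib, Finset.sum_const,
      Finset.card_range, nsmul_eq_mul, Finset.mul_sum]
    congr 1
    · exact Finset.sum_congr rfl fun l _ => by ring
    · ring
  · refine mul_nonneg (by positivity) (Finset.sum_nonneg fun l _ => mul_nonneg
      (add_nonneg (dP_nonneg A B K Y l) (by positivity))
      (mul_nonneg hc.Gg_nonneg (by positivity)))

end

end Vale.Agent.P161.Edge.Sym
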