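import Vale.Agent.P161.Edge.SymVar
import Vale.Agent.P161.Edge.Model

/-!
A weighted squared response computed in a large ball has nearly the expectation of the one
computed in any closed set containing that ball.
-/

namespace Vale.Agent.P161.Edge.Sym

open MeasureTheory ProbabilityTheory Finset Function
open scoped NNReal Classical

noncomputable section

variable {V : Type} {G : SimpleGraph V} {d : ℕ} {P : Prm} {D : Finset V} {N : ℕ}

/-- Bounded measurable functionals of the observations. -/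
def Good (f : (ℕ → V × V → ℝ) → ℝ) : Prop :=
  MeasY (fun _ Y => f Y) ∧ ∃ B, ∀ Y, |f Y| ≤ B

lemma Good.const (c : ℝ) : Good (fun _ : ℕ → V × V → ℝ => c) :=
  ⟨fun _ _ _ _ _ => measurable_const, |c|, fun _ => le_rfl⟩

lemma Good.add {f f' : (ℕ → V × V → ℝ) → ℝ} (hf : Good f) (hf' : Good f') :
    Good fun Y => f Y + f' Y :=
  ⟨fun S β _ Y hY => (hf.1 S β Y hY).add (hf'.1 S β Y hY), _, fun Y =>
    (abs_add_le _ _).trans (add_le_add (hf.2.choose_spec Y) (hf'.2.choose_spec Y))⟩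

lemma Good.smul {f : (ℕ → V × V → ℝ) → ℝ} (hf : Good f) (c : ℝ) : Good fun Y => c * f Y :=
  ⟨fun S β _ Y hY => (hf.1 S β Y hY).const_mul c, _, fun Y => by
    rw [abs_mul]; exact mul_le_mul_of_nonneg_left (hf.2.choose_spec Y) (abs_nonneg c)⟩

lemma Good.sub {f f' : (ℕ → V × V → ℝ) → ℝ} (hf : Good f) (hf' : Good f') :
    Good fun Y => f Y - f' Y :=
  ⟨fun S β _ Y hY => (hf.1 S β Y hY).sub (hf'.1 S β Y hY), _, fun Y =>
    (abs_sub _ _).trans (add_le_add (hf.2.choose_spec Y) (hf'.2.choose_spec Y))⟩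

lemma Good.abs {f : (ℕ → V × V → ℝ) → ℝ} (hf : Good f) : Good fun Y => |f Y| :=
  ⟨fun S β _ Y hY => continuous_abs.measurable.comp (hf.1 S β Y hY), _, fun Y => by
    rw [abs_abs]; exact hf.2.choose_spec Y⟩

lemma Good.sum {κ : Type*} (s : Finset κ) {f : κ → (ℕ → V × V → ℝ) → ℝ}
    (hf : ∀ a ∈ s, Good (f a)) : Good fun Y => ∑ a ∈ s, f a Y := by
  induction s using Finset.induction with
  | empty => simpa using Good.const (V := V) 0
  | @insert a s ha ih =>
    simp only [Finset.sum_insert ha]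
    exact (hf a (Finset.mem_insert_self a s)).add (ih fun b hb => hf b (Finset.mem_insert_of_mem hb))

lemma Good.E_add {f f' : (ℕ → V × V → ℝ) → ℝ} (hf : Good f) (hf' : Good f') :
    E G P D N (fun _ Y => f Y + f' Y) = E G P D N (fun _ Y => f Y) + E G P D N (fun _ Y => f' Y) :=
  Edge.E_add hf.1 hf'.1 (fun _ => hf.2.choose_spec) fun _ => hf'.2.choose_spec

lemma Good.E_le {f f' : (ℕ → V × V → ℝ) → ℝ} (hf : Good f) (hf' : Good f')
    (h : ∀ Y, f Y ≤ f' Y) : E G P D N (fun _ Y => f Y) ≤ E G P D N (fun _ Y => f' Y) :=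
  E_mono hf.1 hf'.1 (fun _ => hf.2.choose_spec) (fun _ => hf'.2.choose_spec) fun _ _ Y => h Y

lemma Good.E_sub {f f' : (ℕ → V × V → ℝ) → ℝ} (hf : Good f) (hf' : Good f') :
    E G P D N (fun _ Y => f Y - f' Y) = E G P D N (fun _ Y => f Y) - E G P D N (fun _ Y => f' Y) := by
  have := Good.E_add (G := G) (P := P) (D := D) (N := N) (hf.sub hf') hf'
  simp only [sub_add_cancel] at this
  linarith

lemma Good.E_abs_le {f f' : (ℕ → V × V → ℝ) → ℝ} (hf : Good f) (hf' : Good f')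
    (h : ∀ Y, |f Y| ≤ f' Y) : |E G P D N (fun _ Y => f Y)| ≤ E G P D N (fun _ Y => f' Y) := by
  rw [abs_le]
  refine ⟨?_, hf.E_le hf' fun Y => (abs_le.1 (h Y)).2⟩
  have := (hf'.smul (-1)).E_le (G := G) (P := P) (D := D) (N := N) hf fun Y => by
    linarith [(abs_le.1 (h Y)).1]
  rw [E_const_mul] at this
  linarith

lemma Good.E_sum {κ : Type*} (s : Finset κ) {f : κ → (ℕ → V × V → ℝ) → ℝ}
    (hf : ∀ a ∈ s, Good (f a)) :
    E G P D N (fun _ Y => ∑ a ∈ s, f a Y) = ∑ a ∈ s, E G P D N (fun _ Y => f a Y) :=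
  Edge.E_sum s (B := fun a => if h : a ∈ s then (hf a h).2.choose else 0)
    (fun a ha => (hf a ha).1) fun a ha _ Y => by simp only [dif_pos ha]; exact (hf a ha).2.choose_spec Y

/-! ### The change of the first two moments -/

lemma good_avg {j : ℕ} (hθ : Par (thetaJ P j)) (D : Finset V) {f : (V → ℝ) → ℝ}
    (hf : ∀ S, |f (spin S)| ≤ 1) :
    Good fun Y => avg G (thetaJ P j) D (tilt G P D Y j) f :=
  ⟨fun _ _ _ _ hY => measurable_avg_comp _ _ (measurable_tilt P D hY j) f, 1,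
    fun _ => abs_avg_le hθ D (Fld.tanh _) hf⟩

lemma good_dP (hR : Reg d P) (A B K : Finset V) (l : ℕ) : Good fun Y => dP G P A B K Y l := by
  have h1 : ∀ x y, ∀ S : Finset V, |spin S x * spin S y| ≤ 1 := fun x y S => by
    rw [abs_mul, abs_spin, abs_spin, one_mul]
  have h2 : ∀ x, ∀ S : Finset V, |spin S x| ≤ 1 := fun x S => (abs_spin S x).le
  have hθ := (hR.par l).2.2.2
  exact Good.sum K fun x _ => Good.sum K fun y _ =>
    (((good_avg hθ B (h1 x y)).sub (good_avg hθ A (h1 x y))).abs.add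
      ((good_avg hθ B (h2 x)).sub (good_avg hθ A (h2 x))).abs).add
      ((good_avg hθ B (h2 y)).sub (good_avg hθ A (h2 y))).abs

/-- The gain bound. -/
def gainB (d : ℕ) (θ : ℝ) (n R : ℕ) : ℝ :=
  (64 * (d : ℝ) ^ (n + 3)) *
    ((((d : ℝ) - 1) * θ ^ 2) ^ (R - n) / (1 - ((d : ℝ) - 1) * θ ^ 2))

lemma E_abs_avg_change (hG : G.IsTree) (hd : Regular G d) (hR : Reg d P) (hh : P.h ≠ 0)
    (hθ2 : ((d : ℝ) - 1) * P.θ ^ 2 < 1) {A B : Finset V} {o : V} {n R i l : ℕ}
    (hA : Closed G A) (hB : Closed G B) (hAB : A ⊆ B) (hl : l ≤ i) (hn : n ≤ R)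
    (hball : ∀ v, G.dist o v ≤ R → v ∈ A) {f : (V → ℝ) → ℝ} (hf : ∀ S, |f (spin S)| ≤ 1)
    (hdep : ∀ s s' : V → ℝ, (∀ v, G.dist o v ≤ n → s v = s' v) → f s = f s') {δ : ℝ} (hδ : 0 < δ) :
    E G P B i (fun _ Y => |avg G (thetaJ P l) B (tilt G P B Y l) f -
        avg G (thetaJ P l) A (tilt G P A Y l) f|) ≤ δ + gainB d P.θ n R / (4 * δ) := by
  set φ : (V → ℝ) → ℝ := fun s => max (-1) (min 1 (f s))
  have hφ : ∀ s, |φ s| ≤ 1 := fun s =>
    abs_le.2 ⟨le_max_left _ _, max_le (by norm_num) (min_le_left _ _)⟩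
  have hθl := (hR.par l).2.2.2
  have he : ∀ (D : Finset V) (g : V → ℝ),
      avg G (thetaJ P l) D g f = avg G (thetaJ P l) D g φ := fun D g => by
    unfold avg
    rw [Sm_congr (f := f) (f' := φ) (fun _ _ => rfl) fun S _ => ?_]
    obtain ⟨a, b⟩ := abs_le.1 (hf S)
    simp [φ, min_eq_right b, max_eq_right a]
  simp only [he]
  set X : (ℕ → V × V → ℝ) → ℝ := fun Y => avg G (thetaJ P l) B (tilt G P B Y l) φ -
    avg G (thetaJ P l) A (tilt G P A Y l) φ
  have hX : Good X := (good_avg hθl B fun S => hφ _).sub (good_avg hθl A fun S => hφ _)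
  have hX2 : Good fun Y => X Y ^ 2 := ⟨fun S β _ Y hY => (hX.1 S β Y hY).pow_const 2,
    hX.2.choose ^ 2, fun Y => by
      rw [abs_pow]; exact pow_le_pow_left₀ (abs_nonneg _) (hX.2.choose_spec Y) 2⟩
  have hg : E G P B i (fun _ Y => X Y ^ 2) ≤ gainB d P.θ n R :=
    Mdl.gain genLawStmt hG hR.deg hd P hR.nonneg hR.lt_one hh hR.eta hR.tau hA hB hAB hl hn hball
      (fun s s' h => by simp only [φ]; rw [hdep s s' h]) hφ (sq_nonneg P.θ)
      (pow_le_pow_left₀ (hR.par l).1 (hR.par l).2.1 2) hθ2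
  refine (hX.abs.E_le ((Good.const δ).add (hX2.smul (1 / (4 * δ)))) fun Y => ?_).trans ?_
  · rw [← sub_nonneg]
    have : δ + 1 / (4 * δ) * X Y ^ 2 - |X Y| = (|X Y| - 2 * δ) ^ 2 / (4 * δ) := by
      rw [← sq_abs (X Y)]
      field_simp
      ring
    rw [this]
    positivity
  · rw [Good.E_add (Good.const δ) (hX2.smul _), E_const, E_const_mul, one_div_mul_eq_div]
    exact add_le_add_right (div_le_div_of_nonneg_right hg (by positivity)) _

lemma E_dP_le (hG : G.IsTree) (hd : Regular G d) (hR : Reg d P) (hh : P.h ≠ 0)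
    (hθ2 : ((d : ℝ) - 1) * P.θ ^ 2 < 1) {A B K : Finset V} {o : V} {n R i l : ℕ}
    (hA : Closed G A) (hB : Closed G B) (hAB : A ⊆ B) (hK : ∀ v ∈ K, G.dist o v ≤ n)
    (hl : l ≤ i) (hn : n ≤ R) (hball : ∀ v, G.dist o v ≤ R → v ∈ A) {δ : ℝ} (hδ : 0 < δ) :
    E G P B i (fun _ Y => dP G P A B K Y l) ≤
      3 * (K.card : ℝ) ^ 2 * (δ + gainB d P.θ n R / (4 * δ)) := by
  set e := δ + gainB d P.θ n R / (4 * δ)
  have h1 : ∀ x y, ∀ S : Finset V, |spin S x * spin S y| ≤ 1 := fun x y S => by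
    rw [abs_mul, abs_spin, abs_spin, one_mul]
  have h2 : ∀ x, ∀ S : Finset V, |spin S x| ≤ 1 := fun x S => (abs_spin S x).le
  have hθ := (hR.par l).2.2.2
  have g1 := fun x y =>
    ((good_avg (G := G) (f := fun s => s x * s y) hθ B (h1 x y)).sub
      (good_avg (G := G) (f := fun s => s x * s y) hθ A (h1 x y))).abs
  have g2 := fun x =>
    ((good_avg (G := G) (f := fun s => s x) hθ B (h2 x)).sub
      (good_avg (G := G) (f := fun s => s x) hθ A (h2 x))).abs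
  have hgs := fun x y => ((g1 x y).add (g2 x)).add (g2 y)
  unfold dP mean
  rw [Good.E_sum K fun x _ => Good.sum K fun y _ => hgs x y]
  refine (Finset.sum_le_card_nsmul K _ ((K.card : ℝ) * (3 * e)) fun x hx => ?_).trans_eq (by
    rw [nsmul_eq_mul]; ring)
  rw [Good.E_sum K fun y _ => hgs x y]
  refine (Finset.sum_le_card_nsmul K _ (3 * e) fun y hy => ?_).trans_eq (by rw [nsmul_eq_mul])
  rw [Good.E_add ((g1 x y).add (g2 x)) (g2 y), Good.E_add (g1 x y) (g2 x)]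
  have b1 := E_abs_avg_change (f := fun s => s x * s y) hG hd hR hh hθ2 hA hB hAB hl hn hball
    (h1 x y)
    (fun s s' h => by simp only [h x (hK x hx), h y (hK y hy)]) hδ
  have b2 := E_abs_avg_change (f := fun s => s x) hG hd hR hh hθ2 hA hB hAB hl hn hball (h2 x)
    (fun s s' h => h x (hK x hx)) hδ
  have b3 := E_abs_avg_change (f := fun s => s y) hG hd hR hh hθ2 hA hB hAB hl hn hball (h2 y)
    (fun s s' h => h y (hK y hy)) hδ
  linarith

/-! ### The weighted squared response -/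

/-- The weight at `c`. -/
def wq (G : SimpleGraph V) (P : Prm) (F : ℝ → ℝ) (D : Finset V) (Y : ℕ → V × V → ℝ) (i : ℕ)
    (c : V) : ℝ :=
  F (pmean G P D Y i c ^ 2 * sqSJ G P D Y i c ^ 2)

/-- The weighted squared response. -/
def fq (G : SimpleGraph V) (P : Prm) (F : ℝ → ℝ) (D : Finset V) (Y : ℕ → V × V → ℝ) (j₀ i : ℕ)
    (c z : V) : ℝ :=
  wq G P F D Y i c * resp G P D Y j₀ i c z ^ 2

/-- Admissible weight transforms: Lipschitz, and bounded by `Wd` on `[0, b]`. -/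
structure FOk (F : ℝ → ℝ) (b Wd : ℝ) : Prop where
  lip : ∀ x y, |F x - F y| ≤ |x - y|
  range : ∀ x, 0 ≤ x → x ≤ b → 0 ≤ F x ∧ F x ≤ Wd

lemma FOk.measurable {F : ℝ → ℝ} {b Wd : ℝ} (hF : FOk F b Wd) : Measurable F :=
  (LipschitzWith.of_dist_le_mul (K := 1) fun x y => by
    rw [NNReal.coe_one, one_mul, Real.dist_eq, Real.dist_eq]
    exact hF.lip x y).continuous.measurable

lemma measY_fq {F : ℝ → ℝ} (hF : Measurable F) (D : Finset V) (j₀ i : ℕ) (c z : V) :
    MeasY (fun _ Y => fq G P F D Y j₀ i c z) := fun _ _ _ _ hY =>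
  (hF.comp (((measurable_pmean P D hY i c).pow_const 2).mul
    ((measurable_sqSJ P D hY i c).pow_const 2))).mul
      ((measurable_resp P D hY j₀ i c z).pow_const 2)

lemma fq_congr (F : ℝ → ℝ) (D : Finset V) {Y Y' : ℕ → V × V → ℝ} {j₀ i : ℕ}
    (h : ∀ k < i, ∀ l ∈ obsIx G D, Y k l = Y' k l) (c z : V) :
    fq G P F D Y j₀ i c z = fq G P F D Y' j₀ i c z := by
  unfold fq wq pmean sqSJ resp tilt
  rw [fieldH_congr h, pcov_congr h, wvec_congr j₀ z fun k hk => h k (by omega)]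

variable {i j₀ : ℕ} {ρ C Gg Wd : ℝ} {F : ℝ → ℝ} (hT : TreeStmt) (hG : G.IsTree)
  (hd : Regular G d) (hR : Reg d P) (hc : Cst d P i ρ C Gg) (hj : j₀ < i)
  (hθ2 : ((d : ℝ) - 1) * P.θ ^ 2 < 1) (hF : FOk F (sB d P.θ ^ 2) Wd)
include hT hG hd hR hc hj hθ2 hF

omit hc hj in
lemma wq_bounds (hD : Closed G D) (Y : ℕ → V × V → ℝ) {c : V} (hcD : c ∈ D) :
    0 ≤ wq G P F D Y i c ∧ wq G P F D Y i c ≤ Wd := by
  refine hF.range _ (by positivity) ?_
  have h0 := (sqSJ_bounds hT hG hd hR hD Y i hcD).1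
  refine le_trans (mul_le_mul ?_ (pow_le_pow_left₀ h0 (sqSJ_le hT hG hd hR hθ2 hD Y i hcD) 2)
    (sq_nonneg _) zero_le_one) (one_mul _).le
  rw [← sq_abs]
  exact pow_le_one₀ (abs_nonneg _) (abs_mf_le (hR.par i).2.2.2 D _ c)

lemma fq_bounds (hD : Closed G D) (Y : ℕ → V × V → ℝ) {c z : V} (hcD : c ∈ D) (hz : z ∈ D) :
    0 ≤ fq G P F D Y j₀ i c z ∧ fq G P F D Y j₀ i c z ≤ Wd * (C * Gg) ^ 2 := by
  obtain ⟨h0, h1⟩ := wq_bounds hT hG hd hR hθ2 hF (i := i) hD Y hcD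
  refine ⟨mul_nonneg h0 (sq_nonneg _), mul_le_mul h1 ?_ (sq_nonneg _) (h0.trans h1)⟩
  rw [← sq_abs]
  exact pow_le_pow_left₀ (abs_nonneg _) (abs_resp_sub hG hd hR hc hD hcD hz Y hj) 2

lemma good_fq (hD : Closed G D) {c z : V} (hcD : c ∈ D) (hz : z ∈ D) :
    Good fun Y => fq G P F D Y j₀ i c z :=
  ⟨measY_fq hF.measurable D j₀ i c z, Wd * (C * Gg) ^ 2, fun Y => by
    obtain ⟨h0, h1⟩ := fq_bounds hT hG hd hR hc hj hθ2 hF hD Y hcD hz
    rwa [abs_of_nonneg h0]⟩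

/-- The weighted squared response at `(o, c)` changes little between a large ball and a closed
set containing it. -/
theorem pair_bound (hh : P.h ≠ 0) {A B K : Finset V} {o c : V} {r n₃ R : ℕ}
    (geo : Geo G A B K o c r n₃) (hn : n₃ ≤ R) (hball : ∀ v, G.dist o v ≤ R → v ∈ A)
    {T Hm δ : ℝ} (hiT : (i : ℝ) * P.h ≤ T) (hH : 0 < Hm) (hδ : 0 < δ) :
    |E G P B i (fun _ Y => fq G P F B Y j₀ i o c) - E G P A i (fun _ Y => fq G P F A Y j₀ i o c)| ≤
      (2 * Wd * (C * Gg) * (C * Gg * kap d P.η * (Gg * ρ ^ r))) *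
          (T * (3 * (K.card : ℝ) ^ 2 * (δ + gainB d P.θ n₃ R / (4 * δ)))) +
        (2 * Wd * (C * Gg) * (Gg * ρ ^ r) + (C * Gg) ^ 2 * (2 * sB d P.θ ^ 2 +
            2 * sB d P.θ * (4 * K.card * ((1 + ratK d P.θ) ^ 2 * Real.exp (2 * Hm))))) *
          (3 * (K.card : ℝ) ^ 2 * (δ + gainB d P.θ n₃ R / (4 * δ))) +
        2 * Wd * (C * Gg) * ((C * Gg * kap d P.η * (Gg * ρ ^ r) * (T * (4 * C)) +
            2 * C * (Gg * ρ ^ r))) * (ρ ^ n₃)⁻¹ +
        (C * Gg) ^ 2 * (4 * sB d P.θ) * tauB d P.θ n₃ +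
        (C * Gg) ^ 2 * (2 * sB d P.θ ^ 2) * (fieldB d P.η T / Hm ^ 2) := by
  have hoA : o ∈ A := geo.KA geo.ho
  have hoB : o ∈ B := geo.hAB hoA
  have hcB : c ∈ B := geo.hAB geo.hc
  set M := C * Gg with hM
  set Gr := Gg * ρ ^ r
  set κ := kap d P.η
  set s := sB d P.θ
  set Λ := 4 * (K.card : ℝ) * ((1 + ratK d P.θ) ^ 2 * Real.exp (2 * Hm))
  set q := (ρ ^ n₃)⁻¹
  set τ := tauB d P.θ n₃
  set e := 3 * (K.card : ℝ) ^ 2 * (δ + gainB d P.θ n₃ R / (4 * δ))
  set a₁ := 2 * Wd * M * (M * κ * Gr)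
  set a₂ := 2 * Wd * M * Gr + M ^ 2 * (2 * s ^ 2 + 2 * s * Λ)
  set a₀ := 2 * Wd * M * (M * κ * Gr * (T * (4 * C)) + 2 * C * Gr) * q + M ^ 2 * (4 * s) * τ
  set a₅ := M ^ 2 * (2 * s ^ 2)
  have hρ0 : 0 ≤ ρ := zero_le_one.trans hc.one_le
  have hC := hc.C_nonneg
  have hM0 : 0 ≤ M := mul_nonneg hC hc.Gg_nonneg
  have hGr : 0 ≤ Gr := mul_nonneg hc.Gg_nonneg (pow_nonneg hρ0 r)
  have hκ : 0 ≤ κ := kap_nonneg hR
  have hT0 : 0 ≤ T := le_trans (by positivity) hiT
  have hW : 0 ≤ Wd := by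
    obtain ⟨h0, h1⟩ := hF.range 0 le_rfl (sq_nonneg _)
    exact h0.trans h1
  have hs : 0 ≤ s := div_nonneg (Nat.cast_nonneg d) (by linarith)
  have hΛ : 0 ≤ Λ := by have := one_le_ratK (d := d) hR.nonneg hR.lt_one; positivity
  set ind : (ℕ → V × V → ℝ) → ℝ := fun Y => if Hm < |fieldH G P B Y i o| then 1 else 0
  have hind : Good ind := ⟨fun S β _ Y hY => Measurable.ite
      (measurableSet_lt measurable_const
        (continuous_abs.measurable.comp (measurable_fieldH P B hY i o)))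
      measurable_const measurable_const, 1, fun Y => by
        simp only [ind]; split_ifs <;> norm_num⟩
  set sumP : (ℕ → V × V → ℝ) → ℝ := fun Y => ∑ l ∈ range i, (P.h : ℝ) * dP G P A B K Y l
  have hsumP : Good sumP := Good.sum _ fun l _ => (good_dP hR A B K l).smul _
  have hdPi := good_dP (G := G) hR A B K i
  have hfB := good_fq hT hG hd hR hc hj hθ2 hF geo.hB hoB hcB
  have hfA := good_fq hT hG hd hR hc hj hθ2 hF geo.hA hoA geo.hc
  have hpt : ∀ Y, |fq G P F B Y j₀ i o c - fq G P F A Y j₀ i o c| ≤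
      a₁ * sumP Y + a₂ * dP G P A B K Y i + a₀ + a₅ * ind Y := by
    intro Y
    have hd0 : 0 ≤ dP G P A B K Y i := dP_nonneg A B K Y i
    have hsp0 : 0 ≤ sumP Y := Finset.sum_nonneg fun l _ =>
      mul_nonneg P.h.coe_nonneg (dP_nonneg A B K Y l)
    have hdr : |resp G P B Y j₀ i o c - resp G P A Y j₀ i o c| ≤
        M * κ * Gr * sumP Y + Gr * dP G P A B K Y i + (M * κ * Gr * (T * (4 * C)) + 2 * C * Gr) * q := by
      refine (abs_resp_change hG hd hR hc geo Y j₀).trans ?_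
      have h := mul_le_mul_of_nonneg_left (mul_le_mul_of_nonneg_right hiT
        (show 0 ≤ 4 * C * q by positivity)) (mul_nonneg (mul_nonneg hM0 hκ) hGr)
      simp only [sumP, M, κ, Gr, q] at h ⊢
      linarith
    have hrB := abs_resp_sub hG hd hR hc geo.hB hoB hcB Y hj
    have hrA := abs_resp_sub hG hd hR hc geo.hA hoA geo.hc Y hj
    obtain ⟨hw0, hw1⟩ := wq_bounds hT hG hd hR hθ2 hF (i := i) geo.hB Y hoB
    have hm : ∀ E : Finset V, |pmean G P E Y i o| ≤ 1 := fun E => abs_mf_le (hR.par i).2.2.2 E _ o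
    have hdm : |pmean G P B Y i o - pmean G P A Y i o| ≤ dP G P A B K Y i := by
      refine le_trans ?_ (single_le_dP Y i geo.ho geo.ho)
      refine le_trans (le_of_eq ?_) (le_add_of_nonneg_left (by positivity))
      simp only [pmean, mf, if_pos hoA, if_pos hoB]
      rfl
    have hdS := abs_sqSJ_change hT hG hd hR hθ2 geo Y i (Hm := Hm)
    have hSB0 := (sqSJ_bounds hT hG hd hR geo.hB Y i hoB).1
    have hSA0 := (sqSJ_bounds hT hG hd hR geo.hA Y i hoA).1
    have hSB := sqSJ_le hT hG hd hR hθ2 geo.hB Y i hoB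
    have hSA := sqSJ_le hT hG hd hR hθ2 geo.hA Y i hoA
    have hdw : |wq G P F B Y i o - wq G P F A Y i o| ≤
        (2 * s ^ 2 + 2 * s * Λ) * dP G P A B K Y i + 4 * s * τ + 2 * s ^ 2 * ind Y := by
      refine (hF.lip _ _).trans ?_
      set mB := pmean G P B Y i o
      set mA := pmean G P A Y i o
      set SB := sqSJ G P B Y i o
      set SA := sqSJ G P A Y i o
      have e1 : mB ^ 2 * SB ^ 2 - mA ^ 2 * SA ^ 2 =
          (mB - mA) * ((mB + mA) * SB ^ 2) + (SB - SA) * (mA ^ 2 * (SB + SA)) := by ring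
      rw [e1]
      have b1 : |(mB + mA) * SB ^ 2| ≤ 2 * s ^ 2 := by
        rw [abs_mul, abs_pow, sq_abs]
        exact mul_le_mul ((abs_add_le _ _).trans (by linarith [hm A, hm B]))
          (pow_le_pow_left₀ hSB0 hSB 2) (sq_nonneg _) (by norm_num)
      have b2 : |mA ^ 2 * (SB + SA)| ≤ 2 * s := by
        rw [abs_mul, abs_of_nonneg (add_nonneg hSB0 hSA0), abs_pow]
        calc |mA| ^ 2 * (SB + SA) ≤ 1 * (2 * s) :=
              mul_le_mul (pow_le_one₀ (abs_nonneg _) (hm A)) (by linarith) (by linarith) zero_le_one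
          _ = _ := one_mul _
      refine (abs_add_le _ _).trans ?_
      rw [abs_mul (mB - mA), abs_mul (SB - SA)]
      refine (add_le_add (mul_le_mul hdm b1 (abs_nonneg _) hd0)
        (mul_le_mul hdS b2 (abs_nonneg _) ((abs_nonneg _).trans hdS))).trans (le_of_eq ?_)
      simp only [Λ, τ, s, ind]
      ring
    have e2 : fq G P F B Y j₀ i o c - fq G P F A Y j₀ i o c =
        (resp G P B Y j₀ i o c - resp G P A Y j₀ i o c) *
            (wq G P F B Y i o * (resp G P B Y j₀ i o c + resp G P A Y j₀ i o c)) +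
          (wq G P F B Y i o - wq G P F A Y i o) * resp G P A Y j₀ i o c ^ 2 := by
      unfold fq; ring
    rw [e2]
    refine (abs_add_le _ _).trans ?_
    rw [abs_mul, abs_mul, abs_mul, abs_of_nonneg hw0, abs_pow]
    refine (add_le_add (mul_le_mul hdr (mul_le_mul hw1
        ((abs_add_le _ _).trans (add_le_add hrB hrA)) (abs_nonneg _) hW)
        (by positivity) ((abs_nonneg _).trans hdr))
      (mul_le_mul hdw (pow_le_pow_left₀ (abs_nonneg _) hrA 2) (by positivity)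
        ((abs_nonneg _).trans hdw))).trans (le_of_eq ?_)
    simp only [a₀, a₁, a₂, a₅, M]
    ring
  have hA' : E G P B i (fun _ Y => fq G P F A Y j₀ i o c) =
      E G P A i (fun _ Y => fq G P F A Y j₀ i o c) :=
    Mdl.E_marginal hG P hR.nonneg hR.lt_one geo.hA ⟨o, hoA⟩ geo.hB geo.hAB le_rfl
      (adm_of hfA.1 fun _ => hfA.2.choose_spec)
      fun S S' Y Y' _ h => fq_congr F A (fun k hk l hl => h k hk l hl (Finset.notMem_empty _)) o c
  rw [← hA', ← Good.E_sub hfB hfA]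
  have g1 := hsumP.smul a₁
  have g2 := hdPi.smul a₂
  have g3 := g1.add g2
  have g4 := g3.add (Good.const a₀)
  refine ((hfB.sub hfA).E_abs_le (g4.add (hind.smul a₅)) hpt).trans ?_
  rw [g4.E_add (hind.smul a₅), g3.E_add (Good.const a₀), g1.E_add g2, E_const_mul, E_const_mul,
    E_const_mul, E_const]
  have hK : ∀ v ∈ K, G.dist o v ≤ n₃ := fun v hv => (geo.hK v).1 hv
  have he : ∀ l ≤ i, E G P B i (fun _ Y => dP G P A B K Y l) ≤ e := fun l hl =>
    E_dP_le hG hd hR hh hθ2 geo.hA geo.hB geo.hAB hK hl hn hball hδ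
  have e0 : 0 ≤ e :=
    (E_nonneg fun S _ Y => dP_nonneg A B K Y i).trans (he i le_rfl)
  have hs1 : E G P B i (fun _ Y => sumP Y) ≤ T * e := by
    simp only [sumP]
    rw [Good.E_sum _ fun l _ => (good_dP hR A B K l).smul _]
    refine (Finset.sum_le_card_nsmul _ _ ((P.h : ℝ) * e) fun l hl => ?_).trans ?_
    · rw [E_const_mul]
      exact mul_le_mul_of_nonneg_left (he l (Finset.mem_range.1 hl).le) P.h.coe_nonneg
    · rw [nsmul_eq_mul, Finset.card_range, ← mul_assoc]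
      exact mul_le_mul_of_nonneg_right hiT e0
  have hi := E_field_tail hd hR.deg P hR.eta B o i hiT hH
  have := mul_le_mul_of_nonneg_left hs1 (show 0 ≤ a₁ by positivity)
  have := mul_le_mul_of_nonneg_left (he i le_rfl) (show 0 ≤ a₂ by positivity)
  have := mul_le_mul_of_nonneg_left hi (show 0 ≤ a₅ by positivity)
  simp only [a₀, ind] at *
  linarith

end

end Vale.Agent.P161.Edge.Sym
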