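import Vale.Agent.P161.Edge.SymBound
import Vale.Agent.P161.Edge.ProbE
import Vale.Agent.P161.Edge.Model

/-!
A lower bound on the posterior variance in terms of the field at the vertex, the second moment
of that field, and the effect of outside observations on the squared regression sums.
-/

namespace Vale.Agent.P161.Edge.Sym

open MeasureTheory ProbabilityTheory Finset Function
open scoped NNReal Classical

noncomputable section

variable {V : Type} {G : SimpleGraph V} {d : ℕ}

/-- The largest ratio of weights of configurations differing at one vertex. -/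
def ratK (d : ℕ) (θ : ℝ) : ℝ := ((1 + θ) / (1 - θ)) ^ d

lemma one_le_ratK {θ : ℝ} (h0 : 0 ≤ θ) (h1 : θ < 1) : 1 ≤ ratK d θ :=
  one_le_pow₀ ((one_le_div (by linarith)).2 (by linarith))

lemma wt_ratio (hd : Regular G d) (hd3 : 3 ≤ d) {θ θ₁ : ℝ} (hθ : Par θ) (hle : θ ≤ θ₁)
    (hθ₁ : θ₁ < 1) (D : Finset V) (o : V) {S S' : Finset V}
    (h : ∀ v, v ≠ o → spin S v = spin S' v) :
    wt G θ D (spin S) ≤ ratK d θ₁ * wt G θ D (spin S') := by
  set q := (1 + θ₁) / (1 - θ₁)
  have hq : 1 ≤ q := (one_le_div (by linarith)).2 (by linarith [hθ.1])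
  have hcard : ((edgesIn G D).filter fun e => o ∈ e).card ≤ d := by
    refine le_trans (Finset.card_le_card (fun e he => ?_))
      ((Finset.card_image_le (f := fun u => s(o, u))).trans (card_nbrs_le hd hd3 D o))
    induction e using Sym2.ind with
    | _ a b =>
      simp only [edgesIn, Finset.mem_filter, Finset.mk_mem_sym2_iff, SimpleGraph.mem_edgeSet,
        Sym2.mem_iff] at he
      rw [Finset.mem_image]
      rcases he.2 with rfl | rfl
      · exact ⟨b, Finset.mem_filter.2 ⟨he.1.1.2, he.1.2⟩, rfl⟩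
      · exact ⟨a, Finset.mem_filter.2 ⟨he.1.1.1, he.1.2.symm⟩, Sym2.eq_swap⟩
  have hfac : ∀ e ∈ edgesIn G D, edgeFactor θ (spin S) e ≤
      (if o ∈ e then q else 1) * edgeFactor θ (spin S') e := by
    intro e _
    induction e using Sym2.ind with
    | _ a b =>
      split_ifs with ho
      · have hb : ∀ T : Finset V, 1 - θ₁ ≤ edgeFactor θ (spin T) s(a, b) ∧
            edgeFactor θ (spin T) s(a, b) ≤ 1 + θ₁ := fun T => by
          rw [edgeFactor_mk, mul_assoc]
          have : |spin T a * spin T b| ≤ 1 := by rw [abs_mul, abs_spin, abs_spin, one_mul]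
          obtain ⟨l, u⟩ := abs_le.1 this
          constructor <;> nlinarith [hθ.1]
        calc edgeFactor θ (spin S) s(a, b) ≤ 1 + θ₁ := (hb S).2
          _ = q * (1 - θ₁) := by
              have : (1 : ℝ) - θ₁ ≠ 0 := by linarith
              simp only [q]; field_simp
          _ ≤ _ := mul_le_mul_of_nonneg_left (hb S').1 (zero_le_one.trans hq)
      · simp only [Sym2.mem_iff, not_or] at ho
        rw [one_mul, edgeFactor_mk, edgeFactor_mk, h a (Ne.symm ho.1), h b (Ne.symm ho.2)]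
  have hpos : ∀ e, 0 ≤ edgeFactor θ (spin S) e := fun e => by
    induction e using Sym2.ind with
    | _ a b =>
      rw [edgeFactor_mk, mul_assoc]
      have : |spin S a * spin S b| ≤ 1 := by rw [abs_mul, abs_spin, abs_spin, one_mul]
      nlinarith [(abs_le.1 this).1, hθ.1, hθ.2]
  unfold wt
  refine (Finset.prod_le_prod (fun e _ => hpos e) hfac).trans ?_
  rw [Finset.prod_mul_distrib, Finset.prod_ite, Finset.prod_const, Finset.prod_const, one_pow,
    mul_one]
  exact mul_le_mul_of_nonneg_right (pow_le_pow_right₀ hq hcard) (wt_pos (G := G) hθ D S').le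

lemma var_free (hd : Regular G d) (hd3 : 3 ≤ d) {θ θ₁ : ℝ} (hθ : Par θ) (hle : θ ≤ θ₁)
    (hθ₁ : θ₁ < 1) {D : Finset V} {o : V} (ho : o ∈ D) {g : V → ℝ} (hg : Fld g) (hgo : g o = 0) :
    4 / (1 + ratK d θ₁) ^ 2 ≤ 1 - mean G θ D g o ^ 2 := by
  set K := ratK d θ₁
  have hK : 1 ≤ K := one_le_ratK (hθ.1.trans hle) hθ₁
  set u := fun S : Finset V => wt G θ D (spin S) * ∏ v ∈ D, (1 + g v * spin S v) with hu
  set Up := ∑ T ∈ (D.erase o).powerset, u (insert o T)
  set Um := ∑ T ∈ (D.erase o).powerset, u T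
  have hsp : ∀ f : (V → ℝ) → ℝ, Sm G θ D g f = ∑ T ∈ (D.erase o).powerset, u T * f (spin T) +
      ∑ T ∈ (D.erase o).powerset, u (insert o T) * f (spin (insert o T)) := by
    intro f
    unfold Sm
    conv_lhs => rw [← Finset.insert_erase ho, Finset.sum_powerset_insert (Finset.notMem_erase o D)]
    simp only [Finset.insert_erase ho, hu]
  have hoT : ∀ T ∈ (D.erase o).powerset, o ∉ T := fun T hT h =>
    Finset.notMem_erase o D (Finset.mem_powerset.1 hT h)
  have hZ : Sm G θ D g (fun _ => 1) = Um + Up := by simp [hsp, Um, Up]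
  have hM : Sm G θ D g (fun s => s o) = -Um + Up := by
    rw [hsp]
    congr 1
    · rw [← Finset.sum_neg_distrib]
      exact Finset.sum_congr rfl fun T hT => by rw [spin_notMem (hoT T hT)]; ring
    · exact Finset.sum_congr rfl fun T _ => by rw [spin_insert_self]; ring
  have hr : ∀ S S' : Finset V, (∀ v, v ≠ o → spin S v = spin S' v) → u S ≤ K * u S' := by
    intro S S' h
    simp only [hu]
    rw [← mul_assoc, Finset.prod_congr rfl fun v _ => show 1 + g v * spin S v =
      1 + g v * spin S' v by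
        by_cases e : v = o
        · subst e; rw [hgo]; ring
        · rw [h v e]]
    exact mul_le_mul_of_nonneg_right (wt_ratio hd hd3 hθ hle hθ₁ D o h) (tilt_pos hg D S').le
  have r1 : Um ≤ K * Up := by
    rw [Finset.mul_sum]
    exact Finset.sum_le_sum fun T _ => hr _ _ fun v hv => (spin_insert_of_ne hv).symm
  have r2 : Up ≤ K * Um := by
    rw [Finset.mul_sum]
    exact Finset.sum_le_sum fun T _ => hr _ _ fun v hv => spin_insert_of_ne hv
  have hpos := Sm_one_pos (G := G) hθ D hg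
  rw [hZ] at hpos
  have e : 1 - mean G θ D g o ^ 2 = 4 * (Up / (Um + Up)) * (Um / (Um + Up)) := by
    unfold mean avg
    rw [hZ, hM]
    field_simp
    ring
  have l1 : 1 / (1 + K) ≤ Up / (Um + Up) := by
    rw [div_le_div_iff₀ (by linarith) hpos]; linarith
  have l2 : 1 / (1 + K) ≤ Um / (Um + Up) := by
    rw [div_le_div_iff₀ (by linarith) hpos]; linarith
  rw [e, mul_assoc, show 4 / (1 + K) ^ 2 = 4 * (1 / (1 + K) * (1 / (1 + K))) by
    rw [div_mul_div_comm, one_mul, ← sq]; ring]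
  exact mul_le_mul_of_nonneg_left
    (mul_le_mul l1 l2 (by positivity) (le_trans (by positivity) l1)) (by norm_num)

/-- The posterior variance at a vertex is bounded below through the field there. -/
lemma var_lower (hd : Regular G d) (hd3 : 3 ≤ d) {θ θ₁ : ℝ} (hθ : Par θ) (hle : θ ≤ θ₁)
    (hθ₁ : θ₁ < 1) {D : Finset V} {o : V} (ho : o ∈ D) (H : V → ℝ) :
    ((1 + ratK d θ₁) ^ 2 * Real.exp (2 * |H o|))⁻¹ ≤
      1 - mean G θ D (fun v => Real.tanh (H v)) o ^ 2 := by
  set g := fun v => Real.tanh (H v) with hgdef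
  have hg : Fld g := Fld.tanh H
  set a := Real.tanh (H o)
  set g₀ := update g o 0
  have h0 : Fld g₀ := hg.update o (by simp)
  set m := mean G θ D g₀ o with hm
  have hV := var_free hd hd3 hθ hle hθ₁ ho h0 (by simp [g₀])
  rw [← hm] at hV
  have hm1 : |m| ≤ 1 := abs_mean_le hθ _ h0 o
  have ha := abs_tanh_lt_one' (H o)
  have hval : mean G θ D g o = (m + a) / (1 + a * m) := by
    have hsq : avg G θ D g₀ (fun s => s o * s o) = 1 := by
      have := cv_self (G := G) hθ D h0 o
      unfold cv at this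
      linarith [sq (mean G θ D g₀ o)]
    conv_lhs => rw [show g = update g o a from (update_eq_self o g).symm]; unfold mean
    rw [avg_update hθ ho hg, hsq, mul_one]
    rfl
  have hden : 0 < 1 + a * m := one_add_mul_pos ha hm1
  have hden2 : (1 + a * m) ^ 2 ≤ 4 := by
    have : |a * m| ≤ 1 := by
      rw [abs_mul]; exact mul_le_one₀ ha.le (abs_nonneg _) hm1
    nlinarith [(abs_le.1 this).1, (abs_le.1 this).2]
  have e1 : 1 - mean G θ D g o ^ 2 = (1 - a ^ 2) * (1 - m ^ 2) / (1 + a * m) ^ 2 := by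
    rw [hval, div_pow, one_sub_div (pow_pos hden 2).ne']
    congr 1
    ring
  have e2 : 1 - a ^ 2 = (Real.cosh (H o) ^ 2)⁻¹ := by
    simp only [a]
    rw [Real.tanh_eq_sinh_div_cosh]
    have := (Real.cosh_pos (H o)).ne'
    field_simp
    linarith [Real.cosh_sq_sub_sinh_sq (H o)]
  have e3 : Real.cosh (H o) ^ 2 ≤ Real.exp (2 * |H o|) := by
    rw [show (2 : ℝ) * |H o| = (2 : ℕ) * |H o| by norm_num, Real.exp_nat_mul]
    refine pow_le_pow_left₀ (Real.cosh_pos _).le ?_ 2
    rw [← Real.cosh_abs, Real.cosh_eq]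
    have : Real.exp (-|H o|) ≤ Real.exp |H o| :=
      Real.exp_le_exp.2 (by linarith [abs_nonneg (H o)])
    linarith
  have hK0 : 0 < 1 + ratK d θ₁ := by linarith [one_le_ratK (d := d) (hθ.1.trans hle) hθ₁]
  rw [e1, e2, le_div_iff₀ (pow_pos hden 2)]
  calc ((1 + ratK d θ₁) ^ 2 * Real.exp (2 * |H o|))⁻¹ * (1 + a * m) ^ 2
      ≤ ((1 + ratK d θ₁) ^ 2 * Real.exp (2 * |H o|))⁻¹ * 4 :=
        mul_le_mul_of_nonneg_left hden2 (by positivity)
    _ = (Real.exp (2 * |H o|))⁻¹ * (4 / (1 + ratK d θ₁) ^ 2) := by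
        rw [mul_inv]; ring
    _ ≤ _ := by
        refine mul_le_mul (inv_anti₀ (pow_pos (Real.cosh_pos _) 2) e3) hV (by positivity) ?_
        positivity

/-! ### The second moment of the field -/

/-- The bound on the second moment of the field up to time `T`. -/
def fieldB (d : ℕ) (η : ℝ) (T : ℝ) : ℝ := (T * kap d η) ^ 2 + T * kap d η

lemma field_moment (hd : Regular G d) (hd3 : 3 ≤ d) (P : Prm) (hη : 0 ≤ P.η) (D : Finset V)
    (o : V) (i : ℕ) {T : ℝ} (hi : (i : ℝ) * P.h ≤ T) (S : Cfg D) :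
    Integrable (fun ξ => fieldH G P D (tot G D (Gen.plant (feat G P.η P.N₁ D) P.h S ξ)) i o ^ 2)
        (Gen.nl (ι := obsIx G D) P.h i) ∧
      ∫ ξ, fieldH G P D (tot G D (Gen.plant (feat G P.η P.N₁ D) P.h S ξ)) i o ^ 2
          ∂(Gen.nl (ι := obsIx G D) P.h i) ≤ fieldB d P.η T := by
  set a : Fin i × obsIx G D → ℝ := fun p => coef P.η P.N₁ p.1 p.2.1 * mult p.2.1 o
  set m := ∑ p : Fin i × obsIx G D, a p * (P.h * feat G P.η P.N₁ D p.1 p.2 S)
  set L : Gen.Noi i (obsIx G D) → ℝ := fun ξ => ∑ p, a p * ξ p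
  have e : ∀ ξ : Gen.Noi i (obsIx G D),
      fieldH G P D (tot G D (Gen.plant (feat G P.η P.N₁ D) P.h S ξ)) i o = m + L ξ := by
    intro ξ
    simp only [fieldH, m, L, ← Finset.sum_add_distrib, Fintype.sum_prod_type]
    rw [Finset.sum_range]
    refine Finset.sum_congr rfl fun k _ => ?_
    rw [← Finset.sum_coe_sort (obsIx G D)]
    refine Finset.sum_congr rfl fun l _ => ?_
    simp only [a, tot, dif_pos l.2, Gen.plant, dif_pos k.2]
    ring
  have hκ : 0 ≤ kap d P.η := by unfold kap; positivity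
  have hker : ∀ k, ∑ l ∈ obsIx G D, 2 * (coef P.η P.N₁ k l ^ 2 * mult l o) ≤ kap d P.η := by
    intro k
    refine le_of_eq_of_le ?_ (sum_qker_le (G := G) (D := D) hd hd3 hη k o)
    simp only [qker]
    rw [Finset.sum_comm]
    refine Finset.sum_congr rfl fun l hl => ?_
    rw [mem_obsIx] at hl
    have := sum_mult hl.1.1 hl.1.2 (fun _ => (1:ℝ))
    simp only [mul_one] at this
    rw [← Finset.mul_sum, this]
    ring
  have hmult : ∀ l : V × V, mult l o ≤ 2 := fun l => by unfold mult; split_ifs <;> norm_num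
  have hm : |m| ≤ T * kap d P.η := by
    refine (Finset.abs_sum_le_sum_abs _ _).trans ?_
    calc ∑ p : Fin i × obsIx G D, |a p * (P.h * feat G P.η P.N₁ D p.1 p.2 S)|
        ≤ ∑ p : Fin i × obsIx G D,
            P.h * (2 * (coef P.η P.N₁ p.1 p.2.1 ^ 2 * mult p.2.1 o)) := by
          refine Finset.sum_le_sum fun p _ => ?_
          simp only [a, feat]
          rw [abs_mul, abs_mul, abs_mul, abs_mul, abs_of_nonneg P.h.coe_nonneg,
            abs_of_nonneg (mult_nonneg _ _), ← sq_abs (coef _ _ _ _)]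
          have : |spin S.1 p.2.1.1 + spin S.1 p.2.1.2| ≤ 2 :=
            (abs_add_le _ _).trans (by rw [abs_spin, abs_spin]; norm_num)
          refine le_trans (mul_le_mul_of_nonneg_left (mul_le_mul_of_nonneg_left
            (mul_le_mul_of_nonneg_left this (abs_nonneg _)) P.h.coe_nonneg)
            (mul_nonneg (abs_nonneg _) (mult_nonneg _ _))) (le_of_eq (by ring))
      _ = P.h * ∑ k : Fin i, ∑ l ∈ obsIx G D, 2 * (coef P.η P.N₁ k l ^ 2 * mult l o) := by
          rw [Fintype.sum_prod_type, Finset.mul_sum]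
          refine Finset.sum_congr rfl fun k _ => ?_
          rw [Finset.mul_sum, ← Finset.sum_coe_sort (obsIx G D)]
      _ ≤ P.h * ∑ _k : Fin i, kap d P.η :=
          mul_le_mul_of_nonneg_left (Finset.sum_le_sum fun k _ => hker k) P.h.coe_nonneg
      _ = (i * P.h) * kap d P.η := by simp; ring
      _ ≤ _ := mul_le_mul_of_nonneg_right hi hκ
  have ha : P.h * ∑ p : Fin i × obsIx G D, a p ^ 2 ≤ T * kap d P.η := by
    refine le_trans (mul_le_mul_of_nonneg_left ?_ P.h.coe_nonneg)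
      (le_of_eq_of_le (show P.h * (∑ _k : Fin i, kap d P.η) = (i * P.h) * kap d P.η by simp; ring)
        (mul_le_mul_of_nonneg_right hi hκ))
    rw [Fintype.sum_prod_type]
    refine Finset.sum_le_sum fun k _ => le_trans ?_ (hker k)
    rw [← Finset.sum_coe_sort (obsIx G D)]
    refine Finset.sum_le_sum fun l _ => ?_
    simp only [a]
    rw [mul_pow, sq (mult _ _)]
    refine le_of_le_of_eq (mul_le_mul_of_nonneg_left
      (mul_le_mul_of_nonneg_right (hmult l.1) (mult_nonneg _ _)) (sq_nonneg _)) ?_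
    ring
  obtain ⟨g1, g2, g3, g4⟩ : Integrable L (Gen.nl (ι := obsIx G D) P.h i) ∧
      Integrable (fun ξ => L ξ ^ 2) (Gen.nl (ι := obsIx G D) P.h i) ∧
      ∫ ξ, L ξ ∂(Gen.nl (ι := obsIx G D) P.h i) = 0 ∧
      ∫ ξ, L ξ ^ 2 ∂(Gen.nl (ι := obsIx G D) P.h i) = P.h * ∑ p, a p ^ 2 :=
    gauss_lin P.h a
  have : IsProbabilityMeasure (Gen.nl (ι := obsIx G D) P.h i) := by
    unfold Gen.nl; infer_instance
  simp only [e]
  have eq2 : (fun ξ => (m + L ξ) ^ 2) = fun ξ => (m ^ 2 + 2 * m * L ξ) + L ξ ^ 2 :=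
    funext fun ξ => by ring
  have j1 : Integrable (fun ξ => m ^ 2 + 2 * m * L ξ) (Gen.nl (ι := obsIx G D) P.h i) :=
    (integrable_const _).add (g1.const_mul _)
  rw [eq2]
  refine ⟨j1.add g2, ?_⟩
  rw [integral_add j1 g2, integral_add (integrable_const _) (g1.const_mul _), integral_const_mul,
    g3, g4]
  simp only [mul_zero, add_zero, integral_const, probReal_univ, one_smul]
  refine add_le_add ?_ ha
  rw [← sq_abs]
  exact pow_le_pow_left₀ (abs_nonneg _) hm 2

lemma E_field_tail (hd : Regular G d) (hd3 : 3 ≤ d) (P : Prm) (hη : 0 ≤ P.η) (D : Finset V)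
    (o : V) (i : ℕ) {T Hm : ℝ} (hi : (i : ℝ) * P.h ≤ T) (hH : 0 < Hm) :
    E G P D i (fun _ Y => if Hm < |fieldH G P D Y i o| then 1 else 0) ≤
      fieldB d P.η T / Hm ^ 2 := by
  have key : ∀ S : Cfg D, ∫ ξ, (if Hm < |fieldH G P D
      (tot G D (Gen.plant (feat G P.η P.N₁ D) P.h S ξ)) i o| then (1:ℝ) else 0)
        ∂(Gen.nl (ι := obsIx G D) P.h i) ≤ fieldB d P.η T / Hm ^ 2 := by
    intro S
    obtain ⟨h1, h2⟩ := field_moment hd hd3 P hη D o i hi S
    refine le_trans (integral_mono_of_nonneg (ae_of_all _ fun ξ => by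
      simp only [Pi.zero_apply]; positivity) (h1.div_const (Hm ^ 2)) (ae_of_all _ fun ξ => ?_))
      (le_of_eq_of_le (integral_div _ _) (div_le_div_of_nonneg_right h2 (by positivity)))
    simp only
    split_ifs with h
    · rw [one_le_div (by positivity), ← sq_abs (fieldH _ _ _ _ _ _)]
      exact pow_le_pow_left₀ hH.le h.le 2
    · positivity
  calc _ ≤ ∑ S : Cfg D, Gen.post (lpw G P.θ D) S * (fieldB d P.η T / Hm ^ 2) :=
        Finset.sum_le_sum fun S _ => mul_le_mul_of_nonneg_left (key S) (post_nonneg _ _)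
    _ = _ := by rw [← Finset.sum_mul, sum_post_cfg, one_mul]

/-! ### Squared regression sums -/

/-- The bound on squared regression sums. -/
def sB (d : ℕ) (θ : ℝ) : ℝ := d / (1 - ((d : ℝ) - 1) * θ ^ 2)

/-- The tail of the squared regression sums. -/
def tauB (d : ℕ) (θ : ℝ) (n : ℕ) : ℝ :=
  d * (((d : ℝ) - 1) * θ ^ 2) ^ n / (1 - ((d : ℝ) - 1) * θ ^ 2)

variable {P : Prm} (hT : TreeStmt) (hG : G.IsTree) (hd : Regular G d) (hR : Reg d P)
  (hθ2 : ((d : ℝ) - 1) * P.θ ^ 2 < 1)
include hT hG hd hR hθ2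

lemma reg_sq_sum {D : Finset V} (hD : Closed G D) (Y : ℕ → V × V → ℝ) (j : ℕ) {c : V}
    (hc : c ∈ D) (n : ℕ) :
    ∑ x ∈ D.filter (fun x => n ≤ G.dist c x),
      reg G (thetaJ P j) D (tilt G P D Y j) c x ^ 2 ≤ tauB d P.θ n := by
  have h := (hT V G d (thetaJ P j) D (tilt G P D Y j) hG hR.deg hd (hR.par j).2.2.2 hD
    (Fld.tanh _)).2.1
  refine (Finset.sum_le_sum fun x hx => ?_).trans
    (sum_pow_dist_le hG hd hR.deg c _ (sq_nonneg P.θ) hθ2 n fun u hu => (Finset.mem_filter.1 hu).2)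
  obtain ⟨-, h0, -, h1⟩ := h c hc x (Finset.mem_filter.1 hx).1
  rw [← pow_mul, mul_comm, pow_mul]
  exact pow_le_pow_left₀ h0 (h1.trans (pow_le_pow_left₀ (hR.par j).1 (hR.par j).2.1 _)) 2

lemma sqSJ_le {D : Finset V} (hD : Closed G D) (Y : ℕ → V × V → ℝ) (j : ℕ) {c : V} (hc : c ∈ D) :
    sqSJ G P D Y j c ≤ sB d P.θ := by
  have := reg_sq_sum hT hG hd hR hθ2 hD Y j hc 0
  simpa [tauB, sB, sqSJ, sqS, Finset.filter_true_of_mem] using this

lemma abs_sqSJ_change {A B K : Finset V} {o c : V} {r n₃ : ℕ} (geo : Geo G A B K o c r n₃)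
    (Y : ℕ → V × V → ℝ) (j : ℕ) {Hm : ℝ} :
    |sqSJ G P B Y j o - sqSJ G P A Y j o| ≤
      4 * K.card * ((1 + ratK d P.θ) ^ 2 * Real.exp (2 * Hm)) * dP G P A B K Y j +
        2 * tauB d P.θ n₃ + sB d P.θ * (if Hm < |fieldH G P B Y j o| then 1 else 0) := by
  have hoK := geo.ho
  have hoA : o ∈ A := geo.KA hoK
  have hoB : o ∈ B := geo.hAB hoA
  have hdp := dP_nonneg (G := G) (P := P) A B K Y j
  have hτ : 0 ≤ tauB d P.θ n₃ := div_nonneg (mul_nonneg (Nat.cast_nonneg d) (pow_nonneg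
    (mul_nonneg (by have : (3:ℝ) ≤ d := by exact_mod_cast hR.deg
                    linarith) (sq_nonneg _)) _)) (by linarith)
  split_ifs with hH
  · have h1 := sqSJ_le hT hG hd hR hθ2 geo.hB Y j hoB
    have h2 := sqSJ_le hT hG hd hR hθ2 geo.hA Y j hoA
    have h3 := (sqSJ_bounds hT hG hd hR geo.hB Y j hoB).1
    have h4 := (sqSJ_bounds hT hG hd hR geo.hA Y j hoA).1
    have : 0 ≤ 4 * (K.card : ℝ) * ((1 + ratK d P.θ) ^ 2 * Real.exp (2 * Hm)) * dP G P A B K Y j := by
      positivity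
    rw [abs_le]
    constructor <;> linarith
  · rw [not_lt] at hH
    set Λ := (1 + ratK d P.θ) ^ 2 * Real.exp (2 * Hm)
    set θj := thetaJ P j
    set gB := tilt G P B Y j
    set gA := tilt G P A Y j
    set VB := 1 - mean G θj B gB o ^ 2
    set VA := 1 - mean G θj A gA o ^ 2
    have hΛ : 0 < Λ := by
      have := one_le_ratK (d := d) hR.nonneg hR.lt_one
      positivity
    have hVB : Λ⁻¹ ≤ VB := by
      refine le_trans (inv_anti₀ ?_ ?_) (var_lower hd hR.deg (hR.par j).2.2.2 (hR.par j).2.1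
        hR.lt_one hoB (fieldH G P B Y j))
      · have := one_le_ratK (d := d) hR.nonneg hR.lt_one
        positivity
      · exact mul_le_mul_of_nonneg_left (Real.exp_le_exp.2 (by linarith)) (sq_nonneg _)
    have hVB0 : 0 < VB := lt_of_lt_of_le (inv_pos.2 hΛ) hVB
    have hfA := hT V G d θj A gA hG hR.deg hd (hR.par j).2.2.2 geo.hA (Fld.tanh _)
    have hfB := hT V G d θj B gB hG hR.deg hd (hR.par j).2.2.2 geo.hB (Fld.tanh _)
    have hsplit : ∀ E : Finset V, K ⊆ E → ∀ f : V → ℝ, ∑ x ∈ E, f x =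
        ∑ x ∈ K, f x + ∑ x ∈ E.filter (fun x => n₃ + 1 ≤ G.dist o x), f x := fun E hKE f => by
      rw [← Finset.sum_filter_add_sum_filter_not E (fun x => G.dist o x ≤ n₃)]
      congr 1
      · refine Finset.sum_congr ?_ fun _ _ => rfl
        ext x
        rw [Finset.mem_filter, geo.hK]
        exact ⟨fun h => h.2, fun h => ⟨hKE ((geo.hK x).2 h), h⟩⟩
      · refine Finset.sum_congr (Finset.filter_congr fun x _ => ?_) fun _ _ => rfl
        rw [not_le]; rfl
    have htail : ∀ E : Finset V, Closed G E → o ∈ E → 0 ≤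
        ∑ x ∈ E.filter (fun x => n₃ + 1 ≤ G.dist o x), reg G θj E (tilt G P E Y j) o x ^ 2 ∧
        ∑ x ∈ E.filter (fun x => n₃ + 1 ≤ G.dist o x), reg G θj E (tilt G P E Y j) o x ^ 2 ≤
          tauB d P.θ n₃ := fun E hE hoE => by
      refine ⟨Finset.sum_nonneg fun _ _ => sq_nonneg _, le_trans ?_
        (reg_sq_sum hT hG hd hR hθ2 hE Y j hoE n₃)⟩
      refine Finset.sum_le_sum_of_subset_of_nonneg (fun x hx => ?_) fun _ _ _ => sq_nonneg _
      rw [Finset.mem_filter] at hx ⊢
      exact ⟨hx.1, by omega⟩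
    have hterm : ∀ x ∈ K, |reg G θj B gB o x ^ 2 - reg G θj A gA o x ^ 2| ≤
        4 * Λ * dP G P A B K Y j := by
      intro x hx
      obtain ⟨-, b0, -, b1⟩ := hfB.2.1 o hoB x (geo.hAB (geo.KA hx))
      obtain ⟨-, a0, -, a1⟩ := hfA.2.1 o hoA x (geo.KA hx)
      have hp : θj ^ G.dist o x ≤ 1 := pow_le_one₀ (hR.par j).1 (hR.par j).2.2.2.2.le
      have hC := (abs_pcov_sub (G := G) hR A B Y j o x).trans (single_le_dP Y j hoK hx)
      have hV : |VB - VA| ≤ dP G P A B K Y j := by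
        have := (abs_pcov_sub (G := G) hR A B Y j o o).trans (single_le_dP Y j hoK hoK)
        unfold pcov at this
        rwa [cv_self (G := G) (g := gB) (hR.par j).2.2.2 B (Fld.tanh _),
          cv_self (G := G) (g := gA) (hR.par j).2.2.2 A (Fld.tanh _)] at this
      have hVA : 0 < VA := hfA.1 o hoA
      have he : reg G θj B gB o x - reg G θj A gA o x =
          ((pcov G P B Y j o x - pcov G P A Y j o x) - reg G θj A gA o x * (VB - VA)) / VB := by
        change cv G θj B gB o x / VB - cv G θj A gA o x / VA =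
          ((cv G θj B gB o x - cv G θj A gA o x) - cv G θj A gA o x / VA * (VB - VA)) / VB
        field_simp
        ring
      have hd1 : |reg G θj B gB o x - reg G θj A gA o x| ≤ 2 * Λ * dP G P A B K Y j := by
        rw [he, abs_div, abs_of_pos hVB0, div_le_iff₀ hVB0]
        refine (abs_sub _ _).trans ?_
        rw [abs_mul, abs_of_nonneg a0]
        have h2 : (1 : ℝ) ≤ Λ * VB := by
          rw [inv_eq_one_div, div_le_iff₀ hΛ] at hVB; linarith
        have h3 : reg G θj A gA o x * |VB - VA| ≤ dP G P A B K Y j :=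
          (mul_le_of_le_one_left (abs_nonneg _) (a1.trans hp)).trans hV
        nlinarith [mul_le_mul_of_nonneg_left h2 (mul_nonneg two_pos.le hdp)]
      rw [sq_sub_sq, abs_mul, abs_of_nonneg (add_nonneg b0 a0)]
      calc _ ≤ 2 * (2 * Λ * dP G P A B K Y j) :=
            mul_le_mul (by linarith) hd1 (abs_nonneg _) (by norm_num)
        _ = _ := by ring
    rw [mul_zero, add_zero]
    unfold sqSJ sqS
    rw [hsplit B (geo.KA.trans geo.hAB), hsplit A geo.KA]
    obtain ⟨tB0, tB⟩ := htail B geo.hB hoB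
    obtain ⟨tA0, tA⟩ := htail A geo.hA hoA
    have hK' : |∑ x ∈ K, reg G θj B gB o x ^ 2 - ∑ x ∈ K, reg G θj A gA o x ^ 2| ≤
        4 * K.card * Λ * dP G P A B K Y j := by
      rw [← Finset.sum_sub_distrib]
      refine (Finset.abs_sum_le_sum_abs _ _).trans ((Finset.sum_le_card_nsmul _ _ _ hterm).trans
        (le_of_eq ?_))
      rw [nsmul_eq_mul]; ring
    rw [abs_le] at hK' ⊢
    constructor <;> linarith [hK'.1, hK'.2]

end

end Vale.Agent.P161.Edge.Sym
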